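import Crest.Agent.R51.AddMax

-- ▼ part R51/AddComp
section

/-! Row 51, section B9, 9.1 (Comp) and 9.3 (Comp'). -/

set_option autoImplicit false

namespace Crest.Agent.R51.Add

/-! small facts on `Fin 3` (before classical instances are opened) -/

lemma fin3_third : ∀ a b : Fin 3, a ≠ b → ∃ c : Fin 3, a ≠ c ∧ b ≠ c := by decide

lemma fin3_eq_c (a b c i : Fin 3) (hab : a ≠ b) (hac : a ≠ c) (hbc : b ≠ c) (hia : i ≠ a)
    (hib : i ≠ b) : i = c := by
  have h1 := a.isLt
  have h2 := b.isLt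
  have h3 := c.isLt
  have h4 := i.isLt
  rw [Ne, Fin.ext_iff] at *
  omega

lemma fin3_card : (Finset.univ.filter fun p : Fin 3 × Fin 3 => p.1 ≠ p.2).card = 6 := by decide

open Finset Classical

lemma gg_monoR {R : Type*} [Fintype R] {α : R → ℝ} {w : R → ℕ} {v : R} {r s : ℝ} (h : r ≤ s) :
    (gg α w v r : ℝ) ≤ gg α w v s := by exact_mod_cast gg_mono (α := α) (w := w) (v := v) h

lemma one_le_ggR {R : Type*} [Fintype R] {α : R → ℝ} {w : R → ℕ} {v : R} {r : ℝ} (h : 0 ≤ r) :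
    (1 : ℝ) ≤ gg α w v r := by exact_mod_cast one_le_gg (α := α) (w := w) (v := v) h

/-- Statement of the no-jump lemma 9.2. -/
def JumpLemma : Prop :=
  ∀ C ε c q : ℝ, 1 ≤ C → 0 < ε → ε ≤ 1 → 1 ≤ c → 1 ≤ q → ∃ C' : ℝ, 0 < C' ∧
    ∀ (R : Type) [Fintype R] (V : ℝ) (α : Fin 3 → R → ℝ) (w : Fin 3 → R → ℕ), Setting C V α w →
      ∀ T : ℝ, 0 < T → ∀ i j : Fin 3, i ≠ j →
        (#(univ.filter fun v => Typical ε C V α w v ∧ Jump c q T α w i j v) : ℝ) * T ≤
          C' * Fintype.card R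

section
variable {R : Type*} [Fintype R]

lemma Setting.card_pos {C V : ℝ} {α : Fin 3 → R → ℝ} {w : Fin 3 → R → ℕ} (hS : Setting C V α w) :
    (0 : ℝ) < Fintype.card R := by
  have := hS.nonempty
  exact_mod_cast Fintype.card_pos

/-- third coordinate -/
lemma Setting.abs_third {C V : ℝ} {α : Fin 3 → R → ℝ} {w : Fin 3 → R → ℕ} (hS : Setting C V α w)
    {i j k : Fin 3} (hij : i ≠ j) (hik : i ≠ k) (hjk : j ≠ k) (u v : R) :
    |α k u - α k v| ≤ |α i u - α i v| + |α j u - α j v| := by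
  have h : α k u - α k v = -((α i u - α i v) + (α j u - α j v)) := by
    have h1 := hS.sum0 u
    have h2 := hS.sum0 v
    fin_cases i <;> fin_cases j <;> fin_cases k <;>
      first
        | exact absurd rfl hij
        | exact absurd rfl hik
        | exact absurd rfl hjk
        | (simp only [Fin.mk_zero, Fin.mk_one, Fin.reduceFinMk, Fin.isValue, Fin.zero_eta] at *
           linarith)
  rw [h, abs_neg]
  exact abs_add_le _ _

/-- a set contained in two intervals has few elements -/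
lemma Setting.card_two {C V : ℝ} {α : Fin 3 → R → ℝ} {w : Fin 3 → R → ℕ} (hS : Setting C V α w)
    {i k : Fin 3} (hik : i ≠ k) (X : Finset R) (L M : Finset ℕ) (hL : ∀ v ∈ X, w i v ∈ L)
    (hM : ∀ v ∈ X, w k v ∈ M) :
    (#X : ℝ) * V ^ 2 ≤ (#L * #M) * (C * Fintype.card R) := by
  have hsub : X ⊆ (L ×ˢ M).biUnion fun p => fib (w i) p.1 ∩ fib (w k) p.2 := by
    intro v hv
    refine mem_biUnion.2 ⟨(w i v, w k v), mem_product.2 ⟨hL v hv, hM v hv⟩, ?_⟩
    rw [mem_inter, mem_fib, mem_fib]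
    exact ⟨rfl, rfl⟩
  have h1 : (#X : ℝ) ≤ ∑ p ∈ L ×ˢ M, (#(fib (w i) p.1 ∩ fib (w k) p.2) : ℝ) := by
    exact_mod_cast (card_le_card hsub).trans card_biUnion_le
  have hV : 0 ≤ V ^ 2 := by positivity
  calc (#X : ℝ) * V ^ 2 ≤ (∑ p ∈ L ×ˢ M, (#(fib (w i) p.1 ∩ fib (w k) p.2) : ℝ)) * V ^ 2 :=
        mul_le_mul_of_nonneg_right h1 hV
    _ = ∑ p ∈ L ×ˢ M, (#(fib (w i) p.1 ∩ fib (w k) p.2) : ℝ) * V ^ 2 := by rw [sum_mul]
    _ ≤ ∑ _p ∈ L ×ˢ M, C * (Fintype.card R : ℝ) :=
        sum_le_sum fun p _ => hS.A3 i k hik p.1 p.2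
    _ = (#L * #M) * (C * Fintype.card R) := by
        rw [sum_const, nsmul_eq_mul, card_product]; push_cast; ring

/-- 9.1 (Comp) -/
theorem comp {C V ε : ℝ} {α : Fin 3 → R → ℝ} {w : Fin 3 → R → ℕ} (hS : Setting C V α w)
    (hε : 0 < ε) (hε1 : ε ≤ 1) {v : R} (hv : Typical ε C V α w v) {i j k : Fin 3} (hij : i ≠ j)
    (hik : i ≠ k) (hjk : j ≠ k) {r : ℝ} (hr : 0 ≤ r) (h3 : 3 ≤ gg (α i) (w i) v r) :
    (gg (α j) (w j) v r : ℝ) ≤ 9 * C ^ 3 / ε ^ 3 * gg (α k) (w k) v (2 * r) := by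
  have hC := hS.one_le_C
  have hV := hS.one_le_V
  have hN := hS.card_pos
  have hC1 : 9 ≤ 9 * C ^ 3 / ε ^ 3 := by
    rw [le_div_iff₀ (by positivity)]
    have h1 : ε ^ 3 ≤ 1 := pow_le_one₀ hε.le hε1
    have h2 : 1 ≤ C ^ 3 := one_le_pow₀ hC
    nlinarith
  have hk1 : (1 : ℝ) ≤ gg (α k) (w k) v (2 * r) := one_le_ggR (by linarith : (0:ℝ) ≤ 2 * r)
  by_cases hj : gg (α j) (w j) v r < 3
  · have : (gg (α j) (w j) v r : ℝ) ≤ 2 := by
      have : gg (α j) (w j) v r ≤ 2 := by omega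
      exact_mod_cast this
    nlinarith
  · push Not at hj
    have T1 := hv.1 i j hij r
    have T2 := hv.2 i r h3
    have T3 := hv.2 j r hj
    have T4 := hS.card_two hik (Iv (α i) v r ∩ Iv (α j) v r) ((Iv (α i) v r).image (w i))
      ((Iv (α k) v (2 * r)).image (w k))
      (fun u hu => mem_image_of_mem _ (mem_inter.1 hu).1)
      (fun u hu => by
        refine mem_image_of_mem _ ?_
        rw [mem_inter, mem_Iv, mem_Iv] at hu
        rw [mem_Iv]
        have := hS.abs_third hij hik hjk u v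
        linarith [hu.1, hu.2])
    change _ ≤ ((gg (α i) (w i) v r : ℝ) * (gg (α k) (w k) v (2 * r) : ℝ)) * _ at T4
    set gi : ℝ := (gg (α i) (w i) v r : ℝ) with hgi
    set gj : ℝ := (gg (α j) (w j) v r : ℝ) with hgj
    set gk : ℝ := (gg (α k) (w k) v (2 * r) : ℝ) with hgk
    set N : ℝ := (Fintype.card R : ℝ) with hNdef
    set x : ℝ := (#(Iv (α i) v r) : ℝ) with hx
    set y : ℝ := (#(Iv (α j) v r) : ℝ) with hy
    set z : ℝ := (#(Iv (α i) v r ∩ Iv (α j) v r) : ℝ) with hz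
    have hgi3 : 3 ≤ gi := by rw [hgi]; exact_mod_cast h3
    have hgj3 : 3 ≤ gj := by rw [hgj]; exact_mod_cast hj
    have hx0 : 0 ≤ x := Nat.cast_nonneg _
    have hy0 : 0 ≤ y := Nat.cast_nonneg _
    have hz0 : 0 ≤ z := Nat.cast_nonneg _
    -- multiply
    have e1 : (ε * gi * N) * (ε * gj * N) ≤ (3 * (C * V) * x) * (3 * (C * V) * y) := by
      have ha : 0 ≤ ε * gi * N := by positivity
      have hb : 0 ≤ ε * gj * N := by positivity
      exact mul_le_mul T2 T3 hb (ha.trans T2)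
    have e2 : ε * ((ε * gi * N) * (ε * gj * N)) ≤ 9 * C ^ 2 * V ^ 2 * (z * N) := by
      calc ε * ((ε * gi * N) * (ε * gj * N)) ≤ ε * ((3 * (C * V) * x) * (3 * (C * V) * y)) :=
            mul_le_mul_of_nonneg_left e1 hε.le
        _ = 9 * C ^ 2 * V ^ 2 * (ε * (x * y)) := by ring
        _ ≤ 9 * C ^ 2 * V ^ 2 * (z * N) := mul_le_mul_of_nonneg_left T1 (by positivity)
    have e3 : 9 * C ^ 2 * V ^ 2 * (z * N) ≤ 9 * C ^ 2 * N * ((gi * gk) * (C * N)) := by
      calc 9 * C ^ 2 * V ^ 2 * (z * N) = 9 * C ^ 2 * N * (z * V ^ 2) := by ring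
        _ ≤ 9 * C ^ 2 * N * ((gi * gk) * (C * N)) := mul_le_mul_of_nonneg_left T4 (by positivity)
    have e4 : (gi * N ^ 2) * (ε ^ 3 * gj) ≤ (gi * N ^ 2) * (9 * C ^ 3 * gk) := by
      calc (gi * N ^ 2) * (ε ^ 3 * gj) = ε * ((ε * gi * N) * (ε * gj * N)) := by ring
        _ ≤ _ := e2.trans e3
        _ = _ := by ring
    have e5 : ε ^ 3 * gj ≤ 9 * C ^ 3 * gk := le_of_mul_le_mul_left e4 (by positivity)
    rw [div_mul_eq_mul_div, le_div_iff₀ (by positivity)]
    linarith

/-- 9.3, first half: comparison when two coordinates see three labels. -/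
lemma comp2 {C V ε : ℝ} {α : Fin 3 → R → ℝ} {w : Fin 3 → R → ℕ} (hS : Setting C V α w)
    (hε : 0 < ε) (hε1 : ε ≤ 1) {v : R} (hv : Typical ε C V α w v) {a b : Fin 3} (hab : a ≠ b)
    {r : ℝ} (hr : 0 ≤ r) (ha : 3 ≤ gg (α a) (w a) v r) (hb : 3 ≤ gg (α b) (w b) v r)
    (i j : Fin 3) :
    (gg (α i) (w i) v r : ℝ) ≤ (9 * C ^ 3 / ε ^ 3) ^ 2 * gg (α j) (w j) v (4 * r) := by
  have hC := hS.one_le_C
  set C1 : ℝ := 9 * C ^ 3 / ε ^ 3 with hC1def
  have hC1 : 9 ≤ C1 := by
    rw [hC1def, le_div_iff₀ (by positivity)]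
    have h1 : ε ^ 3 ≤ 1 := pow_le_one₀ hε.le hε1
    have h2 : 1 ≤ C ^ 3 := one_le_pow₀ hC
    nlinarith
  have m4 : ∀ i, (gg (α i) (w i) v (2 * r) : ℝ) ≤ gg (α i) (w i) v (4 * r) := fun i =>
    gg_monoR (by linarith : 2 * r ≤ 4 * r)
  have m2 : ∀ i, gg (α i) (w i) v r ≤ gg (α i) (w i) v (2 * r) := fun i =>
    gg_mono (by linarith : r ≤ 2 * r)
  have m1 : ∀ i, (gg (α i) (w i) v r : ℝ) ≤ gg (α i) (w i) v (4 * r) := fun i =>
    gg_monoR (by linarith : r ≤ 4 * r)
  have pos4 : ∀ i, (0 : ℝ) ≤ gg (α i) (w i) v (4 * r) := fun i => Nat.cast_nonneg _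
  -- third index
  obtain ⟨c, hac, hbc⟩ := fin3_third a b hab
  have step : ∀ {i j k : Fin 3}, i ≠ j → i ≠ k → j ≠ k → 3 ≤ gg (α i) (w i) v r →
      (gg (α j) (w j) v r : ℝ) ≤ C1 ^ 2 * gg (α k) (w k) v (4 * r) := by
    intro i j k hij hik hjk h3
    have h := comp hS hε hε1 hv hij hik hjk hr h3
    have h' := m4 k
    have h'' := pos4 k
    nlinarith
  -- a versus b through c
  have thr : ∀ {a b : Fin 3}, a ≠ b → a ≠ c → b ≠ c → 3 ≤ gg (α b) (w b) v r →
      3 ≤ gg (α a) (w a) v r →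
      (gg (α a) (w a) v r : ℝ) ≤ C1 ^ 2 * gg (α b) (w b) v (4 * r) := by
    intro a b hab hac hbc hb ha
    have h1 := comp hS hε hε1 hv (Ne.symm hab) hbc hac hr hb
    have h2 := comp hS hε hε1 hv hac hab (Ne.symm hbc) (by linarith : 0 ≤ 2 * r)
      (ha.trans (m2 a))
    rw [show 2 * (2 * r) = 4 * r by ring] at h2
    have h3 : C1 * gg (α c) (w c) v (2 * r) ≤ C1 * (C1 * gg (α b) (w b) v (4 * r)) :=
      mul_le_mul_of_nonneg_left h2 (by linarith)
    calc (gg (α a) (w a) v r : ℝ) ≤ _ := h1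
      _ ≤ _ := h3
      _ = _ := by ring
  by_cases hij : i = j
  · subst hij
    have h1 := m1 i
    have h2 := pos4 i
    have h3 : 1 ≤ C1 ^ 2 := one_le_pow₀ (by linarith)
    nlinarith
  · by_cases hi : i = a
    · subst hi
      by_cases hj : j = b
      · subst hj
        exact thr hab hac hbc hb ha
      · have hjc : j = c := fin3_eq_c i b c j hab hac hbc (Ne.symm hij) hj
        subst hjc
        exact step (Ne.symm hab) hbc hac hb
    · by_cases hi' : i = b
      · subst hi'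
        by_cases hj : j = a
        · subst hj
          exact thr (Ne.symm hab) hbc hac ha hb
        · have hjc : j = c := fin3_eq_c a i c j hab hac hbc hj (Ne.symm hij)
          subst hjc
          exact step hab hac hbc ha
      · have hic : i = c := fin3_eq_c a b c i hab hac hbc hi hi'
        subst hic
        by_cases hj : j = a
        · subst hj
          exact step hbc (Ne.symm hab) (Ne.symm hac) hb
        · have hjb : j = b := fin3_eq_c a i b j hac hab (Ne.symm hbc) hj (Ne.symm hij)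
          subst hjb
          exact step hac hab (Ne.symm hbc) ha

/-- number of labels is at least `V / C` -/
lemma Setting.labels_ge {C V : ℝ} {α : Fin 3 → R → ℝ} {w : Fin 3 → R → ℕ} (hS : Setting C V α w)
    (i : Fin 3) : V ≤ C * #(univ.image (w i)) := by
  have hN := hS.card_pos
  have hsub : (univ : Finset R) ⊆ (univ.image (w i)).biUnion fun a => fib (w i) a := by
    intro v _
    exact mem_biUnion.2 ⟨w i v, mem_image_of_mem _ (mem_univ _), mem_fib.2 rfl⟩
  have h1 : (Fintype.card R : ℝ) ≤ ∑ a ∈ univ.image (w i), (#(fib (w i) a) : ℝ) := by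
    exact_mod_cast (card_le_card hsub).trans card_biUnion_le
  have hV : 0 ≤ V := by linarith [hS.one_le_V]
  have h2 : (Fintype.card R : ℝ) * V ≤ (C * #(univ.image (w i))) * Fintype.card R := by
    calc (Fintype.card R : ℝ) * V ≤ (∑ a ∈ univ.image (w i), (#(fib (w i) a) : ℝ)) * V :=
          mul_le_mul_of_nonneg_right h1 hV
      _ = ∑ a ∈ univ.image (w i), (#(fib (w i) a) : ℝ) * V := by rw [sum_mul]
      _ ≤ ∑ _a ∈ univ.image (w i), C * (Fintype.card R : ℝ) := sum_le_sum fun a _ => hS.A2 i a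
      _ = _ := by rw [sum_const, nsmul_eq_mul]; ring
  have h3 : V * Fintype.card R ≤ (C * #(univ.image (w i))) * Fintype.card R := by linarith
  exact le_of_mul_le_mul_right h3 hN

/-- for large radius all labels are met -/
lemma exists_radius (α : Fin 3 → R → ℝ) (w : Fin 3 → R → ℕ) (v : R) :
    ∃ r0 : ℝ, 0 < r0 ∧ ∀ r, r0 ≤ r → ∀ i, gg (α i) (w i) v r = #(univ.image (w i)) := by
  refine ⟨(∑ i, ∑ u, |α i u - α i v|) + 1, ?_, ?_⟩
  · have : 0 ≤ ∑ i, ∑ u, |α i u - α i v| := sum_nonneg fun i _ => sum_nonneg fun u _ => abs_nonneg _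
    linarith
  · intro r hr i
    have : Iv (α i) v r = univ := by
      ext u
      simp only [mem_Iv, mem_univ, iff_true]
      have h1 : |α i u - α i v| ≤ ∑ u, |α i u - α i v| :=
        single_le_sum (f := fun u => |α i u - α i v|) (fun u _ => abs_nonneg _) (mem_univ u)
      have h2 : (∑ u, |α i u - α i v|) ≤ ∑ i, ∑ u, |α i u - α i v| :=
        single_le_sum (f := fun i => ∑ u, |α i u - α i v|)
          (fun i _ => sum_nonneg fun u _ => abs_nonneg _) (mem_univ i)
      linarith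
    rw [gg, this]

/-- 9.3: a typical point which is not a jump point satisfies (Comp'). -/
theorem comp'_of_not_jump {C V ε T : ℝ} {α : Fin 3 → R → ℝ} {w : Fin 3 → R → ℕ}
    (hS : Setting C V α w) (hVC : 3 * C ≤ V)
    (hε : 0 < ε) (hε1 : ε ≤ 1) (hT : 1 ≤ T) {v : R} (hv : Typical ε C V α w v)
    (hj : ∀ a b, a ≠ b → ¬ Jump 2 8 T α w a b v) :
    Comp' ((9 * C ^ 3 / ε ^ 3) ^ 2 * T) α w v := by
  intro i j r hr
  have hC := hS.one_le_C
  set C1 : ℝ := 9 * C ^ 3 / ε ^ 3 with hC1def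
  have hC1 : 9 ≤ C1 := by
    rw [hC1def, le_div_iff₀ (by positivity)]
    have h1 : ε ^ 3 ≤ 1 := pow_le_one₀ hε.le hε1
    have h2 : 1 ≤ C ^ 3 := one_le_pow₀ hC
    nlinarith
  set P : ℝ → Prop := fun ρ => ∃ a b : Fin 3, a ≠ b ∧ 3 ≤ gg (α a) (w a) v ρ ∧
    3 ≤ gg (α b) (w b) v ρ with hP
  have main : ∀ ρ, 0 < ρ → P ρ → ∀ i j, (gg (α i) (w i) v ρ : ℝ) ≤
      C1 ^ 2 * gg (α j) (w j) v (4 * ρ) := by
    rintro ρ hρ ⟨a, b, hab, ha, hb⟩ i j
    exact comp2 hS hε hε1 hv hab hρ.le ha hb i j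
  have hgj1 : (1 : ℝ) ≤ gg (α j) (w j) v (4 * r) := one_le_ggR (by linarith : (0:ℝ) ≤ 4 * r)
  by_cases hPr : P r
  · refine (main r hr hPr i j).trans ?_
    have : C1 ^ 2 * 1 ≤ C1 ^ 2 * T := mul_le_mul_of_nonneg_left hT (by positivity)
    nlinarith
  · -- find the doubling scale
    have hex : ∃ n : ℕ, P (2 ^ n * r) := by
      obtain ⟨r0, hr0, hall⟩ := exists_radius α w v
      obtain ⟨n, hn⟩ := pow_unbounded_of_one_lt (r0 / r) (by norm_num : (1:ℝ) < 2)
      have hge : ∀ i : Fin 3, 3 ≤ gg (α i) (w i) v (2 ^ n * r) := by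
        intro i
        rw [hall _ (by rw [div_lt_iff₀ hr] at hn; exact hn.le)]
        have h3 : (3 : ℝ) ≤ (#(univ.image (w i)) : ℝ) := by
          have h := hS.labels_ge i
          by_contra hcon
          push Not at hcon
          nlinarith
        exact_mod_cast h3
      exact ⟨n, 0, 1, by decide, hge 0, hge 1⟩
    set n := Nat.find hex with hn
    have hPn : P (2 ^ n * r) := Nat.find_spec hex
    have hn0 : n ≠ 0 := by
      intro h0
      rw [h0] at hPn
      simp only [pow_zero, one_mul] at hPn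
      exact hPr hPn
    obtain ⟨m, hm⟩ := Nat.exists_eq_succ_of_ne_zero hn0
    have hPm : ¬ P (2 ^ m * r) := Nat.find_min hex (by omega)
    set ρ : ℝ := 2 ^ m * r with hρdef
    have hρ : 0 < ρ := by positivity
    have hP2 : P (2 * ρ) := by
      have : (2:ℝ) ^ n * r = 2 * ρ := by rw [hm, hρdef, Nat.succ_eq_add_one, pow_succ]; ring
      rw [this] at hPn; exact hPn
    have hrρ : r ≤ ρ := by
      have : (1:ℝ) ≤ 2 ^ m := one_le_pow₀ (by norm_num)
      rw [hρdef]; nlinarith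
    -- two coordinates with at most two labels
    obtain ⟨a, b, hab, ha, hb⟩ : ∃ a b : Fin 3, a ≠ b ∧ gg (α a) (w a) v ρ ≤ 2 ∧
        gg (α b) (w b) v ρ ≤ 2 := by
      by_contra hcon
      push Not at hcon
      apply hPm
      by_cases h0 : 3 ≤ gg (α 0) (w 0) v ρ
      · by_cases h1 : 3 ≤ gg (α 1) (w 1) v ρ
        · exact ⟨0, 1, by decide, h0, h1⟩
        · have := hcon 1 2 (by decide) (by omega)
          exact ⟨0, 2, by decide, h0, by omega⟩
      · have h1 := hcon 0 1 (by decide) (by omega)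
        have h2 := hcon 0 2 (by decide) (by omega)
        exact ⟨1, 2, by decide, by omega, by omega⟩
    have hnj := hj a b hab
    unfold Jump at hnj
    push Not at hnj
    have h8 := hnj (8 * ρ) (by positivity)
    rw [show 8 * ρ / 8 = ρ by ring] at h8
    have ha' : (gg (α a) (w a) v ρ : ℝ) ≤ 2 := by exact_mod_cast ha
    have hb' : (gg (α b) (w b) v ρ : ℝ) ≤ 2 := by exact_mod_cast hb
    have h9 := h8 ha' hb'
    -- one of them is < T at 8ρ
    have hk : ∃ k, (gg (α k) (w k) v (8 * ρ) : ℝ) ≤ T := by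
      by_cases hT' : T ≤ gg (α a) (w a) v (8 * ρ)
      · exact ⟨b, (h9 hT').le⟩
      · push Not at hT'
        exact ⟨a, hT'.le⟩
    obtain ⟨k, hk⟩ := hk
    have h10 := main (2 * ρ) (by positivity) hP2 i k
    rw [show 4 * (2 * ρ) = 8 * ρ by ring] at h10
    have h11 : (gg (α i) (w i) v r : ℝ) ≤ gg (α i) (w i) v (2 * ρ) :=
      gg_monoR (by linarith : r ≤ 2 * ρ)
    have h12 : C1 ^ 2 * (gg (α k) (w k) v (8 * ρ) : ℝ) ≤ C1 ^ 2 * T :=
      mul_le_mul_of_nonneg_left hk (by positivity)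
    have h13 : 0 ≤ C1 ^ 2 * T := by positivity
    nlinarith

end

/-- 9.3: for all but `δ |R|` points: typical and (Comp'). -/
theorem exists_comp' (hJ : JumpLemma) (C : ℝ) (hC : 1 ≤ C) (δ : ℝ) (hδ : 0 < δ) :
    ∃ ε C5 V0 : ℝ, 0 < ε ∧ ε ≤ 1 ∧ 1 ≤ C5 ∧ 1 ≤ V0 ∧
      ∀ (R : Type) [Fintype R] (V : ℝ) (α : Fin 3 → R → ℝ) (w : Fin 3 → R → ℕ), V0 ≤ V →
        Setting C V α w →
        (#(univ.filter fun v => ¬ (Typical ε C V α w v ∧ Comp' C5 α w v)) : ℝ) ≤
          δ * Fintype.card R := by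
  set ε : ℝ := min 1 (δ / 36) with hε
  have hε0 : 0 < ε := lt_min one_pos (by positivity)
  have hε1 : ε ≤ 1 := min_le_left _ _
  have hε2 : ε ≤ δ / 36 := min_le_right _ _
  obtain ⟨C', hC', hjump⟩ := hJ C ε 2 8 hC hε0 hε1 (by norm_num) (by norm_num)
  set T : ℝ := max 1 (12 * C' / δ) with hT
  have hT1 : 1 ≤ T := le_max_left _ _
  have hT2 : 12 * C' / δ ≤ T := le_max_right _ _
  refine ⟨ε, (9 * C ^ 3 / ε ^ 3) ^ 2 * T, max 1 (3 * C), hε0, hε1, ?_, le_max_left _ _, ?_⟩
  · have hC1 : 9 ≤ 9 * C ^ 3 / ε ^ 3 := by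
      rw [le_div_iff₀ (by positivity)]
      have h1 : ε ^ 3 ≤ 1 := pow_le_one₀ hε0.le hε1
      have h2 : 1 ≤ C ^ 3 := one_le_pow₀ hC
      nlinarith
    have h2 : 1 ≤ (9 * C ^ 3 / ε ^ 3) ^ 2 := one_le_pow₀ (by linarith)
    nlinarith
  · intro R _ V α w hV hS
    have hVC : 3 * C ≤ V := (le_max_right _ _).trans hV
    have hN := hS.card_pos
    have hsub : (univ.filter fun v => ¬ (Typical ε C V α w v ∧
        Comp' ((9 * C ^ 3 / ε ^ 3) ^ 2 * T) α w v)) ⊆
        (univ.filter fun v => ¬ Typical ε C V α w v) ∪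
        (univ.filter fun p : Fin 3 × Fin 3 => p.1 ≠ p.2).biUnion fun p =>
          univ.filter fun v => Typical ε C V α w v ∧ Jump 2 8 T α w p.1 p.2 v := by
      intro v hv
      have hv' := (mem_filter.1 hv).2
      by_cases ht : Typical ε C V α w v
      · have hnc : ¬ Comp' ((9 * C ^ 3 / ε ^ 3) ^ 2 * T) α w v := fun h => hv' ⟨ht, h⟩
        have : ∃ a b, a ≠ b ∧ Jump 2 8 T α w a b v := by
          by_contra hcon
          push Not at hcon
          exact hnc (comp'_of_not_jump hS hVC hε0 hε1 hT1 ht hcon)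
        obtain ⟨a, b, hab, hjj⟩ := this
        refine mem_union_right _ (mem_biUnion.2 ⟨(a, b), mem_filter.2 ⟨mem_univ _, hab⟩, ?_⟩)
        exact mem_filter.2 ⟨mem_univ _, ht, hjj⟩
      · exact mem_union_left _ (mem_filter.2 ⟨mem_univ _, ht⟩)
    have h1 := card_not_typical hS hε0
    have h2 : ∀ p : Fin 3 × Fin 3, p.1 ≠ p.2 →
        (#(univ.filter fun v => Typical ε C V α w v ∧ Jump 2 8 T α w p.1 p.2 v) : ℝ) ≤
          δ / 12 * Fintype.card R := by
      intro p hp
      have h := hjump R V α w hS T (by linarith) p.1 p.2 hp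
      have hTpos : 0 < T := by linarith
      have : (#(univ.filter fun v => Typical ε C V α w v ∧ Jump 2 8 T α w p.1 p.2 v) : ℝ) * T ≤
          (δ / 12 * Fintype.card R) * T := by
        refine h.trans ?_
        have h3 : C' ≤ δ / 12 * T := by
          rw [div_le_iff₀ hδ] at hT2
          linarith
        calc C' * (Fintype.card R : ℝ) ≤ (δ / 12 * T) * Fintype.card R :=
              mul_le_mul_of_nonneg_right h3 hN.le
          _ = _ := by ring
      exact le_of_mul_le_mul_right this hTpos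
    have h3 : (#(univ.filter fun v => ¬ (Typical ε C V α w v ∧
        Comp' ((9 * C ^ 3 / ε ^ 3) ^ 2 * T) α w v)) : ℝ) ≤
        #(univ.filter fun v => ¬ Typical ε C V α w v) +
        ∑ p ∈ (univ.filter fun p : Fin 3 × Fin 3 => p.1 ≠ p.2),
          (#(univ.filter fun v => Typical ε C V α w v ∧ Jump 2 8 T α w p.1 p.2 v) : ℝ) := by
      have := (card_le_card hsub).trans ((card_union_le _ _).trans
        (add_le_add le_rfl card_biUnion_le))
      exact_mod_cast this
    have h4 : (∑ p ∈ (univ.filter fun p : Fin 3 × Fin 3 => p.1 ≠ p.2),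
          (#(univ.filter fun v => Typical ε C V α w v ∧ Jump 2 8 T α w p.1 p.2 v) : ℝ)) ≤
          ∑ _p ∈ (univ.filter fun p : Fin 3 × Fin 3 => p.1 ≠ p.2), δ / 12 * (Fintype.card R : ℝ) :=
      sum_le_sum fun p hp => h2 p (mem_filter.1 hp).2
    have hcard : #(univ.filter fun p : Fin 3 × Fin 3 => p.1 ≠ p.2) = 6 := by
      rw [← fin3_card]
    rw [sum_const, hcard] at h4
    have h5 : 18 * ε * Fintype.card R ≤ δ / 2 * (Fintype.card R : ℝ) :=
      mul_le_mul_of_nonneg_right (by linarith) hN.le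
    simp only [nsmul_eq_mul, Nat.cast_ofNat] at h4
    linarith

end Crest.Agent.R51.Add
end

-- ▼ part R51/AddScale
section

set_option autoImplicit false

noncomputable section

open Finset Classical

namespace Crest.Agent.R51.Add

section basic
variable {R : Type*} [Fintype R] {a : R → ℝ} {w : R → ℕ}

lemma gg_near789 {v v' : R} {r δ : ℝ} (h : |a v - a v'| ≤ δ) :
    gg a w v r ≤ gg a w v' (r + δ) := by
  unfold gg
  apply card_le_card
  apply image_subset_image
  intro u hu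
  rw [mem_Iv] at hu ⊢
  calc |a u - a v'| = |(a u - a v) + (a v - a v')| := by ring_nf
    _ ≤ |a u - a v| + |a v - a v'| := abs_add_le _ _
    _ ≤ r + δ := add_le_add hu h

lemma gg_neg789 {v : R} {r : ℝ} (hr : r < 0) : gg a w v r = 0 := by
  unfold gg
  rw [Iv_empty_of_neg hr]
  simp

/-- threshold property : `σ` is the least radius with `t ≤ gg` -/
def Thr (a : R → ℝ) (w : R → ℕ) (t : ℝ) (v : R) (σ : ℝ) : Prop :=
  0 ≤ σ ∧ t ≤ (gg a w v σ : ℝ) ∧ ∀ r : ℝ, r < σ → (gg a w v r : ℝ) < t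

/-- existence of the threshold radius -/
lemma exists_thr (v : R) {t : ℝ} (ht : 0 < t) (htR : t ≤ (#(univ.image w) : ℝ)) :
    ∃ σ : ℝ, Thr a w t v σ := by
  set D : Finset ℝ := (univ.image fun u => |a u - a v|).filter
    fun ρ => t ≤ (gg a w v ρ : ℝ) with hD
  obtain ⟨u0, -, hmax⟩ := Finset.exists_max_image univ (fun u => |a u - a v|) ⟨v, mem_univ v⟩
  have hDne : D.Nonempty := by
    refine ⟨|a u0 - a v|, ?_⟩
    rw [hD, mem_filter]
    refine ⟨mem_image_of_mem _ (mem_univ _), ?_⟩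
    have : Iv a v (|a u0 - a v|) = univ := by
      ext u
      simp only [mem_Iv, mem_univ, iff_true]
      exact hmax u (mem_univ _)
    unfold gg
    rw [this]
    exact htR
  refine ⟨D.min' hDne, ?_, ?_, ?_⟩
  · have h1 := (mem_filter.1 (D.min'_mem hDne)).1
    obtain ⟨u, _, hu⟩ := mem_image.1 h1
    rw [← hu]
    exact abs_nonneg _
  · exact (mem_filter.1 (D.min'_mem hDne)).2
  · intro r hr
    by_contra hcon
    push Not at hcon
    have hr0 : 0 ≤ r := by
      by_contra h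
      push Not at h
      rw [gg_neg789 h] at hcon
      simp at hcon
      linarith
    have hne : (Iv a v r).Nonempty := ⟨v, self_mem_Iv hr0⟩
    obtain ⟨u1, hu1, hmax1⟩ := Finset.exists_max_image _ (fun u => |a u - a v|) hne
    rw [mem_Iv] at hu1
    have heq : Iv a v r = Iv a v (|a u1 - a v|) := by
      ext u
      constructor
      · intro h1
        rw [mem_Iv]
        exact hmax1 u h1
      · intro h1
        rw [mem_Iv] at h1 ⊢
        exact h1.trans hu1
    have hmem : |a u1 - a v| ∈ D := by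
      rw [hD, mem_filter]
      refine ⟨mem_image_of_mem _ (mem_univ _), ?_⟩
      unfold gg at hcon ⊢
      rw [← heq]
      exact hcon
    have := D.min'_le _ hmem
    linarith

/-- another label within `s/2` on the left -/
def Lft (a : R → ℝ) (w : R → ℕ) (v : R) (s : ℝ) : Prop :=
  ∃ p, w p ≠ w v ∧ a p ≤ a v ∧ a v - a p ≤ s / 2

/-- another label within `s/2` on the right -/
def Rgt (a : R → ℝ) (w : R → ℕ) (v : R) (s : ℝ) : Prop :=
  ∃ p, w p ≠ w v ∧ a v ≤ a p ∧ a p - a v ≤ s / 2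

lemma side_of_two {v : R} {s : ℝ} (h : 2 ≤ gg a w v (s / 2)) :
    Lft a w v s ∨ Rgt a w v s := by
  unfold gg at h
  have h1 : 1 < #((Iv a v (s / 2)).image w) := h
  rw [Finset.one_lt_card_iff_nontrivial] at h1
  obtain ⟨b, hb, hbv⟩ := h1.exists_ne (w v)
  obtain ⟨p, hp', rfl⟩ := Finset.mem_image.1 hb
  have hp1 := mem_Iv.1 hp'
  rcases le_total (a p) (a v) with h2 | h2
  · left
    refine ⟨p, hbv, h2, ?_⟩
    rw [abs_le] at hp1
    linarith [hp1.1]
  · right
    refine ⟨p, hbv, h2, ?_⟩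
    rw [abs_le] at hp1
    linarith [hp1.2]

lemma Thr.le_of {t : ℝ} {v : R} {σ r : ℝ} (h : Thr a w t v σ) (hr : t ≤ (gg a w v r : ℝ)) :
    σ ≤ r := by
  by_contra hc
  push Not at hc
  linarith [h.2.2 r hc]

lemma Thr.lip {t : ℝ} {v v' : R} {σ σ' δ : ℝ} (h : Thr a w t v σ) (h' : Thr a w t v' σ')
    (hd : |a v - a v'| ≤ δ) : σ' ≤ σ + δ := by
  apply h'.le_of
  refine h.2.1.trans ?_
  exact_mod_cast gg_near789 hd

lemma Thr.pos (hoc : OrdConv a w) {t : ℝ} (ht : 1 < t) {v : R} {σ : ℝ} (h : Thr a w t v σ) :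
    0 < σ := by
  rcases h.1.eq_or_lt with h0 | h0
  · exfalso
    have := h.2.1
    rw [← h0, gg_zero hoc v] at this
    simp at this
    linarith
  · exact h0

lemma cmp_left (hoc : OrdConv a w) {t : ℝ} {v v' : R} {σ σ' : ℝ}
    (hw : w v = w v') (hvv : a v ≤ a v') (h : Thr a w t v σ) (h' : Thr a w t v' σ')
    (hL : Lft a w v' σ') : σ' ≤ 2 * σ ∧ σ ≤ 2 * σ' := by
  obtain ⟨p, hpw, hp1, hp2⟩ := hL
  have hpv : a p < a v := by
    by_contra hc
    push Not at hc
    exact hpw ((hoc v v' p hw hc hp1).trans hw)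
  have hd : |a v - a v'| ≤ σ' / 2 := by
    rw [abs_le]; constructor <;> linarith
  have hd' : |a v' - a v| ≤ σ' / 2 := by
    rw [abs_sub_comm]; exact hd
  have h1 := h.lip h' hd
  have h2 := h'.lip h hd'
  constructor
  · linarith
  · linarith [h'.1]

lemma cmp_right (hoc : OrdConv a w) {t : ℝ} {v v' : R} {σ σ' : ℝ}
    (hw : w v = w v') (hvv : a v ≤ a v') (h : Thr a w t v σ) (h' : Thr a w t v' σ')
    (hL : Rgt a w v σ) : σ' ≤ 2 * σ ∧ σ ≤ 2 * σ' := by
  obtain ⟨p, hpw, hp1, hp2⟩ := hL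
  have hpv : a v' < a p := by
    by_contra hc
    push Not at hc
    exact hpw (hoc v v' p hw hp1 hc)
  have hd : |a v - a v'| ≤ σ / 2 := by
    rw [abs_le]; constructor <;> linarith
  have hd' : |a v' - a v| ≤ σ / 2 := by
    rw [abs_sub_comm]; exact hd
  have h1 := h.lip h' hd
  have h2 := h'.lip h hd'
  constructor
  · linarith [h.1]
  · linarith

/-- 9.4 : two points of the same label and the same side have comparable thresholds -/
lemma cmp_same (hoc : OrdConv a w) {t : ℝ} {v v' : R} {σ σ' : ℝ}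
    (hw : w v = w v') (h : Thr a w t v σ) (h' : Thr a w t v' σ')
    (h2 : 2 ≤ gg a w v (σ / 2)) (h2' : 2 ≤ gg a w v' (σ' / 2))
    (hty : Lft a w v σ ↔ Lft a w v' σ') : σ' ≤ 2 * σ ∧ σ ≤ 2 * σ' := by
  by_cases hL : Lft a w v σ
  · have hL' := hty.1 hL
    rcases le_total (a v) (a v') with hvv | hvv
    · exact cmp_left hoc hw hvv h h' hL'
    · exact (cmp_left hoc hw.symm hvv h' h hL).symm
  · have hL' : ¬ Lft a w v' σ' := fun hc => hL (hty.2 hc)
    have hR : Rgt a w v σ := (side_of_two h2).resolve_left hL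
    have hR' : Rgt a w v' σ' := (side_of_two h2').resolve_left hL'
    rcases le_total (a v) (a v') with hvv | hvv
    · exact cmp_right hoc hw hvv h h' hR
    · exact (cmp_right hoc hw.symm hvv h' h hR').symm

end basic

/-! ### fibre counting with real bounds -/

lemma card_le_real {α β : Type*} [DecidableEq β] (s : Finset α) (f : α → β) (B : ℝ)
    (h : ∀ b ∈ s.image f, ((s.filter fun x => f x = b).card : ℝ) ≤ B) :
    (s.card : ℝ) ≤ (s.image f).card * B := by
  rw [Finset.card_eq_sum_card_image f s]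
  push_cast
  calc ∑ b ∈ s.image f, ((s.filter fun x => f x = b).card : ℝ)
      ≤ ∑ b ∈ s.image f, B := Finset.sum_le_sum h
    _ = (s.image f).card * B := by rw [Finset.sum_const, nsmul_eq_mul]

lemma card_ge_real {α β : Type*} [DecidableEq β] (s : Finset α) (f : α → β) (A : Finset β) (B : ℝ)
    (h : ∀ b ∈ A, B ≤ ((s.filter fun x => f x = b).card : ℝ)) :
    (A.card : ℝ) * B ≤ (s.card : ℝ) := by
  have h1 : ∑ b ∈ A, (s.filter fun x => f x = b).card ≤ s.card := by
    rw [← Finset.card_biUnion]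
    · apply Finset.card_le_card
      intro x hx
      simp only [mem_biUnion, mem_filter] at hx
      obtain ⟨b, _, hx, _⟩ := hx
      exact hx
    · intro b _ c _ hbc
      rw [Function.onFun, Finset.disjoint_left]
      intro x hx hx'
      simp only [mem_filter] at hx hx'
      exact hbc (hx.2.symm.trans hx'.2)
  calc (A.card : ℝ) * B = ∑ b ∈ A, B := by rw [Finset.sum_const, nsmul_eq_mul]
    _ ≤ ∑ b ∈ A, ((s.filter fun x => f x = b).card : ℝ) := Finset.sum_le_sum h
    _ ≤ s.card := by exact_mod_cast h1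

lemma exists_fiber {α β : Type*} [DecidableEq β] (s : Finset α) (hs : s.Nonempty) (f : α → β) :
    ∃ b ∈ s.image f, (s.card : ℝ) ≤ (s.image f).card * (s.filter fun x => f x = b).card := by
  obtain ⟨b, hb, hmax⟩ := Finset.exists_max_image (s.image f)
    (fun b => ((s.filter fun x => f x = b).card : ℝ)) (hs.image f)
  exact ⟨b, hb, card_le_real s f _ hmax⟩

section setting
variable {R : Type*} [Fintype R] {C V : ℝ} {α : Fin 3 → R → ℝ} {w : Fin 3 → R → ℕ}

lemma Setting.V_pos789 (hS : Setting C V α w) : 0 < V := lt_of_lt_of_le one_pos hS.one_le_V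

lemma Setting.C_pos789 (hS : Setting C V α w) : 0 < C := lt_of_lt_of_le one_pos hS.one_le_C

lemma Setting.fib_le789 (hS : Setting C V α w) (i : Fin 3) (b : ℕ) :
    (#(fib (w i) b) : ℝ) ≤ C * Fintype.card R / V := by
  rw [le_div_iff₀ hS.V_pos789]
  exact hS.A2 i b

/-- number of labels is at least `V / C` -/
lemma Setting.labels_ge789 (hS : Setting C V α w) (i : Fin 3) : V / C ≤ (#(univ.image (w i)) : ℝ) := by
  have h := card_le_real (univ : Finset R) (w i) (C * Fintype.card R / V) (by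
    intro b _
    have := hS.fib_le789 i b
    unfold fib at this
    exact this)
  rw [card_univ] at h
  have hN := hS.card_pos
  have hV := hS.V_pos789
  have hC := hS.C_pos789
  have h2 : (Fintype.card R : ℝ) * V ≤ (#(univ.image (w i)) : ℝ) * (C * Fintype.card R) := by
    calc (Fintype.card R : ℝ) * V ≤ (#(univ.image (w i)) : ℝ) * (C * Fintype.card R / V) * V :=
          mul_le_mul_of_nonneg_right h hV.le
      _ = _ := by field_simp
  rw [div_le_iff₀ hC]
  have h3 : (Fintype.card R : ℝ) * V ≤ Fintype.card R * ((#(univ.image (w i)) : ℝ) * C) := by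
    linarith
  exact le_of_mul_le_mul_left h3 hN

/-- mass of an interval -/
lemma Setting.iv_le789 (hS : Setting C V α w) (i : Fin 3) (v : R) (r : ℝ) :
    (#(Iv (α i) v r) : ℝ) ≤ gg (α i) (w i) v r * (C * Fintype.card R / V) := by
  apply card_le_real
  intro b _
  refine le_trans ?_ (hS.fib_le789 i b)
  have : (Iv (α i) v r).filter (fun x => w i x = b) ⊆ fib (w i) b := by
    intro x hx
    rw [mem_fib]
    exact (mem_filter.1 hx).2
  exact_mod_cast card_le_card this

/-- exceptional points are jump points -/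
lemma exc_jump {C5 t σ : ℝ} (hC5 : 1 ≤ C5) (ht : 1 < t) {v : R} {i j : Fin 3}
    (hoc : OrdConv (α i) (w i))
    (hc : Comp' C5 α w v) (h : Thr (α i) (w i) t v σ) (hg : ¬ 2 ≤ gg (α i) (w i) v (σ / 2)) :
    Jump C5 32 (t / C5) α w i j v := by
  have hσ : 0 < σ := h.pos hoc ht
  have hC5' : 0 < C5 := lt_of_lt_of_le one_pos hC5
  have hg' : (gg (α i) (w i) v (σ / 2) : ℝ) ≤ 1 := by
    have : gg (α i) (w i) v (σ / 2) ≤ 1 := by omega
    exact_mod_cast this
  refine ⟨4 * σ, by linarith, ?_, ?_, ?_, ?_⟩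
  · have h1 : gg (α i) (w i) v (4 * σ / 32) ≤ gg (α i) (w i) v (σ / 2) := gg_mono (by linarith)
    have h2 : (gg (α i) (w i) v (4 * σ / 32) : ℝ) ≤ gg (α i) (w i) v (σ / 2) := by exact_mod_cast h1
    linarith
  · have h1 := hc j i (4 * σ / 32) (by linarith)
    have h3 : 4 * (4 * σ / 32) = σ / 2 := by ring
    rw [h3] at h1
    calc (gg (α j) (w j) v (4 * σ / 32) : ℝ) ≤ C5 * gg (α i) (w i) v (σ / 2) := h1
      _ ≤ C5 * 1 := mul_le_mul_of_nonneg_left hg' hC5'.le
      _ = C5 := mul_one _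
  · have h1 : gg (α i) (w i) v σ ≤ gg (α i) (w i) v (4 * σ) := gg_mono (by linarith)
    have h2 : (gg (α i) (w i) v σ : ℝ) ≤ gg (α i) (w i) v (4 * σ) := by exact_mod_cast h1
    have h3 : t / C5 ≤ t := div_le_self (by linarith) hC5
    linarith [h.2.1]
  · have h1 := hc i j σ hσ
    rw [div_le_iff₀ hC5']
    linarith [h.2.1]

/-- fixed-scale regularity -/
lemma Setting.reg (hS : Setting C V α w) (i : Fin 3) (S : Finset R) {r D : ℝ} (hr : 0 < r)
    (hD : 0 ≤ D)
    (h4 : ∀ v ∈ S, 4 ≤ gg (α i) (w i) v (2048 * r))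
    (hbad : ∀ v ∈ S, D * gg (α i) (w i) v r ≤ gg (α i) (w i) v (2048 * r)) :
    (#S : ℝ) * D ≤ 8194 * C ^ 2 * Fintype.card R := by
  obtain ⟨P, hPc, hP⟩ := exists_reps (α i) (w i) (hS.conv i)
  set κ : R → ℤ := fun v => ⌊α i v / r⌋ with hκ
  have hch : ∀ k ∈ S.image κ, ∃ v ∈ S, κ v = k := by
    intro k hk
    obtain ⟨v, hv, hvk⟩ := mem_image.1 hk
    exact ⟨v, hv, hvk⟩
  have := hS.nonempty
  choose! pt hpt hptk using hch
  have hN := hS.card_pos
  have hV := hS.V_pos789
  have hC := hS.C_pos789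
  set N : ℝ := (Fintype.card R : ℝ) with hNdef
  -- mass of one cell
  have hcell : ∀ k ∈ S.image κ, (#(S.filter fun x => κ x = k) : ℝ) * D ≤
      2 * (#(P ∩ Iv (α i) (pt k) (2048 * r)) : ℝ) * (C * N / V) := by
    intro k hk
    have hsub : (S.filter fun x => κ x = k) ⊆ Iv (α i) (pt k) r := by
      intro x hx
      have hx2 := (mem_filter.1 hx).2
      have hk2 := hptk k hk
      rw [mem_Iv]
      simp only [hκ] at hx2 hk2
      have h1 : ⌊α i x / r⌋ = ⌊α i (pt k) / r⌋ := hx2.trans hk2.symm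
      have h2 := Int.abs_sub_lt_one_of_floor_eq_floor h1
      rw [← sub_div, abs_div, abs_of_pos hr, div_lt_one hr] at h2
      exact h2.le
    have h1 : (#(S.filter fun x => κ x = k) : ℝ) ≤ #(Iv (α i) (pt k) r) := by
      exact_mod_cast card_le_card hsub
    have h2 := hS.iv_le789 i (pt k) r
    have h3 := hbad (pt k) (hpt k hk)
    have h5 := h4 (pt k) (hpt k hk)
    have h6 := hP (pt k) (2048 * r)
    have h7 : gg (α i) (w i) (pt k) (2048 * r) ≤ 2 * #(P ∩ Iv (α i) (pt k) (2048 * r)) := by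
      omega
    have h8 : (gg (α i) (w i) (pt k) (2048 * r) : ℝ) ≤
        2 * #(P ∩ Iv (α i) (pt k) (2048 * r)) := by exact_mod_cast h7
    have h9 : 0 ≤ C * N / V := by positivity
    calc (#(S.filter fun x => κ x = k) : ℝ) * D
        ≤ (gg (α i) (w i) (pt k) r * (C * N / V)) * D :=
          mul_le_mul_of_nonneg_right (h1.trans h2) hD
      _ = (D * gg (α i) (w i) (pt k) r) * (C * N / V) := by ring
      _ ≤ (2 * #(P ∩ Iv (α i) (pt k) (2048 * r))) * (C * N / V) :=
          mul_le_mul_of_nonneg_right (h3.trans h8) h9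
  -- total number of representatives
  have hrep : ∑ k ∈ S.image κ, #(P ∩ Iv (α i) (pt k) (2048 * r)) ≤ #P * 4097 := by
    have h1 : ∀ k, #(P ∩ Iv (α i) (pt k) (2048 * r)) =
        ∑ p ∈ P, if |α i p - α i (pt k)| ≤ 2048 * r then 1 else 0 := by
      intro k
      rw [← Finset.card_filter]
      congr 1
      ext p
      simp only [mem_inter, mem_Iv, mem_filter]
    simp_rw [h1]
    rw [Finset.sum_comm]
    have h2 : ∀ p ∈ P, (∑ k ∈ S.image κ, if |α i p - α i (pt k)| ≤ 2048 * r then 1 else 0) ≤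
        4097 := by
      intro p _
      rw [← Finset.card_filter]
      have hsub : ((S.image κ).filter fun k => |α i p - α i (pt k)| ≤ 2048 * r) ⊆
          Finset.Icc (⌊α i p / r⌋ - 2048) (⌊α i p / r⌋ + 2048) := by
        intro k hk
        obtain ⟨hk1, hk2⟩ := mem_filter.1 hk
        have hk3 := hptk k hk1
        simp only [hκ] at hk3
        rw [abs_le] at hk2
        rw [mem_Icc, ← hk3]
        constructor
        · have : ⌊α i p / r⌋ - 2048 = ⌊α i p / r - 2048⌋ := by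
            rw [show (2048 : ℝ) = ((2048 : ℤ) : ℝ) by norm_num, Int.floor_sub_intCast]
          rw [this]
          apply Int.floor_mono
          rw [le_div_iff₀ hr, sub_mul, div_mul_cancel₀ _ hr.ne']
          linarith [hk2.2]
        · have : ⌊α i p / r⌋ + 2048 = ⌊α i p / r + 2048⌋ := by
            rw [show (2048 : ℝ) = ((2048 : ℤ) : ℝ) by norm_num, Int.floor_add_intCast]
          rw [this]
          apply Int.floor_mono
          rw [div_le_iff₀ hr, add_mul, div_mul_cancel₀ _ hr.ne']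
          linarith [hk2.1]
      refine (card_le_card hsub).trans ?_
      rw [Int.card_Icc]
      omega
    calc (∑ p ∈ P, ∑ k ∈ S.image κ, if |α i p - α i (pt k)| ≤ 2048 * r then 1 else 0)
        ≤ ∑ p ∈ P, 4097 := Finset.sum_le_sum h2
      _ = #P * 4097 := by rw [Finset.sum_const, smul_eq_mul]
  have hPle : (#P : ℝ) ≤ C * V := by
    rw [hPc]
    exact hS.A1 i
  have h9 : 0 ≤ C * N / V := by positivity
  calc (#S : ℝ) * D = (∑ k ∈ S.image κ, (#(S.filter fun x => κ x = k) : ℝ)) * D := by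
        rw [Finset.card_eq_sum_card_image κ S]
        push_cast
        rfl
    _ = ∑ k ∈ S.image κ, (#(S.filter fun x => κ x = k) : ℝ) * D := by rw [Finset.sum_mul]
    _ ≤ ∑ k ∈ S.image κ, 2 * (#(P ∩ Iv (α i) (pt k) (2048 * r)) : ℝ) * (C * N / V) :=
        Finset.sum_le_sum hcell
    _ = 2 * (∑ k ∈ S.image κ, (#(P ∩ Iv (α i) (pt k) (2048 * r)) : ℝ)) * (C * N / V) := by
        rw [Finset.mul_sum, Finset.sum_mul]
    _ ≤ 2 * ((#P : ℝ) * 4097) * (C * N / V) := by
        apply mul_le_mul_of_nonneg_right _ h9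
        apply mul_le_mul_of_nonneg_left _ (by norm_num)
        exact_mod_cast hrep
    _ ≤ 2 * ((C * V) * 4097) * (C * N / V) := by
        apply mul_le_mul_of_nonneg_right _ h9
        apply mul_le_mul_of_nonneg_left _ (by norm_num)
        exact mul_le_mul_of_nonneg_right hPle (by norm_num)
    _ = 8194 * C ^ 2 * N := by
        field_simp
        ring

end setting

end Crest.Agent.R51.Add
end
end

-- ▼ part R51/AddCommon

set_option autoImplicit false

noncomputable section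

open Finset Classical

namespace Crest.Agent.R51.Add

section main
variable {R : Type*} [Fintype R] {C V : ℝ} {α : Fin 3 → R → ℝ} {w : Fin 3 → R → ℕ}

set_option maxHeartbeats 2000000 in
theorem common_scale_core (hS : Setting C V α w) {C5 CJ T : ℝ} (hC5 : 1 ≤ C5) (hCJ : 1 ≤ CJ)
    (hT0 : 0 < T) (hTV : T * T = V) (hT : 24 * C * C5 * CJ ≤ T) (Ty : Finset R)
    (hTy : 3 * (Fintype.card R : ℝ) ≤ 4 * #Ty) (hcomp : ∀ v ∈ Ty, Comp' C5 α w v)
    (hjump : ∀ t : ℝ, 0 < t → ∀ i j, i ≠ j →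
      (#(Ty.filter fun v => Jump C5 32 (t / C5) α w i j v) : ℝ) * t ≤ CJ * Fintype.card R) :
    ∃ rh : ℝ, 0 < rh ∧ ∃ R3 : Finset R, R3 ⊆ Ty ∧
      (Fintype.card R : ℝ) ≤ (256 * C ^ 3) * #R3 ∧
      ∀ v ∈ R3, ∀ i, (gg (α i) (w i) v rh : ℝ) ≤ (2 ^ 22 * C ^ 5 * C5 ^ 2) * T ∧
        T ≤ C5 ^ 2 * gg (α i) (w i) v (4 * rh) := by
  have hN := hS.card_pos
  have hV := hS.V_pos789
  have hC := hS.C_pos789
  have hC1 := hS.one_le_C
  have hC50 : 0 < C5 := lt_of_lt_of_le one_pos hC5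
  have hCJ0 : 0 < CJ := lt_of_lt_of_le one_pos hCJ
  set N : ℝ := (Fintype.card R : ℝ) with hNdef
  -- products
  have hCC5 : C * C5 ≤ C * C5 * CJ := by
    have : C * C5 * 1 ≤ C * C5 * CJ := mul_le_mul_of_nonneg_left hCJ (by positivity)
    linarith
  have hT1 : 24 * (C * C5) ≤ T := by nlinarith
  have h1CC5 : 1 ≤ C * C5 := by nlinarith
  have hC5le : C5 ≤ C * C5 := by nlinarith
  have hT24 : 24 * C5 ≤ T := by linarith
  have hTge : 24 ≤ T := by linarith
  -- the thresholds exist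
  have hlab : ∀ i : Fin 3, C5 * T ≤ (#(univ.image (w i)) : ℝ) := by
    intro i
    refine le_trans ?_ (hS.labels_ge789 i)
    rw [le_div_iff₀ hC, ← hTV]
    have : C5 * T * C = (C * C5) * T := by ring
    rw [this]
    exact mul_le_mul_of_nonneg_right (by linarith) hT0.le
  have hTC5 : T ≤ C5 * T := by nlinarith
  have hTdiv : T / C5 ≤ T := div_le_self hT0.le hC5
  have hTdivpos : 1 < T / C5 := by
    rw [lt_div_iff₀ hC50]; linarith
  have hTdiv4 : 4 ≤ T / C5 := by
    rw [le_div_iff₀ hC50]; linarith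
  have e3 : ∀ v : R, ∃ σ : ℝ, Thr (α 2) (w 2) T v σ := fun v =>
    exists_thr v hT0 (hTC5.trans (hlab 2))
  have el : ∀ v : R, ∃ σ : ℝ, Thr (α 0) (w 0) (T / C5) v σ := fun v =>
    exists_thr v (by linarith) (hTdiv.trans (hTC5.trans (hlab 0)))
  have eh : ∀ v : R, ∃ σ : ℝ, Thr (α 0) (w 0) (C5 * T) v σ := fun v =>
    exists_thr v (by linarith) (hlab 0)
  choose s3 hs3 using e3
  choose sl hsl using el
  choose sh hsh using eh
  -- exceptional points
  set R0 : Finset R := Ty.filter fun v => 2 ≤ gg (α 2) (w 2) v (s3 v / 2) ∧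
    2 ≤ gg (α 0) (w 0) v (sl v / 2) ∧ 2 ≤ gg (α 0) (w 0) v (sh v / 2) with hR0
  have h24 : ∀ n : ℕ, ∀ t : ℝ, T / C5 ≤ t → (n : ℝ) * t ≤ CJ * N → (n : ℝ) ≤ N / 24 := by
    intro n t ht hn
    have h1 : (n : ℝ) * (T / C5) ≤ CJ * N :=
      (mul_le_mul_of_nonneg_left ht (Nat.cast_nonneg n)).trans hn
    have h2 : (n : ℝ) * T ≤ C5 * CJ * N := by
      rw [mul_div_assoc', div_le_iff₀ hC50] at h1
      linarith
    have h3 : 24 * (C5 * CJ) ≤ T := by
      have : C5 * CJ ≤ C * (C5 * CJ) := by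
        have h0 : 0 ≤ C5 * CJ := by positivity
        nlinarith
      nlinarith
    have h4 : (n : ℝ) * (24 * (C5 * CJ)) ≤ C5 * CJ * N :=
      (mul_le_mul_of_nonneg_left h3 (Nat.cast_nonneg n)).trans h2
    have h5 : 0 < C5 * CJ := by positivity
    have h6 : (C5 * CJ) * ((n : ℝ) * 24) ≤ (C5 * CJ) * N := by linarith
    have := le_of_mul_le_mul_left h6 h5
    linarith
  have hR0card : 5 / 8 * N ≤ (#R0 : ℝ) := by
    have hE : ∀ (i j : Fin 3) (hij : i ≠ j) (t : ℝ) (s : R → ℝ), T / C5 ≤ t → 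
        (∀ v, Thr (α i) (w i) t v (s v)) →
        (#(Ty.filter fun v => ¬ 2 ≤ gg (α i) (w i) v (s v / 2)) : ℝ) ≤ N / 24 := by
      intro i j hij t s ht hs
      refine h24 _ t ht (le_trans ?_ (hjump t (by linarith) i j hij))
      apply mul_le_mul_of_nonneg_right _ (by linarith)
      have : (Ty.filter fun v => ¬ 2 ≤ gg (α i) (w i) v (s v / 2)) ⊆
          Ty.filter fun v => Jump C5 32 (t / C5) α w i j v := by
        intro v hv
        rw [mem_filter] at hv ⊢
        exact ⟨hv.1, exc_jump hC5 (by linarith) (hS.conv i) (hcomp v hv.1) (hs v) hv.2⟩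
      exact_mod_cast card_le_card this
    have h3 := hE 2 0 (by decide) T s3 hTdiv hs3
    have hl := hE 0 1 (by decide) (T / C5) sl le_rfl hsl
    have hh := hE 0 1 (by decide) (C5 * T) sh (hTdiv.trans hTC5) hsh
    have hsub : Ty ⊆ R0 ∪ ((Ty.filter fun v => ¬ 2 ≤ gg (α 2) (w 2) v (s3 v / 2)) ∪
        ((Ty.filter fun v => ¬ 2 ≤ gg (α 0) (w 0) v (sl v / 2)) ∪
        (Ty.filter fun v => ¬ 2 ≤ gg (α 0) (w 0) v (sh v / 2)))) := by
      intro v hv
      simp only [hR0, mem_union, mem_filter]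
      tauto
    have h1 := card_le_card hsub
    have h2 : (#Ty : ℝ) ≤ #R0 + (N / 24 + (N / 24 + N / 24)) := by
      have := (h1.trans (card_union_le _ _)).trans (Nat.add_le_add_left
        ((card_union_le _ _).trans (Nat.add_le_add_left (card_union_le _ _) _)) _)
      have h4 : (#Ty : ℝ) ≤ #R0 + (#(Ty.filter fun v => ¬ 2 ≤ gg (α 2) (w 2) v (s3 v / 2)) +
        (#(Ty.filter fun v => ¬ 2 ≤ gg (α 0) (w 0) v (sl v / 2)) +
        #(Ty.filter fun v => ¬ 2 ≤ gg (α 0) (w 0) v (sh v / 2)))) := by exact_mod_cast this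
      linarith
    linarith
  -- typed labels
  set τ : R → ℕ × Bool × Bool := fun v => (w 0 v, decide (Lft (α 0) (w 0) v (sl v)),
    decide (Lft (α 0) (w 0) v (sh v))) with hτ
  set R1 : Finset R := R0.filter fun v => N ≤ 32 * C * V * #(R0.filter fun u => τ u = τ v) with hR1
  have hR1card : N / 2 ≤ (#R1 : ℝ) := by
    have h1 := card_le_real (R0.filter fun v => ¬ N ≤ 32 * C * V * #(R0.filter fun u => τ u = τ v))
      τ (N / (32 * C * V)) (by
        intro b hb
        obtain ⟨v, hv, rfl⟩ := mem_image.1 hb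
        rw [mem_filter] at hv
        have h2 := hv.2
        push Not at h2
        rw [le_div_iff₀ (by positivity)]
        have h3 : (#((R0.filter fun v => ¬ N ≤ 32 * C * V *
            #(R0.filter fun u => τ u = τ v)).filter fun x => τ x = τ v) : ℝ) ≤
            #(R0.filter fun u => τ u = τ v) := by
          have : ((R0.filter fun v => ¬ N ≤ 32 * C * V *
            #(R0.filter fun u => τ u = τ v)).filter fun x => τ x = τ v) ⊆
              R0.filter fun u => τ u = τ v := by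
            intro x hx
            rw [mem_filter, mem_filter] at hx
            rw [mem_filter]
            exact ⟨hx.1.1, hx.2⟩
          exact_mod_cast card_le_card this
        nlinarith [mul_le_mul_of_nonneg_left h3 (by positivity : (0 : ℝ) ≤ 32 * C * V)])
    have h2 : (#((R0.filter fun v => ¬ N ≤ 32 * C * V *
        #(R0.filter fun u => τ u = τ v)).image τ) : ℝ) ≤ C * V * 4 := by
      have h3 : ((R0.filter fun v => ¬ N ≤ 32 * C * V *
        #(R0.filter fun u => τ u = τ v)).image τ) ⊆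
          (univ.image (w 0)) ×ˢ (univ : Finset (Bool × Bool)) := by
        intro b hb
        obtain ⟨v, hv, rfl⟩ := mem_image.1 hb
        rw [mem_product]
        exact ⟨mem_image_of_mem _ (mem_univ _), mem_univ _⟩
      have h4 := card_le_card h3
      rw [card_product] at h4
      have h5 : #(univ : Finset (Bool × Bool)) = 4 := by decide
      rw [h5] at h4
      have h6 : (#((R0.filter fun v => ¬ N ≤ 32 * C * V *
        #(R0.filter fun u => τ u = τ v)).image τ) : ℝ) ≤ #(univ.image (w 0)) * 4 := by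
        exact_mod_cast h4
      linarith [hS.A1 0]
    have h3 : (#(R0.filter fun v => ¬ N ≤ 32 * C * V * #(R0.filter fun u => τ u = τ v)) : ℝ) ≤
        N / 8 := by
      refine h1.trans ?_
      calc _ ≤ C * V * 4 * (N / (32 * C * V)) := mul_le_mul_of_nonneg_right h2 (by positivity)
        _ = N / 8 := by field_simp; norm_num
    have h4 : (#R0 : ℝ) = #R1 +
        #(R0.filter fun v => ¬ N ≤ 32 * C * V * #(R0.filter fun u => τ u = τ v)) := by
      rw [hR1]
      exact_mod_cast (card_filter_add_card_filter_not _).symm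
    linarith
  have hR1ne : R1.Nonempty := by
    rw [← card_pos]
    have : (0 : ℝ) < #R1 := by linarith
    exact_mod_cast this
  -- choice of the label c0 and the side
  set κ : R → ℕ × Bool := fun v => (w 2 v, decide (Lft (α 2) (w 2) v (s3 v))) with hκ
  obtain ⟨b, hb, hBcard⟩ := exists_fiber R1 hR1ne κ
  set B : Finset R := R1.filter fun x => κ x = b with hB
  have hB1 : N / (4 * C * V) ≤ (#B : ℝ) := by
    have h2 : (#(R1.image κ) : ℝ) ≤ C * V * 2 := by
      have h3 : (R1.image κ) ⊆ (univ.image (w 2)) ×ˢ (univ : Finset Bool) := by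
        intro b hb
        obtain ⟨v, hv, rfl⟩ := mem_image.1 hb
        rw [mem_product]
        exact ⟨mem_image_of_mem _ (mem_univ _), mem_univ _⟩
      have h4 := card_le_card h3
      rw [card_product] at h4
      have h5 : #(univ : Finset Bool) = 2 := by decide
      rw [h5] at h4
      have h6 : (#(R1.image κ) : ℝ) ≤ #(univ.image (w 2)) * 2 := by
        exact_mod_cast h4
      linarith [hS.A1 2]
    have h3 : N / 2 ≤ C * V * 2 * #B :=
      (hR1card.trans hBcard).trans (mul_le_mul_of_nonneg_right h2 (Nat.cast_nonneg _))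
    rw [div_le_iff₀ (by positivity)]
    linarith
  have hBpos : (0 : ℝ) < #B := lt_of_lt_of_le (by positivity) hB1
  have hBne : B.Nonempty := by
    rw [← card_pos]
    exact_mod_cast hBpos
  -- number of labels of coordinate 0 on B
  have hL : V / (4 * C ^ 2) ≤ (#(B.image (w 0)) : ℝ) := by
    have h1 := card_le_real B (w 0) (C * N / V ^ 2) (by
      intro a ha
      have h2 := hS.A3 0 2 (by decide) a b.1
      rw [le_div_iff₀ (by positivity)]
      refine le_trans ?_ h2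
      apply mul_le_mul_of_nonneg_right _ (by positivity)
      have : (B.filter fun x => w 0 x = a) ⊆ fib (w 0) a ∩ fib (w 2) b.1 := by
        intro x hx
        rw [mem_filter, hB, mem_filter] at hx
        rw [mem_inter, mem_fib, mem_fib]
        refine ⟨hx.2, ?_⟩
        rw [← hx.1.2]
      exact_mod_cast card_le_card this)
    have h2 := hB1.trans h1
    have h3 : N / (4 * C * V) * (V ^ 2 / (C * N)) ≤
        (#(B.image (w 0)) : ℝ) * (C * N / V ^ 2) * (V ^ 2 / (C * N)) :=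
      mul_le_mul_of_nonneg_right h2 (by positivity)
    have h4 : N / (4 * C * V) * (V ^ 2 / (C * N)) = V / (4 * C ^ 2) := by
      field_simp
    have h5 : (#(B.image (w 0)) : ℝ) * (C * N / V ^ 2) * (V ^ 2 / (C * N)) = #(B.image (w 0)) := by
      field_simp
    rw [h4, h5] at h3
    exact h3
  -- R2
  set R2 : Finset R := R0.filter fun v' => ∃ v ∈ B, τ v' = τ v with hR2
  have hR2card : N / (128 * C ^ 3) ≤ (#R2 : ℝ) := by
    have h1 := card_ge_real R2 (w 0) (B.image (w 0)) (N / (32 * C * V)) (by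
      intro a ha
      obtain ⟨v, hv, rfl⟩ := mem_image.1 ha
      have hv1 : v ∈ R1 := (mem_filter.1 hv).1
      have h2 : N ≤ 32 * C * V * #(R0.filter fun u => τ u = τ v) := (mem_filter.1 hv1).2
      have h3 : (#(R0.filter fun u => τ u = τ v) : ℝ) ≤ #(R2.filter fun x => w 0 x = w 0 v) := by
        have : (R0.filter fun u => τ u = τ v) ⊆ R2.filter fun x => w 0 x = w 0 v := by
          intro x hx
          rw [mem_filter] at hx
          rw [mem_filter, hR2, mem_filter]
          refine ⟨⟨hx.1, v, hv, hx.2⟩, ?_⟩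
          have := congrArg Prod.fst hx.2
          exact this
        exact_mod_cast card_le_card this
      rw [div_le_iff₀ (by positivity)]
      have := mul_le_mul_of_nonneg_left h3 (by positivity : (0 : ℝ) ≤ 32 * C * V)
      linarith)
    have h2 : V / (4 * C ^ 2) * (N / (32 * C * V)) ≤ (#(B.image (w 0)) : ℝ) * (N / (32 * C * V)) :=
      mul_le_mul_of_nonneg_right hL (by positivity)
    have h3 : V / (4 * C ^ 2) * (N / (32 * C * V)) = N / (128 * C ^ 3) := by
      field_simp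
      norm_num
    rw [h3] at h2
    exact h2.trans h1
  -- the scale
  obtain ⟨v0, hv0⟩ := hBne
  set x : ℝ := s3 v0 with hx
  have hBR0 : ∀ v ∈ B, v ∈ R0 := fun v hv => (mem_filter.1 (mem_filter.1 hv).1).1
  have hR0Ty : ∀ v ∈ R0, v ∈ Ty := fun v hv => (mem_filter.1 hv).1
  have hxpos : 0 < x := (hs3 v0).pos (hS.conv 2) (by linarith)
  have h3cmp : ∀ v ∈ B, s3 v ≤ 2 * x ∧ x ≤ 2 * s3 v := by
    intro v hv
    have h1 : κ v0 = κ v := by
      rw [(mem_filter.1 hv0).2, (mem_filter.1 hv).2]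
    have h2 : w 2 v0 = w 2 v := congrArg Prod.fst h1
    have h3 : (Lft (α 2) (w 2) v0 (s3 v0) ↔ Lft (α 2) (w 2) v (s3 v)) := by
      have := congrArg Prod.snd h1
      simpa only [hκ, decide_eq_decide] using this
    exact cmp_same (hS.conv 2) h2 (hs3 v0) (hs3 v) (mem_filter.1 (hBR0 v0 hv0)).2.1
      (mem_filter.1 (hBR0 v hv)).2.1 h3
  have hlB : ∀ v ∈ B, sl v ≤ 8 * x := by
    intro v hv
    apply (hsl v).le_of
    have h1 := hcomp v (hR0Ty v (hBR0 v hv)) 2 0 (2 * x) (by linarith)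
    have h2 : (4 * (2 * x)) = 8 * x := by ring
    rw [h2] at h1
    have h3 : (gg (α 2) (w 2) v (s3 v) : ℝ) ≤ gg (α 2) (w 2) v (2 * x) := by
      exact Nat.cast_le.2 (gg_mono (h3cmp v hv).1)
    rw [div_le_iff₀ hC50]
    linarith [(hs3 v).2.1]
  have hhB : ∀ v ∈ B, x / 8 ≤ sh v := by
    intro v hv
    by_contra hcon
    push Not at hcon
    have hpos : 0 < sh v := (hsh v).pos (hS.conv 0) (by linarith)
    have h1 := hcomp v (hR0Ty v (hBR0 v hv)) 0 2 (sh v) hpos
    have h2 := (hs3 v).2.2 (4 * sh v) (by linarith [(h3cmp v hv).2])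
    have h3 := (hsh v).2.1
    have h4 : C5 * (gg (α 2) (w 2) v (4 * sh v) : ℝ) < C5 * T := mul_lt_mul_of_pos_left h2 hC50
    linarith
  have hR2R0 : ∀ v ∈ R2, v ∈ R0 := fun v hv => (mem_filter.1 hv).1
  have hlo : ∀ v ∈ R2, T / C5 ≤ (gg (α 0) (w 0) v (16 * x) : ℝ) := by
    intro v' hv'
    obtain ⟨v, hv, hvt⟩ := (mem_filter.1 hv').2
    have h2 : w 0 v = w 0 v' := (congrArg Prod.fst hvt).symm
    have h3 : (Lft (α 0) (w 0) v (sl v) ↔ Lft (α 0) (w 0) v' (sl v')) := by
      have := congrArg (fun z => z.2.1) hvt.symm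
      simpa only [hτ, decide_eq_decide] using this
    have h4 := cmp_same (hS.conv 0) h2 (hsl v) (hsl v') (mem_filter.1 (hBR0 v hv)).2.2.1
      (mem_filter.1 (hR2R0 v' hv')).2.2.1 h3
    have h5 : (gg (α 0) (w 0) v' (sl v') : ℝ) ≤ gg (α 0) (w 0) v' (16 * x) := by
      exact Nat.cast_le.2 (gg_mono (by linarith [hlB v hv, h4.1]))
    linarith [(hsl v').2.1]
  have hhi : ∀ v ∈ R2, (gg (α 0) (w 0) v (x / 32) : ℝ) < C5 * T := by
    intro v' hv'
    obtain ⟨v, hv, hvt⟩ := (mem_filter.1 hv').2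
    have h2 : w 0 v = w 0 v' := (congrArg Prod.fst hvt).symm
    have h3 : (Lft (α 0) (w 0) v (sh v) ↔ Lft (α 0) (w 0) v' (sh v')) := by
      have := congrArg (fun z => z.2.2) hvt.symm
      simpa only [hτ, decide_eq_decide] using this
    have h4 := cmp_same (hS.conv 0) h2 (hsh v) (hsh v') (mem_filter.1 (hBR0 v hv)).2.2.2
      (mem_filter.1 (hR2R0 v' hv')).2.2.2 h3
    exact (hsh v').2.2 _ (by linarith [hhB v hv, h4.2])
  -- fixed scale regularity
  set D : ℝ := 2 ^ 22 * C ^ 5 with hD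
  have hDpos : 0 < D := by positivity
  set S : Finset R := R2.filter fun v => ¬ (gg (α 0) (w 0) v (64 * x) : ℝ) <
    D * gg (α 0) (w 0) v (x / 32) with hSdef
  set R3 : Finset R := R2.filter fun v => (gg (α 0) (w 0) v (64 * x) : ℝ) <
    D * gg (α 0) (w 0) v (x / 32) with hR3
  have h64 : ∀ v ∈ R2, (4 : ℝ) ≤ gg (α 0) (w 0) v (64 * x) := by
    intro v hv
    have h1 : (gg (α 0) (w 0) v (16 * x) : ℝ) ≤ gg (α 0) (w 0) v (64 * x) := by
      exact Nat.cast_le.2 (gg_mono (by linarith))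
    linarith [hlo v hv]
  have hScard : (#S : ℝ) * D ≤ 8194 * C ^ 2 * N := by
    have h2048 : 2048 * (x / 32) = 64 * x := by ring
    apply hS.reg 0 S (r := x / 32) (by linarith) hDpos.le
    · intro v hv
      rw [h2048]
      exact_mod_cast h64 v (mem_filter.1 hv).1
    · intro v hv
      rw [h2048]
      have := (mem_filter.1 hv).2
      push Not at this
      exact this
  have hS2 : (#S : ℝ) ≤ N / (256 * C ^ 3) := by
    rw [le_div_iff₀ (by positivity)]
    have h1 : (#S : ℝ) * (256 * C ^ 3) * (2 ^ 14 * C ^ 2) ≤ N * (2 ^ 14 * C ^ 2) := by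
      calc (#S : ℝ) * (256 * C ^ 3) * (2 ^ 14 * C ^ 2) = (#S : ℝ) * D := by rw [hD]; ring
        _ ≤ 8194 * C ^ 2 * N := hScard
        _ = 8194 * (C ^ 2 * N) := by ring
        _ ≤ 2 ^ 14 * (C ^ 2 * N) := mul_le_mul_of_nonneg_right (by norm_num) (by positivity)
        _ = N * (2 ^ 14 * C ^ 2) := by ring
    exact le_of_mul_le_mul_right h1 (by positivity)
  have hsplit : (#R2 : ℝ) = #R3 + #S := by
    rw [hR3, hSdef]
    exact_mod_cast (card_filter_add_card_filter_not _).symm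
  refine ⟨16 * x, by linarith, R3, ?_, ?_, ?_⟩
  · intro v hv
    exact hR0Ty v (hR2R0 v (mem_filter.1 hv).1)
  · have h1 : N / (256 * C ^ 3) ≤ (#R3 : ℝ) := by
      have : N / (128 * C ^ 3) = N / (256 * C ^ 3) + N / (256 * C ^ 3) := by
        field_simp
        norm_num
      linarith
    rw [div_le_iff₀ (by positivity)] at h1
    linarith
  · intro v hv i
    obtain ⟨hv2, hv3⟩ := mem_filter.1 hv
    have hvTy := hR0Ty v (hR2R0 v hv2)
    have h416 : 4 * (16 * x) = 64 * x := by ring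
    constructor
    · have h1 := hcomp v hvTy i 0 (16 * x) (by linarith)
      rw [h416] at h1
      have h2 : (gg (α 0) (w 0) v (64 * x) : ℝ) ≤ D * (C5 * T) :=
        hv3.le.trans (mul_le_mul_of_nonneg_left (hhi v hv2).le hDpos.le)
      calc (gg (α i) (w i) v (16 * x) : ℝ) ≤ C5 * gg (α 0) (w 0) v (64 * x) := h1
        _ ≤ C5 * (D * (C5 * T)) := mul_le_mul_of_nonneg_left h2 hC50.le
        _ = (2 ^ 22 * C ^ 5 * C5 ^ 2) * T := by rw [hD]; ring
    · have h1 := hcomp v hvTy 0 i (16 * x) (by linarith)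
      have h2 := hlo v hv2
      rw [div_le_iff₀ hC50] at h2
      have h3 := mul_le_mul_of_nonneg_left h1 hC50.le
      linarith

/-- 9.5 (common scale). -/
theorem common_scale {C C5 CJ : ℝ} (hC : 1 ≤ C) (hC5 : 1 ≤ C5) (hCJ : 1 ≤ CJ) :
    ∃ K V0 : ℝ, 1 ≤ K ∧ ∀ (R : Type) [Fintype R] (V : ℝ) (α : Fin 3 → R → ℝ)
      (w : Fin 3 → R → ℕ), V0 ≤ V → Setting C V α w → ∀ Ty : Finset R,
      3 * (Fintype.card R : ℝ) ≤ 4 * #Ty → (∀ v ∈ Ty, Comp' C5 α w v) →
      (∀ t : ℝ, 0 < t → ∀ i j, i ≠ j →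
        (#(Ty.filter fun v => Jump C5 32 (t / C5) α w i j v) : ℝ) * t ≤ CJ * Fintype.card R) →
      ∃ rh : ℝ, 0 < rh ∧ ∃ R3 : Finset R, R3 ⊆ Ty ∧ (Fintype.card R : ℝ) ≤ K * #R3 ∧
        ∀ v ∈ R3, ∀ i, (gg (α i) (w i) v rh : ℝ) ≤ K * √V ∧
          √V ≤ K * gg (α i) (w i) v (4 * rh) := by
  have hC0 : 0 < C := by linarith
  have hC50 : 0 < C5 := by linarith
  have hCp : (1 : ℝ) ≤ C ^ 5 := one_le_pow₀ hC
  have hC3p : (1 : ℝ) ≤ C ^ 3 := one_le_pow₀ hC
  have hC5p : (1 : ℝ) ≤ C5 ^ 2 := one_le_pow₀ hC5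
  have hC35 : C ^ 3 ≤ C ^ 5 := pow_le_pow_right₀ hC (by norm_num)
  have hK1 : (1 : ℝ) ≤ C ^ 5 * C5 ^ 2 := by nlinarith
  refine ⟨2 ^ 22 * C ^ 5 * C5 ^ 2, (24 * C * C5 * CJ) ^ 2, by nlinarith, ?_⟩
  intro R _ V α w hV0 hS Ty hTy hcomp hjump
  have hV := hS.V_pos789
  have hT : 24 * C * C5 * CJ ≤ √V := Real.le_sqrt_of_sq_le hV0
  obtain ⟨rh, hrh, R3, hR3, hcard, hmain⟩ := common_scale_core hS hC5 hCJ (T := √V)
    (Real.sqrt_pos.2 hV) (Real.mul_self_sqrt hV.le) hT Ty hTy hcomp hjump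
  refine ⟨rh, hrh, R3, hR3, hcard.trans ?_, ?_⟩
  · apply mul_le_mul_of_nonneg_right _ (Nat.cast_nonneg _)
    nlinarith
  · intro v hv i
    refine ⟨(hmain v hv i).1, (hmain v hv i).2.trans ?_⟩
    apply mul_le_mul_of_nonneg_right _ (Nat.cast_nonneg _)
    nlinarith

end main

/-- 9.5 (e): the common scale, from the no-jump lemma. -/
theorem exists_common_scale (hJ : JumpLemma) (C : ℝ) (hC : 1 ≤ C) :
    ∃ K V0 : ℝ, 1 ≤ K ∧ 1 ≤ V0 ∧ ∀ (R : Type) [Fintype R] (V : ℝ) (α : Fin 3 → R → ℝ)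
      (w : Fin 3 → R → ℕ), V0 ≤ V → Setting C V α w →
      ∃ rh : ℝ, 0 < rh ∧ ∃ R3 : Finset R, (Fintype.card R : ℝ) ≤ K * #R3 ∧
        ∀ v ∈ R3, ∀ i, (gg (α i) (w i) v rh : ℝ) ≤ K * √V ∧
          √V ≤ K * gg (α i) (w i) v (4 * rh) := by
  obtain ⟨ε, C5, V1, hε, hε1, hC5, hV1, hmain⟩ := exists_comp' hJ C hC (1 / 4) (by norm_num)
  obtain ⟨CJ, hCJ, hjump⟩ := hJ C ε C5 32 hC hε hε1 hC5 (by norm_num)
  obtain ⟨K, V2, hK, hcs⟩ := common_scale hC hC5 (CJ := max 1 (CJ * C5)) (le_max_left _ _)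
  refine ⟨K, max V1 V2, hK, hV1.trans (le_max_left _ _), ?_⟩
  intro R _ V α w hV hS
  set Ty : Finset R := univ.filter fun v => Typical ε C V α w v ∧ Comp' C5 α w v with hTy
  have hC50 : 0 < C5 := by linarith
  have hN := hS.card_pos
  obtain ⟨rh, hrh, R3, _, hcard, h3⟩ := hcs R V α w ((le_max_right _ _).trans hV) hS Ty
    (by
      have h1 := hmain R V α w ((le_max_left _ _).trans hV) hS
      have h2 : (Fintype.card R : ℝ) = #Ty +
          #(univ.filter fun v => ¬ (Typical ε C V α w v ∧ Comp' C5 α w v)) := by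
        rw [hTy, ← card_univ]
        exact_mod_cast (card_filter_add_card_filter_not _).symm
      linarith)
    (fun v hv => (mem_filter.1 hv).2.2)
    (by
      intro t ht i j hij
      have h1 := hjump R V α w hS (t / C5) (by positivity) i j hij
      have h2 : (#(Ty.filter fun v => Jump C5 32 (t / C5) α w i j v) : ℝ) ≤
          #(univ.filter fun v => Typical ε C V α w v ∧ Jump C5 32 (t / C5) α w i j v) := by
        have : (Ty.filter fun v => Jump C5 32 (t / C5) α w i j v) ⊆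
            univ.filter fun v => Typical ε C V α w v ∧ Jump C5 32 (t / C5) α w i j v := by
          intro v hv
          rw [mem_filter, hTy, mem_filter] at hv
          rw [mem_filter]
          exact ⟨mem_univ _, hv.1.2.1, hv.2⟩
        exact_mod_cast card_le_card this
      have h3 : (#(univ.filter fun v => Typical ε C V α w v ∧
          Jump C5 32 (t / C5) α w i j v) : ℝ) * t ≤ CJ * C5 * Fintype.card R := by
        rw [mul_div_assoc', div_le_iff₀ hC50] at h1
        linarith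
      calc (#(Ty.filter fun v => Jump C5 32 (t / C5) α w i j v) : ℝ) * t
          ≤ (#(univ.filter fun v => Typical ε C V α w v ∧
              Jump C5 32 (t / C5) α w i j v) : ℝ) * t := mul_le_mul_of_nonneg_right h2 ht.le
        _ ≤ CJ * C5 * Fintype.card R := h3
        _ ≤ max 1 (CJ * C5) * Fintype.card R :=
            mul_le_mul_of_nonneg_right (le_max_right _ _) hN.le)
  exact ⟨rh, hrh, R3, hcard, h3⟩

end Crest.Agent.R51.Add
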