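import Mathlib

/-!
Row 51 (S0070), section B9.7 of the blueprint: growth of iterated difference sets at scales.
`S A k = kA - kA`, `f A k r = #{z ∈ kA - kA : |z| < r}`.
Author: helper377.
-/

set_option autoImplicit false

open Finset
open scoped Pointwise

namespace Crest.Agent.R51.Growth

/-- a finite set of integers with gaps at least `σ` -/
def Sep (σ : ℝ) (Y : Finset ℤ) : Prop := ∀ a ∈ Y, ∀ b ∈ Y, a < b → (a : ℝ) + σ ≤ b

/-- `S A k = kA - kA` -/
noncomputable def S (A : Finset ℤ) (k : ℕ) : Finset ℤ := k • A - k • A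

/-- `Sr A k r = (kA - kA) ∩ (-r, r)` -/
noncomputable def Sr (A : Finset ℤ) (k : ℕ) (r : ℝ) : Finset ℤ :=
  (S A k).filter (fun z => |(z : ℝ)| < r)

/-- `f A k r = #((kA - kA) ∩ (-r, r))` -/
noncomputable def f (A : Finset ℤ) (k : ℕ) (r : ℝ) : ℕ := (Sr A k r).card

lemma mem_Sr {A : Finset ℤ} {k : ℕ} {r : ℝ} {z : ℤ} :
    z ∈ Sr A k r ↔ z ∈ S A k ∧ |(z : ℝ)| < r := by simp [Sr]

lemma f_mono (A : Finset ℤ) (k : ℕ) {r s : ℝ} (h : r ≤ s) : f A k r ≤ f A k s := by
  apply card_le_card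
  intro z hz
  rw [mem_Sr] at hz ⊢
  exact ⟨hz.1, lt_of_lt_of_le hz.2 h⟩

lemma nsmul_nonempty {A : Finset ℤ} (hA : A.Nonempty) (k : ℕ) : (k • A).Nonempty := by
  induction k with
  | zero => rw [zero_nsmul]; exact ⟨0, by simp⟩
  | succ n ih => rw [succ_nsmul]; exact ih.add hA

lemma zero_mem_S {A : Finset ℤ} (hA : A.Nonempty) (k : ℕ) : (0 : ℤ) ∈ S A k := by
  obtain ⟨a, ha⟩ := nsmul_nonempty hA k
  exact mem_sub.2 ⟨a, ha, a, ha, sub_self a⟩

lemma f_pos {A : Finset ℤ} (hA : A.Nonempty) (k : ℕ) {r : ℝ} (hr : 0 < r) : 1 ≤ f A k r := by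
  have : (0 : ℤ) ∈ Sr A k r := by
    rw [mem_Sr]; exact ⟨zero_mem_S hA k, by simpa using hr⟩
  exact card_pos.2 ⟨0, this⟩

lemma neg_mem_S {A : Finset ℤ} {k : ℕ} {z : ℤ} (hz : z ∈ S A k) : -z ∈ S A k := by
  obtain ⟨a, ha, b, hb, rfl⟩ := mem_sub.1 hz
  exact mem_sub.2 ⟨b, hb, a, ha, by ring⟩

lemma S_add_mem {A : Finset ℤ} {k l : ℕ} {x y : ℤ} (hx : x ∈ S A k) (hy : y ∈ S A l) :
    x + y ∈ S A (k + l) := by
  obtain ⟨a, ha, b, hb, rfl⟩ := mem_sub.1 hx
  obtain ⟨c, hc, d, hd, rfl⟩ := mem_sub.1 hy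
  refine mem_sub.2 ⟨a + c, ?_, b + d, ?_, by ring⟩
  · rw [add_nsmul]; exact add_mem_add ha hc
  · rw [add_nsmul]; exact add_mem_add hb hd

lemma S_sub_mem {A : Finset ℤ} {k l : ℕ} {x y : ℤ} (hx : x ∈ S A k) (hy : y ∈ S A l) :
    x - y ∈ S A (k + l) := by
  rw [sub_eq_add_neg]; exact S_add_mem hx (neg_mem_S hy)



/-- greedy separated subset, covering within distance `< σ` -/
lemma exists_sep {σ : ℝ} (hσ : 0 < σ) (T : Finset ℤ) :
    ∃ Y ⊆ T, Sep σ Y ∧ ∀ t ∈ T, ∃ y ∈ Y, |(t : ℝ) - y| < σ := by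
  induction T using Finset.strongInduction with
  | H T ih =>
    rcases T.eq_empty_or_nonempty with rfl | hT
    · exact ⟨∅, by simp, by intro a ha; simp at ha, by simp⟩
    · set m := T.min' hT with hm
      have hmT : m ∈ T := T.min'_mem hT
      set T' := T.filter (fun t : ℤ => (m : ℝ) + σ ≤ t) with hT'
      have hss : T' ⊂ T := by
        refine (filter_ssubset).2 ⟨m, hmT, ?_⟩
        push Not
        linarith
      obtain ⟨Y, hY, hsep, hcov⟩ := ih T' hss
      refine ⟨insert m Y, ?_, ?_, ?_⟩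
      · intro z hz
        rcases mem_insert.1 hz with rfl | hz
        · exact hmT
        · exact (mem_filter.1 (hY hz)).1
      · intro a ha b hb hab
        rcases mem_insert.1 ha with rfl | ha'
        · rcases mem_insert.1 hb with rfl | hb'
          · exact absurd hab (lt_irrefl _)
          · exact (mem_filter.1 (hY hb')).2
        · rcases mem_insert.1 hb with rfl | hb'
          · exfalso
            have h1 := (mem_filter.1 (hY ha')).2
            have h2 : (a : ℝ) < (m : ℝ) := by exact_mod_cast hab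
            linarith
          · exact hsep a ha' b hb' hab
      · intro t ht
        by_cases h : (m : ℝ) + σ ≤ t
        · obtain ⟨y, hy, hy2⟩ := hcov t (mem_filter.2 ⟨ht, h⟩)
          exact ⟨y, mem_insert_of_mem hy, hy2⟩
        · refine ⟨m, mem_insert_self _ _, ?_⟩
          have h1 : (m : ℝ) ≤ t := by exact_mod_cast T.min'_le t ht
          push Not at h
          rw [abs_lt]; constructor <;> linarith

/-- an `r`-separated set has at most two points in an open interval of length `2r` -/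
lemma sep_card_le_two {r : ℝ} {Y : Finset ℤ} (hY : Sep r Y) (c : ℝ) :
    (Y.filter (fun y : ℤ => |(y : ℝ) - c| < r)).card ≤ 2 := by
  have hsub : Y.filter (fun y : ℤ => |(y : ℝ) - c| < r) ⊆
      Y.filter (fun y : ℤ => (y : ℝ) ≤ c ∧ c < y + r) ∪
      Y.filter (fun y : ℤ => c < (y : ℝ) ∧ (y : ℝ) < c + r) := by
    intro y hy
    rw [mem_filter] at hy
    rw [mem_union, mem_filter, mem_filter]
    have := abs_lt.1 hy.2
    by_cases h : (y : ℝ) ≤ c
    · left; exact ⟨hy.1, h, by linarith⟩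
    · right; push Not at h; exact ⟨hy.1, h, by linarith⟩
  refine (card_le_card hsub).trans ((card_union_le _ _).trans ?_)
  have h1 : (Y.filter (fun y : ℤ => (y : ℝ) ≤ c ∧ c < y + r)).card ≤ 1 := by
    rw [card_le_one]
    intro a ha b hb
    rw [mem_filter] at ha hb
    rcases lt_trichotomy a b with h | h | h
    · have := hY a ha.1 b hb.1 h; linarith [ha.2.1, ha.2.2, hb.2.1]
    · exact h
    · have := hY b hb.1 a ha.1 h; linarith [hb.2.1, hb.2.2, ha.2.1]
  have h2 : (Y.filter (fun y : ℤ => c < (y : ℝ) ∧ (y : ℝ) < c + r)).card ≤ 1 := by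
    rw [card_le_one]
    intro a ha b hb
    rw [mem_filter] at ha hb
    rcases lt_trichotomy a b with h | h | h
    · have := hY a ha.1 b hb.1 h; linarith [ha.2.1, hb.2.2]
    · exact h
    · have := hY b hb.1 a ha.1 h; linarith [hb.2.1, ha.2.2]
  omega

/-- covering count -/
lemma card_le_cover {σ : ℝ} {T Y : Finset ℤ} {m : ℕ}
    (hcov : ∀ t ∈ T, ∃ y ∈ Y, |(t : ℝ) - y| < σ)
    (hm : ∀ y ∈ Y, (T.filter (fun t : ℤ => |(t : ℝ) - y| < σ)).card ≤ m) :
    T.card ≤ Y.card * m := by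
  have hsub : T ⊆ Y.biUnion (fun y => T.filter (fun t : ℤ => |(t : ℝ) - y| < σ)) := by
    intro t ht
    obtain ⟨y, hy, h⟩ := hcov t ht
    exact mem_biUnion.2 ⟨y, hy, mem_filter.2 ⟨ht, h⟩⟩
  exact (card_le_card hsub).trans (card_biUnion_le_card_mul _ _ _ hm)

/-- (H1), multiplied out. -/
lemma H1 {A : Finset ℤ} {r : ℝ} (hr : 0 < r) (k : ℕ) :
    A.card * f A k r ≤ 2 * ((k + 1) • A - k • A).card * f A 1 r := by
  obtain ⟨Y, hYA, hsep, hcov⟩ := exists_sep hr A
  have h1 : A.card ≤ Y.card * f A 1 r := by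
    apply card_le_cover hcov
    intro y hy
    apply card_le_card_of_injOn (fun t => t - y)
    · intro t ht
      have ht' := mem_filter.1 (mem_coe.1 ht)
      refine mem_coe.2 (mem_Sr.2 ⟨?_, ?_⟩)
      · rw [S, one_nsmul]; exact sub_mem_sub ht'.1 (hYA hy)
      · push_cast; exact ht'.2
    · intro a _ b _ hab
      simpa using hab
  have h2 : Y.card * f A k r ≤ 2 * ((k + 1) • A - k • A).card := by
    have hc : (Y ×ˢ Sr A k r).card = Y.card * f A k r := card_product _ _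
    rw [← hc]
    have himg : (Y ×ˢ Sr A k r).image (fun p => p.1 + p.2) ⊆ (k + 1) • A - k • A := by
      intro z hz
      obtain ⟨⟨y, s⟩, hp, rfl⟩ := mem_image.1 hz
      obtain ⟨hy, hs⟩ := mem_product.1 hp
      obtain ⟨a, ha, b, hb, hab⟩ := mem_sub.1 (mem_Sr.1 hs).1
      simp only at hab ⊢
      refine mem_sub.2 ⟨a + y, ?_, b, hb, ?_⟩
      · rw [succ_nsmul]; exact add_mem_add ha (hYA hy)
      · rw [← hab]; ring
    have := card_le_mul_card_image (f := fun p : ℤ × ℤ => p.1 + p.2) (Y ×ˢ Sr A k r) 2 ?_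
    · exact this.trans (Nat.mul_le_mul_left _ (card_le_card himg))
    · intro z _
      have := sep_card_le_two hsep (z : ℝ)
      refine le_trans ?_ this
      apply card_le_card_of_injOn (fun p => p.1)
      · intro p hp
        have hp' := mem_filter.1 (mem_coe.1 hp)
        obtain ⟨hy, hs⟩ := mem_product.1 hp'.1
        refine mem_coe.2 (mem_filter.2 ⟨hy, ?_⟩)
        have h3 := (mem_Sr.1 hs).2
        have h4 : (z : ℝ) = p.1 + p.2 := by rw [← hp'.2]; push_cast; ring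
        rw [h4]
        have : (p.1 : ℝ) - (p.1 + p.2) = - (p.2 : ℝ) := by ring
        rw [this, abs_neg]; exact h3
      · intro p hp q hq hpq
        have hp' := (mem_filter.1 (mem_coe.1 hp)).2
        have hq' := (mem_filter.1 (mem_coe.1 hq)).2
        simp only at hpq hp' hq'
        ext
        · exact hpq
        · omega
  calc A.card * f A k r ≤ Y.card * f A 1 r * f A k r := Nat.mul_le_mul_right _ h1
    _ = Y.card * f A k r * f A 1 r := by ring
    _ ≤ 2 * ((k + 1) • A - k • A).card * f A 1 r := Nat.mul_le_mul_right _ h2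

/-- the number of `k`-fold sums of a finite set -/
lemma card_nsmul_le (X : Finset ℤ) (k : ℕ) : (k • X).card ≤ (k + 1) ^ X.card := by
  classical
  have key : ∀ k : ℕ, ∀ z ∈ k • X, ∃ m : ℤ → ℕ, (∀ x ∈ X, m x ≤ k) ∧ z = ∑ x ∈ X, m x * x := by
    intro k
    induction k with
    | zero =>
      intro z hz
      rw [zero_nsmul] at hz
      refine ⟨fun _ => 0, by simp, ?_⟩
      simpa using hz
    | succ n ih =>
      intro z hz
      rw [succ_nsmul] at hz
      obtain ⟨w, hw, x, hx, rfl⟩ := mem_add.1 hz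
      obtain ⟨m, hm, rfl⟩ := ih w hw
      refine ⟨fun y => m y + if y = x then 1 else 0, ?_, ?_⟩
      · intro y hy
        have := hm y hy
        simp only
        split_ifs <;> omega
      · simp only [Nat.cast_add, Nat.cast_ite, Nat.cast_one, Nat.cast_zero, add_mul, ite_mul,
          one_mul, zero_mul, sum_add_distrib]
        rw [sum_ite_eq' X x]
        simp [hx]
  have hsub : k • X ⊆ (Fintype.piFinset (fun _ : X => range (k + 1))).image
      (fun m => ∑ x : X, (m x : ℤ) * x) := by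
    intro z hz
    obtain ⟨m, hm, rfl⟩ := key k z hz
    refine mem_image.2 ⟨fun x => m x, ?_, ?_⟩
    · rw [Fintype.mem_piFinset]
      intro x
      exact mem_range.2 (Nat.lt_succ_of_le (hm x x.2))
    · exact Finset.sum_coe_sort X (fun x => (m x : ℤ) * x)
  refine (card_le_card hsub).trans (card_image_le.trans ?_)
  rw [Fintype.card_piFinset]
  simp

/-- polynomial growth: Ruzsa covering. -/
lemma iter_card_le {A : Finset ℤ} (hA : A.Nonempty) {K : ℝ}
    (hP : ∀ m n : ℕ, ((m • A - n • A).card : ℝ) ≤ K ^ (m + n) * A.card) (k : ℕ) :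
    ((S A (k + 1)).card : ℝ) ≤ ((k : ℝ) + 1) ^ ⌊K ^ 5⌋₊ * (K ^ 2 * A.card) := by
  have hcov : (((2 • A - 2 • A) + A).card : ℝ) ≤ K ^ 5 * A.card := by
    have h := hP 3 2
    have he : (2 • A - 2 • A) + A = 3 • A - 2 • A := by
      have : 3 • A = 2 • A + A := succ_nsmul A 2
      rw [this, sub_eq_add_neg, sub_eq_add_neg]
      rw [add_assoc, add_comm (-(2 • A)) A, ← add_assoc]
    rw [he]; exact h
  obtain ⟨X, _, hXc, hX⟩ := ruzsa_covering_add hA hcov
  have hind : ∀ k : ℕ, S A (k + 1) ⊆ k • X + (A - A) := by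
    intro k
    induction k with
    | zero =>
      intro z hz
      rw [S, zero_add, one_nsmul] at hz
      rw [zero_nsmul, zero_add]; exact hz
    | succ n ih =>
      have h1 : S A (n + 1 + 1) = S A (n + 1) + (A - A) := by
        rw [S, S, succ_nsmul A (n + 1)]
        rw [add_sub_add_comm]
      rw [h1]
      refine (add_subset_add_right ih).trans ?_
      rw [add_assoc]
      have h2 : (A - A) + (A - A) = 2 • A - 2 • A := by
        rw [two_nsmul, add_sub_add_comm]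
      rw [h2]
      refine (add_subset_add_left hX).trans ?_
      rw [← add_assoc, ← succ_nsmul]
  have h3 : (S A (k + 1)).card ≤ (k + 1) ^ X.card * (A - A).card := by
    refine (card_le_card (hind k)).trans (card_add_le.trans ?_)
    exact Nat.mul_le_mul_right _ (card_nsmul_le X k)
  have h4 : ((A - A).card : ℝ) ≤ K ^ 2 * A.card := by
    have := hP 1 1
    rw [one_nsmul] at this
    exact this
  have h5 : X.card ≤ ⌊K ^ 5⌋₊ := Nat.le_floor hXc
  calc ((S A (k + 1)).card : ℝ) ≤ ((k + 1) ^ X.card * (A - A).card : ℕ) := by exact_mod_cast h3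
    _ = ((k : ℝ) + 1) ^ X.card * (A - A).card := by push_cast; ring
    _ ≤ ((k : ℝ) + 1) ^ ⌊K ^ 5⌋₊ * (K ^ 2 * A.card) := by
        apply mul_le_mul _ h4 (by positivity) (by positivity)
        exact pow_le_pow_right₀ (by linarith [(Nat.cast_nonneg k : (0:ℝ) ≤ k)]) h5

lemma card_sub_le_S {A : Finset ℤ} (hA : A.Nonempty) (k : ℕ) :
    ((k + 1) • A - k • A).card ≤ (S A (k + 1)).card := by
  obtain ⟨a, ha⟩ := hA
  apply card_le_card_of_injOn (fun z => z - a)
  · intro z hz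
    obtain ⟨x, hx, y, hy, rfl⟩ := mem_sub.1 (mem_coe.1 hz)
    refine mem_coe.2 (mem_sub.2 ⟨x, hx, y + a, ?_, by ring⟩)
    rw [succ_nsmul]; exact add_mem_add hy ha
  · intro x _ y _ h
    simpa using h

/-- (H1') -/
lemma f_le {A : Finset ℤ} (hA : A.Nonempty) {K : ℝ}
    (hP : ∀ m n : ℕ, ((m • A - n • A).card : ℝ) ≤ K ^ (m + n) * A.card) (k : ℕ)
    {r : ℝ} (hr : 0 < r) :
    (f A k r : ℝ) ≤ 2 * ((k : ℝ) + 1) ^ ⌊K ^ 5⌋₊ * K ^ 2 * f A 1 r := by
  have hAc : (0 : ℝ) < A.card := by exact_mod_cast card_pos.2 hA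
  have h1 : (A.card : ℝ) * f A k r ≤ 2 * ((k + 1) • A - k • A).card * f A 1 r := by
    exact_mod_cast H1 (A := A) hr k
  have h2 : (((k + 1) • A - k • A).card : ℝ) ≤ ((k : ℝ) + 1) ^ ⌊K ^ 5⌋₊ * (K ^ 2 * A.card) :=
    le_trans (by exact_mod_cast card_sub_le_S hA k) (iter_card_le hA hP k)
  have h3 : (0 : ℝ) ≤ f A 1 r := Nat.cast_nonneg _
  have h4 : (A.card : ℝ) * f A k r ≤
      A.card * (2 * ((k : ℝ) + 1) ^ ⌊K ^ 5⌋₊ * K ^ 2 * f A 1 r) := by
    refine h1.trans ?_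
    calc 2 * (((k + 1) • A - k • A).card : ℝ) * f A 1 r
        ≤ 2 * (((k : ℝ) + 1) ^ ⌊K ^ 5⌋₊ * (K ^ 2 * A.card)) * f A 1 r := by gcongr
      _ = A.card * (2 * ((k : ℝ) + 1) ^ ⌊K ^ 5⌋₊ * K ^ 2 * f A 1 r) := by ring
  exact le_of_mul_le_mul_left h4 hAc

/-- `f_1(2σ) ≤ 4 f_2(σ)` -/
lemma f_double (A : Finset ℤ) {σ : ℝ} (hσ : 0 < σ) : f A 1 (2 * σ) ≤ 4 * f A 2 σ := by
  have himg : ((Sr A 1 (2 * σ)).image (fun t : ℤ => ⌊(t : ℝ) / σ⌋)) ⊆ Icc (-2) 1 := by
    intro j hj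
    obtain ⟨t, ht, rfl⟩ := mem_image.1 hj
    have h := abs_lt.1 (mem_Sr.1 ht).2
    rw [mem_Icc]
    constructor
    · rw [Int.le_floor]; push_cast
      rw [le_div_iff₀ hσ]; linarith [h.1]
    · have : ⌊(t : ℝ) / σ⌋ < 2 := by
        rw [Int.floor_lt]; push_cast
        rw [div_lt_iff₀ hσ]; linarith [h.2]
      omega
  have h1 := card_le_mul_card_image (f := fun t : ℤ => ⌊(t : ℝ) / σ⌋) (Sr A 1 (2 * σ)) (f A 2 σ) ?_
  · refine h1.trans ?_
    have := card_le_card himg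
    have h4 : (Icc (-2 : ℤ) 1).card = 4 := by simp
    rw [h4] at this
    rw [mul_comm]
    exact Nat.mul_le_mul_right _ this
  · intro j hj
    obtain ⟨t0, ht0, hj0⟩ := mem_image.1 hj
    apply card_le_card_of_injOn (fun t => t - t0)
    · intro t ht
      have ht' := mem_filter.1 (mem_coe.1 ht)
      refine mem_coe.2 (mem_Sr.2 ⟨?_, ?_⟩)
      · exact S_sub_mem (k := 1) (l := 1) (mem_Sr.1 ht'.1).1 (mem_Sr.1 ht0).1
      · have e1 : ⌊(t : ℝ) / σ⌋ = ⌊(t0 : ℝ) / σ⌋ := by rw [hj0]; exact ht'.2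
        have := Int.abs_sub_lt_one_of_floor_eq_floor e1
        rw [← sub_div, abs_div, abs_of_pos hσ, div_lt_one hσ] at this
        push_cast; exact this
    · intro a _ b _ hab
      simpa using hab

/-- chains in iterated sumsets -/
lemma chain {s : ℝ} (Y : Finset ℤ) (hY : Y.Nonempty) (hs : 0 < s) (hsep : Sep s Y) (k : ℕ) :
    ∃ Z ⊆ k • Y, Sep s Z ∧ k * (Y.card - 1) + 1 ≤ Z.card ∧ ∀ z ∈ Z, z ≤ k * Y.max' hY := by
  induction k with
  | zero =>
    refine ⟨{0}, ?_, ?_, by simp, by simp⟩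
    · rw [zero_nsmul]; simp
    · intro a ha b hb hab
      rw [mem_singleton] at ha hb
      omega
  | succ k ih =>
    obtain ⟨Z, hZ, hZs, hZc, hZm⟩ := ih
    set ymin := Y.min' hY with hymin
    set ymax := Y.max' hY with hymax
    have hkmax : (k : ℤ) * ymax ∈ k • Y := by
      clear hZ hZs hZc hZm
      induction k with
      | zero => rw [zero_nsmul]; simp
      | succ n ih2 =>
        rw [succ_nsmul]
        have := add_mem_add ih2 (Y.max'_mem hY)
        have e : ((n + 1 : ℕ) : ℤ) * ymax = (n : ℤ) * ymax + Y.max' hY := by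
          push_cast; rw [hymax]; ring
        rw [e]; exact this
    have hmin_le : ∀ y ∈ Y, ymin ≤ y := fun y hy => Y.min'_le y hy
    have hle_max : ∀ y ∈ Y, y ≤ ymax := fun y hy => Y.le_max' y hy
    set Z1 := Z.image (fun z => z + ymin) with hZ1
    set Z2 := (Y.erase ymin).image (fun y => (k : ℤ) * ymax + y) with hZ2
    have hcross : ∀ a ∈ Z1, ∀ b ∈ Z2, (a : ℝ) + s ≤ b := by
      intro a ha b hb
      obtain ⟨z, hz, rfl⟩ := mem_image.1 ha
      obtain ⟨y, hy, rfl⟩ := mem_image.1 hb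
      have hy' := mem_erase.1 hy
      have h1 : (ymin : ℝ) + s ≤ y :=
        hsep ymin (Y.min'_mem hY) y hy'.2 (lt_of_le_of_ne (hmin_le y hy'.2) (Ne.symm hy'.1))
      have h2 : (z : ℝ) ≤ (k : ℝ) * ymax := by exact_mod_cast hZm z hz
      push_cast; linarith
    refine ⟨Z1 ∪ Z2, ?_, ?_, ?_, ?_⟩
    · rw [succ_nsmul]
      intro z hz
      rcases mem_union.1 hz with hz | hz
      · obtain ⟨w, hw, rfl⟩ := mem_image.1 hz
        exact add_mem_add (hZ hw) (Y.min'_mem hY)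
      · obtain ⟨y, hy, rfl⟩ := mem_image.1 hz
        exact add_mem_add hkmax (mem_erase.1 hy).2
    · intro a ha b hb hab
      rcases mem_union.1 ha with ha | ha <;> rcases mem_union.1 hb with hb | hb
      · obtain ⟨z, hz, rfl⟩ := mem_image.1 ha
        obtain ⟨w, hw, rfl⟩ := mem_image.1 hb
        have := hZs z hz w hw (by linarith)
        push_cast; linarith
      · exact hcross a ha b hb
      · exfalso
        have := hcross b hb a ha
        have h2 : (a : ℝ) < b := by exact_mod_cast hab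
        linarith
      · obtain ⟨z, hz, rfl⟩ := mem_image.1 ha
        obtain ⟨w, hw, rfl⟩ := mem_image.1 hb
        have := hsep z (mem_erase.1 hz).2 w (mem_erase.1 hw).2 (by linarith)
        push_cast; linarith
    · have hdisj : Disjoint Z1 Z2 := by
        rw [disjoint_left]
        intro a h1 h2
        have := hcross a h1 a h2
        linarith
      rw [card_union_of_disjoint hdisj]
      have hc1 : Z1.card = Z.card :=
        card_image_of_injective _ (fun a b h => by simpa using h)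
      have hc2 : Z2.card = Y.card - 1 := by
        rw [hZ2, card_image_of_injective _ (fun a b h => by simpa using h),
          card_erase_of_mem (Y.min'_mem hY)]
      rw [hc1, hc2]
      have : (k + 1) * (Y.card - 1) = k * (Y.card - 1) + (Y.card - 1) := by ring
      omega
    · intro z hz
      rcases mem_union.1 hz with hz | hz
      · obtain ⟨w, hw, rfl⟩ := mem_image.1 hz
        have h1 := hZm w hw
        have h2 := hle_max ymin (Y.min'_mem hY)
        push_cast; linarith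
      · obtain ⟨y, hy, rfl⟩ := mem_image.1 hz
        have h2 := hle_max y (mem_erase.1 hy).2
        push_cast; linarith

lemma nonneg_of_mem_nsmul {Y : Finset ℤ} (h0 : ∀ y ∈ Y, 0 ≤ y) (k : ℕ) :
    ∀ z ∈ k • Y, 0 ≤ z := by
  induction k with
  | zero => intro z hz; rw [zero_nsmul] at hz; simp at hz; omega
  | succ n ih =>
    intro z hz
    rw [succ_nsmul] at hz
    obtain ⟨a, ha, b, hb, rfl⟩ := mem_add.1 hz
    have := ih a ha; have := h0 b hb; omega

lemma mem_S_of_mem_nsmul {A Y : Finset ℤ} (hY : Y ⊆ S A 1) (k : ℕ) :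
    ∀ z ∈ k • Y, z ∈ S A k := by
  induction k with
  | zero =>
    intro z hz; rw [zero_nsmul] at hz
    rw [S, zero_nsmul]
    have : z = 0 := by simpa using hz
    subst this; simp
  | succ n ih =>
    intro z hz
    rw [succ_nsmul] at hz
    obtain ⟨a, ha, b, hb, rfl⟩ := mem_add.1 hz
    exact S_add_mem (ih a ha) (hY hb)

/-- One growth step: `f_{v+k}(kr+σ) ≥ (k t + 1) f_v(σ)` with
`(t + 1) f_2(2σ) ≥ f_1(r)/2`. -/
lemma step {A : Finset ℤ} (hA : A.Nonempty) (k v : ℕ) {σ r : ℝ} (hσ : 0 < σ) (hr : 0 < r) :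
    ∃ t : ℕ, f A 1 r ≤ 2 * ((t + 1) * f A 2 (2 * σ)) ∧
      (k * t + 1) * f A v σ ≤ f A (v + k) (k * r + σ) := by
  set T := (Sr A 1 r).filter (fun z : ℤ => 0 ≤ z) with hT
  have h0T : (0 : ℤ) ∈ T := mem_filter.2 ⟨mem_Sr.2 ⟨zero_mem_S hA 1, by simpa using hr⟩, le_refl _⟩
  have hTc : f A 1 r ≤ 2 * T.card := by
    have hsub : Sr A 1 r ⊆ T ∪ T.image (fun z => -z) := by
      intro z hz
      rcases le_total 0 z with h | h
      · exact mem_union_left _ (mem_filter.2 ⟨hz, h⟩)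
      · refine mem_union_right _ (mem_image.2 ⟨-z, mem_filter.2 ⟨mem_Sr.2 ⟨?_, ?_⟩, ?_⟩, neg_neg z⟩)
        · exact neg_mem_S (mem_Sr.1 hz).1
        · push_cast; rw [abs_neg]; exact (mem_Sr.1 hz).2
        · omega
    have := (card_le_card hsub).trans (card_union_le _ _)
    have h2 : (T.image (fun z => -z)).card ≤ T.card := card_image_le
    have h3 : f A 1 r = (Sr A 1 r).card := rfl
    omega
  obtain ⟨Y, hYT, hsep, hcov⟩ := exists_sep (σ := 2 * σ) (by linarith) T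
  have hYne : Y.Nonempty := by
    obtain ⟨y, hy, _⟩ := hcov 0 h0T
    exact ⟨y, hy⟩
  have hYc : T.card ≤ Y.card * f A 2 (2 * σ) := by
    apply card_le_cover hcov
    intro y hy
    apply card_le_card_of_injOn (fun t => t - y)
    · intro t ht
      have ht' := mem_filter.1 (mem_coe.1 ht)
      refine mem_coe.2 (mem_Sr.2 ⟨?_, ?_⟩)
      · exact S_sub_mem (k := 1) (l := 1) (mem_Sr.1 (mem_filter.1 ht'.1).1).1
          (mem_Sr.1 (mem_filter.1 (hYT hy)).1).1
      · push_cast; exact ht'.2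
    · intro a _ b _ hab
      simpa using hab
  have hYpos : 1 ≤ Y.card := card_pos.2 hYne
  refine ⟨Y.card - 1, ?_, ?_⟩
  · have : Y.card - 1 + 1 = Y.card := by omega
    rw [this]
    exact hTc.trans (Nat.mul_le_mul_left _ hYc)
  · obtain ⟨Z, hZ, hZs, hZc, hZm⟩ := chain Y hYne (by linarith : (0:ℝ) < 2 * σ) hsep k
    have hYS : Y ⊆ S A 1 := fun y hy => (mem_Sr.1 (mem_filter.1 (hYT hy)).1).1
    have hY0 : ∀ y ∈ Y, 0 ≤ y := fun y hy => (mem_filter.1 (hYT hy)).2
    have hmaxr : (Y.max' hYne : ℝ) < r :=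
      (abs_lt.1 (mem_Sr.1 (mem_filter.1 (hYT (Y.max'_mem hYne))).1).2).2
    have hinj : Set.InjOn (fun p : ℤ × ℤ => p.1 + p.2) (Z ×ˢ Sr A v σ : Finset (ℤ × ℤ)) := by
      intro p hp q hq hpq
      obtain ⟨hp1, hp2⟩ := mem_product.1 (mem_coe.1 hp)
      obtain ⟨hq1, hq2⟩ := mem_product.1 (mem_coe.1 hq)
      have a1 := abs_lt.1 (mem_Sr.1 hp2).2
      have a2 := abs_lt.1 (mem_Sr.1 hq2).2
      simp only at hpq
      have e : (p.1 : ℝ) + p.2 = q.1 + q.2 := by exact_mod_cast hpq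
      have : p.1 = q.1 := by
        rcases lt_trichotomy p.1 q.1 with h | h | h
        · have := hZs _ hp1 _ hq1 h; linarith
        · exact h
        · have := hZs _ hq1 _ hp1 h; linarith
      ext
      · exact this
      · omega
    have hc : (Z ×ˢ Sr A v σ).card = Z.card * f A v σ := card_product _ _
    have hle : (Z ×ˢ Sr A v σ).card ≤ f A (v + k) (k * r + σ) := by
      apply card_le_card_of_injOn (fun p : ℤ × ℤ => p.1 + p.2) _ hinj
      intro p hp
      obtain ⟨hp1, hp2⟩ := mem_product.1 (mem_coe.1 hp)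
      have hz0 := nonneg_of_mem_nsmul hY0 k p.1 (hZ hp1)
      have hzm : (p.1 : ℝ) ≤ k * Y.max' hYne := by exact_mod_cast hZm p.1 hp1
      have a1 := abs_lt.1 (mem_Sr.1 hp2).2
      have hz0' : (0 : ℝ) ≤ p.1 := by exact_mod_cast hz0
      refine mem_coe.2 (mem_Sr.2 ⟨?_, ?_⟩)
      · rw [add_comm v k]
        exact S_add_mem (mem_S_of_mem_nsmul hYS k p.1 (hZ hp1)) (mem_Sr.1 hp2).1
      · have hk : (k : ℝ) * Y.max' hYne ≤ k * r :=
          mul_le_mul_of_nonneg_left hmaxr.le (Nat.cast_nonneg k)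
        have hkr : (0 : ℝ) ≤ k * r := by positivity
        push_cast
        rw [abs_lt]; constructor <;> linarith
    calc (k * (Y.card - 1) + 1) * f A v σ ≤ Z.card * f A v σ := Nat.mul_le_mul_right _ hZc
      _ = (Z ×ˢ Sr A v σ).card := hc.symm
      _ ≤ _ := hle

/-- the constant of `f_2 ≤ C2 f_1` -/
noncomputable def C2 (K : ℝ) : ℝ := 2 * 3 ^ ⌊K ^ 5⌋₊ * K ^ 2

lemma one_le_C2 {K : ℝ} (hK : 1 ≤ K) : 1 ≤ C2 K := by
  unfold C2
  have h1 : (1 : ℝ) ≤ 3 ^ ⌊K ^ 5⌋₊ := one_le_pow₀ (by norm_num)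
  have h2 : (1 : ℝ) ≤ K ^ 2 := one_le_pow₀ hK
  nlinarith [mul_le_mul h1 h2 (by norm_num) (by linarith)]

lemma f_two_le {A : Finset ℤ} (hA : A.Nonempty) {K : ℝ}
    (hP : ∀ m n : ℕ, ((m • A - n • A).card : ℝ) ≤ K ^ (m + n) * A.card)
    {r : ℝ} (hr : 0 < r) : (f A 2 r : ℝ) ≤ C2 K * f A 1 r := by
  have := f_le hA hP 2 hr
  unfold C2
  norm_num at this ⊢
  exact this

lemma f_two_double_le {A : Finset ℤ} (hA : A.Nonempty) {K : ℝ} (hK : 1 ≤ K)
    (hP : ∀ m n : ℕ, ((m • A - n • A).card : ℝ) ≤ K ^ (m + n) * A.card)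
    {σ : ℝ} (hσ : 0 < σ) : (f A 2 (2 * σ) : ℝ) ≤ 4 * C2 K ^ 2 * f A 1 σ := by
  have h1 := f_two_le hA hP (by linarith : (0:ℝ) < 2 * σ)
  have h2 : (f A 1 (2 * σ) : ℝ) ≤ 4 * f A 2 σ := by exact_mod_cast f_double A hσ
  have h3 := f_two_le hA hP hσ
  have hC := one_le_C2 hK
  calc (f A 2 (2 * σ) : ℝ) ≤ C2 K * f A 1 (2 * σ) := h1
    _ ≤ C2 K * (4 * (C2 K * f A 1 σ)) := by
        apply mul_le_mul_of_nonneg_left _ (by linarith)
        linarith
    _ = 4 * C2 K ^ 2 * f A 1 σ := by ring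

lemma poly_lt_exp (B : ℝ) (d : ℕ) : ∃ L0 : ℕ, 1 ≤ L0 ∧ ∀ L : ℕ, L0 ≤ L →
    B * (L : ℝ) ^ d < 2 ^ (L - 1) := by
  have h := tendsto_pow_const_div_const_pow_of_one_lt d (one_lt_two : (1:ℝ) < 2)
  have h2 : Filter.Tendsto (fun n : ℕ => (2 * |B|) * ((n : ℝ) ^ d / 2 ^ n)) Filter.atTop
      (nhds ((2 * |B|) * 0)) := h.const_mul _
  rw [mul_zero] at h2
  have h3 := (h2.eventually (gt_mem_nhds (zero_lt_one : (0:ℝ) < 1)))
  obtain ⟨N, hN⟩ := Filter.eventually_atTop.1 h3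
  refine ⟨max N 1, le_max_right _ _, fun L hL => ?_⟩
  have h4 := hN L (le_trans (le_max_left _ _) hL)
  have hL1 : 1 ≤ L := le_trans (le_max_right _ _) hL
  have h5 : (0 : ℝ) < 2 ^ L := by positivity
  have h6 : 2 * |B| * (L : ℝ) ^ d < 2 ^ L := by
    rw [← mul_div_assoc, div_lt_one h5] at h4
    exact h4
  have h7 : (2 : ℝ) ^ L = 2 * 2 ^ (L - 1) := by
    rw [← pow_succ']; congr 1; omega
  have h8 : B * (L : ℝ) ^ d ≤ |B| * (L : ℝ) ^ d :=
    mul_le_mul_of_nonneg_right (le_abs_self B) (by positivity)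
  rw [h7] at h6
  linarith

set_option maxHeartbeats 1600000 in
/-- (H4): growth contradiction. -/
theorem growth_contradiction (K C : ℝ) (hK : 1 ≤ K) (hC : 1 ≤ C) :
    ∃ μ0 : ℕ, ∀ μ : ℕ, μ0 ≤ μ → ∃ L0 : ℕ, ∀ A : Finset ℤ, A.Nonempty →
      (∀ m n : ℕ, ((m • A - n • A).card : ℝ) ≤ K ^ (m + n) * A.card) →
      ∀ (r : ℕ → ℝ) (L : ℕ), L0 ≤ L → 0 < r 0 →
      (∀ i < L, (f A 1 ((μ : ℝ) ^ 11 / 4 * r i) : ℝ) ≤ C * (μ : ℝ) ^ 10 * f A 1 (r i)) →
      (∀ i, i + 1 < L → (μ : ℝ) ^ 11 / 4 * r i ≤ r (i + 1)) →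
      (∀ i, i + 1 < L → (μ : ℝ) ^ 10 * f A 1 ((μ : ℝ) ^ 11 / 4 * r i) ≤ f A 1 (r (i + 1))) →
      False := by
  have hC2 := one_le_C2 hK
  refine ⟨⌈256 * C2 K ^ 2 * C⌉₊ + 16, fun μ hμ => ?_⟩
  have hμ1 : 256 * C2 K ^ 2 * C ≤ μ := by
    have := Nat.le_ceil (256 * C2 K ^ 2 * C)
    have h2 : ((⌈256 * C2 K ^ 2 * C⌉₊ + 16 : ℕ) : ℝ) ≤ μ := by exact_mod_cast hμ
    push_cast at h2; linarith
  have hμ16 : (16 : ℝ) ≤ μ := by
    have : 16 ≤ μ := by omega
    exact_mod_cast this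
  have hμpos : (0 : ℝ) < μ := by linarith
  set Λ : ℝ := (μ : ℝ) ^ 11 / 4 with hΛ
  set M : ℝ := (μ : ℝ) ^ 10 with hM
  have hM1 : (16 : ℝ) ≤ M := by
    have : (16 : ℝ) ^ 1 ≤ (μ : ℝ) ^ 10 := by
      calc (16 : ℝ) ^ 1 ≤ 16 ^ 10 := by norm_num
        _ ≤ (μ : ℝ) ^ 10 := pow_le_pow_left₀ (by norm_num) hμ16 10
    simpa using this
  have hΛM : Λ = M * μ / 4 := by rw [hΛ, hM]; ring
  have hMμ : 256 ≤ M * μ := by nlinarith
  -- k = ⌊Λ⌋ - 1
  set k : ℕ := ⌊Λ⌋₊ - 1 with hk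
  have hΛ64 : (64 : ℝ) ≤ Λ := by rw [hΛM]; linarith
  have hfl : 64 ≤ ⌊Λ⌋₊ := Nat.le_floor (by exact_mod_cast hΛ64)
  have hk1 : (k : ℝ) + 1 ≤ Λ := by
    have h1 : k + 1 = ⌊Λ⌋₊ := by omega
    have h2 : ((k + 1 : ℕ) : ℝ) ≤ Λ := by rw [h1]; exact Nat.floor_le (by linarith)
    push_cast at h2; exact h2
  have hk2 : Λ / 2 ≤ k := by
    have h1 : k + 1 = ⌊Λ⌋₊ := by omega
    have h2 : Λ < (⌊Λ⌋₊ : ℝ) + 1 := Nat.lt_floor_add_one Λ
    have h3 : ((k + 1 : ℕ) : ℝ) = (⌊Λ⌋₊ : ℝ) := by exact_mod_cast h1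
    push_cast at h3
    linarith
  have hkbig : 32 * C2 K ^ 2 * C * M ≤ k := by
    have : M * μ / 8 ≤ k := by rw [hΛM] at hk2; linarith
    have h2 : M * (256 * C2 K ^ 2 * C) ≤ M * μ := mul_le_mul_of_nonneg_left hμ1 (by linarith)
    linarith
  obtain ⟨L0, hL01, hL0⟩ := poly_lt_exp (2 * K ^ 2 * ((k : ℝ) + 2) ^ ⌊K ^ 5⌋₊) ⌊K ^ 5⌋₊
  refine ⟨L0, fun A hA hP r L hL hr0 ha hb hc => ?_⟩
  have hLpos : 1 ≤ L := le_trans hL01 hL
  -- radii
  let σ : ℕ → ℝ := fun i => Nat.rec (r 0) (fun i s => k * r (i + 1) + s) i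
  have hσ0 : σ 0 = r 0 := rfl
  have hσs : ∀ i, σ (i + 1) = k * r (i + 1) + σ i := fun i => rfl
  have hrpos : ∀ i < L, 0 < r i := by
    intro i
    induction i with
    | zero => intro _; exact hr0
    | succ n ih =>
      intro hn
      have h1 := ih (by omega)
      have h2 := hb n hn
      have : 0 < Λ * r n := by positivity
      linarith
  have hσbd : ∀ i < L, 0 < σ i ∧ σ i ≤ ((k : ℝ) + 1) * r i := by
    intro i
    induction i with
    | zero =>
      intro h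
      rw [hσ0]
      refine ⟨hr0, ?_⟩
      have : (0:ℝ) ≤ k := Nat.cast_nonneg k
      nlinarith
    | succ n ih =>
      intro hn
      obtain ⟨h1, h2⟩ := ih (by omega)
      have h3 := hb n hn
      have h4 := hrpos n (by omega)
      have h5 := hrpos (n + 1) hn
      rw [hσs]
      constructor
      · positivity
      · have : ((k : ℝ) + 1) * r n ≤ Λ * r n := mul_le_mul_of_nonneg_right hk1 h4.le
        nlinarith
  have main : ∀ i < L, (2 : ℝ) ^ i * f A 1 (σ i) ≤ f A (1 + k * i) (σ i) := by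
    intro i
    induction i with
    | zero => intro _; simp
    | succ n ih =>
      intro hn
      have ih' := ih (by omega)
      obtain ⟨hs1, hs2⟩ := hσbd n (by omega)
      obtain ⟨hs3, hs4⟩ := hσbd (n + 1) hn
      have hrn := hrpos n (by omega)
      have hrn1 := hrpos (n + 1) hn
      obtain ⟨t, ht1, ht2⟩ := step hA k (1 + k * n) hs1 hrn1
      have hf1 : (1 : ℝ) ≤ f A 1 (σ n) := by exact_mod_cast f_pos hA 1 hs1
      have e1 : (f A 1 (r (n + 1)) : ℝ) ≤ 8 * C2 K ^ 2 * ((t : ℝ) + 1) * f A 1 (σ n) := by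
        have h1 : (f A 1 (r (n + 1)) : ℝ) ≤ 2 * (((t : ℝ) + 1) * f A 2 (2 * σ n)) := by
          exact_mod_cast ht1
        have h2 := f_two_double_le hA hK hP hs1
        have h3 : ((t : ℝ) + 1) * f A 2 (2 * σ n) ≤
            ((t : ℝ) + 1) * (4 * C2 K ^ 2 * f A 1 (σ n)) :=
          mul_le_mul_of_nonneg_left h2 (by positivity)
        linarith
      have e2 : M * f A 1 (σ n) ≤ f A 1 (r (n + 1)) := by
        have h1 : σ n ≤ Λ * r n := hs2.trans (mul_le_mul_of_nonneg_right hk1 hrn.le)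
        have h2 : (f A 1 (σ n) : ℝ) ≤ f A 1 (Λ * r n) := by exact_mod_cast f_mono A 1 h1
        have h3 := hc n hn
        have : M * f A 1 (σ n) ≤ M * f A 1 (Λ * r n) :=
          mul_le_mul_of_nonneg_left h2 (by linarith)
        linarith
      have e3 : M ≤ 8 * C2 K ^ 2 * ((t : ℝ) + 1) := by
        have : M * f A 1 (σ n) ≤ 8 * C2 K ^ 2 * ((t : ℝ) + 1) * f A 1 (σ n) := e2.trans e1
        exact le_of_mul_le_mul_right this (by linarith)
      have hM2 : 16 * C2 K ^ 2 ≤ M := by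
        have h1 : 256 * C2 K ^ 2 * C ≤ μ := hμ1
        have h2 : (μ : ℝ) ≤ M := by
          rw [hM]
          calc (μ : ℝ) = μ ^ 1 := by ring
            _ ≤ μ ^ 10 := pow_le_pow_right₀ (by linarith) (by norm_num)
        have h3 : (0:ℝ) ≤ C2 K ^ 2 := by positivity
        nlinarith
      have ht : 1 ≤ t := by
        by_contra hcon
        have : t = 0 := by omega
        subst this
        have h3 : (0:ℝ) < C2 K ^ 2 := by positivity
        norm_num at e3
        linarith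
      have ht' : (1 : ℝ) ≤ t := by exact_mod_cast ht
      have e4 : ((k : ℝ) * ((t : ℝ) + 1) / 2) * (2 ^ n * f A 1 (σ n)) ≤
          f A (1 + k * (n + 1)) (σ (n + 1)) := by
        have h1 : (((k : ℝ) * t + 1) * f A (1 + k * n) (σ n)) ≤
            f A (1 + k * n + k) (k * r (n + 1) + σ n) := by exact_mod_cast ht2
        have h2 : 1 + k * n + k = 1 + k * (n + 1) := by ring
        rw [h2, ← hσs] at h1
        refine le_trans ?_ h1
        have hk0 : (0:ℝ) ≤ k := Nat.cast_nonneg k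
        apply mul_le_mul _ ih' (by positivity) (by positivity)
        nlinarith
      have e5 : (f A 1 (σ (n + 1)) : ℝ) ≤ C * M * f A 1 (r (n + 1)) := by
        have h1 : σ (n + 1) ≤ Λ * r (n + 1) :=
          hs4.trans (mul_le_mul_of_nonneg_right hk1 hrn1.le)
        have h2 : (f A 1 (σ (n + 1)) : ℝ) ≤ f A 1 (Λ * r (n + 1)) := by
          exact_mod_cast f_mono A 1 h1
        exact h2.trans (ha (n + 1) hn)
      -- combine
      have hk0 : (0:ℝ) ≤ k := Nat.cast_nonneg k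
      have e6 : (2 : ℝ) ^ (n + 1) * f A 1 (σ (n + 1)) ≤
          2 ^ (n + 1) * (C * M * (8 * C2 K ^ 2 * ((t : ℝ) + 1) * f A 1 (σ n))) := by
        apply mul_le_mul_of_nonneg_left _ (by positivity)
        refine e5.trans ?_
        apply mul_le_mul_of_nonneg_left e1 (by positivity)
      refine e6.trans (le_trans ?_ e4)
      have e7 : 2 ^ (n + 1) * (C * M * (8 * C2 K ^ 2 * ((t : ℝ) + 1) * (f A 1 (σ n) : ℝ))) =
          (32 * C2 K ^ 2 * C * M) * (((t : ℝ) + 1) / 2 * (2 ^ n * f A 1 (σ n))) := by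
        rw [pow_succ]; ring
      have e8 : ((k : ℝ) * ((t : ℝ) + 1) / 2) * (2 ^ n * (f A 1 (σ n) : ℝ)) =
          k * (((t : ℝ) + 1) / 2 * (2 ^ n * f A 1 (σ n))) := by ring
      rw [e7, e8]
      exact mul_le_mul_of_nonneg_right hkbig (by positivity)
  -- conclusion
  obtain ⟨hs1, _⟩ := hσbd (L - 1) (by omega)
  have h1 := main (L - 1) (by omega)
  have h2 := f_le hA hP (1 + k * (L - 1)) hs1
  have hf1 : (1 : ℝ) ≤ f A 1 (σ (L - 1)) := by exact_mod_cast f_pos hA 1 hs1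
  have h3 : (2 : ℝ) ^ (L - 1) ≤
      2 * (((1 + k * (L - 1) : ℕ) : ℝ) + 1) ^ ⌊K ^ 5⌋₊ * K ^ 2 := by
    have := h1.trans h2
    exact le_of_mul_le_mul_right this (by linarith)
  have h4 : (((1 + k * (L - 1) : ℕ) : ℝ) + 1) ≤ ((k : ℝ) + 2) * L := by
    have hL' : (1 : ℝ) ≤ L := by exact_mod_cast hLpos
    have h5 : ((L - 1 : ℕ) : ℝ) = L - 1 := by push_cast [hLpos]; ring
    push_cast
    rw [h5]
    have hk0 : (0:ℝ) ≤ k := Nat.cast_nonneg k
    nlinarith
  have h5 : (((1 + k * (L - 1) : ℕ) : ℝ) + 1) ^ ⌊K ^ 5⌋₊ ≤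
      (((k : ℝ) + 2) * L) ^ ⌊K ^ 5⌋₊ := pow_le_pow_left₀ (by positivity) h4 _
  have h6 := hL0 L hL
  have h7 : 2 * (((1 + k * (L - 1) : ℕ) : ℝ) + 1) ^ ⌊K ^ 5⌋₊ * K ^ 2 ≤
      2 * K ^ 2 * ((k : ℝ) + 2) ^ ⌊K ^ 5⌋₊ * (L : ℝ) ^ ⌊K ^ 5⌋₊ := by
    rw [mul_pow] at h5
    have hK2 : (0 : ℝ) ≤ 2 * K ^ 2 := by positivity
    have h8 := mul_le_mul_of_nonneg_left h5 hK2
    calc 2 * (((1 + k * (L - 1) : ℕ) : ℝ) + 1) ^ ⌊K ^ 5⌋₊ * K ^ 2
        = 2 * K ^ 2 * (((1 + k * (L - 1) : ℕ) : ℝ) + 1) ^ ⌊K ^ 5⌋₊ := by ring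
      _ ≤ 2 * K ^ 2 * (((k : ℝ) + 2) ^ ⌊K ^ 5⌋₊ * (L : ℝ) ^ ⌊K ^ 5⌋₊) := h8
      _ = _ := by ring
  linarith

/-- greedy disjoint half-open intervals covering a finite set -/
lemma exists_greedy (ρ : ℤ → ℝ) (B : Finset ℤ) (hρ : ∀ b ∈ B, 0 < ρ b) :
    ∃ B' ⊆ B, (∀ b ∈ B, ∃ b' ∈ B', (b' : ℝ) ≤ b ∧ (b : ℝ) < b' + ρ b') ∧
      ∀ a ∈ B', ∀ b ∈ B', a < b → (a : ℝ) + ρ a ≤ b := by
  induction B using Finset.strongInduction with
  | H B ih =>
    rcases B.eq_empty_or_nonempty with rfl | hB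
    · exact ⟨∅, by simp, by simp, by simp⟩
    · set m := B.min' hB with hm
      have hmB : m ∈ B := B.min'_mem hB
      have hss : B.filter (fun t : ℤ => (m : ℝ) + ρ m ≤ t) ⊂ B := by
        refine (filter_ssubset).2 ⟨m, hmB, ?_⟩
        push Not
        linarith [hρ m hmB]
      obtain ⟨Y, hY, hcov, hsep⟩ := ih _ hss (fun b hb => hρ b (mem_filter.1 hb).1)
      refine ⟨insert m Y, ?_, ?_, ?_⟩
      · intro z hz
        rcases mem_insert.1 hz with rfl | hz
        · exact hmB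
        · exact (mem_filter.1 (hY hz)).1
      · intro t ht
        by_cases h : (m : ℝ) + ρ m ≤ t
        · obtain ⟨y, hy, hy2⟩ := hcov t (mem_filter.2 ⟨ht, h⟩)
          exact ⟨y, mem_insert_of_mem hy, hy2⟩
        · refine ⟨m, mem_insert_self _ _, ?_, ?_⟩
          · exact_mod_cast B.min'_le t ht
          · push Not at h; exact h
      · intro a ha b hb hab
        rcases mem_insert.1 ha with rfl | ha'
        · rcases mem_insert.1 hb with rfl | hb'
          · exact absurd hab (lt_irrefl _)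
          · exact (mem_filter.1 (hY hb')).2
        · rcases mem_insert.1 hb with rfl | hb'
          · exfalso
            have h1 := (mem_filter.1 (hY ha')).2
            have h2 : (a : ℝ) < (m : ℝ) := by exact_mod_cast hab
            have := hρ m hmB
            linarith
          · exact hsep a ha' b hb' hab

/-- (H2), right-hand version: the set of `a ∈ A` such that for some `r > 0` the interval
`[a, a+r)` contains at most `ε f_1(r)` elements of `A` has at most `2 ε #(2A - A)` elements. -/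
lemma H2_right (A : Finset ℤ) {ε : ℝ} (hε : 0 ≤ ε) (B : Finset ℤ) (hBA : B ⊆ A)
    (hB : ∀ b ∈ B, ∃ r : ℝ, 0 < r ∧
      ((A.filter (fun a : ℤ => (b : ℝ) ≤ a ∧ (a : ℝ) < b + r)).card : ℝ) ≤ ε * f A 1 r) :
    (B.card : ℝ) ≤ 2 * ε * (2 • A - A).card := by
  classical
  choose! ρ hρ hρ2 using hB
  obtain ⟨B', hB', hcov, hsep⟩ := exists_greedy ρ B hρ
  have h1 : (B.card : ℝ) ≤ ∑ b ∈ B', ε * f A 1 (ρ b) := by
    have hsub : B ⊆ B'.biUnion
        (fun b => A.filter (fun a : ℤ => (b : ℝ) ≤ a ∧ (a : ℝ) < b + ρ b)) := by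
      intro t ht
      obtain ⟨b', hb', h⟩ := hcov t ht
      exact mem_biUnion.2 ⟨b', hb', mem_filter.2 ⟨hBA ht, h⟩⟩
    have h2 := (card_le_card hsub).trans card_biUnion_le
    calc (B.card : ℝ) ≤ ((∑ b ∈ B',
          (A.filter (fun a : ℤ => (b : ℝ) ≤ a ∧ (a : ℝ) < b + ρ b)).card : ℕ) : ℝ) := by
            exact_mod_cast h2
      _ = ∑ b ∈ B', ((A.filter (fun a : ℤ => (b : ℝ) ≤ a ∧ (a : ℝ) < b + ρ b)).card : ℝ) := by
            push_cast; rfl
      _ ≤ ∑ b ∈ B', ε * f A 1 (ρ b) := sum_le_sum (fun b hb => hρ2 b (hB' hb))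
  -- half of the differences are nonnegative
  let P : ℤ → Finset ℤ := fun b => (Sr A 1 (ρ b)).filter (fun z : ℤ => 0 ≤ z)
  have hhalf : ∀ b, f A 1 (ρ b) ≤ 2 * (P b).card := by
    intro b
    have hsub : Sr A 1 (ρ b) ⊆ P b ∪ (P b).image (fun z => -z) := by
      intro z hz
      rcases le_total 0 z with h | h
      · exact mem_union_left _ (mem_filter.2 ⟨hz, h⟩)
      · refine mem_union_right _ (mem_image.2 ⟨-z, mem_filter.2 ⟨mem_Sr.2 ⟨?_, ?_⟩, ?_⟩, neg_neg z⟩)
        · exact neg_mem_S (mem_Sr.1 hz).1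
        · push_cast; rw [abs_neg]; exact (mem_Sr.1 hz).2
        · omega
    have := (card_le_card hsub).trans (card_union_le _ _)
    have h2 : ((P b).image (fun z => -z)).card ≤ (P b).card := card_image_le
    have h3 : f A 1 (ρ b) = (Sr A 1 (ρ b)).card := rfl
    omega
  have h3 : ∑ b ∈ B', (P b).card ≤ (2 • A - A).card := by
    have hdis : ∀ a ∈ B', ∀ b ∈ B', a ≠ b →
        Disjoint ((P a).image (fun z => a + z)) ((P b).image (fun z => b + z)) := by
      have aux : ∀ a ∈ B', ∀ b ∈ B', a < b →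
          Disjoint ((P a).image (fun z => a + z)) ((P b).image (fun z => b + z)) := by
        intro a ha b hb hab
        rw [disjoint_left]
        intro x hx hy
        obtain ⟨z, hz, rfl⟩ := mem_image.1 hx
        obtain ⟨w, hw, hzw⟩ := mem_image.1 hy
        have h1 := hsep a ha b hb hab
        have h2 := (abs_lt.1 (mem_Sr.1 (mem_filter.1 hz).1).2).2
        have h3 := (mem_filter.1 hw).2
        have h4 : (0 : ℝ) ≤ w := by exact_mod_cast h3
        have h5 : (b : ℝ) + w = a + z := by exact_mod_cast hzw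
        linarith
      intro a ha b hb hab
      rcases lt_or_gt_of_ne hab with h | h
      · exact aux a ha b hb h
      · exact (aux b hb a ha h).symm
    have hc : ∀ b ∈ B', ((P b).image (fun z => b + z)).card = (P b).card := by
      intro b _
      exact card_image_of_injective _ (fun x y h => by simpa using h)
    rw [← sum_congr rfl hc, ← card_biUnion hdis]
    apply card_le_card
    intro x hx
    obtain ⟨b, hb, hx⟩ := mem_biUnion.1 hx
    obtain ⟨z, hz, rfl⟩ := mem_image.1 hx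
    obtain ⟨c, hc, d, hd, hcd⟩ := mem_sub.1 (mem_Sr.1 (mem_filter.1 hz).1).1
    rw [one_nsmul] at hc hd
    refine mem_sub.2 ⟨b + c, ?_, d, hd, by rw [← hcd]; ring⟩
    rw [two_nsmul]
    exact add_mem_add (hBA (hB' hb)) hc
  calc (B.card : ℝ) ≤ ∑ b ∈ B', ε * f A 1 (ρ b) := h1
    _ ≤ ∑ b ∈ B', ε * (2 * (P b).card) := by
        apply sum_le_sum
        intro b _
        apply mul_le_mul_of_nonneg_left _ hε
        exact_mod_cast hhalf b
    _ = 2 * ε * ((∑ b ∈ B', (P b).card : ℕ) : ℝ) := by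
        push_cast
        rw [mul_sum]
        apply sum_congr rfl
        intro b _; ring
    _ ≤ 2 * ε * (2 • A - A).card := by
        apply mul_le_mul_of_nonneg_left _ (by linarith)
        exact_mod_cast h3

/-- (H2), right version with the Plünnecke constant. -/
lemma H2_right' (A : Finset ℤ) {K : ℝ}
    (hP : ∀ m n : ℕ, ((m • A - n • A).card : ℝ) ≤ K ^ (m + n) * A.card)
    {ε : ℝ} (hε : 0 ≤ ε) (B : Finset ℤ) (hBA : B ⊆ A)
    (hB : ∀ b ∈ B, ∃ r : ℝ, 0 < r ∧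
      ((A.filter (fun a : ℤ => (b : ℝ) ≤ a ∧ (a : ℝ) < b + r)).card : ℝ) ≤ ε * f A 1 r) :
    (B.card : ℝ) ≤ 2 * ε * (K ^ 3 * A.card) := by
  refine (H2_right A hε B hBA hB).trans ?_
  have h := hP 2 1
  rw [one_nsmul] at h
  exact mul_le_mul_of_nonneg_left h (by linarith)

lemma neg_nsmul_finset (A : Finset ℤ) (k : ℕ) : k • (-A) = -(k • A) := by
  induction k with
  | zero => simp
  | succ n ih => rw [succ_nsmul, succ_nsmul, ih, neg_add]

lemma S_neg (A : Finset ℤ) (k : ℕ) : S (-A) k = S A k := by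
  unfold S
  rw [neg_nsmul_finset, sub_neg_eq_add, neg_add_eq_sub]

lemma f_neg (A : Finset ℤ) (k : ℕ) (r : ℝ) : f (-A) k r = f A k r := by
  unfold f Sr
  rw [S_neg]

/-- (H2), left version. -/
lemma H2_left' (A : Finset ℤ) {K : ℝ}
    (hP : ∀ m n : ℕ, ((m • A - n • A).card : ℝ) ≤ K ^ (m + n) * A.card)
    {ε : ℝ} (hε : 0 ≤ ε) (B : Finset ℤ) (hBA : B ⊆ A)
    (hB : ∀ b ∈ B, ∃ r : ℝ, 0 < r ∧
      ((A.filter (fun a : ℤ => (b : ℝ) - r < a ∧ (a : ℝ) ≤ b)).card : ℝ) ≤ ε * f A 1 r) :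
    (B.card : ℝ) ≤ 2 * ε * (K ^ 3 * A.card) := by
  have hcard : (-A).card = A.card := card_neg A
  have hP' : ∀ m n : ℕ, ((m • (-A) - n • (-A)).card : ℝ) ≤ K ^ (m + n) * (-A).card := by
    intro m n
    rw [neg_nsmul_finset, neg_nsmul_finset, sub_neg_eq_add, neg_add_eq_sub, hcard]
    have := hP n m
    rw [add_comm n m] at this
    exact this
  have h := H2_right' (-A) hP' hε (-B) (neg_subset_neg hBA) ?_
  · rw [card_neg, hcard] at h; exact h
  · intro b hb
    have hb' : -b ∈ B := by simpa using hb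
    obtain ⟨r, hr, h⟩ := hB (-b) hb'
    refine ⟨r, hr, ?_⟩
    rw [f_neg]
    refine le_trans ?_ h
    have : ((-A).filter (fun a : ℤ => (b : ℝ) ≤ a ∧ (a : ℝ) < b + r)).card ≤
        (A.filter (fun a : ℤ => ((-b : ℤ) : ℝ) - r < a ∧ (a : ℝ) ≤ ((-b : ℤ) : ℝ))).card := by
      apply card_le_card_of_injOn (fun z => -z)
      · intro z hz
        have hz' := mem_filter.1 (mem_coe.1 hz)
        refine mem_coe.2 (mem_filter.2 ⟨by simpa using hz'.1, ?_, ?_⟩)
        · push_cast; linarith [hz'.2.2]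
        · push_cast; linarith [hz'.2.1]
      · intro x _ y _ h
        simpa using h
    exact_mod_cast this

/-- Plünnecke–Ruzsa in the form used here. -/
lemma plunnecke {A B : Finset ℤ} (hA : A.Nonempty) {K : ℝ}
    (h : ((A + B).card : ℝ) ≤ K * A.card) (m n : ℕ) :
    ((m • B - n • B).card : ℝ) ≤ K ^ (m + n) * A.card := by
  have hAc : (0 : ℝ) < A.card := by exact_mod_cast card_pos.2 hA
  have h1 := pluennecke_ruzsa_inequality_nsmul_sub_nsmul_add hA B m n
  have h2 : ((m • B - n • B).card : ℝ) ≤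
      (((A + B).card : ℝ) / A.card) ^ (m + n) * A.card := by
    have h3 : (((m • B - n • B).card : ℚ≥0) : ℝ) ≤
        (((((A + B).card : ℚ≥0) / (A.card : ℚ≥0)) ^ (m + n) * (A.card : ℚ≥0) : ℚ≥0) : ℝ) := by
      exact_mod_cast h1
    push_cast at h3
    exact h3
  refine h2.trans ?_
  apply mul_le_mul_of_nonneg_right _ hAc.le
  apply pow_le_pow_left₀ (by positivity)
  rw [div_le_iff₀ hAc]; exact h

end Crest.Agent.R51.Growth
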