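import Crest.Agent.R51.AddJump
import Crest.Agent.R51.AddBase
import Crest.Agent.R51.AddGrowth
import Crest.Agent.R51.AddCommon
import Crest.Agent.R51.AddCell

-- ▼ part R51/AddJump2
section

/-! Row 51, section 9.2: the no-jump lemma, second part (grids and count).  (helper617) -/

set_option autoImplicit false

namespace Crest.Agent.R51.Jump

open Finset Classical Crest.Agent.R51.Add

/-! ### The grids -/

/-- cell index of `x` at scale `4 ^ t`, shift `x0`. -/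
noncomputable def idx (x0 : ℝ) (t : ℤ) (x : ℝ) : ℤ := ⌊x / (4:ℝ) ^ t - x0⌋

/-- the two shifts -/
noncomputable def shf (b : Bool) : ℝ := if b then 1 / 3 else 0

lemma shf_three (b : Bool) : ∃ k : ℤ, 3 * shf b = k := by
  cases b
  · exact ⟨0, by simp [shf]⟩
  · exact ⟨1, by simp [shf]⟩

lemma idx_mono {x0 : ℝ} {t : ℤ} {x y : ℝ} (h : x ≤ y) : idx x0 t x ≤ idx x0 t y := by
  unfold idx
  refine Int.floor_le_floor ?_
  have : (0:ℝ) < 4 ^ t := by positivity
  gcongr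

lemma idx_succ {x0 : ℝ} {k : ℤ} (hk : 3 * x0 = k) {t : ℤ} {x y : ℝ} (h : idx x0 t x = idx x0 t y) :
    idx x0 (t + 1) x = idx x0 (t + 1) y := by
  have key : ∀ x : ℝ, idx x0 (t + 1) x = (idx x0 t x - k) / 4 := by
    intro x
    set n := idx x0 t x with hn
    have h1 : (n : ℝ) ≤ x / (4:ℝ) ^ t - x0 ∧ x / (4:ℝ) ^ t - x0 < n + 1 := by
      rw [← Int.floor_eq_iff]; rfl
    have h2 : x / (4:ℝ) ^ (t + 1) - x0 = (x / (4:ℝ) ^ t - x0 - k) / 4 := by
      rw [zpow_add_one₀ (by norm_num), ← hk]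
      have : (4:ℝ) ^ t ≠ 0 := by positivity
      field_simp
      ring
    rw [idx, Int.floor_eq_iff, h2]
    have h3 : 4 * ((n - k) / 4) ≤ n - k := by omega
    have h4 : n - k + 1 ≤ 4 * ((n - k) / 4) + 4 := by omega
    have h3' : (4:ℝ) * (((n - k) / 4 : ℤ) : ℝ) ≤ n - k := by exact_mod_cast h3
    have h4' : (n : ℝ) - k + 1 ≤ 4 * (((n - k) / 4 : ℤ) : ℝ) + 4 := by exact_mod_cast h4
    constructor <;> linarith [h1.1, h1.2]
  rw [key, key, h]

lemma idx_nested (b : Bool) {s t : ℤ} (hst : s ≤ t) {x y : ℝ}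
    (h : idx (shf b) s x = idx (shf b) s y) : idx (shf b) t x = idx (shf b) t y := by
  obtain ⟨k, hk⟩ := shf_three b
  obtain ⟨n, rfl⟩ := Int.le.dest hst
  induction n with
  | zero => simpa using h
  | succ n ih =>
    have := idx_succ hk (ih (by omega))
    rw [add_assoc] at this
    exact_mod_cast this

lemma idx_diam {x0 : ℝ} {t : ℤ} {x y : ℝ} (h : idx x0 t x = idx x0 t y) : |x - y| ≤ 4 ^ t := by
  have h1 := Int.abs_sub_lt_one_of_floor_eq_floor h
  have h4 : (0:ℝ) < 4 ^ t := by positivity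
  have h2 : x / (4:ℝ) ^ t - x0 - (y / (4:ℝ) ^ t - x0) = (x - y) / 4 ^ t := by ring
  rw [h2, abs_div, abs_of_pos h4, div_lt_one h4] at h1
  exact h1.le

lemma exists_grid (a r : ℝ) (hr : 0 < r) (t : ℤ) (h6 : 6 * r < 4 ^ t) :
    ∃ b : Bool, idx (shf b) t (a - r) = idx (shf b) t (a + r) := by
  have h4 : (0:ℝ) < 4 ^ t := by positivity
  set X := (a - r) / (4:ℝ) ^ t with hX
  set Y := (a + r) / (4:ℝ) ^ t with hY
  have hXY : X ≤ Y := by rw [hX, hY]; gcongr; linarith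
  have hYX : Y < X + 1 / 3 := by
    have h1 : Y - X = 2 * r / 4 ^ t := by rw [hX, hY]; ring
    have h2 : 2 * r / (4:ℝ) ^ t < 1 / 3 := by
      rw [div_lt_div_iff₀ h4 (by norm_num)]; linarith
    linarith
  by_cases h : ⌊X⌋ = ⌊Y⌋
  · refine ⟨false, ?_⟩
    simp only [idx, shf, Bool.false_eq_true, if_false, sub_zero]
    exact h
  · refine ⟨true, ?_⟩
    have hlt : ⌊X⌋ < ⌊Y⌋ := lt_of_le_of_ne (Int.floor_le_floor hXY) h
    have h1 : X < ⌊Y⌋ := Int.floor_lt.1 hlt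
    have h2 : (⌊Y⌋ : ℝ) ≤ Y := Int.floor_le Y
    simp only [idx, shf, if_true]
    have e1 : ⌊X - 1 / 3⌋ = ⌊Y⌋ - 1 := by
      rw [Int.floor_eq_iff]; push_cast; constructor <;> linarith
    have e2 : ⌊Y - 1 / 3⌋ = ⌊Y⌋ - 1 := by
      rw [Int.floor_eq_iff]; push_cast; constructor <;> linarith
    rw [← hX, ← hY, e1, e2]

lemma exists_scale (r : ℝ) (hr : 0 < r) : ∃ t : ℤ, 6 * r < 4 ^ t ∧ (4:ℝ) ^ t ≤ 24 * r := by
  obtain ⟨n, hn1, hn2⟩ := exists_mem_Ico_zpow (x := 24 * r) (y := 4) (by linarith) (by norm_num)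
  refine ⟨n, ?_, hn1⟩
  rw [zpow_add_one₀ (by norm_num)] at hn2
  linarith

section counting
variable {R : Type*} [Fintype R]

/-- the block of points in the cell of `v` -/
noncomputable def blk (x0 : ℝ) (t : ℤ) (α : R → ℝ) (v : R) : Finset R :=
  univ.filter fun u => idx x0 t (α u) = idx x0 t (α v)

lemma mem_blk {x0 : ℝ} {t : ℤ} {α : R → ℝ} {v u : R} :
    u ∈ blk x0 t α v ↔ idx x0 t (α u) = idx x0 t (α v) := by simp [blk]

lemma self_mem_blk {x0 : ℝ} {t : ℤ} {α : R → ℝ} {v : R} : v ∈ blk x0 t α v := by simp [mem_blk]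

lemma cvx_cell (x0 : ℝ) (t : ℤ) (α : R → ℝ) (n : ℤ) :
    Cvx α (univ.filter fun u => idx x0 t (α u) = n) := by
  intro u hu v hv x h1 h2
  rw [mem_filter] at hu hv ⊢
  refine ⟨mem_univ _, le_antisymm ?_ ?_⟩
  · rw [← hv.2]; exact idx_mono h2
  · rw [← hu.2]; exact idx_mono h1

lemma cvx_blk (x0 : ℝ) (t : ℤ) (α : R → ℝ) (v : R) : Cvx α (blk x0 t α v) :=
  cvx_cell x0 t α _

lemma cover_labels {β : R → ℝ} {z : R → ℕ} (x0 : ℝ) (t : ℤ) (K : ℕ) (hK : 0 < K) {c : ℝ}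
    (hc : 0 ≤ c) (S : Finset R) (n : ℤ) (hn : ∀ v ∈ S, idx x0 t (β v) = n)
    (hsm : ∀ v ∈ S, (gg β z v (4 ^ t / K) : ℝ) ≤ c) : (#(S.image z) : ℝ) ≤ K * c := by
  have h4 : (0:ℝ) < 4 ^ t := by positivity
  have hK' : (0:ℝ) < K := by exact_mod_cast hK
  set κ : R → ℤ := fun v => ⌊K * (β v / 4 ^ t - x0 - n)⌋ with hκ
  have hrange : ∀ v ∈ S, κ v ∈ Ico (0:ℤ) K := by
    intro v hv
    have h1 : (n : ℝ) ≤ β v / (4:ℝ) ^ t - x0 ∧ β v / (4:ℝ) ^ t - x0 < n + 1 := by
      rw [← Int.floor_eq_iff]; exact hn v hv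
    rw [mem_Ico]
    constructor
    · exact Int.floor_nonneg.2 (mul_nonneg hK'.le (by linarith [h1.1]))
    · rw [hκ, Int.floor_lt]
      have : (K:ℝ) * (β v / 4 ^ t - x0 - n) < K * 1 :=
        mul_lt_mul_of_pos_left (by linarith [h1.2]) hK'
      simpa using this
  have hsub : S.image z ⊆ (Ico (0:ℤ) K).biUnion fun k => (S.filter fun v => κ v = k).image z := by
    intro b hb
    obtain ⟨v, hv, rfl⟩ := mem_image.1 hb
    exact mem_biUnion.2 ⟨κ v, hrange v hv, mem_image_of_mem _ (mem_filter.2 ⟨hv, rfl⟩)⟩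
  have hone : ∀ k ∈ Ico (0:ℤ) K, (#((S.filter fun v => κ v = k).image z) : ℝ) ≤ c := by
    intro k _
    rcases (S.filter fun v => κ v = k).eq_empty_or_nonempty with h0 | ⟨v, hv⟩
    · rw [h0]; simpa using hc
    · refine le_trans ?_ (hsm v (mem_filter.1 hv).1)
      rw [gg]
      refine Nat.cast_le.2 (card_le_card (image_subset_image fun u hu => ?_))
      rw [mem_Iv]
      have h1 := Int.abs_sub_lt_one_of_floor_eq_floor
        ((mem_filter.1 hu).2.trans (mem_filter.1 hv).2.symm)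
      have h2 : (K:ℝ) * (β u / 4 ^ t - x0 - n) - K * (β v / 4 ^ t - x0 - n) =
          (β u - β v) / (4 ^ t / K) := by field_simp; ring
      have h5 : (0:ℝ) < 4 ^ t / K := by positivity
      rw [h2, abs_div, abs_of_pos h5, div_lt_one h5] at h1
      exact h1.le
  calc (#(S.image z) : ℝ) ≤ ((∑ k ∈ Ico (0:ℤ) K, #((S.filter fun v => κ v = k).image z) : ℕ) : ℝ) := by
        exact_mod_cast (card_le_card hsub).trans card_biUnion_le
    _ = ∑ k ∈ Ico (0:ℤ) K, (#((S.filter fun v => κ v = k).image z) : ℝ) := by push_cast; rfl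
    _ ≤ ∑ k ∈ Ico (0:ℤ) K, c := sum_le_sum hone
    _ = K * c := by simp

lemma contained_count {α β : R → ℝ} {w z : R → ℕ} (hz : OrdConv β z) {T c : ℝ} (hT : 3 ≤ T)
    (hc : 0 ≤ c) (hcT : c < T) (m0 K : ℕ) (hK : 0 < K) (hKm : (K:ℝ) ≤ 4 ^ m0) (x0 y0 : ℝ)
    (J : Finset R) (t : R → ℤ) (ht : ∀ v ∈ J, ∀ v' ∈ J, t v < t v' → t v + m0 ≤ t v')
    (hTA : ∀ v ∈ J, T ≤ #((blk x0 (t v) α v).image w))
    (hTB : ∀ v ∈ J, T ≤ #((blk y0 (t v) β v).image z))
    (hsA : ∀ v ∈ J, (gg α w v (4 ^ (t v) / K) : ℝ) ≤ c)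
    (hsB : ∀ v ∈ J, (gg β z v (4 ^ (t v) / K) : ℝ) ≤ c)
    (hin : ∀ v ∈ J, ∀ u, w u = w v → u ∈ blk x0 (t v) α v) :
    (#(J.image fun v => (w v, z v)) : ℝ) ≤
      #(univ.image w) * (#(univ.image z) / (T - 2) * (K * c)) := by
  have hK' : (0:ℝ) < K := by exact_mod_cast hK
  have hsame : ∀ v ∈ J, ∀ v' ∈ J, w v = w v' → ¬ t v < t v' := by
    intro v hv v' hv' hww hlt
    have h1 : v' ∈ blk x0 (t v) α v := hin v hv v' hww.symm
    have h2 : blk x0 (t v) α v ⊆ Iv α v' (4 ^ (t v') / K) := by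
      intro u hu
      rw [mem_Iv]
      have h3 := idx_diam ((mem_blk.1 hu).trans (mem_blk.1 h1).symm)
      refine h3.trans ?_
      rw [le_div_iff₀ hK']
      have h4 : (4:ℝ) ^ (t v) * 4 ^ m0 ≤ 4 ^ (t v') := by
        rw [← zpow_natCast, ← zpow_add₀ (by norm_num)]
        exact zpow_le_zpow_right₀ (by norm_num) (ht v hv v' hv' hlt)
      refine le_trans ?_ h4
      exact mul_le_mul_of_nonneg_left hKm (by positivity)
    have h3 : #((blk x0 (t v) α v).image w) ≤ gg α w v' (4 ^ (t v') / K) :=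
      card_le_card (image_subset_image h2)
    have h4 : (#((blk x0 (t v) α v).image w) : ℝ) ≤ gg α w v' (4 ^ (t v') / K) := by
      exact_mod_cast h3
    linarith [hTA v hv, hsA v' hv']
  have hN2 : (0:ℝ) ≤ #(univ.image z) / (T - 2) := div_nonneg (by positivity) (by linarith)
  have hsub : J.image (fun v => (w v, z v)) ⊆ (univ.image w).biUnion fun a =>
      ((J.filter fun v => w v = a).image z).image fun b => (a, b) := by
    intro x hx
    obtain ⟨v, hv, rfl⟩ := mem_image.1 hx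
    exact mem_biUnion.2 ⟨w v, mem_image_of_mem _ (mem_univ _),
      mem_image.2 ⟨z v, mem_image_of_mem _ (mem_filter.2 ⟨hv, rfl⟩), rfl⟩⟩
  have hone : ∀ a ∈ univ.image w,
      (#(((J.filter fun v => w v = a).image z).image fun b => (a, b)) : ℝ) ≤
        #(univ.image z) / (T - 2) * (K * c) := by
    intro a _
    have hle : (#(((J.filter fun v => w v = a).image z).image fun b => (a, b)) : ℝ) ≤
        #((J.filter fun v => w v = a).image z) := by exact_mod_cast card_image_le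
    refine hle.trans ?_
    set Ja := J.filter fun v => w v = a with hJa
    rcases Ja.eq_empty_or_nonempty with h0 | ⟨v₀, hv₀⟩
    · rw [h0]; simp only [image_empty, card_empty, Nat.cast_zero]; positivity
    have hmem : ∀ v ∈ Ja, v ∈ J ∧ t v = t v₀ := by
      intro v hv
      have h1 := mem_filter.1 hv
      have h2 := mem_filter.1 hv₀
      refine ⟨h1.1, le_antisymm ?_ ?_⟩
      · exact not_lt.1 (hsame v₀ h2.1 v h1.1 (h2.2.trans h1.2.symm))
      · exact not_lt.1 (hsame v h1.1 v₀ h2.1 (h1.2.trans h2.2.symm))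
    set t₀ := t v₀ with ht₀
    set 𝒩 := Ja.image fun v => idx y0 t₀ (β v) with h𝒩
    have h𝒩c : (#𝒩 : ℝ) ≤ #(univ.image z) / (T - 2) := by
      rw [le_div_iff₀ (by linarith)]
      refine disjoint_blocks hz 𝒩 (fun n => univ.filter fun u => idx y0 t₀ (β u) = n)
        (fun n _ => cvx_cell y0 t₀ β n) ?_ ?_
      · intro n _ n' _ hnn
        rw [disjoint_left]
        intro u hu hu'
        exact hnn ((mem_filter.1 hu).2.symm.trans (mem_filter.1 hu').2)
      · intro n hn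
        obtain ⟨v, hv, rfl⟩ := mem_image.1 hn
        have := hTB v (hmem v hv).1
        rw [(hmem v hv).2] at this
        exact this
    have hsub2 : Ja.image z ⊆ 𝒩.biUnion fun n =>
        (Ja.filter fun v => idx y0 t₀ (β v) = n).image z := by
      intro b hb
      obtain ⟨v, hv, rfl⟩ := mem_image.1 hb
      exact mem_biUnion.2 ⟨_, mem_image_of_mem _ hv, mem_image_of_mem _ (mem_filter.2 ⟨hv, rfl⟩)⟩
    have hone2 : ∀ n ∈ 𝒩, (#((Ja.filter fun v => idx y0 t₀ (β v) = n).image z) : ℝ) ≤ K * c := by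
      intro n _
      refine cover_labels y0 t₀ K hK hc _ n (fun v hv => (mem_filter.1 hv).2) fun v hv => ?_
      have h1 := hmem v (mem_filter.1 hv).1
      have := hsB v h1.1
      rwa [h1.2] at this
    calc (#(Ja.image z) : ℝ)
        ≤ ((∑ n ∈ 𝒩, #((Ja.filter fun v => idx y0 t₀ (β v) = n).image z) : ℕ) : ℝ) := by
          exact_mod_cast (card_le_card hsub2).trans card_biUnion_le
      _ = ∑ n ∈ 𝒩, (#((Ja.filter fun v => idx y0 t₀ (β v) = n).image z) : ℝ) := by push_cast; rfl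
      _ ≤ ∑ n ∈ 𝒩, (K * c : ℝ) := sum_le_sum hone2
      _ = #𝒩 * (K * c) := by rw [sum_const, nsmul_eq_mul]
      _ ≤ _ := by gcongr
  calc (#(J.image fun v => (w v, z v)) : ℝ)
      ≤ ((∑ a ∈ univ.image w,
          #(((J.filter fun v => w v = a).image z).image fun b => (a, b)) : ℕ) : ℝ) := by
        exact_mod_cast (card_le_card hsub).trans card_biUnion_le
    _ = ∑ a ∈ univ.image w,
          (#(((J.filter fun v => w v = a).image z).image fun b => (a, b)) : ℝ) := by push_cast; rfl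
    _ ≤ ∑ a ∈ univ.image w, (#(univ.image z) / (T - 2) * (K * c) : ℝ) := sum_le_sum hone
    _ = _ := by rw [sum_const, nsmul_eq_mul]

end counting

end Crest.Agent.R51.Jump
end

-- ▼ part R51/AddJump3
section

/-! Row 51, section 9.2: the no-jump lemma, final part.  (helper617) -/

set_option autoImplicit false

namespace Crest.Agent.R51.Jump

open Finset Classical Crest.Agent.R51.Add

section counting
variable {R : Type*} [Fintype R]

/-- squares of the grids -/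
noncomputable def sq (x0 y0 : ℝ) (t : ℤ) (α β : R → ℝ) (v : R) : Set ℝ × Set ℝ :=
  ({x | idx x0 t x = idx x0 t (α v)}, {y | idx y0 t y = idx y0 t (β v)})

lemma rr_squares {α β α' β' : R → ℝ} {w z : R → ℕ} (hw : OrdConv α' w) (hz : OrdConv β' z)
    {T μ : ℝ} (hT3 : 3 ≤ T) (hμ : 0 < μ) (b₁ b₂ : Bool) (J : Finset R) (t : R → ℤ)
    (hcA : ∀ v ∈ J, Cvx α' (blk (shf b₁) (t v) α v)) (hcB : ∀ v ∈ J, Cvx β' (blk (shf b₂) (t v) β v))
    (hTA : ∀ v ∈ J, T ≤ #((blk (shf b₁) (t v) α v).image w))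
    (hTB : ∀ v ∈ J, T ≤ #((blk (shf b₂) (t v) β v).image z))
    (hmass : ∀ v ∈ J, μ ≤ #(blk (shf b₁) (t v) α v ∩ blk (shf b₂) (t v) β v))
    (hRA : ∀ v ∈ J, RC α' w (blk (shf b₁) (t v) α v) (w v))
    (hRB : ∀ v ∈ J, RC β' z (blk (shf b₂) (t v) β v) (z v)) :
    (#(J.image fun v => (w v, z v)) : ℝ) ≤ Fintype.card R / μ +
      2 * ((#(univ.image w) : ℝ) * #(univ.image z) / (T - 2)) := by
  set F : Finset (Set ℝ × Set ℝ) :=
    J.image fun v => sq (shf b₁) (shf b₂) (t v) α β v with hF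
  set A : Set ℝ × Set ℝ → Finset R := fun S => univ.filter fun u => α u ∈ S.1 with hA
  set B : Set ℝ × Set ℝ → Finset R := fun S => univ.filter fun u => β u ∈ S.2 with hB
  have hAe : ∀ v, A (sq (shf b₁) (shf b₂) (t v) α β v) = blk (shf b₁) (t v) α v := by
    intro v; ext u; simp [hA, sq, blk]
  have hBe : ∀ v, B (sq (shf b₁) (shf b₂) (t v) α β v) = blk (shf b₂) (t v) β v := by
    intro v; ext u; simp [hB, sq, blk]
  refine rr_count hw hz hT3 hμ F A B ?_ ?_ ?_ ?_ ?_ ?_ ?_ _ ?_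
  · intro i _ j _ hij
    constructor
    · intro u hu
      rw [hA, mem_filter] at hu ⊢
      exact ⟨mem_univ _, hij.1 hu.2⟩
    · intro u hu
      rw [hB, mem_filter] at hu ⊢
      exact ⟨mem_univ _, hij.2 hu.2⟩
  · -- laminar
    have key : ∀ v v' : R, t v ≤ t v' →
        (blk (shf b₁) (t v) α v ∩ blk (shf b₁) (t v') α v').Nonempty →
        (blk (shf b₂) (t v) β v ∩ blk (shf b₂) (t v') β v').Nonempty →
        sq (shf b₁) (shf b₂) (t v) α β v ≤ sq (shf b₁) (shf b₂) (t v') α β v' := by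
      intro v v' htt ⟨u, hu⟩ ⟨u', hu'⟩
      rw [mem_inter, mem_blk, mem_blk] at hu hu'
      constructor
      · intro x hx
        have hx' : idx (shf b₁) (t v) x = idx (shf b₁) (t v) (α v) := hx
        have h1 := idx_nested b₁ htt (hx'.trans hu.1.symm)
        exact h1.trans hu.2
      · intro x hx
        have hx' : idx (shf b₂) (t v) x = idx (shf b₂) (t v) (β v) := hx
        have h1 := idx_nested b₂ htt (hx'.trans hu'.1.symm)
        exact h1.trans hu'.2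
    intro i hi j hj h1 h2
    obtain ⟨v, -, rfl⟩ := mem_image.1 hi
    obtain ⟨v', -, rfl⟩ := mem_image.1 hj
    rw [hAe, hAe] at h1
    rw [hBe, hBe] at h2
    rcases le_total (t v) (t v') with h | h
    · exact Or.inl (key v v' h h1 h2)
    · refine Or.inr (key v' v h ?_ ?_)
      · rwa [inter_comm]
      · rwa [inter_comm]
  · intro i hi
    obtain ⟨v, hv, rfl⟩ := mem_image.1 hi
    rw [hAe]; exact hcA v hv
  · intro i hi
    obtain ⟨v, hv, rfl⟩ := mem_image.1 hi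
    rw [hBe]; exact hcB v hv
  · intro i hi
    obtain ⟨v, hv, rfl⟩ := mem_image.1 hi
    rw [hAe]; exact hTA v hv
  · intro i hi
    obtain ⟨v, hv, rfl⟩ := mem_image.1 hi
    rw [hBe]; exact hTB v hv
  · intro i hi
    obtain ⟨v, hv, rfl⟩ := mem_image.1 hi
    rw [hAe, hBe]; exact hmass v hv
  · intro c hc
    obtain ⟨v, hv, rfl⟩ := mem_image.1 hc
    refine ⟨_, mem_image_of_mem _ hv, ?_⟩
    rw [hAe, hBe]
    exact ⟨hRA v hv, hRB v hv⟩

lemma class_count {α β : R → ℝ} {w z : R → ℕ} (hw : OrdConv α w) (hz : OrdConv β z)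
    {T c μ : ℝ} (hT3 : 3 ≤ T) (hμ : 0 < μ) (hc : 0 ≤ c) (hcT : c < T) (m0 K : ℕ) (hK : 0 < K)
    (hKm : (K:ℝ) ≤ 4 ^ m0) (b₁ b₂ : Bool) (J : Finset R) (t : R → ℤ)
    (ht : ∀ v ∈ J, ∀ v' ∈ J, t v < t v' → t v + m0 ≤ t v')
    (hTA : ∀ v ∈ J, T ≤ #((blk (shf b₁) (t v) α v).image w))
    (hTB : ∀ v ∈ J, T ≤ #((blk (shf b₂) (t v) β v).image z))
    (hsA : ∀ v ∈ J, (gg α w v (4 ^ (t v) / K) : ℝ) ≤ c)
    (hsB : ∀ v ∈ J, (gg β z v (4 ^ (t v) / K) : ℝ) ≤ c)
    (hmass : ∀ v ∈ J, μ ≤ #(blk (shf b₁) (t v) α v ∩ blk (shf b₂) (t v) β v)) :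
    (#(J.image fun v => (w v, z v)) : ℝ) ≤
      2 * ((#(univ.image w) : ℝ) * #(univ.image z) / (T - 2) * (K * c)) +
      4 * (Fintype.card R / μ + 2 * ((#(univ.image w) : ℝ) * #(univ.image z) / (T - 2))) := by
  set p : R → ℕ × ℕ := fun v => (w v, z v) with hp
  set J₁ := J.filter fun v => ∀ u, w u = w v → u ∈ blk (shf b₁) (t v) α v with hJ₁
  set J₂ := J.filter fun v => ∀ u, z u = z v → u ∈ blk (shf b₂) (t v) β v with hJ₂
  set G : (R → ℝ) → (R → ℝ) → Finset R := fun α' β' => J.filter fun v =>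
    RC α' w (blk (shf b₁) (t v) α v) (w v) ∧ RC β' z (blk (shf b₂) (t v) β v) (z v) with hG
  have hsubJ : J ⊆ J₁ ∪ (J₂ ∪ ((G α β ∪ G α (fun v => - β v)) ∪
      (G (fun v => - α v) β ∪ G (fun v => - α v) (fun v => - β v)))) := by
    intro v hv
    by_cases h1 : ∀ u, w u = w v → u ∈ blk (shf b₁) (t v) α v
    · exact mem_union_left _ (mem_filter.2 ⟨hv, h1⟩)
    refine mem_union_right _ ?_
    by_cases h2 : ∀ u, z u = z v → u ∈ blk (shf b₂) (t v) β v
    · exact mem_union_left _ (mem_filter.2 ⟨hv, h2⟩)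
    refine mem_union_right _ ?_
    push Not at h1 h2
    obtain ⟨x, hx, hxA⟩ := h1
    obtain ⟨y, hy, hyB⟩ := h2
    have hA : RC α w (blk (shf b₁) (t v) α v) (w v) ∨
        RC (fun v => - α v) w (blk (shf b₁) (t v) α v) (w v) := by
      rcases (cvx_blk (shf b₁) (t v) α v).dich hxA with h | h
      · exact Or.inl ⟨⟨v, self_mem_blk, rfl⟩, x, hx, h⟩
      · exact Or.inr ⟨⟨v, self_mem_blk, rfl⟩, x, hx, fun u hu => by simpa using h u hu⟩
    have hB : RC β z (blk (shf b₂) (t v) β v) (z v) ∨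
        RC (fun v => - β v) z (blk (shf b₂) (t v) β v) (z v) := by
      rcases (cvx_blk (shf b₂) (t v) β v).dich hyB with h | h
      · exact Or.inl ⟨⟨v, self_mem_blk, rfl⟩, y, hy, h⟩
      · exact Or.inr ⟨⟨v, self_mem_blk, rfl⟩, y, hy, fun u hu => by simpa using h u hu⟩
    rcases hA with hA | hA <;> rcases hB with hB | hB
    · exact mem_union_left _ (mem_union_left _ (mem_filter.2 ⟨hv, hA, hB⟩))
    · exact mem_union_left _ (mem_union_right _ (mem_filter.2 ⟨hv, hA, hB⟩))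
    · exact mem_union_right _ (mem_union_left _ (mem_filter.2 ⟨hv, hA, hB⟩))
    · exact mem_union_right _ (mem_union_right _ (mem_filter.2 ⟨hv, hA, hB⟩))
  have hrr : ∀ α' β' : R → ℝ, OrdConv α' w → OrdConv β' z →
      (∀ v, Cvx α' (blk (shf b₁) (t v) α v)) → (∀ v, Cvx β' (blk (shf b₂) (t v) β v)) →
      (#((G α' β').image p) : ℝ) ≤ Fintype.card R / μ +
        2 * ((#(univ.image w) : ℝ) * #(univ.image z) / (T - 2)) := by
    intro α' β' hw' hz' hcA hcB
    refine rr_squares (α := α) (β := β) hw' hz' hT3 hμ b₁ b₂ (G α' β') t (fun v _ => hcA v)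
      (fun v _ => hcB v)
      (fun v hv => hTA v (mem_filter.1 hv).1) (fun v hv => hTB v (mem_filter.1 hv).1)
      (fun v hv => hmass v (mem_filter.1 hv).1) (fun v hv => (mem_filter.1 hv).2.1)
      (fun v hv => (mem_filter.1 hv).2.2)
  have e1 := hrr α β hw hz (fun v => cvx_blk _ _ _ _) (fun v => cvx_blk _ _ _ _)
  have e2 := hrr α (fun v => - β v) hw (ordConv_neg hz) (fun v => cvx_blk _ _ _ _)
    (fun v => (cvx_blk _ _ _ _).neg)
  have e3 := hrr (fun v => - α v) β (ordConv_neg hw) hz (fun v => (cvx_blk _ _ _ _).neg)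
    (fun v => cvx_blk _ _ _ _)
  have e4 := hrr (fun v => - α v) (fun v => - β v) (ordConv_neg hw) (ordConv_neg hz)
    (fun v => (cvx_blk _ _ _ _).neg) (fun v => (cvx_blk _ _ _ _).neg)
  have e5 : (#(J₁.image p) : ℝ) ≤
      #(univ.image w) * (#(univ.image z) / (T - 2) * (K * c)) :=
    contained_count hz hT3 hc hcT m0 K hK hKm (shf b₁) (shf b₂) J₁ t
      (fun v hv v' hv' => ht v (mem_filter.1 hv).1 v' (mem_filter.1 hv').1)
      (fun v hv => hTA v (mem_filter.1 hv).1) (fun v hv => hTB v (mem_filter.1 hv).1)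
      (fun v hv => hsA v (mem_filter.1 hv).1) (fun v hv => hsB v (mem_filter.1 hv).1)
      (fun v hv => (mem_filter.1 hv).2)
  have e6 : (#(J₂.image p) : ℝ) ≤
      #(univ.image z) * (#(univ.image w) / (T - 2) * (K * c)) := by
    have h := contained_count hw hT3 hc hcT m0 K hK hKm (shf b₂) (shf b₁) J₂ t
      (fun v hv v' hv' => ht v (mem_filter.1 hv).1 v' (mem_filter.1 hv').1)
      (fun v hv => hTB v (mem_filter.1 hv).1) (fun v hv => hTA v (mem_filter.1 hv).1)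
      (fun v hv => hsB v (mem_filter.1 hv).1) (fun v hv => hsA v (mem_filter.1 hv).1)
      (fun v hv => (mem_filter.1 hv).2)
    refine le_trans ?_ h
    have h1 : J₂.image p = (J₂.image fun v => (z v, w v)).image Prod.swap := by
      rw [image_image]; rfl
    rw [h1]
    exact_mod_cast card_image_le
  have hcard : #(J.image p) ≤ #(J₁.image p) + (#(J₂.image p) +
      ((#((G α β).image p) + #((G α (fun v => - β v)).image p)) +
      (#((G (fun v => - α v) β).image p) +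
        #((G (fun v => - α v) (fun v => - β v)).image p)))) := by
    refine (card_le_card (image_subset_image hsubJ)).trans ?_
    simp only [image_union]
    refine (card_union_le _ _).trans (Nat.add_le_add_left ?_ _)
    refine (card_union_le _ _).trans (Nat.add_le_add_left ?_ _)
    refine (card_union_le _ _).trans (Nat.add_le_add ?_ ?_)
    · exact card_union_le _ _
    · exact card_union_le _ _
  have hcard' : (#(J.image p) : ℝ) ≤ #(J₁.image p) + (#(J₂.image p) +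
      ((#((G α β).image p) + #((G α (fun v => - β v)).image p)) +
      (#((G (fun v => - α v) β).image p) +
        #((G (fun v => - α v) (fun v => - β v)).image p)))) := by exact_mod_cast hcard
  have e5' : (#(univ.image w) : ℝ) * (#(univ.image z) / (T - 2) * (K * c)) =
      (#(univ.image w) : ℝ) * #(univ.image z) / (T - 2) * (K * c) := by ring
  have e6' : (#(univ.image z) : ℝ) * (#(univ.image w) / (T - 2) * (K * c)) =
      (#(univ.image w) : ℝ) * #(univ.image z) / (T - 2) * (K * c) := by ring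
  rw [e5'] at e5
  rw [e6'] at e6
  linarith

/-- **No-jump lemma**, pair count. -/
theorem jump_pairs {α β : R → ℝ} {w z : R → ℕ} (hw : OrdConv α w) (hz : OrdConv β z)
    {T c μ q : ℝ} (hT3 : 3 ≤ T) (hμ : 0 < μ) (hc : 0 ≤ c) (hcT : c < T) (hq : 1 ≤ q) (K : ℕ)
    (hK : 24 * q ≤ K) (J : Finset R)
    (hJ : ∀ v ∈ J, ∃ r : ℝ, 0 < r ∧ (gg α w v (r / q) : ℝ) ≤ c ∧ (gg β z v (r / q) : ℝ) ≤ c ∧
      T ≤ gg α w v r ∧ T ≤ gg β z v r ∧ μ ≤ #(Iv α v r ∩ Iv β v r)) :
    (#(J.image fun v => (w v, z v)) : ℝ) ≤ 4 * K * (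
      2 * ((#(univ.image w) : ℝ) * #(univ.image z) / (T - 2) * (K * c)) +
      4 * (Fintype.card R / μ + 2 * ((#(univ.image w) : ℝ) * #(univ.image z) / (T - 2)))) := by
  have hKr : (24:ℝ) ≤ K := by linarith
  have hK0 : 0 < K := by
    have : (0:ℝ) < K := by linarith
    exact_mod_cast this
  -- choose data
  have hch : ∀ v ∈ J, ∃ (t : ℤ) (b₁ b₂ : Bool),
      T ≤ #((blk (shf b₁) t α v).image w) ∧ T ≤ #((blk (shf b₂) t β v).image z) ∧
      (gg α w v (4 ^ t / K) : ℝ) ≤ c ∧ (gg β z v (4 ^ t / K) : ℝ) ≤ c ∧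
      μ ≤ #(blk (shf b₁) t α v ∩ blk (shf b₂) t β v) := by
    intro v hv
    obtain ⟨r, hr, h1, h2, h3, h4, h5⟩ := hJ v hv
    obtain ⟨t, ht1, ht2⟩ := exists_scale r hr
    obtain ⟨b₁, hb₁⟩ := exists_grid (α v) r hr t ht1
    obtain ⟨b₂, hb₂⟩ := exists_grid (β v) r hr t ht1
    have hsub : ∀ (b : Bool) (γ : R → ℝ), idx (shf b) t (γ v - r) = idx (shf b) t (γ v + r) →
        Iv γ v r ⊆ blk (shf b) t γ v := by
      intro b γ hb u hu
      rw [mem_Iv, abs_le] at hu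
      rw [mem_blk]
      have g1 : idx (shf b) t (γ v - r) ≤ idx (shf b) t (γ u) := idx_mono (by linarith)
      have g2 : idx (shf b) t (γ u) ≤ idx (shf b) t (γ v + r) := idx_mono (by linarith)
      have g3 : idx (shf b) t (γ v - r) ≤ idx (shf b) t (γ v) := idx_mono (by linarith)
      have g4 : idx (shf b) t (γ v) ≤ idx (shf b) t (γ v + r) := idx_mono (by linarith)
      omega
    have hA := hsub b₁ α hb₁
    have hB := hsub b₂ β hb₂
    have hrad : (4:ℝ) ^ t / K ≤ r / q := by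
      rw [div_le_div_iff₀ (by linarith) (by linarith)]
      calc (4:ℝ) ^ t * q ≤ 24 * r * q := by
            exact mul_le_mul_of_nonneg_right ht2 (by linarith)
        _ = r * (24 * q) := by ring
        _ ≤ r * K := mul_le_mul_of_nonneg_left hK hr.le
    refine ⟨t, b₁, b₂, ?_, ?_, ?_, ?_, ?_⟩
    · exact h3.trans (Nat.cast_le.2 (card_le_card (image_subset_image hA)))
    · exact h4.trans (Nat.cast_le.2 (card_le_card (image_subset_image hB)))
    · exact le_trans (Nat.cast_le.2 (gg_mono hrad)) h1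
    · exact le_trans (Nat.cast_le.2 (gg_mono hrad)) h2
    · exact h5.trans (Nat.cast_le.2 (card_le_card (inter_subset_inter hA hB)))
  choose! t b₁ b₂ hTA hTB hsA hsB hms using hch
  set p : R → ℕ × ℕ := fun v => (w v, z v) with hp
  set Bd : ℝ := 2 * ((#(univ.image w) : ℝ) * #(univ.image z) / (T - 2) * (K * c)) +
      4 * (Fintype.card R / μ + 2 * ((#(univ.image w) : ℝ) * #(univ.image z) / (T - 2))) with hBd
  set I : Finset (Bool × Bool × ℤ) := univ ×ˢ (univ ×ˢ Ico (0:ℤ) K) with hI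
  set Jc : Bool × Bool × ℤ → Finset R := fun i =>
    J.filter fun v => b₁ v = i.1 ∧ b₂ v = i.2.1 ∧ t v % K = i.2.2 with hJc
  have hsub : J.image p ⊆ I.biUnion fun i => (Jc i).image p := by
    intro x hx
    obtain ⟨v, hv, rfl⟩ := mem_image.1 hx
    have hKz : (0:ℤ) < K := by exact_mod_cast hK0
    refine mem_biUnion.2 ⟨(b₁ v, b₂ v, t v % K), ?_, mem_image_of_mem _
      (mem_filter.2 ⟨hv, rfl, rfl, rfl⟩)⟩
    rw [hI, mem_product, mem_product, mem_Ico]
    exact ⟨mem_univ _, mem_univ _, Int.emod_nonneg _ hKz.ne', Int.emod_lt_of_pos _ hKz⟩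
  have hone : ∀ i ∈ I, (#((Jc i).image p) : ℝ) ≤ Bd := by
    rintro ⟨c₁, c₂, ρ⟩ _
    have hKm : (K:ℝ) ≤ 4 ^ K := by
      have : K ≤ 4 ^ K := (Nat.lt_pow_self (by norm_num)).le
      exact_mod_cast this
    refine class_count hw hz hT3 hμ hc hcT K K hK0 hKm c₁ c₂ (Jc (c₁, c₂, ρ)) t ?_ ?_ ?_ ?_ ?_ ?_
    · intro v hv v' hv' hlt
      have h1 := (mem_filter.1 hv).2.2.2
      have h2 := (mem_filter.1 hv').2.2.2
      have h3 : (K:ℤ) ∣ t v' - t v := by
        exact Int.ModEq.dvd (show t v ≡ t v' [ZMOD K] from h1.trans h2.symm)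
      have h4 := Int.le_of_dvd (by omega) h3
      omega
    · intro v hv
      obtain ⟨hvJ, h1, h2, h3⟩ := mem_filter.1 hv
      have := hTA v hvJ
      rwa [h1] at this
    · intro v hv
      obtain ⟨hvJ, h1, h2, h3⟩ := mem_filter.1 hv
      have := hTB v hvJ
      rwa [h2] at this
    · intro v hv
      exact hsA v (mem_filter.1 hv).1
    · intro v hv
      exact hsB v (mem_filter.1 hv).1
    · intro v hv
      obtain ⟨hvJ, h1, h2, h3⟩ := mem_filter.1 hv
      have := hms v hvJ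
      rwa [h1, h2] at this
  calc (#(J.image p) : ℝ) ≤ ((∑ i ∈ I, #((Jc i).image p) : ℕ) : ℝ) := by
        exact_mod_cast (card_le_card hsub).trans card_biUnion_le
    _ = ∑ i ∈ I, (#((Jc i).image p) : ℝ) := by push_cast; rfl
    _ ≤ ∑ i ∈ I, Bd := sum_le_sum hone
    _ = 4 * K * Bd := by
        rw [sum_const, nsmul_eq_mul]
        congr 1
        rw [hI, card_product, card_product]
        simp
        ring

end counting

/-- **No-jump lemma** (9.2), frozen form of the interface. -/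
theorem no_jump (C ε c q : ℝ) (hC : 1 ≤ C) (hε : 0 < ε) (hε1 : ε ≤ 1) (hc : 1 ≤ c) (hq : 1 ≤ q) :
    ∃ C' : ℝ, 0 < C' ∧ ∀ (R : Type*) [Fintype R] (V : ℝ) (α : Fin 3 → R → ℝ) (w : Fin 3 → R → ℕ),
      Setting C V α w → ∀ T : ℝ, 0 < T → ∀ i j, i ≠ j →
      (#(univ.filter fun v => Typical ε C V α w v ∧ Jump c q T α w i j v) : ℝ) * T ≤
        C' * Fintype.card R := by
  obtain ⟨K, hK⟩ := exists_nat_ge (24 * q)
  have hK24 : (24:ℝ) ≤ K := by linarith
  set T₀ : ℝ := 4 + c with hT₀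
  set C₁ : ℝ := 4 * K * (4 * (K * c) * C ^ 2 + 4 * (9 * C ^ 2 / ε ^ 3 + 4 * C ^ 2)) * C with hC₁
  have hC₁0 : 0 ≤ C₁ := by rw [hC₁]; positivity
  refine ⟨T₀ + C₁, by positivity, ?_⟩
  intro R _ V α w hS T hT i j hij
  set J := univ.filter fun v => Typical ε C V α w v ∧ Jump c q T α w i j v with hJ
  have hn := hS.nonempty
  have hcard : (0:ℝ) < Fintype.card R := by exact_mod_cast Fintype.card_pos
  have hJle : (#J : ℝ) ≤ Fintype.card R := by exact_mod_cast card_le_univ _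
  rcases le_or_gt T T₀ with hTle | hTgt
  · calc (#J : ℝ) * T ≤ Fintype.card R * T₀ := by gcongr
      _ ≤ (T₀ + C₁) * Fintype.card R := by nlinarith
  have hV := hS.one_le_V
  have hVp : 0 < V := by linarith
  have hCp : 0 < C := by linarith
  set n : ℝ := (Fintype.card R : ℝ) with hn'
  set μ : ℝ := ε ^ 3 * T ^ 2 * n / (9 * C ^ 2 * V ^ 2) with hμ
  have hμ0 : 0 < μ := by rw [hμ]; positivity
  have hT3 : 3 ≤ T := by linarith
  have hcT : c < T := by linarith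
  have hJ' : ∀ v ∈ J, ∃ r : ℝ, 0 < r ∧ (gg (α i) (w i) v (r / q) : ℝ) ≤ c ∧
      (gg (α j) (w j) v (r / q) : ℝ) ≤ c ∧ T ≤ gg (α i) (w i) v r ∧ T ≤ gg (α j) (w j) v r ∧
      μ ≤ #(Iv (α i) v r ∩ Iv (α j) v r) := by
    intro v hv
    obtain ⟨-, ⟨ht1, ht2⟩, r, hr, h1, h2, h3, h4⟩ := mem_filter.1 hv
    refine ⟨r, hr, h1, h2, h3, h4, ?_⟩
    have key : ∀ k, T ≤ gg (α k) (w k) v r → ε * T * n ≤ 3 * (C * V) * #(Iv (α k) v r) := by
      intro k hk
      have h5 : 3 ≤ gg (α k) (w k) v r := by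
        have : (3:ℝ) ≤ gg (α k) (w k) v r := hT3.trans hk
        exact_mod_cast this
      refine le_trans ?_ (ht2 k r h5)
      gcongr
    have ki := key i h3
    have kj := key j h4
    have hij' := ht1 i j hij r
    have h6 : (ε * T * n) * (ε * T * n) ≤
        (3 * (C * V) * #(Iv (α i) v r)) * (3 * (C * V) * #(Iv (α j) v r)) :=
      mul_le_mul ki kj (by positivity) (by positivity)
    have h7 : ε * ((ε * T * n) * (ε * T * n)) ≤
        9 * C ^ 2 * V ^ 2 * (#(Iv (α i) v r ∩ Iv (α j) v r) * n) := by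
      calc ε * ((ε * T * n) * (ε * T * n)) ≤
          ε * ((3 * (C * V) * #(Iv (α i) v r)) * (3 * (C * V) * #(Iv (α j) v r))) := by gcongr
        _ = 9 * C ^ 2 * V ^ 2 * (ε * (#(Iv (α i) v r) * #(Iv (α j) v r))) := by ring
        _ ≤ _ := by gcongr
    rw [hμ, div_le_iff₀ (by positivity)]
    have h8 : (ε ^ 3 * T ^ 2 * n) * n ≤
        (#(Iv (α i) v r ∩ Iv (α j) v r) * (9 * C ^ 2 * V ^ 2)) * n := by nlinarith
    exact le_of_mul_le_mul_right h8 hcard
  have hpairs := jump_pairs (hS.conv i) (hS.conv j) hT3 hμ0 (by linarith : (0:ℝ) ≤ c) hcT hq K hK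
    J hJ'
  -- bounds
  have hN1 := hS.A1 i
  have hN2 := hS.A1 j
  set N1 : ℝ := (#(univ.image (w i)) : ℝ) with hN1'
  set N2 : ℝ := (#(univ.image (w j)) : ℝ) with hN2'
  have hN : N1 * N2 / (T - 2) * T ≤ 2 * C ^ 2 * V ^ 2 := by
    have h1 : N1 * N2 ≤ (C * V) * (C * V) := mul_le_mul hN1 hN2 (by positivity) (by positivity)
    have h2 : 0 < T - 2 := by linarith
    rw [div_mul_eq_mul_div, div_le_iff₀ h2]
    have h3 : T ≤ 2 * (T - 2) := by linarith
    calc N1 * N2 * T ≤ (C * V) * (C * V) * (2 * (T - 2)) := by gcongr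
      _ = _ := by ring
  have hM : n / μ * T ≤ 9 * C ^ 2 / ε ^ 3 * V ^ 2 := by
    rw [hμ]
    have h1 : n / (ε ^ 3 * T ^ 2 * n / (9 * C ^ 2 * V ^ 2)) * T = 9 * C ^ 2 / ε ^ 3 * V ^ 2 / T := by
      field_simp
    rw [h1]
    exact div_le_self (by positivity) (by linarith)
  have hP : (#(J.image fun v => (w i v, w j v)) : ℝ) * T ≤
      4 * K * (4 * (K * c) * C ^ 2 + 4 * (9 * C ^ 2 / ε ^ 3 + 4 * C ^ 2)) * V ^ 2 := by
    calc (#(J.image fun v => (w i v, w j v)) : ℝ) * T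
        ≤ (4 * K * (2 * (N1 * N2 / (T - 2) * (K * c)) +
          4 * (n / μ + 2 * (N1 * N2 / (T - 2))))) * T := by gcongr
      _ = 4 * K * (2 * (K * c) * (N1 * N2 / (T - 2) * T) +
          4 * (n / μ * T + 2 * (N1 * N2 / (T - 2) * T))) := by ring
      _ ≤ 4 * K * (2 * (K * c) * (2 * C ^ 2 * V ^ 2) +
          4 * (9 * C ^ 2 / ε ^ 3 * V ^ 2 + 2 * (2 * C ^ 2 * V ^ 2))) := by gcongr
      _ = _ := by ring
  -- mass
  have hmass : (#J : ℝ) * V ^ 2 ≤ #(J.image fun v => (w i v, w j v)) * (C * n) := by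
    have h1 : #J ≤ ∑ x ∈ J.image fun v => (w i v, w j v), #(fib (w i) x.1 ∩ fib (w j) x.2) := by
      refine le_trans (card_le_card ?_) card_biUnion_le
      intro v hv
      refine mem_biUnion.2 ⟨(w i v, w j v), mem_image_of_mem _ hv, ?_⟩
      rw [mem_inter, mem_fib, mem_fib]
      exact ⟨rfl, rfl⟩
    calc (#J : ℝ) * V ^ 2
        ≤ ((∑ x ∈ J.image fun v => (w i v, w j v), #(fib (w i) x.1 ∩ fib (w j) x.2) : ℕ) : ℝ) *
          V ^ 2 := by
          refine mul_le_mul_of_nonneg_right ?_ (by positivity)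
          exact_mod_cast h1
      _ = ∑ x ∈ J.image fun v => (w i v, w j v),
          (#(fib (w i) x.1 ∩ fib (w j) x.2) : ℝ) * V ^ 2 := by
          push_cast; rw [sum_mul]
      _ ≤ ∑ x ∈ J.image fun v => (w i v, w j v), (C * n : ℝ) :=
          sum_le_sum fun x _ => hS.A3 i j hij x.1 x.2
      _ = _ := by rw [sum_const, nsmul_eq_mul]
  have hfin : ((#J : ℝ) * T) * V ^ 2 ≤ (C₁ * n) * V ^ 2 := by
    calc ((#J : ℝ) * T) * V ^ 2 = (#J * V ^ 2) * T := by ring
      _ ≤ (#(J.image fun v => (w i v, w j v)) * (C * n)) * T := by gcongr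
      _ = (#(J.image fun v => (w i v, w j v)) * T) * (C * n) := by ring
      _ ≤ (4 * K * (4 * (K * c) * C ^ 2 + 4 * (9 * C ^ 2 / ε ^ 3 + 4 * C ^ 2)) * V ^ 2) * (C * n) := by
          gcongr
      _ = _ := by rw [hC₁]; ring
  have hfin' := le_of_mul_le_mul_right hfin (by positivity)
  have : 0 ≤ T₀ * n := by positivity
  linarith

end Crest.Agent.R51.Jump
end

-- ▼ part R51/AddH3
section

/-! Row 51, section B9: (H3), averaging over levels, and the contradiction from the cells. -/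

set_option autoImplicit false

namespace Crest.Agent.R51.H3

open Finset Classical Pointwise
open Crest.Agent.R51.Growth
open Crest.Agent.R51.Add (fib mem_fib)

/-- Level `j` is good at the point `v` (conditions (a), (b) of (A5)). -/
def Good {R : Type*} (Λ : ℝ) (α : R → ℝ) (wl : ℕ → R → ℕ) (v : R) (j : ℕ) : Prop :=
  ∃ ρ : ℝ, 0 < ρ ∧ (∀ u, wl j u = wl j v → |α u - α v| ≤ ρ) ∧
    ((∀ u, 0 ≤ α u - α v → α u - α v ≤ Λ * ρ → wl (j - 1) u = wl (j - 1) v) ∨
     (∀ u, 0 ≤ α v - α u → α v - α u ≤ Λ * ρ → wl (j - 1) u = wl (j - 1) v))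

/-- The output of the cell decomposition 9.5-9.6. `n = √V`. -/
structure Cells {R : Type*} [Fintype R] (K n : ℝ) (α : R → ℝ) (rh : ℝ) (R' : Finset R)
    (A : Finset ℤ) : Prop where
  rh_pos : 0 < rh
  mem : ∀ v ∈ R', ⌊α v / rh⌋ ∈ A
  low : ∀ a ∈ A, (Fintype.card R : ℝ) ≤ K * n * #(R'.filter fun v => ⌊α v / rh⌋ = a)
  up : ∀ a ∈ A, n * #(R'.filter fun v => ⌊α v / rh⌋ = a) ≤ K * Fintype.card R
  dbl : (#(A + A) : ℝ) ≤ K * #A
  big : (Fintype.card R : ℝ) ≤ K * #R'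

section one
variable {R : Type*} [Fintype R] {K n rh : ℝ} {α : R → ℝ} {R' : Finset R} {A : Finset ℤ}

lemma f_le_two (A : Finset ℤ) (k : ℕ) {r : ℝ} (hr : 0 ≤ r) : (f A k r : ℝ) ≤ 2 * r + 1 := by
  have hsub : Sr A k r ⊆ Icc (-⌊r⌋) ⌊r⌋ := by
    intro z hz
    have hz' := abs_lt.1 (mem_Sr.1 hz).2
    refine mem_Icc.2 ⟨?_, Int.le_floor.2 hz'.2.le⟩
    have : -z ≤ ⌊r⌋ := Int.le_floor.2 (by push_cast; linarith [hz'.1])
    linarith
  have h1 := card_le_card hsub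
  rw [Int.card_Icc] at h1
  have h2 : (f A k r : ℝ) ≤ ((⌊r⌋ + 1 - -⌊r⌋).toNat : ℝ) := by exact_mod_cast h1
  have h0 : (0 : ℤ) ≤ ⌊r⌋ := Int.floor_nonneg.2 hr
  have h3 : (((⌊r⌋ + 1 - -⌊r⌋).toNat : ℤ) : ℝ) = 2 * (⌊r⌋ : ℝ) + 1 := by
    rw [Int.toNat_of_nonneg (by linarith)]; push_cast; ring
  have h4 : ((⌊r⌋ + 1 - -⌊r⌋).toNat : ℝ) = 2 * (⌊r⌋ : ℝ) + 1 := by
    rw [← h3]; norm_cast
  rw [h4] at h2
  linarith [Int.floor_le r]

/-- count of cells fully inside a set. -/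
lemma upper_count (hc : Cells K n α rh R' A) (hK : 0 ≤ K) (hn : 0 ≤ n) (Y : Finset ℤ) (hY : Y ⊆ A)
    (F : Finset R) (hF : ∀ b ∈ Y, ∀ u ∈ R', ⌊α u / rh⌋ = b → u ∈ F) :
    (#Y : ℝ) * Fintype.card R ≤ K * n * #F := by
  have h1 : (#Y : ℝ) * Fintype.card R ≤
      ∑ b ∈ Y, K * n * (#(R'.filter fun v => ⌊α v / rh⌋ = b) : ℝ) := by
    rw [← nsmul_eq_mul, ← sum_const]
    exact sum_le_sum fun b hb => hc.low b (hY hb)
  rw [← mul_sum] at h1
  refine h1.trans ?_
  apply mul_le_mul_of_nonneg_left _ (mul_nonneg hK hn)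
  have h2 : ∑ b ∈ Y, #(R'.filter fun v => ⌊α v / rh⌋ = b) =
      #(Y.biUnion fun b => R'.filter fun v => ⌊α v / rh⌋ = b) := by
    rw [card_biUnion]
    intro x _ y _ hxy
    rw [Function.onFun, disjoint_left]
    intro u hu hu'
    exact hxy ((mem_filter.1 hu).2.symm.trans (mem_filter.1 hu').2)
  have h3 : #(Y.biUnion fun b => R'.filter fun v => ⌊α v / rh⌋ = b) ≤ #F := by
    apply card_le_card
    intro u hu
    obtain ⟨b, hb, hu⟩ := mem_biUnion.1 hu
    exact hF b hb u (mem_filter.1 hu).1 (mem_filter.1 hu).2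
  exact_mod_cast h2.le.trans h3

/-- mass of a set meeting few cells -/
lemma lower_count (hc : Cells K n α rh R' A) (hn : 0 ≤ n) (X : Finset R) (hX : X ⊆ R') :
    n * #X ≤ K * Fintype.card R * #(X.image fun v => ⌊α v / rh⌋) := by
  have hsub : X ⊆ (X.image fun v => ⌊α v / rh⌋).biUnion
      fun b => R'.filter fun v => ⌊α v / rh⌋ = b := by
    intro u hu
    exact mem_biUnion.2 ⟨_, mem_image_of_mem _ hu, mem_filter.2 ⟨hX hu, rfl⟩⟩
  have h1 := (card_le_card hsub).trans card_biUnion_le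
  calc n * #X ≤ n * (∑ b ∈ X.image fun v => ⌊α v / rh⌋,
        #(R'.filter fun v => ⌊α v / rh⌋ = b) : ℕ) :=
        mul_le_mul_of_nonneg_left (by exact_mod_cast h1) hn
    _ = ∑ b ∈ X.image fun v => ⌊α v / rh⌋, n * #(R'.filter fun v => ⌊α v / rh⌋ = b) := by
        push_cast; rw [mul_sum]
    _ ≤ ∑ b ∈ X.image fun v => ⌊α v / rh⌋, K * Fintype.card R := by
        apply sum_le_sum
        intro b hb
        obtain ⟨u, hu, rfl⟩ := mem_image.1 hb
        exact hc.up _ (hc.mem u (hX hu))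
    _ = _ := by rw [sum_const, nsmul_eq_mul]; ring

lemma floor_diff {x y : ℝ} : |((⌊x⌋ - ⌊y⌋ : ℤ) : ℝ)| < |x - y| + 1 := by
  push_cast
  have h1 := Int.floor_le x
  have h2 := Int.lt_floor_add_one x
  have h3 := Int.floor_le y
  have h4 := Int.lt_floor_add_one y
  have h5 := le_abs_self (x - y)
  have h6 := neg_abs_le (x - y)
  rw [abs_lt]
  constructor <;> linarith

/-- (H3), lower bound -/
lemma h3_lower (hc : Cells K n α rh R' A) (hK : 1 ≤ K) (hn : 0 ≤ n) {v : R} (hv : v ∈ R')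
    {ρ : ℝ} (hρ : 0 < ρ) (X : Finset R) (hX : X ⊆ R') (hXρ : ∀ u ∈ X, |α u - α v| ≤ ρ) :
    n * #X ≤ K * Fintype.card R * f A 1 (2 * ρ / rh + 2) := by
  refine (lower_count hc hn X hX).trans ?_
  apply mul_le_mul_of_nonneg_left _ (by positivity)
  have : #(X.image fun v => ⌊α v / rh⌋) ≤ f A 1 (2 * ρ / rh + 2) := by
    apply card_le_card_of_injOn (fun b => b - ⌊α v / rh⌋)
    · intro b hb
      obtain ⟨u, hu, rfl⟩ := mem_image.1 (mem_coe.1 hb)
      refine mem_coe.2 (mem_Sr.2 ⟨?_, ?_⟩)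
      · rw [S, one_nsmul]
        exact sub_mem_sub (hc.mem u (hX hu)) (hc.mem v hv)
      · have h1 := @floor_diff (α u / rh) (α v / rh)
        have h2 : |α u / rh - α v / rh| ≤ ρ / rh := by
          rw [← sub_div, abs_div, abs_of_pos hc.rh_pos]
          exact div_le_div_of_nonneg_right (hXρ u hu) hc.rh_pos.le
        have h3 : 0 < ρ / rh := div_pos hρ hc.rh_pos
        have h4 : 2 * ρ / rh = 2 * (ρ / rh) := by ring
        rw [h4]
        exact h1.trans_le (by linarith : |α u / rh - α v / rh| + 1 ≤ 2 * (ρ / rh) + 2)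
    · intro x _ y _ h
      simpa using h
  exact_mod_cast this

/-- (H3), upper bound, right side -/
lemma h3_upper_right (hc : Cells K n α rh R' A) (hK : 1 ≤ K) (hn : 0 ≤ n) {v : R}
    {ρ Λ : ℝ} (hρ : 2 * rh ≤ ρ) (hΛ : 2 ≤ Λ) (F : Finset R)
    (hF : ∀ u, 0 ≤ α u - α v → α u - α v ≤ Λ * ρ → u ∈ F) :
    ((#(A.filter fun a : ℤ => ((⌊α v / rh⌋ : ℤ) : ℝ) ≤ a ∧
        (a : ℝ) < (⌊α v / rh⌋ : ℤ) + Λ / 4 * (2 * ρ / rh + 2)) : ℝ) - 1) * Fintype.card R ≤
      K * n * #F := by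
  set a0 := ⌊α v / rh⌋ with ha0
  set Y := A.filter fun a : ℤ => (a0 : ℝ) ≤ a ∧ (a : ℝ) < a0 + Λ / 4 * (2 * ρ / rh + 2) with hY
  have hrh := hc.rh_pos
  have h1 : (#(Y.erase a0) : ℝ) * Fintype.card R ≤ K * n * #F := by
    refine upper_count hc (by linarith) hn _ ((erase_subset _ _).trans (filter_subset _ _)) F ?_
    intro b hb u hu hub
    obtain ⟨hb0, hb⟩ := mem_erase.1 hb
    obtain ⟨hbA, hb1, hb2⟩ := mem_filter.1 hb
    have hlt : a0 < b := lt_of_le_of_ne (by exact_mod_cast hb1) (Ne.symm hb0)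
    have hu1 : (b : ℝ) ≤ α u / rh := by rw [← hub]; exact Int.floor_le _
    have hu2 : α u / rh < b + 1 := by rw [← hub]; exact Int.lt_floor_add_one _
    have hv1 : (a0 : ℝ) ≤ α v / rh := Int.floor_le _
    have hv2 : α v / rh < a0 + 1 := Int.lt_floor_add_one _
    have hab : (a0 : ℝ) + 1 ≤ b := by exact_mod_cast hlt
    have e1 : α u = α u / rh * rh := by field_simp
    have e2 : α v = α v / rh * rh := by field_simp
    apply hF
    · have : α v / rh ≤ α u / rh := by linarith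
      rw [e1, e2]
      nlinarith
    · have h3 : α u / rh - α v / rh ≤ Λ / 4 * (2 * ρ / rh + 2) + 1 := by linarith
      have h4 : α u - α v = (α u / rh - α v / rh) * rh := by field_simp
      have h5 : (Λ / 4 * (2 * ρ / rh + 2) + 1) * rh = Λ * ρ / 2 + Λ * rh / 2 + rh := by
        field_simp; ring
      rw [h4]
      refine (mul_le_mul_of_nonneg_right h3 hrh.le).trans ?_
      rw [h5]
      nlinarith
  refine le_trans ?_ h1
  apply mul_le_mul_of_nonneg_right _ (Nat.cast_nonneg _)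
  have : #Y ≤ #(Y.erase a0) + 1 := by
    have := Finset.pred_card_le_card_erase (s := Y) (a := a0); omega
  have : (#Y : ℝ) ≤ #(Y.erase a0) + 1 := by exact_mod_cast this
  linarith

/-- (H3), upper bound, left side -/
lemma h3_upper_left (hc : Cells K n α rh R' A) (hK : 1 ≤ K) (hn : 0 ≤ n) {v : R}
    {ρ Λ : ℝ} (hρ : 2 * rh ≤ ρ) (hΛ : 2 ≤ Λ) (F : Finset R)
    (hF : ∀ u, 0 ≤ α v - α u → α v - α u ≤ Λ * ρ → u ∈ F) :
    ((#(A.filter fun a : ℤ => ((⌊α v / rh⌋ : ℤ) : ℝ) - Λ / 4 * (2 * ρ / rh + 2) < a ∧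
        (a : ℝ) ≤ (⌊α v / rh⌋ : ℤ)) : ℝ) - 1) * Fintype.card R ≤
      K * n * #F := by
  set a0 := ⌊α v / rh⌋ with ha0
  set Y := A.filter fun a : ℤ => (a0 : ℝ) - Λ / 4 * (2 * ρ / rh + 2) < a ∧ (a : ℝ) ≤ a0 with hY
  have hrh := hc.rh_pos
  have h1 : (#(Y.erase a0) : ℝ) * Fintype.card R ≤ K * n * #F := by
    refine upper_count hc (by linarith) hn _ ((erase_subset _ _).trans (filter_subset _ _)) F ?_
    intro b hb u hu hub
    obtain ⟨hb0, hb⟩ := mem_erase.1 hb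
    obtain ⟨hbA, hb1, hb2⟩ := mem_filter.1 hb
    have hlt : b < a0 := lt_of_le_of_ne (by exact_mod_cast hb2) hb0
    have hu1 : (b : ℝ) ≤ α u / rh := by rw [← hub]; exact Int.floor_le _
    have hu2 : α u / rh < b + 1 := by rw [← hub]; exact Int.lt_floor_add_one _
    have hv1 : (a0 : ℝ) ≤ α v / rh := Int.floor_le _
    have hv2 : α v / rh < a0 + 1 := Int.lt_floor_add_one _
    have hab : (b : ℝ) + 1 ≤ a0 := by exact_mod_cast hlt
    have e1 : α u = α u / rh * rh := by field_simp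
    have e2 : α v = α v / rh * rh := by field_simp
    apply hF
    · have : α u / rh ≤ α v / rh := by linarith
      rw [e1, e2]
      nlinarith
    · have h3 : α v / rh - α u / rh ≤ Λ / 4 * (2 * ρ / rh + 2) + 1 := by linarith
      have h4 : α v - α u = (α v / rh - α u / rh) * rh := by field_simp
      have h5 : (Λ / 4 * (2 * ρ / rh + 2) + 1) * rh = Λ * ρ / 2 + Λ * rh / 2 + rh := by
        field_simp; ring
      rw [h4]
      refine (mul_le_mul_of_nonneg_right h3 hrh.le).trans ?_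
      rw [h5]
      nlinarith
  refine le_trans ?_ h1
  apply mul_le_mul_of_nonneg_right _ (Nat.cast_nonneg _)
  have : #Y ≤ #(Y.erase a0) + 1 := by
    have := Finset.pred_card_le_card_erase (s := Y) (a := a0); omega
  have : (#Y : ℝ) ≤ #(Y.erase a0) + 1 := by exact_mod_cast this
  linarith

end one

section two
variable {R : Type*} [Fintype R] {K n rh : ℝ} {α : R → ℝ} {R' : Finset R} {A : Finset ℤ}

/-- (H3) for one good heavy level. -/
lemma level_radius (hc : Cells K n α rh R' A) (hK : 1 ≤ K) (hn : 0 ≤ n) (hR : 0 < Fintype.card R)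
    {v : R} (hv : v ∈ R') {C M Λ ε ε' : ℝ} {wl : ℕ → R → ℕ} {j : ℕ} (hΛ : 2 ≤ Λ) (hM : 1 ≤ M)
    (hC : 1 ≤ C) (hε' : 0 < ε')
    (hnM : 13 * K * M ^ j ≤ ε * n) (hnM1 : M ^ (j - 1) ≤ n)
    (hgr : ∀ r : ℝ, 0 < r → ε' * f A 1 r < #(A.filter fun a : ℤ =>
      ((⌊α v / rh⌋ : ℤ) : ℝ) ≤ a ∧ (a : ℝ) < (⌊α v / rh⌋ : ℤ) + r))
    (hgl : ∀ r : ℝ, 0 < r → ε' * f A 1 r < #(A.filter fun a : ℤ =>
      ((⌊α v / rh⌋ : ℤ) : ℝ) - r < a ∧ (a : ℝ) ≤ (⌊α v / rh⌋ : ℤ)))
    (hg : Good Λ α wl v j)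
    (hfib : (#(fib (wl (j - 1)) (wl (j - 1) v)) : ℝ) * M ^ (j - 1) ≤ C * Fintype.card R)
    (hheavy : ε * Fintype.card R ≤ #(R'.filter fun u => wl j u = wl j v) * M ^ j) :
    ∃ r : ℝ, 0 < r ∧ ε * n ≤ K * M ^ j * f A 1 r ∧
      ε' * f A 1 (Λ / 4 * r) * M ^ (j - 1) ≤ (C * K + 1) * n := by
  obtain ⟨ρ, hρ, hga, hgb⟩ := hg
  have hrh := hc.rh_pos
  have hRr : (0 : ℝ) < Fintype.card R := by exact_mod_cast hR
  have hMj : 0 < M ^ j := by positivity
  have hMj1 : 0 < M ^ (j - 1) := by positivity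
  set r := 2 * ρ / rh + 2 with hr
  have hr0 : 0 < r := by positivity
  have hlow : ε * n ≤ K * M ^ j * f A 1 r := by
    have h1 := h3_lower hc hK hn hv hρ (R'.filter fun u => wl j u = wl j v) (filter_subset _ _)
      (fun u hu => hga u (mem_filter.1 hu).2)
    rw [← hr] at h1
    have h2 : (ε * n) * Fintype.card R ≤ (K * M ^ j * f A 1 r) * Fintype.card R := by
      calc (ε * n) * Fintype.card R = n * (ε * Fintype.card R) := by ring
        _ ≤ n * (#(R'.filter fun u => wl j u = wl j v) * M ^ j) :=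
            mul_le_mul_of_nonneg_left hheavy hn
        _ = (n * #(R'.filter fun u => wl j u = wl j v)) * M ^ j := by ring
        _ ≤ (K * Fintype.card R * f A 1 r) * M ^ j := mul_le_mul_of_nonneg_right h1 hMj.le
        _ = _ := by ring
    exact le_of_mul_le_mul_right h2 hRr
  have hρ2 : 2 * rh ≤ ρ := by
    have h1 := f_le_two A 1 hr0.le
    have h2 : 13 * (K * M ^ j) ≤ (2 * r + 1) * (K * M ^ j) := by
      calc 13 * (K * M ^ j) = 13 * K * M ^ j := by ring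
        _ ≤ ε * n := hnM
        _ ≤ K * M ^ j * f A 1 r := hlow
        _ ≤ K * M ^ j * (2 * r + 1) := mul_le_mul_of_nonneg_left h1 (by positivity)
        _ = _ := by ring
    have h3 : 13 ≤ 2 * r + 1 := le_of_mul_le_mul_right h2 (by positivity)
    have h4 : 2 ≤ ρ / rh := by
      have : 2 * ρ / rh = 2 * (ρ / rh) := by ring
      rw [hr, this] at h3; linarith
    rwa [le_div_iff₀ hrh] at h4
  refine ⟨r, hr0, hlow, ?_⟩
  have hr' : 0 < Λ / 4 * r := by positivity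
  have key : ∀ y : ℝ, (y - 1) * Fintype.card R ≤
      K * n * #(fib (wl (j - 1)) (wl (j - 1) v)) → ε' * f A 1 (Λ / 4 * r) < y →
      ε' * f A 1 (Λ / 4 * r) * M ^ (j - 1) ≤ (C * K + 1) * n := by
    intro y hy1 hy2
    have h1 : (y - 1) * M ^ (j - 1) ≤ C * K * n := by
      have : ((y - 1) * M ^ (j - 1)) * Fintype.card R ≤ (C * K * n) * Fintype.card R := by
        calc ((y - 1) * M ^ (j - 1)) * Fintype.card R
            = ((y - 1) * Fintype.card R) * M ^ (j - 1) := by ring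
          _ ≤ (K * n * #(fib (wl (j - 1)) (wl (j - 1) v))) * M ^ (j - 1) :=
              mul_le_mul_of_nonneg_right hy1 hMj1.le
          _ = (K * n) * (#(fib (wl (j - 1)) (wl (j - 1) v)) * M ^ (j - 1)) := by ring
          _ ≤ (K * n) * (C * Fintype.card R) :=
              mul_le_mul_of_nonneg_left hfib (by positivity)
          _ = _ := by ring
      exact le_of_mul_le_mul_right this hRr
    calc ε' * f A 1 (Λ / 4 * r) * M ^ (j - 1) ≤ y * M ^ (j - 1) :=
          mul_le_mul_of_nonneg_right hy2.le hMj1.le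
      _ = (y - 1) * M ^ (j - 1) + M ^ (j - 1) := by ring
      _ ≤ C * K * n + n := add_le_add h1 hnM1
      _ = _ := by ring
  rcases hgb with hgb | hgb
  · exact key _ (h3_upper_right hc hK hn hρ2 hΛ (fib (wl (j - 1)) (wl (j - 1) v))
      (fun u h1 h2 => mem_fib.2 (hgb u h1 h2))) (hgr _ hr')
  · exact key _ (h3_upper_left hc hK hn hρ2 hΛ (fib (wl (j - 1)) (wl (j - 1) v))
      (fun u h1 h2 => mem_fib.2 (hgb u h1 h2))) (hgl _ hr')

/-- averaging over levels -/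
lemma averaging (n1 : ℕ) (η : ℝ) (G : R → Finset ℕ) (hG : ∀ v, G v ⊆ Icc 1 n1)
    (hGη : ∀ v, η * n1 ≤ #(G v)) (R2 : Finset R) (hne : R2.Nonempty) (P : R → ℕ → Prop) (D : ℝ)
    (hD : ∀ j ∈ Icc 1 n1, (#(R2.filter fun v => j ∈ G v ∧ ¬ P v j) : ℝ) ≤ D)
    (hD2 : D ≤ η / 2 * #R2) :
    η / 2 * n1 ≤ #((Icc 1 n1).filter fun j => ∃ v ∈ R2, j ∈ G v ∧ P v j) := by
  set J := (Icc 1 n1).filter fun j => ∃ v ∈ R2, j ∈ G v ∧ P v j with hJ
  have hR2 : (0 : ℝ) < #R2 := by exact_mod_cast card_pos.2 hne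
  have h1 : ∀ v ∈ R2, η * n1 ≤ (#J : ℝ) + #((Icc 1 n1).filter fun j => j ∈ G v ∧ ¬ P v j) := by
    intro v hv
    refine (hGη v).trans ?_
    have : G v ⊆ J ∪ ((Icc 1 n1).filter fun j => j ∈ G v ∧ ¬ P v j) := by
      intro j hj
      by_cases hP : P v j
      · exact mem_union_left _ (mem_filter.2 ⟨hG v hj, v, hv, hj, hP⟩)
      · exact mem_union_right _ (mem_filter.2 ⟨hG v hj, hj, hP⟩)
    exact_mod_cast (card_le_card this).trans (card_union_le _ _)
  have h2 := sum_le_sum h1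
  rw [sum_const, nsmul_eq_mul, sum_add_distrib, sum_const, nsmul_eq_mul] at h2
  have h3 : ∑ v ∈ R2, (#((Icc 1 n1).filter fun j => j ∈ G v ∧ ¬ P v j) : ℝ) =
      ∑ j ∈ Icc 1 n1, (#(R2.filter fun v => j ∈ G v ∧ ¬ P v j) : ℝ) := by
    exact_mod_cast sum_card_bipartiteAbove_eq_sum_card_bipartiteBelow
      (fun v j => j ∈ G v ∧ ¬ P v j)
  have h4 : ∑ j ∈ Icc 1 n1, (#(R2.filter fun v => j ∈ G v ∧ ¬ P v j) : ℝ) ≤ n1 * D := by
    calc ∑ j ∈ Icc 1 n1, (#(R2.filter fun v => j ∈ G v ∧ ¬ P v j) : ℝ) ≤ ∑ j ∈ Icc 1 n1, D :=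
          sum_le_sum hD
      _ = n1 * D := by rw [sum_const, nsmul_eq_mul, Nat.card_Icc]; simp
  have h5 : (n1 : ℝ) * D ≤ n1 * (η / 2 * #R2) :=
    mul_le_mul_of_nonneg_left hD2 (Nat.cast_nonneg _)
  have h6 : (η / 2 * n1) * #R2 ≤ #J * #R2 := by
    rw [h3] at h2
    nlinarith
  exact le_of_mul_le_mul_right h6 hR2

/-- few points in light fibres -/
lemma light_count (w : R → ℕ) (R' R2 : Finset R) (hsub : R2 ⊆ R') {C M' ε : ℝ} (hM' : 0 < M')
    (hε : 0 ≤ ε) (hL : (#(univ.image w) : ℝ) ≤ C * M') :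
    (#(R2.filter fun v => ¬ (ε * Fintype.card R ≤ #(R'.filter fun u => w u = w v) * M')) : ℝ) ≤
      C * ε * Fintype.card R := by
  set B := R2.filter fun v => ¬ (ε * Fintype.card R ≤ #(R'.filter fun u => w u = w v) * M')
    with hB
  have h1 : #B = ∑ a ∈ univ.image w, #(B.filter fun v => w v = a) :=
    card_eq_sum_card_fiberwise (fun v _ => mem_coe.2 (mem_image_of_mem _ (mem_univ v)))
  have h2 : (#B : ℝ) * M' ≤ (C * ε * Fintype.card R) * M' := by
    rw [h1]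
    push_cast
    rw [sum_mul]
    calc ∑ a ∈ univ.image w, (#(B.filter fun v => w v = a) : ℝ) * M'
        ≤ ∑ a ∈ univ.image w, ε * Fintype.card R := by
          apply sum_le_sum
          intro a _
          rcases (B.filter fun v => w v = a).eq_empty_or_nonempty with h | ⟨v, hv⟩
          · rw [h]; simp; positivity
          · obtain ⟨hvB, hva⟩ := mem_filter.1 hv
            obtain ⟨hv2, hvl⟩ := mem_filter.1 hvB
            push Not at hvl
            refine le_trans ?_ hvl.le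
            apply mul_le_mul_of_nonneg_right _ hM'.le
            have : (B.filter fun v => w v = a) ⊆ R'.filter fun u => w u = w v := by
              intro u hu
              obtain ⟨huB, hua⟩ := mem_filter.1 hu
              exact mem_filter.2 ⟨hsub (mem_filter.1 huB).1, hua.trans hva.symm⟩
            exact_mod_cast card_le_card this
      _ = #(univ.image w) * (ε * Fintype.card R) := by rw [sum_const, nsmul_eq_mul]
      _ ≤ (C * M') * (ε * Fintype.card R) :=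
          mul_le_mul_of_nonneg_right hL (by positivity)
      _ = _ := by ring
  exact le_of_mul_le_mul_right h2 hM'

end two

lemma exists_spaced (J : Finset ℕ) : ∃ s : ℕ → ℕ, ∀ i, i < #J / 3 →
    s i ∈ J ∧ (i + 1 < #J / 3 → s (i + 1) + 3 ≤ s i) := by
  set m := #J with hm
  let e := J.orderEmbOfFin hm.symm
  have hmono : StrictMono e := e.strictMono
  refine ⟨fun i => if h : m - 1 - 3 * i < m then e ⟨m - 1 - 3 * i, h⟩ else 0, ?_⟩
  intro i hi
  have h1 : m - 1 - 3 * i < m := by omega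
  refine ⟨?_, ?_⟩
  · simp only [h1, dif_pos]
    exact Finset.orderEmbOfFin_mem J hm.symm _
  · intro hi'
    have h2 : m - 1 - 3 * (i + 1) < m := by omega
    simp only [h1, h2, dif_pos]
    have h3 : m - 1 - 3 * (i + 1) + 1 < m := by omega
    have h4 : m - 1 - 3 * (i + 1) + 2 < m := by omega
    have a1 : e ⟨m - 1 - 3 * (i + 1), h2⟩ < e ⟨m - 1 - 3 * (i + 1) + 1, h3⟩ := by
      apply hmono; exact Fin.mk_lt_mk.2 (by omega)
    have a2 : e ⟨m - 1 - 3 * (i + 1) + 1, h3⟩ < e ⟨m - 1 - 3 * (i + 1) + 2, h4⟩ := by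
      apply hmono; exact Fin.mk_lt_mk.2 (by omega)
    have a3 : e ⟨m - 1 - 3 * (i + 1) + 2, h4⟩ < e ⟨m - 1 - 3 * i, h1⟩ := by
      apply hmono; exact Fin.mk_lt_mk.2 (by omega)
    omega

lemma Good.of_sign {R : Type*} {Λ ρ s : ℝ} {α : R → ℝ} {wl : ℕ → R → ℕ} {v : R} {j : ℕ}
    (hρ : 0 < ρ) (hs : s = 1 ∨ s = -1) (ha : ∀ u, wl j u = wl j v → |α u - α v| ≤ ρ)
    (hb : ∀ u, 0 ≤ s * (α u - α v) → s * (α u - α v) ≤ Λ * ρ → wl (j - 1) u = wl (j - 1) v) :
    Good Λ α wl v j := by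
  refine ⟨ρ, hρ, ha, ?_⟩
  rcases hs with rfl | rfl
  · left
    intro u h1 h2
    exact hb u (by linarith) (by linarith)
  · right
    intro u h1 h2
    exact hb u (by linarith) (by linarith)

set_option maxHeartbeats 1000000 in
/-- The contradiction of 9.7 from the cell decomposition. -/
theorem cells_contradiction (C K η : ℝ) (hC : 1 ≤ C) (hK : 1 ≤ K) (hη : 0 < η) :
    ∃ mu0 : ℕ, ∀ mu : ℕ, mu0 ≤ mu → ∃ N1 : ℕ, ∀ n1 : ℕ, N1 ≤ n1 → ∀ n : ℝ,
      ((mu : ℝ) ^ 10) ^ (2 * n1) ≤ n →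
      ∀ (R : Type) [Fintype R] [Nonempty R] (α : R → ℝ) (wl : ℕ → R → ℕ) (G : R → Finset ℕ)
        (rh : ℝ) (R' : Finset R) (A : Finset ℤ), Cells K n α rh R' A →
      (∀ v, G v ⊆ Finset.Icc 1 n1 ∧ η * n1 ≤ #(G v)) →
      (∀ v, ∀ j ∈ G v, ∃ ρ : ℝ, 0 < ρ ∧ ∃ s : ℝ, (s = 1 ∨ s = -1) ∧
        (∀ u, wl j u = wl j v → |α u - α v| ≤ ρ) ∧
        (∀ u, 0 ≤ s * (α u - α v) → s * (α u - α v) ≤ (mu : ℝ) ^ 11 * ρ →
          wl (j - 1) u = wl (j - 1) v) ∧
        (#(fib (wl (j - 1)) (wl (j - 1) v)) : ℝ) * ((mu : ℝ) ^ 10) ^ (j - 1) ≤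
          C * Fintype.card R ∧
        (#(univ.image (wl j)) : ℝ) ≤ C * ((mu : ℝ) ^ 10) ^ j) → False := by
  -- constants
  set ε' : ℝ := 1 / (8 * K ^ 6) with hε'
  set ε : ℝ := η / (4 * K * C) with hε
  have hK0 : 0 < K := by linarith
  have hC0 : 0 < C := by linarith
  have hε'0 : 0 < ε' := by positivity
  have hε0 : 0 < ε := by positivity
  set C3 : ℝ := (C * K + 1) * K / (ε * ε') with hC3
  have hC30 : 0 < C3 := by positivity
  obtain ⟨mug, hmug⟩ := growth_contradiction K (max C3 1) hK (le_max_right _ _)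
  refine ⟨max mug (⌈C3⌉₊ + 2), fun mu hmu => ?_⟩
  have hmu1 : mug ≤ mu := (le_max_left _ _).trans hmu
  have hmu2 : ⌈C3⌉₊ + 2 ≤ mu := (le_max_right _ _).trans hmu
  obtain ⟨L0, hL0⟩ := hmug mu hmu1
  have hmu2r : C3 + 2 ≤ mu := by
    have h1 := Nat.le_ceil C3
    have h2 : ((⌈C3⌉₊ + 2 : ℕ) : ℝ) ≤ mu := by exact_mod_cast hmu2
    push_cast at h2; linarith
  have hmur : (2 : ℝ) ≤ mu := by linarith
  set M : ℝ := (mu : ℝ) ^ 10 with hM
  set Λ : ℝ := (mu : ℝ) ^ 11 with hΛ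
  have hmuM : (mu : ℝ) ≤ M := by
    calc (mu : ℝ) = (mu : ℝ) ^ 1 := (pow_one _).symm
      _ ≤ (mu : ℝ) ^ 10 := pow_le_pow_right₀ (by linarith) (by norm_num)
  have hM2 : 2 ≤ M := hmur.trans hmuM
  have hM1 : 1 ≤ M := by linarith
  have hM0 : 0 < M := by linarith
  have hΛ2 : 2 ≤ Λ := by
    have : (mu : ℝ) ^ 1 ≤ (mu : ℝ) ^ 11 := pow_le_pow_right₀ (by linarith) (by norm_num)
    rw [pow_one] at this
    linarith
  have hMC3 : C3 ≤ M := by linarith
  -- choose N1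
  obtain ⟨N2, hN2⟩ := pow_unbounded_of_one_lt (13 * K / ε) (by linarith : 1 < M)
  refine ⟨max N2 ⌈(2 / η) * (3 * L0 + 3)⌉₊, fun n1 hn1 n hn => ?_⟩
  intro R _ _ α wl G rh R' A hc hG hlev
  have hn1a : N2 ≤ n1 := (le_max_left _ _).trans hn1
  have hn1b : (2 / η) * (3 * L0 + 3) ≤ n1 := by
    have h1 := Nat.le_ceil ((2 / η) * (3 * L0 + 3) : ℝ)
    have h2 : ((⌈(2 / η) * (3 * L0 + 3)⌉₊ : ℕ) : ℝ) ≤ n1 := by
      exact_mod_cast (le_max_right _ _).trans hn1
    linarith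
  have hR : 0 < Fintype.card R := Fintype.card_pos
  have hRr : (0 : ℝ) < Fintype.card R := by exact_mod_cast hR
  have hn0 : 0 < n := lt_of_lt_of_le (by positivity) hn
  have hMn : 13 * K / ε ≤ M ^ n1 := hN2.le.trans (pow_le_pow_right₀ hM1 hn1a)
  have hnM : ∀ j ≤ n1, 13 * K * M ^ j ≤ ε * n := by
    intro j hj
    have h1 : M ^ j ≤ M ^ n1 := pow_le_pow_right₀ hM1 hj
    have h2 : 13 * K ≤ M ^ n1 * ε := by rwa [div_le_iff₀ hε0] at hMn
    calc 13 * K * M ^ j ≤ (M ^ n1 * ε) * M ^ n1 :=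
          mul_le_mul h2 h1 (by positivity) (by positivity)
      _ = ε * M ^ (2 * n1) := by rw [two_mul, pow_add]; ring
      _ ≤ ε * n := mul_le_mul_of_nonneg_left hn hε0.le
  have hnM1 : ∀ j ≤ n1, M ^ (j - 1) ≤ n := by
    intro j hj
    exact (pow_le_pow_right₀ hM1 (by omega)).trans hn
  -- R' nonempty, A nonempty
  have hR'ne : R'.Nonempty := by
    rw [nonempty_iff_ne_empty]; intro h
    have := hc.big; rw [h] at this; simp at this
  have hAne : A.Nonempty := by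
    obtain ⟨v, hv⟩ := hR'ne
    exact ⟨_, hc.mem v hv⟩
  have hP : ∀ m k : ℕ, ((m • A - k • A).card : ℝ) ≤ K ^ (m + k) * A.card :=
    plunnecke hAne hc.dbl
  -- good cells
  let br : Finset ℤ := A.filter fun b => ∃ r : ℝ, 0 < r ∧
      ((A.filter (fun a : ℤ => (b : ℝ) ≤ a ∧ (a : ℝ) < b + r)).card : ℝ) ≤ ε' * f A 1 r
  let bl : Finset ℤ := A.filter fun b => ∃ r : ℝ, 0 < r ∧
      ((A.filter (fun a : ℤ => (b : ℝ) - r < a ∧ (a : ℝ) ≤ b)).card : ℝ) ≤ ε' * f A 1 r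
  have hbr : (#br : ℝ) ≤ 2 * ε' * (K ^ 3 * #A) :=
    H2_right' A hP hε'0.le br (filter_subset _ _) (fun b hb => (mem_filter.1 hb).2)
  have hbl : (#bl : ℝ) ≤ 2 * ε' * (K ^ 3 * #A) :=
    H2_left' A hP hε'0.le bl (filter_subset _ _) (fun b hb => (mem_filter.1 hb).2)
  have hAn : (#A : ℝ) ≤ K * n := by
    have h1 := upper_count hc hK0.le hn0.le A (Subset.refl _) univ (fun _ _ _ _ _ => mem_univ _)
    rw [card_univ] at h1
    exact le_of_mul_le_mul_right h1 hRr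
  let R2 : Finset R := R'.filter fun v => ⌊α v / rh⌋ ∉ br ∪ bl
  have hR2 : (Fintype.card R : ℝ) ≤ 2 * K * #R2 := by
    have h1 : (#(R'.filter fun v => ⌊α v / rh⌋ ∈ br ∪ bl) : ℝ) * n ≤
        K * Fintype.card R * #(br ∪ bl) := by
      have h2 := lower_count hc hn0.le (R'.filter fun v => ⌊α v / rh⌋ ∈ br ∪ bl)
        (filter_subset _ _)
      rw [mul_comm]
      refine h2.trans ?_
      apply mul_le_mul_of_nonneg_left _ (by positivity)
      have : ((R'.filter fun v => ⌊α v / rh⌋ ∈ br ∪ bl).image fun v => ⌊α v / rh⌋) ⊆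
          br ∪ bl := by
        intro b hb
        obtain ⟨v, hv, rfl⟩ := mem_image.1 hb
        exact (mem_filter.1 hv).2
      exact_mod_cast card_le_card this
    have h3 : (#(br ∪ bl) : ℝ) ≤ 4 * ε' * K ^ 3 * (K * n) := by
      have h4 : (#(br ∪ bl) : ℝ) ≤ #br + #bl := by exact_mod_cast card_union_le _ _
      have h5 : 2 * ε' * (K ^ 3 * #A) ≤ 2 * ε' * (K ^ 3 * (K * n)) := by gcongr
      linarith
    have h6 : (#(R'.filter fun v => ⌊α v / rh⌋ ∈ br ∪ bl) : ℝ) ≤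
        1 / (2 * K) * Fintype.card R := by
      have h7 : (#(R'.filter fun v => ⌊α v / rh⌋ ∈ br ∪ bl) : ℝ) * n ≤
          (1 / (2 * K) * Fintype.card R) * n := by
        calc (#(R'.filter fun v => ⌊α v / rh⌋ ∈ br ∪ bl) : ℝ) * n
            ≤ K * Fintype.card R * #(br ∪ bl) := h1
          _ ≤ K * Fintype.card R * (4 * ε' * K ^ 3 * (K * n)) :=
              mul_le_mul_of_nonneg_left h3 (by positivity)
          _ = (1 / (2 * K) * Fintype.card R) * n := by
              rw [hε']; field_simp; ring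
      exact le_of_mul_le_mul_right h7 hn0
    have h8 : (#R' : ℝ) = #R2 + #(R'.filter fun v => ⌊α v / rh⌋ ∈ br ∪ bl) := by
      have := card_filter_add_card_filter_not (s := R') (fun v => ⌊α v / rh⌋ ∉ br ∪ bl)
      simp only [not_not] at this
      exact_mod_cast this.symm
    have h9 := hc.big
    rw [h8] at h9
    have h10 : K * (1 / (2 * K) * Fintype.card R) = Fintype.card R / 2 := by field_simp
    have h11 := mul_le_mul_of_nonneg_left h6 hK0.le
    rw [h10] at h11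
    nlinarith
  have hR2ne : R2.Nonempty := by
    rw [nonempty_iff_ne_empty]; intro h
    rw [h] at hR2; simp at hR2
  -- qualifying levels
  let P : R → ℕ → Prop := fun v j =>
    ε * Fintype.card R ≤ #(R'.filter fun u => wl j u = wl j v) * M ^ j
  have hJ := averaging n1 η G (fun v => (hG v).1) (fun v => (hG v).2) R2 hR2ne P
    (C * ε * Fintype.card R) (by
      intro j hj
      by_cases hex : ∃ v ∈ R2, j ∈ G v
      · obtain ⟨v, hv, hjv⟩ := hex
        obtain ⟨ρ, hρ, s, hs, ha, hb, hcc, hd⟩ := hlev v j hjv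
        have h1 := light_count (wl j) R' R2 (filter_subset _ _) (M' := M ^ j) (by positivity)
          hε0.le hd
        refine le_trans ?_ h1
        have : (R2.filter fun v => j ∈ G v ∧ ¬ P v j) ⊆ (R2.filter fun v =>
            ¬ (ε * Fintype.card R ≤ #(R'.filter fun u => wl j u = wl j v) * M ^ j)) := by
          intro u hu
          obtain ⟨hu1, hu2, hu3⟩ := mem_filter.1 hu
          exact mem_filter.2 ⟨hu1, hu3⟩
        exact_mod_cast card_le_card this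
      · have : (R2.filter fun v => j ∈ G v ∧ ¬ P v j) = ∅ := by
          apply filter_eq_empty_iff.2
          intro v hv h
          exact hex ⟨v, hv, h.1⟩
        rw [this]; simp; positivity) (by
      have : C * ε = η / (4 * K) := by rw [hε]; field_simp
      rw [this]
      calc η / (4 * K) * Fintype.card R ≤ η / (4 * K) * (2 * K * #R2) :=
            mul_le_mul_of_nonneg_left hR2 (by positivity)
        _ = η / 2 * #R2 := by field_simp; ring)
  set J := (Icc 1 n1).filter fun j => ∃ v ∈ R2, j ∈ G v ∧ P v j with hJdef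
  have hJc : 3 * L0 + 3 ≤ #J := by
    have h1 : ((3 * L0 + 3 : ℕ) : ℝ) ≤ #J := by
      push_cast
      refine le_trans ?_ hJ
      calc (3 * (L0 : ℝ) + 3) = η / 2 * ((2 / η) * (3 * L0 + 3)) := by field_simp
        _ ≤ η / 2 * n1 := mul_le_mul_of_nonneg_left hn1b (by positivity)
    exact_mod_cast h1
  -- radii
  have hrad : ∀ j ∈ J, ∃ r : ℝ, 0 < r ∧ ε * n ≤ K * M ^ j * f A 1 r ∧
      ε' * f A 1 (Λ / 4 * r) * M ^ (j - 1) ≤ (C * K + 1) * n := by
    intro j hj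
    obtain ⟨hj1, v, hv, hjv, hPv⟩ := mem_filter.1 hj
    obtain ⟨hvR', hvg⟩ := mem_filter.1 hv
    obtain ⟨ρ, hρ, s, hs, ha, hb, hcc, hd⟩ := hlev v j hjv
    have hjn := (mem_Icc.1 hj1).2
    have hcell := hc.mem v hvR'
    rw [mem_union, not_or] at hvg
    refine level_radius hc hK hn0.le hR hvR' hΛ2 hM1 hC hε'0 (hnM j hjn) (hnM1 j hjn) ?_ ?_
      (Good.of_sign hρ hs ha hb) hcc hPv
    · intro r hr
      by_contra hcon
      push Not at hcon
      exact hvg.1 (mem_filter.2 ⟨hcell, r, hr, hcon⟩)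
    · intro r hr
      by_contra hcon
      push Not at hcon
      exact hvg.2 (mem_filter.2 ⟨hcell, r, hr, hcon⟩)
  choose! rr hrr0 hrrL hrrU using hrad
  obtain ⟨sq, hsq⟩ := exists_spaced J
  have hJ3 : L0 + 1 ≤ #J / 3 := by omega
  have hJpos : ∀ j ∈ J, 1 ≤ j := fun j hj => (mem_Icc.1 (mem_filter.1 hj).1).1
  -- (H3)
  have hH3 : ∀ j ∈ J, (f A 1 (Λ / 4 * rr j) : ℝ) ≤ C3 * M * f A 1 (rr j) := by
    intro j hj
    have h1 := hrrU j hj
    have h2 := hrrL j hj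
    have hMj : M ^ j = M ^ (j - 1) * M := by
      rw [← pow_succ, Nat.sub_add_cancel (hJpos j hj)]
    have hMp : 0 < M ^ (j - 1) := by positivity
    have h3 : (ε * ε' * M ^ (j - 1)) * f A 1 (Λ / 4 * rr j) ≤
        (ε * ε' * M ^ (j - 1)) * (C3 * M * f A 1 (rr j)) := by
      calc (ε * ε' * M ^ (j - 1)) * f A 1 (Λ / 4 * rr j)
          = ε * (ε' * f A 1 (Λ / 4 * rr j) * M ^ (j - 1)) := by ring
        _ ≤ ε * ((C * K + 1) * n) := mul_le_mul_of_nonneg_left h1 hε0.le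
        _ = (C * K + 1) * (ε * n) := by ring
        _ ≤ (C * K + 1) * (K * M ^ j * f A 1 (rr j)) :=
            mul_le_mul_of_nonneg_left h2 (by positivity)
        _ = (ε * ε' * M ^ (j - 1)) * (C3 * M * f A 1 (rr j)) := by
            rw [hMj, hC3]; field_simp
    exact le_of_mul_le_mul_left h3 (by positivity)
  have hH3' : ∀ j ∈ J, ∀ j' ∈ J, j' + 3 ≤ j →
      M * (f A 1 (Λ / 4 * rr j) : ℝ) ≤ f A 1 (rr j') := by
    intro j hj j' hj' hjj
    have h1 := hrrU j hj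
    have h2 := hrrL j' hj'
    obtain ⟨d, rfl⟩ := Nat.exists_eq_add_of_le hjj
    have hMj : M ^ (j' + 3 + d - 1) = M ^ j' * M ^ 2 * M ^ d := by
      rw [← pow_add, ← pow_add]; congr 1; omega
    have hMp : 0 < M ^ j' := by positivity
    have hMd : 1 ≤ M ^ d := one_le_pow₀ hM1
    have h3 : (ε * ε' * (M ^ j' * M ^ 2)) * f A 1 (Λ / 4 * rr (j' + 3 + d)) ≤
        (ε * ε' * (M ^ j')) * (C3 * f A 1 (rr j')) := by
      calc (ε * ε' * (M ^ j' * M ^ 2)) * f A 1 (Λ / 4 * rr (j' + 3 + d))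
          ≤ (ε * ε' * (M ^ j' * M ^ 2)) * f A 1 (Λ / 4 * rr (j' + 3 + d)) * M ^ d :=
            le_mul_of_one_le_right (by positivity) hMd
        _ = ε * (ε' * f A 1 (Λ / 4 * rr (j' + 3 + d)) * M ^ (j' + 3 + d - 1)) := by
            rw [hMj]; ring
        _ ≤ ε * ((C * K + 1) * n) := mul_le_mul_of_nonneg_left h1 hε0.le
        _ = (C * K + 1) * (ε * n) := by ring
        _ ≤ (C * K + 1) * (K * M ^ j' * f A 1 (rr j')) :=
            mul_le_mul_of_nonneg_left h2 (by positivity)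
        _ = (ε * ε' * (M ^ j')) * (C3 * f A 1 (rr j')) := by
            rw [hC3]; field_simp
    have h4 : (ε * ε' * (M ^ j')) * (M ^ 2 * f A 1 (Λ / 4 * rr (j' + 3 + d))) ≤
        (ε * ε' * (M ^ j')) * (M * f A 1 (rr j')) := by
      calc (ε * ε' * (M ^ j')) * (M ^ 2 * f A 1 (Λ / 4 * rr (j' + 3 + d)))
          = (ε * ε' * (M ^ j' * M ^ 2)) * f A 1 (Λ / 4 * rr (j' + 3 + d)) := by ring
        _ ≤ (ε * ε' * (M ^ j')) * (C3 * f A 1 (rr j')) := h3
        _ ≤ (ε * ε' * (M ^ j')) * (M * f A 1 (rr j')) := by gcongr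
    have h5 := le_of_mul_le_mul_left h4 (by positivity)
    have h6 : M * (M * f A 1 (Λ / 4 * rr (j' + 3 + d))) ≤ M * f A 1 (rr j') := by
      calc M * (M * f A 1 (Λ / 4 * rr (j' + 3 + d)))
          = M ^ 2 * f A 1 (Λ / 4 * rr (j' + 3 + d)) := by ring
        _ ≤ _ := h5
    exact le_of_mul_le_mul_left h6 hM0
  refine hL0 A hAne hP (fun i => rr (sq i)) (#J / 3) (by omega)
    (hrr0 _ (hsq 0 (by omega)).1) ?_ ?_ ?_
  · intro i hi
    refine (hH3 _ (hsq i hi).1).trans ?_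
    have : C3 ≤ max C3 1 := le_max_left _ _
    gcongr
  · intro i hi
    have hi' : i < #J / 3 := by omega
    have hj := (hsq i hi').1
    have hj' := (hsq (i + 1) hi).1
    have h1 := hH3' _ hj _ hj' ((hsq i hi').2 hi)
    by_contra hcon
    push Not at hcon
    have h2 : (f A 1 (rr (sq (i + 1))) : ℝ) ≤ f A 1 (Λ / 4 * rr (sq i)) := by
      exact_mod_cast f_mono A 1 hcon.le
    have h3 : (1 : ℝ) ≤ f A 1 (Λ / 4 * rr (sq i)) := by
      exact_mod_cast f_pos hAne 1 (by have := hrr0 _ hj; positivity)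
    nlinarith
  · intro i hi
    have hi' : i < #J / 3 := by omega
    exact hH3' _ (hsq i hi').1 _ (hsq (i + 1) hi).1 ((hsq i hi').2 hi)

end Crest.Agent.R51.H3
end

-- ▼ part R51/AddMain

/-! Row 51, section B9: the additive theorem ADD. -/

set_option autoImplicit false

namespace Crest.Agent.R51.Add

open Finset Classical Pointwise

theorem jumpLemma : JumpLemma := by
  intro C ε c q hC hε hε1 hc hq
  obtain ⟨C', hC', h⟩ := Crest.Agent.R51.Jump.no_jump C ε c q hC hε hε1 hc hq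
  exact ⟨C', hC', fun R _ V α w hS T hT i j hij => h R V α w hS T hT i j hij⟩

theorem common : Common := by
  intro C hC
  obtain ⟨K, V0, _, _, h⟩ := exists_common_scale jumpLemma C hC
  exact ⟨K, V0, h⟩

/-- **THEOREM ADD** (section B9 of the blueprint). -/
theorem ADD (C η : ℝ) (hC : 1 ≤ C) (hη : 0 < η) :
    ∃ mu0 : ℕ, ∀ mu : ℕ, mu0 ≤ mu → ∃ N1 N0 : ℕ, ∀ n1 n0 : ℕ, N1 ≤ n1 → N0 ≤ n0 → 4 * n1 ≤ n0 →
      ∀ (R : Type) [Fintype R] (α : Fin 3 → R → ℝ) (w : Fin 3 → R → ℕ) (wl : ℕ → R → ℕ)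
        (G : R → Finset ℕ), Setting C (((mu : ℝ) ^ 10) ^ n0) α w →
      (∀ v, G v ⊆ Finset.Icc 1 n1 ∧ η * n1 ≤ #(G v)) →
      (∀ v, ∀ j ∈ G v, ∃ ρ : ℝ, 0 < ρ ∧ ∃ s : ℝ, (s = 1 ∨ s = -1) ∧
        (∀ u, wl j u = wl j v → |α 0 u - α 0 v| ≤ ρ) ∧
        (∀ u, 0 ≤ s * (α 0 u - α 0 v) → s * (α 0 u - α 0 v) ≤ (mu : ℝ) ^ 11 * ρ →
          wl (j - 1) u = wl (j - 1) v) ∧
        (#(fib (wl (j - 1)) (wl (j - 1) v)) : ℝ) * ((mu : ℝ) ^ 10) ^ (j - 1) ≤
          C * Fintype.card R ∧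
        (#(univ.image (wl j)) : ℝ) ≤ C * ((mu : ℝ) ^ 10) ^ j) → False := by
  obtain ⟨K, V0, hK, hcells⟩ := cells common C hC
  obtain ⟨mu0, hmu0⟩ := H3.cells_contradiction C K η hC hK hη
  refine ⟨max mu0 2, fun mu hmu => ?_⟩
  obtain ⟨N1, hN1⟩ := hmu0 mu ((le_max_left _ _).trans hmu)
  have hmu2 : 2 ≤ mu := (le_max_right _ _).trans hmu
  have hmur : (2 : ℝ) ≤ mu := by exact_mod_cast hmu2
  have hM : (1 : ℝ) < (mu : ℝ) ^ 10 := one_lt_pow₀ (by linarith) (by norm_num)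
  obtain ⟨N0, hN0⟩ := pow_unbounded_of_one_lt V0 hM
  refine ⟨N1, N0, ?_⟩
  intro n1 n0 hn1 hn0 hn10 R _ α w wl G hS hG hlev
  haveI : Nonempty R := hS.nonempty
  have hV : V0 ≤ ((mu : ℝ) ^ 10) ^ n0 := hN0.le.trans (pow_le_pow_right₀ hM.le hn0)
  obtain ⟨rh, hrh, R', A', hmem, hlu, hdbl, hbig⟩ := hcells R _ α w hV hS
  have hn : ((mu : ℝ) ^ 10) ^ (2 * n1) ≤ √(((mu : ℝ) ^ 10) ^ n0) := by
    apply Real.le_sqrt_of_sq_le
    rw [← pow_mul]
    exact pow_le_pow_right₀ hM.le (by omega)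
  exact hN1 n1 hn1 _ hn R (α 0) wl G rh R' A'
    ⟨hrh, hmem, fun a ha => (hlu a ha).1, fun a ha => (hlu a ha).2, hdbl, hbig⟩ hG hlev

end Crest.Agent.R51.Add
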