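import Mathlib

/-!
# Row 51 (S0070, `k`-sets): common definitions (notes B0, B2 of helper316)

`P : Finset Pt` is a finite planar point set.  An edge is always written `e = (p, q)` with
`p.1 < q.1` (`p` left, `q` right).  `ht θ p = y - θ x`; `rk P θ p` = number of points of `P`
strictly lower in direction `θ`; `Bel P i θ` = `S^i_θ` = points of rank `< i`;
`lv P e = 1 +` number of points strictly below the line of `e`.
A window is a pair `s t : ℝ` of non-slopes.
-/

set_option autoImplicit false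

noncomputable section

open Classical

namespace Crest.Agent.R51

abbrev Pt := ℝ × ℝ
abbrev Edge := Pt × Pt

/-- Height of `p` in direction `θ`. -/
def ht (θ : ℝ) (p : Pt) : ℝ := p.2 - θ * p.1

/-- Slope of the line through `p` and `q`. -/
def sl (p q : Pt) : ℝ := (q.2 - p.2) / (q.1 - p.1)

/-- Slope of an edge. -/
def esl (e : Edge) : ℝ := sl e.1 e.2

/-- The affine function whose graph is the line of `e`. -/
def lin (e : Edge) (x : ℝ) : ℝ := e.1.2 + esl e * (x - e.1.1)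

/-- Generic point set: distinct abscissae, distinct slopes of distinct pairs. -/
structure Generic (P : Finset Pt) : Prop where
  x_inj : ∀ p ∈ P, ∀ q ∈ P, p.1 = q.1 → p = q
  sl_inj : ∀ p ∈ P, ∀ q ∈ P, ∀ r ∈ P, ∀ u ∈ P, p.1 < q.1 → r.1 < u.1 →
    sl p q = sl r u → p = r ∧ q = u

/-- All pairs (edges), left endpoint first. -/
def pairs (P : Finset Pt) : Finset Edge := (P ×ˢ P).filter (fun e => e.1.1 < e.2.1)

/-- `θ` is not the slope of a pair. -/
def NonSlope (P : Finset Pt) (θ : ℝ) : Prop := ∀ e ∈ pairs P, esl e ≠ θ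

/-- Rank: number of points strictly lower than `p` in direction `θ`. -/
def rk (P : Finset Pt) (θ : ℝ) (p : Pt) : ℕ := (P.filter (fun q => ht θ q < ht θ p)).card

/-- `S^i_θ`: the points of rank `< i`. -/
def Bel (P : Finset Pt) (i : ℕ) (θ : ℝ) : Finset Pt := P.filter (fun p => rk P θ p < i)

/-- Level of a pair: `1 +` number of points strictly below its line. -/
def lv (P : Finset Pt) (e : Edge) : ℕ := 1 + rk P (esl e) e.1

/-- Pairs with slope in the window `(s,t)`. -/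
def pairsIn (P : Finset Pt) (s t : ℝ) : Finset Edge :=
  (pairs P).filter (fun e => s < esl e ∧ esl e < t)

/-- The `i`-edges in the window `(s,t)`. -/
def kE (P : Finset Pt) (i : ℕ) (s t : ℝ) : Finset Edge :=
  (pairsIn P s t).filter (fun e => lv P e = i)

/-- `|lv e - k| ≤ b`. -/
def Near (P : Finset Pt) (k b : ℕ) (e : Edge) : Prop := lv P e ≤ k + b ∧ k ≤ lv P e + b

/-- The near-`b` pairs in the window `(s,t)`. -/
def nearE (P : Finset Pt) (k b : ℕ) (s t : ℝ) : Finset Edge :=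
  (pairsIn P s t).filter (fun e => Near P k b e)

/-- All near-`b` pairs (`E_b` is its cardinality). -/
def nearAll (P : Finset Pt) (k b : ℕ) : Finset Edge := (pairs P).filter (fun e => Near P k b e)


/-- `p` is `b`-central at `θ`: `|rk_θ p - k| ≤ b`. -/
def Central (P : Finset Pt) (k b : ℕ) (θ : ℝ) (p : Pt) : Prop :=
  rk P θ p ≤ k + b ∧ k ≤ rk P θ p + b

/-- `D^i(s,t) = |S^i_s \ S^i_t|`. -/
def Dl (P : Finset Pt) (i : ℕ) (s t : ℝ) : ℕ := (Bel P i s \ Bel P i t).card

/-- The endpoints of a set of edges. -/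
def ends (E : Finset Edge) : Finset Pt := E.image Prod.fst ∪ E.image Prod.snd

/-- `Act_i(s,t)`: endpoints of the `i`-edges of the window. -/
def Act (P : Finset Pt) (i : ℕ) (s t : ℝ) : Finset Pt := ends (kE P i s t)

/-- Endpoints of the near-`b` pairs of the window. -/
def ActN (P : Finset Pt) (k b : ℕ) (s t : ℝ) : Finset Pt := ends (nearE P k b s t)

/-- Number of left near-`b` partners of `p` in the window. -/
def Lp (P : Finset Pt) (k b : ℕ) (s t : ℝ) (p : Pt) : ℕ :=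
  ((nearE P k b s t).filter (fun e => e.2 = p)).card

/-- Number of right near-`b` partners of `p` in the window. -/
def Rp (P : Finset Pt) (k b : ℕ) (s t : ℝ) (p : Pt) : ℕ :=
  ((nearE P k b s t).filter (fun e => e.1 = p)).card

/-- Number of all left partners of `p` in the window. -/
def LpA (P : Finset Pt) (s t : ℝ) (p : Pt) : ℕ :=
  ((pairsIn P s t).filter (fun e => e.2 = p)).card

/-- Number of all right partners of `p` in the window. -/
def RpA (P : Finset Pt) (s t : ℝ) (p : Pt) : ℕ :=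
  ((pairsIn P s t).filter (fun e => e.1 = p)).card

/-- Proper crossing of the two segments. -/
def Cross (e f : Edge) : Prop :=
  ∃ x : ℝ, e.1.1 < x ∧ x < e.2.1 ∧ f.1.1 < x ∧ x < f.2.1 ∧ lin e x = lin f x ∧ esl e ≠ esl f

/-- Number of ordered crossing pairs in `E × F`. -/
def crs (E F : Finset Edge) : ℕ := ((E ×ˢ F).filter (fun x => Cross x.1 x.2)).card

/-- Chain order of edges (note B2, CC). -/
def Before (e f : Edge) : Prop :=
  esl e < esl f ∧ (e.2 = f.1 ∨ (e.2.1 < f.1.1 ∧ esl e < sl e.2 f.1 ∧ sl e.2 f.1 < esl f))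

/-! ### Elementary lemmas -/

lemma mem_pairs {P : Finset Pt} {e : Edge} :
    e ∈ pairs P ↔ e.1 ∈ P ∧ e.2 ∈ P ∧ e.1.1 < e.2.1 := by
  simp [pairs, and_assoc]

lemma mem_pairsIn {P : Finset Pt} {s t : ℝ} {e : Edge} :
    e ∈ pairsIn P s t ↔ e ∈ pairs P ∧ s < esl e ∧ esl e < t := by
  simp [pairsIn]

lemma mem_kE {P : Finset Pt} {i : ℕ} {s t : ℝ} {e : Edge} :
    e ∈ kE P i s t ↔ e ∈ pairs P ∧ s < esl e ∧ esl e < t ∧ lv P e = i := by
  simp [kE, mem_pairsIn, and_assoc]

lemma mem_nearE {P : Finset Pt} {k b : ℕ} {s t : ℝ} {e : Edge} :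
    e ∈ nearE P k b s t ↔ e ∈ pairs P ∧ s < esl e ∧ esl e < t ∧ Near P k b e := by
  simp [nearE, mem_pairsIn, and_assoc]

lemma mem_nearAll {P : Finset Pt} {k b : ℕ} {e : Edge} :
    e ∈ nearAll P k b ↔ e ∈ pairs P ∧ Near P k b e := by
  simp [nearAll]


lemma mem_Bel {P : Finset Pt} {i : ℕ} {θ : ℝ} {p : Pt} :
    p ∈ Bel P i θ ↔ p ∈ P ∧ rk P θ p < i := by
  simp [Bel]

lemma mem_ends {E : Finset Edge} {p : Pt} :
    p ∈ ends E ↔ ∃ e ∈ E, e.1 = p ∨ e.2 = p := by
  constructor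
  · intro h
    rcases Finset.mem_union.1 h with h | h
    · obtain ⟨e, he, rfl⟩ := Finset.mem_image.1 h
      exact ⟨e, he, Or.inl rfl⟩
    · obtain ⟨e, he, rfl⟩ := Finset.mem_image.1 h
      exact ⟨e, he, Or.inr rfl⟩
  · rintro ⟨e, he, rfl | rfl⟩
    · exact Finset.mem_union.2 (Or.inl (Finset.mem_image.2 ⟨e, he, rfl⟩))
    · exact Finset.mem_union.2 (Or.inr (Finset.mem_image.2 ⟨e, he, rfl⟩))

lemma sl_comm (p q : Pt) : sl p q = sl q p := by
  unfold sl
  rw [← neg_sub q.2 p.2, ← neg_sub q.1 p.1, neg_div_neg_eq]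

/-- For `p` left of `q`: `p` is lower than `q` in direction `θ` iff `θ < slope`. -/
lemma ht_lt_iff {p q : Pt} (h : p.1 < q.1) (θ : ℝ) : ht θ p < ht θ q ↔ θ < sl p q := by
  unfold ht sl
  rw [lt_div_iff₀ (by linarith)]
  constructor <;> intro h' <;> nlinarith

lemma ht_gt_iff {p q : Pt} (h : p.1 < q.1) (θ : ℝ) : ht θ q < ht θ p ↔ sl p q < θ := by
  unfold ht sl
  rw [div_lt_iff₀ (by linarith)]
  constructor <;> intro h' <;> nlinarith

lemma ht_eq_iff {p q : Pt} (h : p.1 < q.1) (θ : ℝ) : ht θ p = ht θ q ↔ sl p q = θ := by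
  unfold ht sl
  rw [div_eq_iff (by linarith)]
  constructor <;> intro h' <;> linarith

lemma ht_esl {e : Edge} (h : e.1.1 < e.2.1) : ht (esl e) e.1 = ht (esl e) e.2 :=
  (ht_eq_iff h _).2 rfl

lemma lin_left (e : Edge) : lin e e.1.1 = e.1.2 := by simp [lin]

lemma lin_right {e : Edge} (h : e.1.1 < e.2.1) : lin e e.2.1 = e.2.2 := by
  have h' : e.2.1 - e.1.1 ≠ 0 := by linarith
  unfold lin esl sl
  field_simp
  ring

/-- `lin e x` in terms of heights: a point `r` is above the line of `e` iff its height in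
direction `esl e` exceeds that of `e.1`. -/
lemma lin_lt_iff (e : Edge) (r : Pt) : lin e r.1 < r.2 ↔ ht (esl e) e.1 < ht (esl e) r := by
  unfold lin ht
  constructor <;> intro h <;> nlinarith

lemma lt_lin_iff (e : Edge) (r : Pt) : r.2 < lin e r.1 ↔ ht (esl e) r < ht (esl e) e.1 := by
  unfold lin ht
  constructor <;> intro h <;> nlinarith

lemma lin_eq_iff (e : Edge) (r : Pt) : lin e r.1 = r.2 ↔ ht (esl e) e.1 = ht (esl e) r := by
  unfold lin ht
  constructor <;> intro h <;> linarith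

lemma lin_sub (e : Edge) (x y : ℝ) : lin e x - lin e y = esl e * (x - y) := by
  unfold lin; ring

namespace Generic

variable {P : Finset Pt}

lemma x_ne (h : Generic P) {p q : Pt} (hp : p ∈ P) (hq : q ∈ P) (hpq : p ≠ q) : p.1 ≠ q.1 :=
  fun h' => hpq (h.x_inj p hp q hq h')

lemma x_lt_or_gt (h : Generic P) {p q : Pt} (hp : p ∈ P) (hq : q ∈ P) (hpq : p ≠ q) :
    p.1 < q.1 ∨ q.1 < p.1 :=
  lt_or_gt_of_ne (h.x_ne hp hq hpq)

lemma esl_inj (h : Generic P) {e f : Edge} (he : e ∈ pairs P) (hf : f ∈ pairs P)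
    (hef : esl e = esl f) : e = f := by
  rw [mem_pairs] at he hf
  obtain ⟨h1, h2⟩ := h.sl_inj _ he.1 _ he.2.1 _ hf.1 _ hf.2.1 he.2.2 hf.2.2 hef
  exact Prod.ext h1 h2

/-- No third point on the line of a pair. -/
lemma ht_ne (h : Generic P) {e : Edge} (he : e ∈ pairs P) {r : Pt} (hr : r ∈ P)
    (h1 : r ≠ e.1) (h2 : r ≠ e.2) : ht (esl e) r ≠ ht (esl e) e.1 := by
  rw [mem_pairs] at he
  intro hh
  rcases h.x_lt_or_gt hr he.1 h1 with hx | hx
  · have := (ht_eq_iff hx (esl e)).1 hh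
    obtain ⟨h3, h4⟩ := h.sl_inj _ hr _ he.1 _ he.1 _ he.2.1 hx he.2.2 this
    exact h1 h3
  · have := (ht_eq_iff hx (esl e)).1 hh.symm
    obtain ⟨h3, h4⟩ := h.sl_inj _ he.1 _ hr _ he.1 _ he.2.1 hx he.2.2 this
    exact h2 h4

lemma mono (h : Generic P) {A : Finset Pt} (hA : A ⊆ P) : Generic A where
  x_inj p hp q hq := h.x_inj p (hA hp) q (hA hq)
  sl_inj p hp q hq r hr u hu := h.sl_inj p (hA hp) q (hA hq) r (hA hr) u (hA hu)

end Generic

/-- At a non-slope, heights of distinct points of `P` are distinct. -/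
lemma ht_ne_of_nonSlope {P : Finset Pt} (hG : Generic P) {θ : ℝ} (hθ : NonSlope P θ)
    {p q : Pt} (hp : p ∈ P) (hq : q ∈ P) (hpq : p ≠ q) : ht θ p ≠ ht θ q := by
  intro hh
  rcases hG.x_lt_or_gt hp hq hpq with hx | hx
  · exact hθ (p, q) (mem_pairs.2 ⟨hp, hq, hx⟩) ((ht_eq_iff hx θ).1 hh)
  · exact hθ (q, p) (mem_pairs.2 ⟨hq, hp, hx⟩) ((ht_eq_iff hx θ).1 hh.symm)

end Crest.Agent.R51
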