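import Mathlib
import Crest.Agent.R51.Defs

-- ▼ part R51/CrossLin
section

/-!
# Row 51, B1 / C1: linear bound for x-monotone drawings in which only adjacent edges may cross
(helper445, after helper316's note 9977)
-/

set_option autoImplicit false
set_option linter.unusedVariables false
set_option linter.unusedSectionVars false

namespace Crest.Agent.R51.CrossLin

open Finset Classical

/-- fibre bound, step (f) -/
theorem three_bound {α V : Type*} [LinearOrder V] (S : Finset α) (r l t : α → V)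
    (hinj : ∀ a ∈ S, ∀ b ∈ S, r a = r b → a = b)
    (hlt : ∀ a ∈ S, l a < t a)
    (hrel : ∀ a ∈ S, ∀ b ∈ S, r a < r b → l b = t a ∨ t b = l a) : S.card ≤ 3 := by
  classical
  rcases S.eq_empty_or_nonempty with h | h
  · simp [h]
  obtain ⟨e, he, hmin⟩ := S.exists_min_image r h
  set A := S.filter (fun a => l a = t e) with hA
  set B := S.filter (fun a => t a = l e) with hB
  have hsub : S ⊆ insert e (A ∪ B) := by
    intro a ha
    by_cases hae : a = e
    · simp [hae]
    · have hlt' : r e < r a := lt_of_le_of_ne (hmin a ha) (fun hh => hae ((hinj e he a ha hh).symm))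
      rcases hrel e he a ha hlt' with h1 | h1
      · simp [hA, ha, h1]
      · simp [hB, ha, h1]
  have hA1 : A.card ≤ 1 := by
    rw [Finset.card_le_one]
    have key : ∀ a ∈ A, ∀ b ∈ A, ¬ r a < r b := by
      intro a ha b hb hab
      rw [hA, Finset.mem_filter] at ha hb
      rcases hrel a ha.1 b hb.1 hab with h1 | h1
      · have := hlt a ha.1
        rw [← h1, ha.2, hb.2] at this
        exact lt_irrefl _ this
      · have := hlt b hb.1
        rw [h1, hb.2, ha.2] at this
        exact lt_irrefl _ this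
    intro a ha b hb
    have h1 := key a ha b hb
    have h2 := key b hb a ha
    rw [hA, Finset.mem_filter] at ha hb
    exact hinj a ha.1 b hb.1 (le_antisymm (not_lt.1 h2) (not_lt.1 h1))
  have hB1 : B.card ≤ 1 := by
    rw [Finset.card_le_one]
    have key : ∀ a ∈ B, ∀ b ∈ B, ¬ r a < r b := by
      intro a ha b hb hab
      rw [hB, Finset.mem_filter] at ha hb
      rcases hrel a ha.1 b hb.1 hab with h1 | h1
      · have := hlt b hb.1
        rw [h1, ha.2, hb.2] at this
        exact lt_irrefl _ this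
      · have := hlt a ha.1
        rw [← h1, ha.2, hb.2] at this
        exact lt_irrefl _ this
    intro a ha b hb
    have h1 := key a ha b hb
    have h2 := key b hb a ha
    rw [hB, Finset.mem_filter] at ha hb
    exact hinj a ha.1 b hb.1 (le_antisymm (not_lt.1 h2) (not_lt.1 h1))
  calc S.card ≤ (insert e (A ∪ B)).card := Finset.card_le_card hsub
    _ ≤ (A ∪ B).card + 1 := Finset.card_insert_le _ _
    _ ≤ A.card + B.card + 1 := by have := Finset.card_union_le A B; omega
    _ ≤ 3 := by omega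

/-- the hypotheses of the linear bound, at vertices only -/
structure Drawing (V : Type*) [LinearOrder V] (y : V → ℝ) (g : V → V → V → ℝ)
    (F : Finset (V × V)) : Prop where
  lt : ∀ u w, (u, w) ∈ F → u < w
  left : ∀ u w, (u, w) ∈ F → g u w u = y u
  right : ∀ u w, (u, w) ∈ F → g u w w = y w
  ne : ∀ u w, (u, w) ∈ F → ∀ z, u < z → z < w → g u w z ≠ y z
  ns : ∀ u w u' w', (u, w) ∈ F → (u', w') ∈ F → u ≠ u' → u ≠ w' → w ≠ u' → w ≠ w' →
    ∀ s t, u ≤ s → u' ≤ s → s ≤ w → s ≤ w' → u ≤ t → u' ≤ t → t ≤ w → t ≤ w' →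
    g u w s < g u' w' s → ¬ g u' w' t < g u w t

theorem Drawing.mono {V : Type*} [LinearOrder V] {y : V → ℝ} {g : V → V → V → ℝ}
    {F F' : Finset (V × V)} (h : Drawing V y g F) (hs : F' ⊆ F) : Drawing V y g F' where
  lt u w hh := h.lt u w (hs hh)
  left u w hh := h.left u w (hs hh)
  right u w hh := h.right u w (hs hh)
  ne u w hh := h.ne u w (hs hh)
  ns u w u' w' hh hh' := h.ns u w u' w' (hs hh) (hs hh')

theorem Drawing.neg {V : Type*} [LinearOrder V] {y : V → ℝ} {g : V → V → V → ℝ}
    {F : Finset (V × V)} (h : Drawing V y g F) :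
    Drawing V (fun v => - y v) (fun u w z => - g u w z) F where
  lt := h.lt
  left u w hh := by simp [h.left u w hh]
  right u w hh := by simp [h.right u w hh]
  ne u w hh z h1 h2 h3 := h.ne u w hh z h1 h2 (by linarith)
  ns u w u' w' hh hh' h1 h2 h3 h4 s t a1 a2 a3 a4 b1 b2 b3 b4 h5 h6 :=
    h.ns u' w' u w hh' hh h1.symm h3.symm h2.symm h4.symm s t a2 a1 a4 a3 b2 b1 b4 b3
      (by linarith) (by linarith)

section main

variable {V : Type*} [Fintype V] [LinearOrder V] {y : V → ℝ} {g : V → V → V → ℝ}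
  {E : Finset (V × V)}

/-- the next right neighbour -/
def IsNext (E : Finset (V × V)) (u a b : V) : Prop :=
  a < b ∧ (u, b) ∈ E ∧ ∀ c, a < c → (u, c) ∈ E → b ≤ c

theorem exists_next (u a : V) (h : ∃ b, a < b ∧ (u, b) ∈ E) : ∃ b, IsNext E u a b := by
  classical
  obtain ⟨b0, hb0⟩ := h
  obtain ⟨b, hb, hmin⟩ := (Finset.univ.filter (fun b => a < b ∧ (u, b) ∈ E)).exists_min_image id
    ⟨b0, by simp [hb0.1, hb0.2]⟩
  simp only [Finset.mem_filter, Finset.mem_univ, true_and] at hb hmin
  exact ⟨b, hb.1, hb.2, fun c h1 h2 => hmin c ⟨h1, h2⟩⟩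

/-- the charge relation: `(u, a)` with next neighbour `b` charges `w` -/
def Cand (y : V → ℝ) (g : V → V → V → ℝ) (E : Finset (V × V)) (u a b w : V) : Prop :=
  y w < g u b w ∧ ∀ c, c ≤ a → (u, c) ∈ E → w ≤ c → g u c w < y w

def Charge (y : V → ℝ) (g : V → V → V → ℝ) (E : Finset (V × V)) (u a b w : V) : Prop :=
  u < w ∧ w ≤ a ∧ (w = a ∨ Cand y g E u a b w) ∧
    ∀ v, u < v → v < w → ¬ Cand y g E u a b v

theorem exists_charge (hD : Drawing V y g E) (u a b : V) (ha : (u, a) ∈ E) :
    ∃ w, Charge y g E u a b w := by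
  classical
  obtain ⟨w, hw, hmin⟩ := (Finset.univ.filter
    (fun w => u < w ∧ w ≤ a ∧ (w = a ∨ Cand y g E u a b w))).exists_min_image id
    ⟨a, by simp [hD.lt u a ha]⟩
  simp only [Finset.mem_filter, Finset.mem_univ, true_and, id] at hw hmin
  refine ⟨w, hw.1, hw.2.1, hw.2.2, ?_⟩
  intro v h1 h2 h3
  exact absurd (hmin v ⟨h1, (h2.le.trans hw.2.1), Or.inr h3⟩) (not_le.2 h2)

variable (hD : Drawing V y g E)
  (hlow : ∀ u a b, (u, a) ∈ E → (u, b) ∈ E → a < b → y a < g u b a)
include hD hlow

theorem charge_below {u a b w : V} (ha : (u, a) ∈ E) (hb : IsNext E u a b)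
    (hc : Charge y g E u a b w) : y w < g u b w := by
  rcases hc.2.2.1 with h | h
  · rw [h]; exact hlow u a b ha hb.2.1 hb.1
  · exact h.1

theorem charge_above {u a b w : V} (ha : (u, a) ∈ E) (hb : IsNext E u a b)
    (hc : Charge y g E u a b w) : ∀ c, c ≤ a → (u, c) ∈ E → w ≤ c → g u c w ≤ y w := by
  intro c h1 h2 h3
  rcases hc.2.2.1 with h | h
  · have : c = a := le_antisymm h1 (h ▸ h3)
    subst this
    rw [h, hD.right u c ha]
  · exact (h.2 c h1 h2 h3).le

/-- (d) -/
theorem charge_inj {u a b a' b' w : V} (ha : (u, a) ∈ E) (hb : IsNext E u a b)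
    (hc : Charge y g E u a b w) (ha' : (u, a') ∈ E) (hb' : IsNext E u a' b')
    (hc' : Charge y g E u a' b' w) : ¬ a < a' := by
  intro hlt
  have h1 := charge_below hD hlow ha hb hc
  have hba' : b ≤ a' := hb.2.2 a' hlt ha'
  have hwb : w ≤ b := hc.2.1.trans hb.1.le
  have h2 := charge_above hD hlow ha' hb' hc' b hba' hb.2.1 hwb
  linarith

/-- (e) -/
theorem charge_rel {u a b u' a' b' w : V} (ha : (u, a) ∈ E) (hb : IsNext E u a b)
    (hc : Charge y g E u a b w) (ha' : (u', a') ∈ E) (hb' : IsNext E u' a' b')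
    (hc' : Charge y g E u' a' b' w) (huu : u < u') : a' = b ∨ b' = a := by
  have hW2 := charge_below hD hlow ha hb hc
  have hW3 := charge_above hD hlow ha hb hc
  have hW2' := charge_below hD hlow ha' hb' hc'
  have hW3' := charge_above hD hlow ha' hb' hc'
  have hu'w : u' < w := hc'.1
  have hwa : w ≤ a := hc.2.1
  have hwa' : w ≤ a' := hc'.2.1
  have hab : a < b := hb.1
  have hab' : a' < b' := hb'.1
  have hb'E := hb'.2.1
  have hbE := hb.2.1
  have hnc := hc.2.2.2 u' huu hu'w
  have hl' : g u' a' u' = y u' := hD.left u' a' ha'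
  have hlb' : g u' b' u' = y u' := hD.left u' b' hb'E
  unfold Cand at hnc
  rw [not_and_or] at hnc
  by_cases hcase : y u' < g u b u'
  swap
  · -- case 1
    have hne := hD.ne u b hbE u' huu (hu'w.trans_le (hwa.trans hab.le))
    have h1 : g u b u' < y u' := lt_of_le_of_ne (not_lt.1 hcase) hne
    have h2 : g u' a' w ≤ y w := hW3' a' le_rfl ha' hwa'
    by_contra hcon
    push Not at hcon
    refine hD.ns u b u' a' hbE ha' huu.ne ?_ ?_ (Ne.symm hcon.1) u' w huu.le le_rfl
      (hu'w.le.trans (hwa.trans hab.le)) (hu'w.le.trans hwa') (huu.trans hu'w).le hu'w.le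
      (hwa.trans hab.le) hwa' (by rw [hl']; exact h1) (lt_of_le_of_lt h2 hW2)
    · exact (huu.trans (hu'w.trans_le hwa')).ne
    · exact (hu'w.trans_le (hwa.trans hab.le)).ne'
  · -- case 2
    have hnc2 : ∃ c, c ≤ a ∧ (u, c) ∈ E ∧ u' < c ∧ y u' < g u c u' := by
      rcases hnc with h | h
      · exact absurd hcase h
      · push Not at h
        obtain ⟨c, hca, hcE, hu'c, hle⟩ := h
        rcases eq_or_lt_of_le hu'c with heq | hlt
        · subst heq
          exact ⟨a, le_rfl, ha, hu'w.trans_le hwa, hlow u u' a hcE ha (hu'w.trans_le hwa)⟩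
        · exact ⟨c, hca, hcE, hlt, lt_of_le_of_ne hle (hD.ne u c hcE u' huu hlt).symm⟩
    obtain ⟨c, hca, hcE, hu'c, hlt⟩ := hnc2
    have hub' : u ≠ b' := (huu.trans (hu'w.trans_le (hwa'.trans hab'.le))).ne
    rcases le_or_gt w c with hwc | hcw
    · -- 2a
      have hcb' : b' = c := by
        by_contra hcon
        exact hD.ns u' b' u c hb'E hcE huu.ne' hu'c.ne hub'.symm hcon u' w le_rfl huu.le
          (hu'w.le.trans (hwa'.trans hab'.le)) hu'c.le hu'w.le (huu.trans hu'w).le
          (hwa'.trans hab'.le) hwc (by rw [hlb']; exact hlt)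
          (lt_of_le_of_lt (hW3 c hca hcE hwc) hW2')
      rcases eq_or_lt_of_le hca with heq | hclt
      · right; rw [hcb', heq]
      · exfalso
        have hb'a : b' ≠ a := by rw [hcb']; exact hclt.ne
        refine hD.ns u' b' u a hb'E ha huu.ne' (hu'w.trans_le hwa).ne hub'.symm hb'a c w
          hu'c.le (huu.trans hu'c).le hcb'.ge hclt.le hu'w.le (huu.trans hu'w).le
          (hwa'.trans hab'.le) hwa ?_ (lt_of_le_of_lt (hW3 a le_rfl ha hwa) hW2')
        have := hD.right u' b' hb'E
        rw [hcb'] at this ⊢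
        rw [this]
        exact hlow u c a hcE ha hclt
    · -- 2b
      have hclt : c < a := hcw.trans_le hwa
      have hcb' : c < b' := hcw.trans_le (hwa'.trans hab'.le)
      have h1 : g u' b' c ≤ y c := by
        have := hD.ns u' b' u c hb'E hcE huu.ne' hu'c.ne hub'.symm hcb'.ne' u' c le_rfl huu.le
          (hu'w.le.trans (hwa'.trans hab'.le)) hu'c.le hu'c.le (huu.trans hu'c).le
          hcb'.le le_rfl (by rw [hlb']; exact hlt)
        rw [hD.right u c hcE] at this
        exact not_lt.1 this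
      right
      by_contra hcon
      refine hD.ns u' b' u a hb'E ha huu.ne' (hu'w.trans_le hwa).ne hub'.symm hcon c w
          hu'c.le (huu.trans hu'c).le hcb'.le hclt.le hu'w.le (huu.trans hu'w).le
          (hwa'.trans hab'.le) hwa (lt_of_le_of_lt h1 (hlow u c a hcE ha hclt))
          (lt_of_le_of_lt (hW3 a le_rfl ha hwa) hW2')

/-- the class with all later edges above: `|E| ≤ 4 |V|` -/
theorem class_bound : E.card ≤ 4 * Fintype.card V := by
  classical
  set E1 := E.filter (fun e => ∃ b, e.2 < b ∧ (e.1, b) ∈ E) with hE1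
  set E2 := E.filter (fun e => ¬ ∃ b, e.2 < b ∧ (e.1, b) ∈ E) with hE2
  have hsum : E1.card + E2.card = E.card := by
    rw [hE1, hE2]; exact Finset.card_filter_add_card_filter_not _
  have h2 : E2.card ≤ Fintype.card V := by
    rw [← Finset.card_univ]
    refine Finset.card_le_card_of_injOn (fun e => e.1) (fun _ _ => by simp) ?_
    intro e he f hf hef
    rw [hE2, Finset.coe_filter, Set.mem_ofPred_eq] at he hf
    have hef' : e.1 = f.1 := hef
    have h1 : ¬ e.2 < f.2 := fun h => he.2 ⟨f.2, h, by rw [hef']; exact hf.1⟩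
    have h2 : ¬ f.2 < e.2 := fun h => hf.2 ⟨e.2, h, by rw [← hef']; exact he.1⟩
    exact Prod.ext hef' (le_antisymm (not_lt.1 h2) (not_lt.1 h1))
  rcases isEmpty_or_nonempty V with hemp | hne
  · have : E = ∅ := by
      ext e
      exact (hemp.false e.1).elim
    simp [this]
  -- next and charge functions
  have hnx : ∀ e ∈ E1, ∃ b, IsNext E e.1 e.2 b := by
    intro e he
    rw [hE1, Finset.mem_filter] at he
    exact exists_next e.1 e.2 he.2
  choose! nx hnx using hnx
  have hch : ∀ e ∈ E1, ∃ w, Charge y g E e.1 e.2 (nx e) w := by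
    intro e he
    rw [hE1, Finset.mem_filter] at he
    exact exists_charge hD e.1 e.2 (nx e) he.1
  choose! ch hch using hch
  have hmemE : ∀ e ∈ E1, (e.1, e.2) ∈ E := by
    intro e he
    rw [hE1, Finset.mem_filter] at he
    exact he.1
  have h1 : E1.card ≤ Fintype.card V * 3 := by
    rw [← Finset.card_univ]
    refine Finset.card_le_mul_card_image_of_maps_to (f := ch) (t := Finset.univ) (fun _ _ => by simp) 3 ?_ |>.trans ?_
    · intro w _
      refine three_bound _ (fun e => e.1) (fun e => e.2) nx ?_ ?_ ?_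
      · intro e he f hf hef
        rw [Finset.mem_filter] at he hf
        have e1 := hmemE e he.1
        have f1 := hmemE f hf.1
        have hef' : e.1 = f.1 := hef
        have cE := hch e he.1
        have cF := hch f hf.1
        rw [he.2] at cE
        rw [hf.2] at cF
        have nE := hnx e he.1
        have nF := hnx f hf.1
        rw [← hef'] at cF nF f1
        have a1 := charge_inj hD hlow e1 nE cE f1 nF cF
        have a2 := charge_inj hD hlow f1 nF cF e1 nE cE
        exact Prod.ext hef' (le_antisymm (not_lt.1 a2) (not_lt.1 a1))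
      · intro e he
        rw [Finset.mem_filter] at he
        exact (hnx e he.1).1
      · intro e he f hf hef
        rw [Finset.mem_filter] at he hf
        have cE := hch e he.1
        have cF := hch f hf.1
        rw [he.2] at cE
        rw [hf.2] at cF
        exact charge_rel hD hlow (hmemE e he.1) (hnx e he.1) cE (hmemE f hf.1) (hnx f hf.1) cF hef
    · omega
  omega

end main

/-- C1, vertex form -/
theorem linear_bound_abs {V : Type*} [Fintype V] [LinearOrder V] {y : V → ℝ}
    {g : V → V → V → ℝ} {F : Finset (V × V)} (hD : Drawing V y g F) :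
    F.card ≤ 9 * Fintype.card V := by
  classical
  set F0 := F.filter (fun e => ¬ ∃ z, z < e.1 ∧ (z, e.2) ∈ F) with hF0
  set F1 := F.filter (fun e => ∀ b, e.2 < b → (e.1, b) ∈ F → y e.2 < g e.1 b e.2) with hF1
  set F2 := F.filter (fun e => ∀ b, e.2 < b → (e.1, b) ∈ F → - y e.2 < - g e.1 b e.2) with hF2
  have hcov : F ⊆ F0 ∪ (F1 ∪ F2) := by
    rintro ⟨u, a⟩ he
    simp only [hF0, hF1, hF2, Finset.mem_union, Finset.mem_filter, he, true_and]
    by_cases h0 : ∃ z, z < u ∧ (z, a) ∈ F
    swap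
    · exact Or.inl h0
    right
    obtain ⟨z, hzu, hza⟩ := h0
    have hua := hD.lt u a he
    by_cases h1 : g z a u < y u
    · left
      intro b hab hb
      by_contra hcon
      have hne := hD.ne u b hb a hua hab
      have h2 : g u b a < y a := lt_of_le_of_ne (not_lt.1 hcon) hne
      refine hD.ns z a u b hza hb hzu.ne (hzu.trans (hua.trans hab)).ne hua.ne' hab.ne u a
        hzu.le le_rfl hua.le (hua.trans hab).le (hzu.trans hua).le hua.le le_rfl hab.le ?_ ?_
      · rw [hD.left u b hb]; exact h1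
      · rw [hD.right z a hza]; exact h2
    · right
      intro b hab hb
      have hne' := hD.ne z a hza u hzu hua
      have h1' : y u < g z a u := lt_of_le_of_ne (not_lt.1 h1) hne'.symm
      by_contra hcon
      have hne := hD.ne u b hb a hua hab
      have h2 : y a < g u b a := lt_of_le_of_ne (by linarith) hne.symm
      refine hD.ns u b z a hb hza hzu.ne' hua.ne (hzu.trans (hua.trans hab)).ne' hab.ne' u a
        le_rfl hzu.le (hua.trans hab).le hua.le hua.le (hzu.trans hua).le hab.le le_rfl ?_ ?_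
      · rw [hD.left u b hb]; exact h1'
      · rw [hD.right z a hza]; exact h2
  have h0 : F0.card ≤ Fintype.card V := by
    rw [← Finset.card_univ]
    refine Finset.card_le_card_of_injOn (fun e => e.2) (fun _ _ => by simp) ?_
    intro e he f hf hef
    rw [hF0, Finset.coe_filter, Set.mem_ofPred_eq] at he hf
    have hef' : e.2 = f.2 := hef
    have h1 : ¬ e.1 < f.1 := fun h => hf.2 ⟨e.1, h, by rw [← hef']; exact he.1⟩
    have h2 : ¬ f.1 < e.1 := fun h => he.2 ⟨f.1, h, by rw [hef']; exact hf.1⟩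
    exact Prod.ext (le_antisymm (not_lt.1 h2) (not_lt.1 h1)) hef'
  have h1 : F1.card ≤ 4 * Fintype.card V := by
    refine class_bound (hD.mono (Finset.filter_subset _ _)) ?_
    intro u a b ha hb hab
    rw [hF1, Finset.mem_filter] at ha hb
    exact ha.2 b hab hb.1
  have h2 : F2.card ≤ 4 * Fintype.card V := by
    refine class_bound ((hD.neg).mono (Finset.filter_subset _ _)) ?_
    intro u a b ha hb hab
    rw [hF2, Finset.mem_filter] at ha hb
    exact ha.2 b hab hb.1
  have h3 := Finset.card_le_card hcov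
  have h4 := Finset.card_union_le F0 (F1 ∪ F2)
  have h5 := Finset.card_union_le F1 F2
  omega


end Crest.Agent.R51.CrossLin
end

-- ▼ part R51/CrossSample
section

/-!
# Row 51, B1: crossing lemma in weighted (sampled) form (helper445)
-/

set_option autoImplicit false
set_option linter.unusedVariables false

namespace Crest.Agent.R51.CrossLin

open Finset Classical

section sampling

variable {V : Type*} [Fintype V] [DecidableEq V]

/-- weight of a subset -/
noncomputable def wt (p : V → ℝ) (X : Finset V) : ℝ :=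
  (∏ v ∈ X, p v) * ∏ v ∈ Finset.univ \ X, (1 - p v)

theorem wt_nonneg {p : V → ℝ} (h0 : ∀ v, 0 ≤ p v) (h1 : ∀ v, p v ≤ 1) (X : Finset V) :
    0 ≤ wt p X :=
  mul_nonneg (Finset.prod_nonneg fun v _ => h0 v)
    (Finset.prod_nonneg fun v _ => by linarith [h1 v])

theorem sum_wt_superset (p : V → ℝ) (T : Finset V) :
    ∑ X ∈ (Finset.univ : Finset V).powerset, (if T ⊆ X then wt p X else 0) = ∏ v ∈ T, p v := by
  classical
  have h := Finset.prod_add (fun v => p v) (fun v => if v ∈ T then 0 else 1 - p v)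
    (Finset.univ : Finset V)
  have h1 : ∏ v, (p v + if v ∈ T then 0 else 1 - p v) = ∏ v ∈ T, p v := by
    rw [← Finset.prod_subset (Finset.subset_univ T)]
    · refine Finset.prod_congr rfl fun v hv => ?_
      simp [hv]
    · intro v _ hv
      simp [hv]
  rw [← h1, h]
  refine Finset.sum_congr rfl fun X _ => ?_
  by_cases hT : T ⊆ X
  · rw [if_pos hT, wt]
    congr 1
    refine Finset.prod_congr rfl fun v hv => ?_
    rw [Finset.mem_sdiff] at hv
    rw [if_neg (fun h => hv.2 (hT h))]
  · rw [if_neg hT]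
    obtain ⟨v, hvT, hvX⟩ := Finset.not_subset.1 hT
    have : ∏ i ∈ Finset.univ \ X, (if i ∈ T then (0 : ℝ) else 1 - p i) = 0 :=
      Finset.prod_eq_zero (i := v) (by simp [hvX]) (by simp [hvT])
    rw [this, mul_zero]

/-- weighted count: `∑_X wt X * #{a ∈ S : T a ⊆ X} = ∑_{a ∈ S} ∏_{T a} p` -/
theorem sum_wt_card {α : Type*} (p : V → ℝ) (S : Finset α) (T : α → Finset V) :
    ∑ X ∈ (Finset.univ : Finset V).powerset, wt p X * ((S.filter (fun a => T a ⊆ X)).card : ℝ)
      = ∑ a ∈ S, ∏ v ∈ T a, p v := by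
  classical
  calc ∑ X ∈ (Finset.univ : Finset V).powerset, wt p X * ((S.filter (fun a => T a ⊆ X)).card : ℝ)
      = ∑ X ∈ (Finset.univ : Finset V).powerset, ∑ a ∈ S, (if T a ⊆ X then wt p X else 0) := by
        refine Finset.sum_congr rfl fun X _ => ?_
        rw [Finset.card_filter]
        push_cast
        rw [Finset.mul_sum]
        refine Finset.sum_congr rfl fun a _ => ?_
        split_ifs <;> simp
    _ = ∑ a ∈ S, ∑ X ∈ (Finset.univ : Finset V).powerset, (if T a ⊆ X then wt p X else 0) :=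
        Finset.sum_comm
    _ = ∑ a ∈ S, ∏ v ∈ T a, p v := by
        refine Finset.sum_congr rfl fun a _ => sum_wt_superset p (T a)

/-- weighted transfer of a linear inequality between subset counts -/
theorem weighted_transfer {α β : Type*} {p : V → ℝ} (h0 : ∀ v, 0 ≤ p v) (h1 : ∀ v, p v ≤ 1)
    (F : Finset α) (TF : α → Finset V) (K : Finset β) (TK : β → Finset V) (c : ℝ)
    (h : ∀ X : Finset V, ((F.filter (fun a => TF a ⊆ X)).card : ℝ) ≤ c * X.card
      + ((K.filter (fun a => TK a ⊆ X)).card : ℝ)) :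
    ∑ a ∈ F, ∏ v ∈ TF a, p v ≤ c * ∑ v, p v + ∑ b ∈ K, ∏ v ∈ TK b, p v := by
  classical
  rw [← sum_wt_card p F TF, ← sum_wt_card p K TK]
  have hV : ∑ v, p v = ∑ X ∈ (Finset.univ : Finset V).powerset, wt p X * (X.card : ℝ) := by
    have := sum_wt_card p (Finset.univ : Finset V) (fun v => {v})
    simp only [Finset.prod_singleton, Finset.singleton_subset_iff] at this
    rw [← this]
    refine Finset.sum_congr rfl fun X _ => ?_
    congr 3
    ext v; simp
  rw [hV, Finset.mul_sum, ← Finset.sum_add_distrib]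
  refine Finset.sum_le_sum fun X _ => ?_
  have := mul_le_mul_of_nonneg_left (h X) (wt_nonneg h0 h1 X)
  linarith

end sampling

/-- a drawing without the crossing hypothesis -/
structure PreDrawing (V : Type*) [LinearOrder V] (y : V → ℝ) (g : V → V → V → ℝ)
    (F : Finset (V × V)) : Prop where
  lt : ∀ u w, (u, w) ∈ F → u < w
  left : ∀ u w, (u, w) ∈ F → g u w u = y u
  right : ∀ u w, (u, w) ∈ F → g u w w = y w
  ne : ∀ u w, (u, w) ∈ F → ∀ z, u < z → z < w → g u w z ≠ y z

/-- independent edges with a change of sign at vertex abscissae -/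
def SignChange {V : Type*} [LinearOrder V] (g : V → V → V → ℝ) (e f : V × V) : Prop :=
  e.1 ≠ f.1 ∧ e.1 ≠ f.2 ∧ e.2 ≠ f.1 ∧ e.2 ≠ f.2 ∧
    ∃ s t, e.1 ≤ s ∧ f.1 ≤ s ∧ s ≤ e.2 ∧ s ≤ f.2 ∧ e.1 ≤ t ∧ f.1 ≤ t ∧ t ≤ e.2 ∧ t ≤ f.2 ∧
      g e.1 e.2 s < g f.1 f.2 s ∧ g f.1 f.2 t < g e.1 e.2 t

/-- ordered pairs of edges with a sign change -/
noncomputable def crSet {V : Type*} [LinearOrder V] (g : V → V → V → ℝ) (F : Finset (V × V)) :
    Finset ((V × V) × (V × V)) :=
  (F ×ˢ F).filter (fun ef => SignChange g ef.1 ef.2)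

theorem PreDrawing.mono {V : Type*} [LinearOrder V] {y : V → ℝ} {g : V → V → V → ℝ}
    {F F' : Finset (V × V)} (h : PreDrawing V y g F) (hs : F' ⊆ F) : PreDrawing V y g F' where
  lt u w hh := h.lt u w (hs hh)
  left u w hh := h.left u w (hs hh)
  right u w hh := h.right u w (hs hh)
  ne u w hh := h.ne u w (hs hh)

/-- C1 restricted to a vertex subset -/
theorem linear_bound_on {V : Type*} [Fintype V] [LinearOrder V] {y : V → ℝ}
    {g : V → V → V → ℝ} {F : Finset (V × V)} (hD : Drawing V y g F) (X : Finset V)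
    (hX : ∀ e ∈ F, e.1 ∈ X ∧ e.2 ∈ X) : F.card ≤ 9 * X.card := by
  classical
  let V' := {v : V // v ∈ X}
  let F' : Finset (V' × V') := Finset.univ.filter (fun e => (e.1.1, e.2.1) ∈ F)
  have hmem : ∀ u w : V', (u, w) ∈ F' ↔ (u.1, w.1) ∈ F := by intro u w; simp [F']
  have hD' : Drawing V' (fun v => y v.1) (fun u w z => g u.1 w.1 z.1) F' := by
    refine ⟨?_, ?_, ?_, ?_, ?_⟩
    · intro u w h
      rw [hmem] at h
      exact hD.lt _ _ h
    · intro u w h
      rw [hmem] at h
      exact hD.left _ _ h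
    · intro u w h
      rw [hmem] at h
      exact hD.right _ _ h
    · intro u w h z h1 h2
      rw [hmem] at h
      exact hD.ne _ _ h z.1 h1 h2
    · intro u w u' w' h h' h1 h2 h3 h4 s t a1 a2 a3 a4 b1 b2 b3 b4
      rw [hmem] at h h'
      exact hD.ns _ _ _ _ h h' (fun hh => h1 (Subtype.ext hh)) (fun hh => h2 (Subtype.ext hh))
        (fun hh => h3 (Subtype.ext hh)) (fun hh => h4 (Subtype.ext hh)) s.1 t.1
        a1 a2 a3 a4 b1 b2 b3 b4
  have hmain := linear_bound_abs hD'
  have hcardV : Fintype.card V' = X.card := by simp [V']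
  rw [hcardV] at hmain
  have hFF : F.card ≤ F'.card := by
    have himg : F ⊆ F'.image (fun e => (e.1.1, e.2.1)) := by
      rintro ⟨u, w⟩ h
      rw [Finset.mem_image]
      exact ⟨(⟨u, (hX _ h).1⟩, ⟨w, (hX _ h).2⟩), by rw [hmem]; exact h, rfl⟩
    exact (Finset.card_le_card himg).trans Finset.card_image_le
  exact hFF.trans hmain

/-- `|F[X]| ≤ 9 |X| + cr(F[X])` -/
theorem linear_bound_cr {V : Type*} [Fintype V] [LinearOrder V] {y : V → ℝ}
    {g : V → V → V → ℝ} {F : Finset (V × V)} (hD : PreDrawing V y g F) (X : Finset V)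
    (hX : ∀ e ∈ F, e.1 ∈ X ∧ e.2 ∈ X) : F.card ≤ 9 * X.card + (crSet g F).card := by
  classical
  set F1 := F.filter (fun e => ¬ ∃ f ∈ F, SignChange g e f) with hF1
  set F2 := F.filter (fun e => ∃ f ∈ F, SignChange g e f) with hF2
  have hsum : F2.card + F1.card = F.card := by
    rw [hF1, hF2]; exact Finset.card_filter_add_card_filter_not _
  have h1 : F1.card ≤ 9 * X.card := by
    refine linear_bound_on (y := y) (g := g) ?_ X (fun e he => hX e (Finset.mem_of_mem_filter e he))
    have hm := hD.mono (F' := F1) (Finset.filter_subset _ _)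
    refine ⟨hm.lt, hm.left, hm.right, hm.ne, ?_⟩
    intro u w u' w' h h' d1 d2 d3 d4 s t a1 a2 a3 a4 b1 b2 b3 b4 c1 c2
    rw [hF1, Finset.mem_filter] at h h'
    exact h.2 ⟨(u', w'), h'.1, d1, d2, d3, d4, s, t, a1, a2, a3, a4, b1, b2, b3, b4, c1, c2⟩
  have h2 : F2.card ≤ (crSet g F).card := by
    have : F2 ⊆ (crSet g F).image (fun ef => ef.1) := by
      intro e he
      rw [hF2, Finset.mem_filter] at he
      obtain ⟨heF, f, hf, hs⟩ := he
      rw [Finset.mem_image]
      exact ⟨(e, f), by rw [crSet, Finset.mem_filter, Finset.mem_product]; exact ⟨⟨heF, hf⟩, hs⟩, rfl⟩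
    exact (Finset.card_le_card this).trans Finset.card_image_le
  omega

/-- the weighted crossing inequality: for all probabilities `p`,
`∑_{e ∈ F} p(e.1) p(e.2) ≤ 9 ∑_v p(v) + ∑_{(e,f) ∈ K} p(e.1) p(e.2) p(f.1) p(f.2)` for every
set `K` containing all sign changing pairs with (at least) one order. -/
theorem weighted_crossing {V : Type*} [Fintype V] [LinearOrder V] {y : V → ℝ}
    {g : V → V → V → ℝ} {F : Finset (V × V)} (hD : PreDrawing V y g F) {p : V → ℝ}
    (h0 : ∀ v, 0 ≤ p v) (h1 : ∀ v, p v ≤ 1) :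
    ∑ e ∈ F, p e.1 * p e.2 ≤ 9 * ∑ v, p v
      + ∑ k ∈ crSet g F, p k.1.1 * p k.1.2 * (p k.2.1 * p k.2.2) := by
  classical
  have key := weighted_transfer (V := V) h0 h1 F (fun e => {e.1, e.2}) (crSet g F)
    (fun k => {k.1.1, k.1.2, k.2.1, k.2.2}) 9 ?_
  · have e1 : ∑ e ∈ F, ∏ v ∈ ({e.1, e.2} : Finset V), p v = ∑ e ∈ F, p e.1 * p e.2 := by
      refine Finset.sum_congr rfl fun e he => ?_
      rw [Finset.prod_pair (hD.lt e.1 e.2 he).ne]
    have e2 : ∑ k ∈ crSet g F, ∏ v ∈ ({k.1.1, k.1.2, k.2.1, k.2.2} : Finset V), p v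
        = ∑ k ∈ crSet g F, p k.1.1 * p k.1.2 * (p k.2.1 * p k.2.2) := by
      refine Finset.sum_congr rfl fun k hk => ?_
      rw [crSet, Finset.mem_filter, Finset.mem_product] at hk
      obtain ⟨⟨hk1, hk2⟩, d1, d2, d3, d4, -⟩ := hk
      have l1 := (hD.lt _ _ hk1).ne
      have l2 := (hD.lt _ _ hk2).ne
      rw [Finset.prod_insert, Finset.prod_insert, Finset.prod_pair l2, mul_assoc]
      · simp [d3, d4]
      · simp [l1, d1, d2]
    rw [e1, e2] at key
    exact key
  · intro X
    have hsub : ((F.filter (fun a => ({a.1, a.2} : Finset V) ⊆ X)).card)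
        ≤ 9 * X.card + (crSet g (F.filter (fun a => ({a.1, a.2} : Finset V) ⊆ X))).card := by
      refine linear_bound_cr (y := y) (hD.mono (Finset.filter_subset _ _)) X ?_
      intro e he
      have := (Finset.mem_filter.1 he).2
      rw [Finset.insert_subset_iff, Finset.singleton_subset_iff] at this
      exact this
    have h2 : (crSet g (F.filter (fun a => ({a.1, a.2} : Finset V) ⊆ X))).card
        ≤ ((crSet g F).filter (fun k => ({k.1.1, k.1.2, k.2.1, k.2.2} : Finset V) ⊆ X)).card := by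
      refine Finset.card_le_card ?_
      intro k hk
      rw [crSet, Finset.mem_filter, Finset.mem_product, Finset.mem_filter, Finset.mem_filter] at hk
      rw [Finset.mem_filter, crSet, Finset.mem_filter, Finset.mem_product]
      refine ⟨⟨⟨hk.1.1.1, hk.1.2.1⟩, hk.2⟩, ?_⟩
      have a1 := hk.1.1.2
      have a2 := hk.1.2.2
      rw [Finset.insert_subset_iff, Finset.singleton_subset_iff] at a1 a2
      intro v hv
      simp only [Finset.mem_insert, Finset.mem_singleton] at hv
      rcases hv with rfl | rfl | rfl | rfl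
      exacts [a1.1, a1.2, a2.1, a2.2]
    have h3 : ((F.filter (fun a => ({a.1, a.2} : Finset V) ⊆ X)).card)
        ≤ 9 * X.card + ((crSet g F).filter
          (fun k => ({k.1.1, k.1.2, k.2.1, k.2.2} : Finset V) ⊆ X)).card := by omega
    exact_mod_cast h3

/-- C2, abstract form: `|F| ≤ 18 |A|` or `|F|³ ≤ 648 |A|² cr(F)` -/
theorem crossing_abs {V : Type*} [Fintype V] [LinearOrder V] {y : V → ℝ}
    {g : V → V → V → ℝ} {F : Finset (V × V)} (hD : PreDrawing V y g F) (A : Finset V)
    (hA : ∀ e ∈ F, e.1 ∈ A ∧ e.2 ∈ A) :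
    (F.card : ℝ) ≤ 18 * A.card ∨
      (F.card : ℝ) ^ 3 ≤ 648 * (A.card : ℝ) ^ 2 * ((crSet g F).card : ℝ) := by
  classical
  by_cases hle : (F.card : ℝ) ≤ 18 * A.card
  · exact Or.inl hle
  right
  push Not at hle
  have hF0 : (0 : ℝ) < F.card := lt_of_le_of_lt (by positivity) hle
  have hA0 : (0 : ℝ) ≤ A.card := by positivity
  set r : ℝ := 18 * A.card / F.card with hr
  have hr0 : 0 ≤ r := by positivity
  have hr1 : r ≤ 1 := by rw [hr, div_le_one hF0]; exact hle.le
  have key := weighted_crossing hD (p := fun v => if v ∈ A then r else 0)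
    (fun v => by split_ifs <;> linarith)
    (fun v => by split_ifs <;> linarith)
  have e1 : ∑ e ∈ F, (if e.1 ∈ A then r else 0) * (if e.2 ∈ A then r else 0) = F.card * r ^ 2 := by
    rw [Finset.sum_congr rfl (g := fun _ => r ^ 2)]
    · simp
    · intro e he
      rw [if_pos (hA e he).1, if_pos (hA e he).2]; ring
  have e2 : ∑ v : V, (if v ∈ A then r else 0) = A.card * r := by
    rw [← Finset.sum_filter]; simp
  have e3 : ∑ k ∈ crSet g F, (if k.1.1 ∈ A then r else 0) * (if k.1.2 ∈ A then r else 0)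
      * ((if k.2.1 ∈ A then r else 0) * (if k.2.2 ∈ A then r else 0))
      = (crSet g F).card * r ^ 4 := by
    rw [Finset.sum_congr rfl (g := fun _ => r ^ 4)]
    · simp
    · intro k hk
      rw [crSet, Finset.mem_filter, Finset.mem_product] at hk
      rw [if_pos (hA _ hk.1.1).1, if_pos (hA _ hk.1.1).2, if_pos (hA _ hk.1.2).1,
        if_pos (hA _ hk.1.2).2]; ring
  rw [e1, e2, e3] at key
  rcases hA0.eq_or_lt with h | hApos
  · -- `A` empty, so `F` empty
    exfalso
    have hA' : A = ∅ := by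
      rw [← Finset.card_eq_zero]; exact_mod_cast h.symm
    have : F = ∅ := by
      rw [Finset.eq_empty_iff_forall_notMem]
      intro e he
      have := (hA e he).1
      rw [hA'] at this
      simp at this
    rw [this] at hF0
    simp at hF0
  have hrpos : 0 < r := by positivity
  have hFr : (F.card : ℝ) * r = 18 * A.card := by rw [hr]; field_simp
  have h3 : 9 * (A.card : ℝ) ≤ (crSet g F).card * r ^ 3 := by
    have : r * (F.card * r) ≤ r * (9 * A.card + (crSet g F).card * r ^ 3) := by nlinarith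
    have := le_of_mul_le_mul_left this hrpos
    rw [hFr] at this
    linarith
  have h4 : 9 * (A.card : ℝ) * (F.card : ℝ) ^ 3 ≤ (crSet g F).card * (18 * A.card) ^ 3 := by
    have := mul_le_mul_of_nonneg_right h3 (pow_nonneg hF0.le 3)
    calc 9 * (A.card : ℝ) * (F.card : ℝ) ^ 3 ≤ (crSet g F).card * r ^ 3 * (F.card : ℝ) ^ 3 := this
      _ = (crSet g F).card * (F.card * r) ^ 3 := by ring
      _ = _ := by rw [hFr]
  have h5 : (9 * (A.card : ℝ)) * (F.card : ℝ) ^ 3
      ≤ (9 * (A.card : ℝ)) * (648 * (A.card : ℝ) ^ 2 * ((crSet g F).card : ℝ)) := by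
    nlinarith
  exact le_of_mul_le_mul_left h5 (by positivity)

/-- C3, one end in `Z`: `|F| ≤ 36 |A|` or `|F|³ ≤ 2592 |A| |Z| cr(F)` -/
theorem crossing_unbalanced_one {V : Type*} [Fintype V] [LinearOrder V] {y : V → ℝ}
    {g : V → V → V → ℝ} {F : Finset (V × V)} (hD : PreDrawing V y g F) (A Z : Finset V)
    (hZ : Z ⊆ A) (hA : ∀ e ∈ F, e.1 ∈ A ∧ e.2 ∈ A)
    (hone : ∀ e ∈ F, (e.1 ∈ Z ∧ e.2 ∉ Z) ∨ (e.1 ∉ Z ∧ e.2 ∈ Z)) :
    (F.card : ℝ) ≤ 36 * A.card ∨
      (F.card : ℝ) ^ 3 ≤ 2592 * (A.card : ℝ) * (Z.card : ℝ) * ((crSet g F).card : ℝ) := by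
  classical
  by_cases hle : (F.card : ℝ) ≤ 36 * A.card
  · exact Or.inl hle
  right
  push Not at hle
  have hF0 : (0 : ℝ) < F.card := lt_of_le_of_lt (by positivity) hle
  have hA0 : (0 : ℝ) ≤ A.card := by positivity
  have hZ0 : (0 : ℝ) < Z.card := by
    have : F.Nonempty := by
      rw [← Finset.card_pos]; exact_mod_cast hF0
    obtain ⟨e, he⟩ := this
    have : Z.Nonempty := by
      rcases hone e he with h | h
      exacts [⟨_, h.1⟩, ⟨_, h.2⟩]
    exact_mod_cast this.card_pos
  have hZA : (Z.card : ℝ) ≤ A.card := by exact_mod_cast Finset.card_le_card hZ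
  have hApos : (0 : ℝ) < A.card := lt_of_lt_of_le hZ0 hZA
  set rZ : ℝ := 36 * A.card / F.card with hrZ
  set rA : ℝ := 36 * Z.card / F.card with hrA
  have hrZ0 : 0 < rZ := by positivity
  have hrA0 : 0 < rA := by positivity
  have hrZ1 : rZ ≤ 1 := by rw [hrZ, div_le_one hF0]; exact hle.le
  have hrA1 : rA ≤ 1 := by rw [hrA, div_le_one hF0]; linarith
  set p : V → ℝ := fun v => if v ∈ Z then rZ else if v ∈ A then rA else 0 with hp
  have hpZ : ∀ v, v ∈ Z → p v = rZ := fun v hv => by simp [hp, hv]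
  have hpA : ∀ v, v ∈ A → v ∉ Z → p v = rA := fun v hv hv' => by simp [hp, hv, hv']
  have key := weighted_crossing hD (p := p)
    (fun v => by simp only [hp]; split_ifs <;> linarith)
    (fun v => by simp only [hp]; split_ifs <;> linarith)
  have hedge : ∀ e ∈ F, p e.1 * p e.2 = rZ * rA := by
    intro e he
    rcases hone e he with h | h
    · rw [hpZ _ h.1, hpA _ (hA e he).2 h.2]
    · rw [hpZ _ h.2, hpA _ (hA e he).1 h.1]; ring
  have e1 : ∑ e ∈ F, p e.1 * p e.2 = F.card * (rZ * rA) := by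
    rw [Finset.sum_congr rfl hedge]; simp
  have e2 : ∑ v : V, p v ≤ Z.card * rZ + A.card * rA := by
    calc ∑ v : V, p v ≤ ∑ v : V, ((if v ∈ Z then rZ else 0) + (if v ∈ A then rA else 0)) := by
          refine Finset.sum_le_sum fun v _ => ?_
          simp only [hp]
          split_ifs <;> linarith
      _ = Z.card * rZ + A.card * rA := by
          rw [Finset.sum_add_distrib, ← Finset.sum_filter, ← Finset.sum_filter]; simp
  have e3 : ∑ k ∈ crSet g F, p k.1.1 * p k.1.2 * (p k.2.1 * p k.2.2)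
      = (crSet g F).card * (rZ * rA) ^ 2 := by
    rw [Finset.sum_congr rfl (g := fun _ => (rZ * rA) ^ 2)]
    · simp
    · intro k hk
      rw [crSet, Finset.mem_filter, Finset.mem_product] at hk
      rw [hedge _ hk.1.1, hedge _ hk.1.2]; ring
  rw [e1, e3] at key
  have key2 : (F.card : ℝ) * (rZ * rA) ≤ 9 * (Z.card * rZ + A.card * rA)
      + (crSet g F).card * (rZ * rA) ^ 2 := by linarith
  -- multiply by `|F|^4`
  have hFZ : (F.card : ℝ) * rZ = 36 * A.card := by rw [hrZ]; field_simp
  have hFA : (F.card : ℝ) * rA = 36 * Z.card := by rw [hrA]; field_simp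
  have key3 : (F.card : ℝ) ^ 3 * ((36 * A.card) * (36 * Z.card))
      ≤ 9 * ((F.card : ℝ) ^ 3 * (Z.card * (36 * A.card) + A.card * (36 * Z.card)))
      + (crSet g F).card * ((36 * A.card) * (36 * Z.card)) ^ 2 := by
    have h := mul_le_mul_of_nonneg_left key2 (pow_nonneg hF0.le 4)
    have l1 : (F.card : ℝ) ^ 4 * ((F.card : ℝ) * (rZ * rA))
        = (F.card : ℝ) ^ 3 * ((F.card * rZ) * (F.card * rA)) := by ring
    have l2 : (F.card : ℝ) ^ 4 * (9 * (Z.card * rZ + A.card * rA)
        + (crSet g F).card * (rZ * rA) ^ 2)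
        = 9 * ((F.card : ℝ) ^ 3 * (Z.card * (F.card * rZ) + A.card * (F.card * rA)))
          + (crSet g F).card * ((F.card * rZ) * (F.card * rA)) ^ 2 := by ring
    rw [l1, l2, hFZ, hFA] at h
    exact h
  have h5 : (648 * (A.card : ℝ) * Z.card) * (F.card : ℝ) ^ 3
      ≤ (648 * (A.card : ℝ) * Z.card)
        * (2592 * (A.card : ℝ) * (Z.card : ℝ) * ((crSet g F).card : ℝ)) := by
    nlinarith
  exact le_of_mul_le_mul_left h5 (by positivity)

theorem crSet_mono {V : Type*} [LinearOrder V] (g : V → V → V → ℝ) {F F' : Finset (V × V)}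
    (h : F' ⊆ F) : crSet g F' ⊆ crSet g F := by
  intro k hk
  rw [crSet, Finset.mem_filter, Finset.mem_product] at hk ⊢
  exact ⟨⟨h hk.1.1, h hk.1.2⟩, hk.2⟩

/-- C3, abstract form: every edge has at least one end in `Z`:
`|F| ≤ 72 |A|` or `|F|³ ≤ 20736 |A| |Z| cr(F)` -/
theorem crossing_unbalanced_abs {V : Type*} [Fintype V] [LinearOrder V] {y : V → ℝ}
    {g : V → V → V → ℝ} {F : Finset (V × V)} (hD : PreDrawing V y g F) (A Z : Finset V)
    (hZ : Z ⊆ A) (hA : ∀ e ∈ F, e.1 ∈ A ∧ e.2 ∈ A)
    (hone : ∀ e ∈ F, e.1 ∈ Z ∨ e.2 ∈ Z) :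
    (F.card : ℝ) ≤ 72 * A.card ∨
      (F.card : ℝ) ^ 3 ≤ 20736 * (A.card : ℝ) * (Z.card : ℝ) * ((crSet g F).card : ℝ) := by
  classical
  by_cases hle : (F.card : ℝ) ≤ 72 * A.card
  · exact Or.inl hle
  right
  push Not at hle
  set F1 := F.filter (fun e => e.1 ∈ Z ∧ e.2 ∈ Z) with hF1
  set F2 := F.filter (fun e => ¬ (e.1 ∈ Z ∧ e.2 ∈ Z)) with hF2
  have hsum : F1.card + F2.card = F.card := by
    rw [hF1, hF2]; exact Finset.card_filter_add_card_filter_not _
  have hsumR : (F1.card : ℝ) + F2.card = F.card := by exact_mod_cast hsum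
  have hZA : (Z.card : ℝ) ≤ A.card := by exact_mod_cast Finset.card_le_card hZ
  have hc1 : ((crSet g F1).card : ℝ) ≤ (crSet g F).card := by
    exact_mod_cast Finset.card_le_card (crSet_mono g (Finset.filter_subset _ _))
  have hc2 : ((crSet g F2).card : ℝ) ≤ (crSet g F).card := by
    exact_mod_cast Finset.card_le_card (crSet_mono g (Finset.filter_subset _ _))
  have hZ0 : (0 : ℝ) ≤ Z.card := by positivity
  have hA0 : (0 : ℝ) ≤ A.card := by positivity
  have hcr0 : (0 : ℝ) ≤ (crSet g F).card := by positivity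
  have hhalf : ∀ t : ℝ, (F.card : ℝ) ≤ 2 * t →
      t ^ 3 ≤ 2592 * (A.card : ℝ) * (Z.card : ℝ) * ((crSet g F).card : ℝ) →
      (F.card : ℝ) ^ 3 ≤ 20736 * (A.card : ℝ) * (Z.card : ℝ) * ((crSet g F).card : ℝ) := by
    intro t ht h3
    have : (F.card : ℝ) ^ 3 ≤ (2 * t) ^ 3 := pow_le_pow_left₀ (by positivity) ht 3
    nlinarith
  rcases le_total (F1.card : ℝ) F2.card with h12 | h12
  · -- one-ended class dominates
    refine hhalf F2.card (by linarith) ?_
    have hone2 : ∀ e ∈ F2, (e.1 ∈ Z ∧ e.2 ∉ Z) ∨ (e.1 ∉ Z ∧ e.2 ∈ Z) := by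
      intro e he
      rw [hF2, Finset.mem_filter] at he
      rcases hone e he.1 with h | h
      · exact Or.inl ⟨h, fun h' => he.2 ⟨h, h'⟩⟩
      · exact Or.inr ⟨fun h' => he.2 ⟨h', h⟩, h⟩
    rcases crossing_unbalanced_one (hD.mono (F' := F2) (Finset.filter_subset _ _)) A Z hZ
      (fun e he => hA e (Finset.mem_of_mem_filter e he)) hone2 with h | h
    · linarith
    · refine h.trans ?_
      exact mul_le_mul_of_nonneg_left hc2 (by positivity)
  · refine hhalf F1.card (by linarith) ?_
    rcases crossing_abs (hD.mono (F' := F1) (Finset.filter_subset _ _)) Z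
      (fun e he => (Finset.mem_filter.1 he).2) with h | h
    · linarith
    · refine h.trans ?_
      have : 648 * (Z.card : ℝ) ^ 2 ≤ 2592 * (A.card : ℝ) * (Z.card : ℝ) := by nlinarith
      exact mul_le_mul this hc1 (by positivity) (by positivity)

end Crest.Agent.R51.CrossLin
end

-- ▼ part R51/CrossStr

/-!
# Row 51, B1: C2 (crossing lemma) and C3 (unbalanced crossing lemma) for straight segments,
on the common definitions (helper445)
-/

set_option autoImplicit false
set_option linter.unusedVariables false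
set_option linter.style.haveILetI false
set_option warn.classDefReducibility false

noncomputable section

open Classical Finset

namespace Crest.Agent.R51

namespace CrossStr

/-- two affine functions with strictly opposite signs of the difference cross in between -/
theorem cross_of_signs {e f : Edge} {s t : ℝ}
    (hs1 : e.1.1 ≤ s) (hs2 : s ≤ e.2.1) (hs3 : f.1.1 ≤ s) (hs4 : s ≤ f.2.1)
    (ht1 : e.1.1 ≤ t) (ht2 : t ≤ e.2.1) (ht3 : f.1.1 ≤ t) (ht4 : t ≤ f.2.1)
    (h1 : lin e s < lin f s) (h2 : lin f t < lin e t) : Cross e f := by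
  set a := lin f s - lin e s with ha
  set b := lin e t - lin f t with hb
  have ha0 : 0 < a := by rw [ha]; linarith
  have hb0 : 0 < b := by rw [hb]; linarith
  have hab : 0 < a + b := by linarith
  have hE : lin e t - lin e s = esl e * (t - s) := lin_sub e t s
  have hF : lin f t - lin f s = esl f * (t - s) := lin_sub f t s
  have hd : (esl e - esl f) * (t - s) = a + b := by rw [ha, hb]; linarith
  have hst : s ≠ t := by
    rintro rfl
    rw [sub_self, mul_zero] at hd
    linarith
  have hne : esl e ≠ esl f := by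
    intro h
    rw [h, sub_self, zero_mul] at hd
    linarith
  set x := (b * s + a * t) / (a + b) with hx
  have hxs : x - s = a * (t - s) / (a + b) := by rw [hx]; field_simp; ring
  have htx : t - x = b * (t - s) / (a + b) := by rw [hx]; field_simp; ring
  have hxe : lin e x = lin f x := by
    have h3 : lin e x - lin e s = esl e * (x - s) := lin_sub e x s
    have h4 : lin f x - lin f s = esl f * (x - s) := lin_sub f x s
    have h5 : (esl e - esl f) * (x - s) = a := by
      rw [hxs]
      field_simp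
      nlinarith
    have : lin e x - lin f x = (esl e - esl f) * (x - s) - a := by rw [ha]; linarith
    rw [h5, sub_self] at this
    linarith
  rcases lt_or_gt_of_ne hst with hlt | hgt
  · have p1 : 0 < x - s := by rw [hxs]; exact div_pos (mul_pos ha0 (by linarith)) hab
    have p2 : 0 < t - x := by rw [htx]; exact div_pos (mul_pos hb0 (by linarith)) hab
    exact ⟨x, by linarith, by linarith, by linarith, by linarith, hxe, hne⟩
  · have p1 : x - s < 0 := by
      rw [hxs]; exact div_neg_of_neg_of_pos (mul_neg_of_pos_of_neg ha0 (by linarith)) hab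
    have p2 : t - x < 0 := by
      rw [htx]; exact div_neg_of_neg_of_pos (mul_neg_of_pos_of_neg hb0 (by linarith)) hab
    exact ⟨x, by linarith, by linarith, by linarith, by linarith, hxe, hne⟩

section transfer

variable {A : Finset Pt}

/-- the vertex order by abscissae -/
def ordA (hA : Generic A) : LinearOrder {p : Pt // p ∈ A} :=
  LinearOrder.lift' (fun v : {p : Pt // p ∈ A} => v.1.1)
    (fun p q h => Subtype.ext (hA.x_inj p.1 p.2 q.1 q.2 h))

/-- the transferred edge set -/
def tr (A : Finset Pt) (E : Finset Edge) : Finset ({p : Pt // p ∈ A} × {p : Pt // p ∈ A}) :=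
  Finset.univ.filter (fun e => (e.1.1, e.2.1) ∈ E)

theorem mem_tr {E : Finset Edge} (u w : {p : Pt // p ∈ A}) :
    (u, w) ∈ tr A E ↔ (u.1, w.1) ∈ E := by simp [tr]

/-- the transferred function -/
def gA (u w z : {p : Pt // p ∈ A}) : ℝ := lin (u.1, w.1) z.1.1

theorem preDrawing (hA : Generic A) {E : Finset Edge} (hE : E ⊆ pairs A) :
    @CrossLin.PreDrawing {p : Pt // p ∈ A} (ordA hA) (fun v => v.1.2) gA (tr A E) := by
  letI := ordA hA
  refine ⟨?_, ?_, ?_, ?_⟩
  · intro u w h
    rw [mem_tr] at h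
    exact (mem_pairs.1 (hE h)).2.2
  · intro u w h
    exact lin_left (u.1, w.1)
  · intro u w h
    rw [mem_tr] at h
    exact lin_right (e := (u.1, w.1)) (mem_pairs.1 (hE h)).2.2
  · intro u w h z h1 h2 h3
    rw [mem_tr] at h
    have hz := (lin_eq_iff (u.1, w.1) z.1).1 h3
    have h1' : u.1.1 < z.1.1 := h1
    have h2' : z.1.1 < w.1.1 := h2
    have hne := hA.ht_ne (hE h) z.2 (r := z.1)
      (fun hh => absurd h1' (by rw [hh]; exact lt_irrefl _))
      (fun hh => absurd h2' (by rw [hh]; exact lt_irrefl _))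
    exact hne hz.symm

theorem card_tr {E : Finset Edge} (hE : E ⊆ pairs A) : (tr A E).card = E.card := by
  have himg : (tr A E).image (fun e => (e.1.1, e.2.1)) = E := by
    ext e
    rw [Finset.mem_image]
    constructor
    · rintro ⟨⟨u, w⟩, h, rfl⟩
      exact (mem_tr u w).1 h
    · intro h
      have := mem_pairs.1 (hE h)
      exact ⟨(⟨e.1, this.1⟩, ⟨e.2, this.2.1⟩), by rw [mem_tr]; exact h, rfl⟩
  have hinj : Set.InjOn (fun e : {p : Pt // p ∈ A} × {p : Pt // p ∈ A} => (e.1.1, e.2.1))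
      (tr A E) := by
    rintro ⟨u, w⟩ _ ⟨u', w'⟩ _ h
    simp only [Prod.mk.injEq] at h
    exact Prod.ext (Subtype.ext h.1) (Subtype.ext h.2)
  have := Finset.card_image_of_injOn hinj
  rw [himg] at this
  exact this.symm

theorem card_crSet (hA : Generic A) {E : Finset Edge} (hE : E ⊆ pairs A) :
    (@CrossLin.crSet {p : Pt // p ∈ A} (ordA hA) gA (tr A E)).card ≤ crs E E := by
  letI := ordA hA
  unfold crs
  refine Finset.card_le_card_of_injOn
    (fun k => ((k.1.1.1, k.1.2.1), (k.2.1.1, k.2.2.1))) ?_ ?_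
  · rintro ⟨⟨u, w⟩, ⟨u', w'⟩⟩ hk
    rw [Finset.mem_coe, CrossLin.crSet, Finset.mem_filter, Finset.mem_product] at hk
    obtain ⟨⟨hk1, hk2⟩, -, -, -, -, s, t, a1, a2, a3, a4, b1, b2, b3, b4, c1, c2⟩ := hk
    rw [Finset.mem_coe, Finset.mem_filter, Finset.mem_product]
    refine ⟨⟨(mem_tr u w).1 hk1, (mem_tr u' w').1 hk2⟩, ?_⟩
    exact cross_of_signs (e := (u.1, w.1)) (f := (u'.1, w'.1)) (s := s.1.1) (t := t.1.1)
      a1 a3 a2 a4 b1 b3 b2 b4 c1 c2
  · rintro ⟨⟨u, w⟩, ⟨u', w'⟩⟩ _ ⟨⟨v, z⟩, ⟨v', z'⟩⟩ _ h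
    simp only [Prod.mk.injEq] at h
    exact Prod.ext (Prod.ext (Subtype.ext h.1.1) (Subtype.ext h.1.2))
      (Prod.ext (Subtype.ext h.2.1) (Subtype.ext h.2.2))

end transfer

end CrossStr

open CrossStr


/-- C2: crossing lemma. -/
theorem crossing_lemma {P : Finset Pt} (hP : Generic P) {A : Finset Pt} (hA : A ⊆ P)
    {E : Finset Edge} (hE : E ⊆ pairs A) :
    (E.card : ℝ) ≤ 18 * A.card ∨ (E.card : ℝ) ^ 3 ≤ 648 * (A.card : ℝ) ^ 2 * (crs E E : ℝ) := by
  classical
  have hGA := hP.mono hA
  letI := ordA hGA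
  have h := CrossLin.crossing_abs (preDrawing hGA hE) Finset.univ (fun _ _ => by simp)
  rw [card_tr hE, Finset.card_univ, Fintype.card_coe] at h
  refine h.imp id (fun h => h.trans ?_)
  have := card_crSet hGA hE
  have h' : ((CrossLin.crSet gA (tr A E)).card : ℝ) ≤ (crs E E : ℝ) := by exact_mod_cast this
  exact mul_le_mul_of_nonneg_left h' (by positivity)

/-- C3: unbalanced crossing lemma: every edge has at least one end in `Z ⊆ A`. -/
theorem crossing_lemma_unbalanced {P : Finset Pt} (hP : Generic P) {A Z : Finset Pt}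
    (hA : A ⊆ P) (hZ : Z ⊆ A) {E : Finset Edge} (hE : E ⊆ pairs A)
    (hone : ∀ e ∈ E, e.1 ∈ Z ∨ e.2 ∈ Z) :
    (E.card : ℝ) ≤ 72 * A.card ∨
      (E.card : ℝ) ^ 3 ≤ 20736 * (A.card : ℝ) * (Z.card : ℝ) * (crs E E : ℝ) := by
  classical
  have hGA := hP.mono hA
  letI := ordA hGA
  set Z' : Finset {p : Pt // p ∈ A} := Finset.univ.filter (fun v => v.1 ∈ Z) with hZ'
  have hcardZ : Z'.card = Z.card := by
    have himg : Z'.image (fun v => v.1) = Z := by
      ext p
      rw [Finset.mem_image]
      constructor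
      · rintro ⟨v, hv, rfl⟩
        exact (Finset.mem_filter.1 hv).2
      · intro hp
        exact ⟨⟨p, hZ hp⟩, by simp [hZ', hp], rfl⟩
    have := Finset.card_image_of_injective Z' (f := fun v : {p : Pt // p ∈ A} => v.1)
      Subtype.val_injective
    rw [himg] at this
    exact this.symm
  have h := CrossLin.crossing_unbalanced_abs (preDrawing hGA hE) Finset.univ Z'
    (Finset.subset_univ _) (fun _ _ => by simp) (by
      rintro ⟨u, w⟩ he
      rw [mem_tr] at he
      rcases hone _ he with h | h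
      · exact Or.inl (by simp [hZ', h])
      · exact Or.inr (by simp [hZ', h]))
  rw [card_tr hE, Finset.card_univ, Fintype.card_coe, hcardZ] at h
  refine h.imp id (fun h => h.trans ?_)
  have := card_crSet hGA hE
  have h' : ((CrossLin.crSet gA (tr A E)).card : ℝ) ≤ (crs E E : ℝ) := by exact_mod_cast this
  exact mul_le_mul_of_nonneg_left h' (by positivity)

end Crest.Agent.R51
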