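import Mathlib
import Crest.Agent.R51.Defs

-- ▼ part R51/Bern
section

/-! Row 51: Bernoulli sampling sums over subsets of a finset. -/

set_option autoImplicit false
open Finset

namespace Crest.Agent.R51

/-- Bernoulli weight of a subset `X` of `P` -/
noncomputable def bw {α : Type*} [DecidableEq α] (P : Finset α) (p : ℝ) (X : Finset α) : ℝ :=
  p ^ X.card * (1 - p) ^ (P \ X).card

theorem bw_nonneg {α : Type*} [DecidableEq α] (P : Finset α) {p : ℝ} (h0 : 0 ≤ p) (h1 : p ≤ 1)
    (X : Finset α) : 0 ≤ bw P p X := by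
  unfold bw
  have : 0 ≤ 1 - p := by linarith
  positivity

/-- `P(A ⊆ X, B ∩ X = ∅) = p^|A| (1-p)^|B|` -/
theorem sum_bw {α : Type*} [DecidableEq α] (P A B : Finset α) (hA : A ⊆ P) (hB : B ⊆ P)
    (hd : Disjoint A B) (p : ℝ) :
    ∑ X ∈ P.powerset, bw P p X * (if A ⊆ X ∧ Disjoint B X then 1 else 0)
      = p ^ A.card * (1 - p) ^ B.card := by
  classical
  have h := Finset.prod_add (fun i : α => if i ∈ B then 0 else p)
    (fun i => if i ∈ A then 0 else 1 - p) P
  have h1 : ∏ i ∈ P, ((if i ∈ B then 0 else p) + (if i ∈ A then 0 else 1 - p))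
      = p ^ A.card * (1 - p) ^ B.card := by
    have e1 : ∀ i ∈ P, ((if i ∈ B then (0:ℝ) else p) + (if i ∈ A then 0 else 1 - p))
        = (if i ∈ A then p else 1) * (if i ∈ B then (1 - p) else 1) := by
      intro i _
      by_cases hiA : i ∈ A
      · have hiB : i ∉ B := Finset.disjoint_left.1 hd hiA
        simp [hiA, hiB]
      · by_cases hiB : i ∈ B
        · simp [hiA, hiB]
        · simp [hiA, hiB]
    rw [Finset.prod_congr rfl e1, Finset.prod_mul_distrib]
    congr 1
    · rw [Finset.prod_ite, Finset.prod_const_one, mul_one, Finset.prod_const]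
      congr 2
      ext i
      simp only [Finset.mem_filter]
      exact ⟨fun hh => hh.2, fun hh => ⟨hA hh, hh⟩⟩
    · rw [Finset.prod_ite, Finset.prod_const_one, mul_one, Finset.prod_const]
      congr 2
      ext i
      simp only [Finset.mem_filter]
      exact ⟨fun hh => hh.2, fun hh => ⟨hB hh, hh⟩⟩
  rw [h1] at h
  rw [h]
  refine Finset.sum_congr rfl fun X hX => ?_
  rw [Finset.mem_powerset] at hX
  unfold bw
  by_cases hAX : A ⊆ X
  · by_cases hBX : Disjoint B X
    · rw [if_pos ⟨hAX, hBX⟩, mul_one]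
      congr 1
      · rw [Finset.prod_congr rfl (g := fun _ => p), Finset.prod_const]
        intro i hi
        rw [if_neg (Finset.disjoint_right.1 hBX hi)]
      · rw [Finset.prod_congr rfl (g := fun _ => 1 - p), Finset.prod_const]
        intro i hi
        rw [if_neg]
        intro hiA
        exact (Finset.mem_sdiff.1 hi).2 (hAX hiA)
    · rw [if_neg (fun hh => hBX hh.2), mul_zero]
      symm
      rw [Finset.not_disjoint_iff] at hBX
      obtain ⟨i, hi1, hi2⟩ := hBX
      rw [Finset.prod_eq_zero hi2 (by rw [if_pos hi1]), zero_mul]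
  · rw [if_neg (fun hh => hAX hh.1), mul_zero]
    symm
    rw [Finset.not_subset] at hAX
    obtain ⟨i, hi1, hi2⟩ := hAX
    rw [Finset.prod_eq_zero (i := i) (s := P \ X) (Finset.mem_sdiff.2 ⟨hA hi1, hi2⟩)
      (by rw [if_pos hi1]), mul_zero]

theorem sum_bw_subset {α : Type*} [DecidableEq α] (P A : Finset α) (hA : A ⊆ P) (p : ℝ) :
    ∑ X ∈ P.powerset, bw P p X * (if A ⊆ X then 1 else 0) = p ^ A.card := by
  have := sum_bw P A ∅ hA (Finset.empty_subset _) (Finset.disjoint_empty_right _) p
  simpa using this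

theorem sum_bw_one {α : Type*} [DecidableEq α] (P : Finset α) (p : ℝ) :
    ∑ X ∈ P.powerset, bw P p X = 1 := by
  have := sum_bw_subset P ∅ (Finset.empty_subset _) p
  simpa using this

/-- `E|X| = p |P|` -/
theorem sum_bw_card {α : Type*} [DecidableEq α] (P : Finset α) (p : ℝ) :
    ∑ X ∈ P.powerset, bw P p X * (X.card : ℝ) = p * P.card := by
  have e : ∀ X ∈ P.powerset, bw P p X * (X.card : ℝ)
      = ∑ z ∈ P, bw P p X * (if {z} ⊆ X then 1 else 0) := by
    intro X hX
    rw [Finset.mem_powerset] at hX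
    rw [← Finset.mul_sum]
    congr 1
    rw [Finset.sum_ite, Finset.sum_const_zero, add_zero, Finset.sum_const, nsmul_eq_mul, mul_one]
    congr 2
    ext z
    simp only [Finset.mem_filter, Finset.singleton_subset_iff]
    exact ⟨fun hz => ⟨hX hz, hz⟩, fun hz => hz.2⟩
  rw [Finset.sum_congr rfl e, Finset.sum_comm]
  have e2 : ∀ z ∈ P, ∑ X ∈ P.powerset, bw P p X * (if {z} ⊆ X then 1 else 0) = p := by
    intro z hz
    rw [sum_bw_subset P {z} (Finset.singleton_subset_iff.2 hz) p]
    simp
  rw [Finset.sum_congr rfl e2, Finset.sum_const, nsmul_eq_mul, mul_comm]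

/-- expectation of the size of a random family: if each member `h ∈ H` belongs to `K X` only if
`A h ⊆ X`, the expected size is at most `∑ p^|A h|`. -/
theorem sum_bw_card_le {α β : Type*} [DecidableEq α] [DecidableEq β] (P : Finset α) {p : ℝ}
    (h0 : 0 ≤ p) (h1 : p ≤ 1) (H : Finset β) (A : β → Finset α) (hA : ∀ h ∈ H, A h ⊆ P)
    (K : Finset α → Finset β) (hK : ∀ X, X ⊆ P → K X ⊆ H.filter (fun h => A h ⊆ X)) :
    ∑ X ∈ P.powerset, bw P p X * ((K X).card : ℝ) ≤ ∑ h ∈ H, p ^ (A h).card := by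
  calc ∑ X ∈ P.powerset, bw P p X * ((K X).card : ℝ)
      ≤ ∑ X ∈ P.powerset, bw P p X * ((H.filter (fun h => A h ⊆ X)).card : ℝ) := by
        apply Finset.sum_le_sum
        intro X hX
        rw [Finset.mem_powerset] at hX
        apply mul_le_mul_of_nonneg_left _ (bw_nonneg P h0 h1 X)
        exact_mod_cast Finset.card_le_card (hK X hX)
    _ = ∑ X ∈ P.powerset, ∑ h ∈ H, bw P p X * (if A h ⊆ X then 1 else 0) := by
        apply Finset.sum_congr rfl
        intro X _
        rw [← Finset.mul_sum]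
        congr 1
        rw [Finset.sum_ite, Finset.sum_const_zero, add_zero, Finset.sum_const, nsmul_eq_mul, mul_one]
    _ = ∑ h ∈ H, ∑ X ∈ P.powerset, bw P p X * (if A h ⊆ X then 1 else 0) := Finset.sum_comm
    _ = ∑ h ∈ H, p ^ (A h).card := by
        apply Finset.sum_congr rfl
        intro h hh
        exact sum_bw_subset P (A h) (hA h hh) p

end Crest.Agent.R51
end

-- ▼ part R051/C1
section

/-! Row 51 (k-sets), B1/C1: linear bound for x-monotone drawings in which only edges sharing an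
endpoint may cross. -/

set_option autoImplicit false

namespace Crest.Agent.R051.C1

variable {α : Type*}

/-- the drawing hypotheses -/
structure Drawing (X : Finset α) (x y : α → ℝ) (F : Finset (α × α)) (g : α × α → ℝ → ℝ) : Prop where
  inj : ∀ a ∈ X, ∀ b ∈ X, x a = x b → a = b
  left_mem : ∀ e ∈ F, e.1 ∈ X
  right_mem : ∀ e ∈ F, e.2 ∈ X
  lt : ∀ e ∈ F, x e.1 < x e.2
  g_left : ∀ e ∈ F, g e (x e.1) = y e.1
  g_right : ∀ e ∈ F, g e (x e.2) = y e.2
  g_ne : ∀ e ∈ F, ∀ z ∈ X, x e.1 < x z → x z < x e.2 → g e (x z) ≠ y z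
  /-- no sign change for disjoint edges -/
  nsc : ∀ e ∈ F, ∀ f ∈ F, e.1 ≠ f.1 → e.1 ≠ f.2 → e.2 ≠ f.1 → e.2 ≠ f.2 →
    ∀ s t : ℝ, x e.1 ≤ s → x f.1 ≤ s → s ≤ x e.2 → s ≤ x f.2 →
      x e.1 ≤ t → x f.1 ≤ t → t ≤ x e.2 → t ≤ x f.2 → g e s < g f s → g f t < g e t → False

variable {X : Finset α} {x y : α → ℝ} {F : Finset (α × α)} {g : α × α → ℝ → ℝ}

theorem Drawing.subset (h : Drawing X x y F g) {F' : Finset (α × α)} (hF : F' ⊆ F) :
    Drawing X x y F' g where
  inj := h.inj
  left_mem e he := h.left_mem e (hF he)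
  right_mem e he := h.right_mem e (hF he)
  lt e he := h.lt e (hF he)
  g_left e he := h.g_left e (hF he)
  g_right e he := h.g_right e (hF he)
  g_ne e he := h.g_ne e (hF he)
  nsc e he f hf := h.nsc e (hF he) f (hF hf)

theorem Drawing.neg (h : Drawing X x y F g) : Drawing X x (fun a => - y a) F (fun e t => - g e t) where
  inj := h.inj
  left_mem := h.left_mem
  right_mem := h.right_mem
  lt := h.lt
  g_left e he := by rw [h.g_left e he]
  g_right e he := by rw [h.g_right e he]
  g_ne e he z hz h1 h2 h3 := h.g_ne e he z hz h1 h2 (neg_injective h3)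
  nsc e he f hf h1 h2 h3 h4 s t a1 a2 a3 a4 b1 b2 b3 b4 c1 c2 :=
    h.nsc e he f hf h1 h2 h3 h4 t s b1 b2 b3 b4 a1 a2 a3 a4 (by linarith) (by linarith)

/-- charging data: edge `(u,a)`, next right neighbour `c`, charged vertex `w` -/
structure Charge (X : Finset α) (x y : α → ℝ) (F : Finset (α × α)) (g : α × α → ℝ → ℝ)
    (u a c w : α) : Prop where
  ha : (u, a) ∈ F
  hc : (u, c) ∈ F
  hw : w ∈ X
  h1 : x u < x w
  h2 : x w ≤ x a
  h3 : x a < x c
  hcmin : ∀ b, (u, b) ∈ F → x a < x b → x c ≤ x b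
  h4 : y w < g (u, c) (x w)
  h5 : ∀ b, (u, b) ∈ F → x b ≤ x a → x w ≤ x b → g (u, b) (x w) ≤ y w
  h5' : w = a ∨ ∀ b, (u, b) ∈ F → x b ≤ x a → x w ≤ x b → g (u, b) (x w) < y w
  h6 : ∀ z ∈ X, x u < x z → x z < x w → ¬ (y z < g (u, c) (x z) ∧
    ∀ b, (u, b) ∈ F → x b ≤ x a → x z ≤ x b → g (u, b) (x z) < y z)

/-- existence of the charge -/
theorem exists_charge (h : Drawing X x y F g)
    (habove : ∀ u a b, (u, a) ∈ F → (u, b) ∈ F → x a < x b → y a < g (u, b) (x a))
    {u a : α} (ha : (u, a) ∈ F) (hnl : ∃ b, (u, b) ∈ F ∧ x a < x b) :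
    ∃ c w, Charge X x y F g u a c w := by
  classical
  -- next neighbour
  obtain ⟨b0, hb0, hb0'⟩ := hnl
  obtain ⟨c, hc, hcmin⟩ := Finset.exists_min_image
    ((F.filter (fun e => e.1 = u ∧ x a < x e.2)).image Prod.snd) x
    ⟨b0, Finset.mem_image.2 ⟨(u, b0), Finset.mem_filter.2 ⟨hb0, rfl, hb0'⟩, rfl⟩⟩
  obtain ⟨ec, hec, hec2⟩ := Finset.mem_image.1 hc
  rw [Finset.mem_filter] at hec
  have hcF : (u, c) ∈ F := by
    have : ec = (u, c) := Prod.ext hec.2.1 hec2
    rw [← this]; exact hec.1
  have hac : x a < x c := by rw [← hec2]; exact hec.2.2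
  have hcmin' : ∀ b, (u, b) ∈ F → x a < x b → x c ≤ x b := by
    intro b hb hab
    exact hcmin b (Finset.mem_image.2 ⟨(u, b), Finset.mem_filter.2 ⟨hb, rfl, hab⟩, rfl⟩)
  have haX : a ∈ X := h.right_mem _ ha
  have hua : x u < x a := h.lt _ ha
  -- candidates
  let P : α → Prop := fun w => x u < x w ∧ x w ≤ x a ∧ (w = a ∨ (y w < g (u, c) (x w) ∧
    ∀ b, (u, b) ∈ F → x b ≤ x a → x w ≤ x b → g (u, b) (x w) < y w))
  obtain ⟨w, hw, hwmin⟩ := Finset.exists_min_image (X.filter P) x
    ⟨a, Finset.mem_filter.2 ⟨haX, hua, le_rfl, Or.inl rfl⟩⟩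
  rw [Finset.mem_filter] at hw
  obtain ⟨hwX, hw1, hw2, hw3⟩ := hw
  refine ⟨c, w, ha, hcF, hwX, hw1, hw2, hac, hcmin', ?_, ?_, ?_, ?_⟩
  · rcases hw3 with rfl | hw3
    · exact habove u w c ha hcF hac
    · exact hw3.1
  · intro b hb hba hwb
    rcases hw3 with rfl | hw3
    · have hbeq : b = w := h.inj b (h.right_mem _ hb) w hwX (le_antisymm hba hwb)
      rw [hbeq]
      exact (h.g_right (u, w) ha).le
    · exact (hw3.2 b hb hba hwb).le
  · rcases hw3 with rfl | hw3
    · exact Or.inl rfl
    · exact Or.inr hw3.2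
  · intro z hz hz1 hz2 hz3
    have hzP : z ∈ X.filter P :=
      Finset.mem_filter.2 ⟨hz, hz1, (hz2.le.trans hw2), Or.inr hz3⟩
    exact absurd (hwmin z hzP) (not_le.2 hz2)

/-- (d): same left endpoint -/
theorem charge_inj (h : Drawing X x y F g) {u a c a' c' w : α}
    (h1 : Charge X x y F g u a c w) (h2 : Charge X x y F g u a' c' w) : a = a' := by
  by_contra hne
  wlog hlt : x a < x a' generalizing a a' c c' with H
  · have hne2 : x a ≠ x a' := fun he => hne (h.inj a (h.right_mem _ h1.ha) a' (h.right_mem _ h2.ha) he)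
    exact H h2 h1 (Ne.symm hne) (lt_of_le_of_ne (not_lt.1 hlt) (Ne.symm hne2))
  -- l = c is ≤ a'
  have hca' : x c ≤ x a' := h1.hcmin a' h2.ha hlt
  have hwc : x w ≤ x c := h1.h2.trans h1.h3.le
  have k := h2.h5 c h1.hc hca' hwc
  exact absurd h1.h4 (not_lt.2 k)

/-- (e): different left endpoints -/
theorem charge_pair (h : Drawing X x y F g)
    (habove : ∀ u a b, (u, a) ∈ F → (u, b) ∈ F → x a < x b → y a < g (u, b) (x a))
    {u a c u' a' c' w : α}
    (h1 : Charge X x y F g u a c w) (h2 : Charge X x y F g u' a' c' w) (hlt : x u < x u') :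
    a' = c ∨ c' = a := by
  classical
  by_contra hcon
  push Not at hcon
  obtain ⟨hc1, hc2⟩ := hcon
  have hu'X : u' ∈ X := h.left_mem _ h2.ha
  have huX : u ∈ X := h.left_mem _ h1.ha
  have hu'w : x u' < x w := h2.h1
  have hne : ∀ {p q : α}, x p < x q → p ≠ q := fun hpq he => by rw [he] at hpq; exact lt_irrefl _ hpq
  have hwa : x w ≤ x a := h1.h2
  have hac : x a < x c := h1.h3
  have hwa' : x w ≤ x a' := h2.h2
  have hac' : x a' < x c' := h2.h3
  -- u' is not a candidate for (u,a)
  have hnot := h1.h6 u' hu'X hlt hu'w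
  by_cases hcase : y u' < g (u, c) (x u')
  · -- case 2
    have hex : ∃ l, (u, l) ∈ F ∧ x l ≤ x a ∧ x u' < x l ∧ y u' < g (u, l) (x u') := by
      by_contra hno
      apply hnot
      refine ⟨hcase, fun b hb hba hub => ?_⟩
      rcases eq_or_lt_of_le hub with heq | hub'
      · -- u' = b; then use l = a
        exfalso
        have hbu : b = u' := h.inj b (h.right_mem _ hb) u' hu'X heq.symm
        have hba' : x b < x a := by rw [← heq]; linarith
        apply hno
        refine ⟨a, h1.ha, le_rfl, by linarith, ?_⟩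
        have := habove u b a hb h1.ha hba'
        rw [hbu] at this
        exact this
      · rcases lt_trichotomy (g (u, b) (x u')) (y u') with h3 | h3 | h3
        · exact h3
        · exact absurd h3 (h.g_ne (u, b) hb u' hu'X hlt hub')
        · exact absurd ⟨b, hb, hba, hub', h3⟩ hno
    obtain ⟨l, hl, hla, hul, hyl⟩ := hex
    have hgc' : y w < g (u', c') (x w) := h2.h4
    have hg0 : g (u', c') (x u') = y u' := h.g_left (u', c') h2.hc
    have hga : g (u, a) (x w) ≤ y w := h1.h5 a h1.ha le_rfl hwa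
    -- (u',c') and (u,a) are disjoint
    have d1 : u' ≠ u := (hne hlt).symm
    have d2 : u' ≠ a := hne (by linarith)
    have d3 : c' ≠ u := (hne (by linarith)).symm
    by_cases h2a : x w ≤ x l
    · -- (2a)
      have hgl : g (u, l) (x w) ≤ y w := h1.h5 l hl hla h2a
      have d4 : u' ≠ l := hne hul
      have heq : c' = l := by
        by_contra hcl
        exact h.nsc (u', c') h2.hc (u, l) hl d1 d4 d3 hcl (x u') (x w) le_rfl (by simpa using hlt.le)
          (by simp only []; linarith) (by simpa using hul.le) (by simp only []; linarith)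
          (by simp only []; linarith) (by simp only []; linarith) (by simpa using h2a)
          (by rw [hg0]; exact hyl) (lt_of_le_of_lt hgl hgc')
      have hla' : x l < x a := by
        rcases eq_or_lt_of_le hla with he | hl'
        · exact absurd (heq.trans (h.inj l (h.right_mem _ hl) a (h.right_mem _ h1.ha) he)) hc2
        · exact hl'
      have hy : g (u', c') (x l) < g (u, a) (x l) := by
        have := h.g_right (u', c') h2.hc
        simp only [] at this
        rw [heq] at this
        rw [heq, this]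
        exact habove u l a hl h1.ha hla'
      exact h.nsc (u', c') h2.hc (u, a) h1.ha d1 d2 d3 hc2 (x l) (x w) (by simpa using hul.le)
        (by simp only []; linarith) (by rw [heq]) (by simpa using hla) (by simp only []; linarith)
        (by simp only []; linarith) (by simp only []; linarith) (by simpa using hwa)
        hy (lt_of_le_of_lt hga hgc')
    · -- (2b)
      push Not at h2a
      have hlc' : x l < x c' := by linarith
      have d4 : u' ≠ l := hne hul
      have d5 : c' ≠ l := (hne hlc').symm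
      have hgl : g (u', c') (x l) ≤ y l := by
        by_contra hcon2
        push Not at hcon2
        have hgr : g (u, l) (x l) = y l := h.g_right (u, l) hl
        exact h.nsc (u', c') h2.hc (u, l) hl d1 d4 d3 d5 (x u') (x l) le_rfl (by simpa using hlt.le)
          (by simp only []; linarith) (by simpa using hul.le) (by simpa using hul.le)
          (by simp only []; linarith) (by simp only []; linarith) (by simp)
          (by rw [hg0]; exact hyl) (by rw [hgr]; exact hcon2)
      have hla' : x l < x a := by linarith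
      have hy : g (u', c') (x l) < g (u, a) (x l) :=
        lt_of_le_of_lt hgl (habove u l a hl h1.ha hla')
      exact h.nsc (u', c') h2.hc (u, a) h1.ha d1 d2 d3 hc2 (x l) (x w) (by simpa using hul.le)
        (by simp only []; linarith) (by simp only []; linarith) (by simpa using hla)
        (by simp only []; linarith)
        (by simp only []; linarith) (by simp only []; linarith) (by simpa using hwa)
        hy (lt_of_le_of_lt hga hgc')
  · -- case 1
    have hgt : g (u, c) (x u') < y u' := by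
      rcases lt_trichotomy (g (u, c) (x u')) (y u') with h3 | h3 | h3
      · exact h3
      · exact absurd h3 (h.g_ne (u, c) h1.hc u' hu'X hlt (by simp only []; linarith))
      · exact absurd h3 hcase
    have hga' : g (u', a') (x w) ≤ y w := h2.h5 a' h2.ha le_rfl hwa'
    have hg0 : g (u', a') (x u') = y u' := h.g_left (u', a') h2.ha
    have d1 : u ≠ u' := hne hlt
    have d2 : u ≠ a' := hne (by linarith)
    have d3 : c ≠ u' := (hne (by linarith)).symm
    exact h.nsc (u, c) h1.hc (u', a') h2.ha d1 d2 d3 (Ne.symm hc1) (x u') (x w) (by simpa using hlt.le)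
      le_rfl (by simp only []; linarith) (by simp only []; linarith) (by simp only []; linarith)
      (by simpa using hu'w.le) (by simp only []; linarith) (by simpa using hwa')
      (by rw [hg0]; exact hgt) (lt_of_le_of_lt hga' h1.h4)

/-- the half class: `≤ 4n` -/
theorem half_bound (h : Drawing X x y F g)
    (habove : ∀ u a b, (u, a) ∈ F → (u, b) ∈ F → x a < x b → y a < g (u, b) (x a)) :
    F.card ≤ 4 * X.card := by
  classical
  set NL := F.filter (fun e => ∃ b, (e.1, b) ∈ F ∧ x e.2 < x b) with hNL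
  -- non-last edges
  have hch : ∀ e ∈ NL, ∃ p : α × α, Charge X x y F g e.1 e.2 p.1 p.2 := by
    intro e he
    rw [hNL, Finset.mem_filter] at he
    obtain ⟨c, w, hcw⟩ := exists_charge h habove (u := e.1) (a := e.2) he.1 he.2
    exact ⟨(c, w), hcw⟩
  choose! p hp using hch
  have hcard1 : NL.card ≤ 3 * X.card := by
    apply Finset.card_le_mul_card_image_of_maps_to (f := fun e => (p e).2)
    · intro e he
      exact (hp e he).hw
    · intro w _
      set S := NL.filter (fun e => (p e).2 = w) with hS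
      rcases S.eq_empty_or_nonempty with hemp | hne
      · rw [hemp]; simp
      obtain ⟨e0, he0, hmin⟩ := Finset.exists_min_image S (fun e => x e.1) hne
      have hmem : ∀ e ∈ S, e ∈ NL ∧ (p e).2 = w := fun e he => Finset.mem_filter.1 he
      have hC : ∀ e ∈ S, Charge X x y F g e.1 e.2 (p e).1 w := by
        intro e he
        have := hp e (hmem e he).1
        rwa [(hmem e he).2] at this
      have hinj : ∀ e ∈ S, ∀ e' ∈ S, x e.1 = x e'.1 → e = e' := by
        intro e he e' he' hx
        have hu : e.1 = e'.1 := h.inj _ (h.left_mem _ (hC e he).ha) _ (h.left_mem _ (hC e' he').ha) hx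
        have h1 := hC e he
        have h2 := hC e' he'
        rw [← hu] at h2
        exact Prod.ext hu (charge_inj h h1 h2)
      -- the rest
      set S1 := S.filter (fun e => e.2 = (p e0).1) with hS1
      set S2 := S.filter (fun e => (p e).1 = e0.2) with hS2
      have hpair : ∀ e ∈ S, ∀ e' ∈ S, x e.1 < x e'.1 → e'.2 = (p e).1 ∨ (p e').1 = e.2 := by
        intro e he e' he' hlt
        exact charge_pair h habove (hC e he) (hC e' he') hlt
      have hself : ∀ e ∈ S, e.2 ≠ (p e).1 := by
        intro e he heq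
        have := (hC e he).h3
        rw [← heq] at this
        exact lt_irrefl _ this
      have hsub : S ⊆ insert e0 (S1 ∪ S2) := by
        intro e he
        by_cases hee : e = e0
        · rw [hee]; exact Finset.mem_insert_self _ _
        · apply Finset.mem_insert_of_mem
          have hlt : x e0.1 < x e.1 := lt_of_le_of_ne (hmin e he) fun hx =>
            hee (hinj e he e0 he0 hx.symm)
          rcases hpair e0 he0 e he hlt with h3 | h3
          · exact Finset.mem_union_left _ (Finset.mem_filter.2 ⟨he, h3⟩)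
          · exact Finset.mem_union_right _ (Finset.mem_filter.2 ⟨he, h3⟩)
      have hc1 : S1.card ≤ 1 := by
        rw [Finset.card_le_one]
        intro e he e' he'
        rw [hS1, Finset.mem_filter] at he he'
        by_contra hee
        wlog hlt : x e.1 < x e'.1 generalizing e e' with H
        · apply H e' he' e he (Ne.symm hee)
          exact lt_of_le_of_ne (not_lt.1 hlt) fun hx => hee (hinj e he.1 e' he'.1 hx.symm)
        rcases hpair e he.1 e' he'.1 hlt with h3 | h3
        · exact hself e he.1 (by rw [he.2, ← he'.2, h3])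
        · exact hself e' he'.1 (by rw [he'.2, ← he.2, h3])
      have hc2 : S2.card ≤ 1 := by
        rw [Finset.card_le_one]
        intro e he e' he'
        rw [hS2, Finset.mem_filter] at he he'
        by_contra hee
        wlog hlt : x e.1 < x e'.1 generalizing e e' with H
        · apply H e' he' e he (Ne.symm hee)
          exact lt_of_le_of_ne (not_lt.1 hlt) fun hx => hee (hinj e he.1 e' he'.1 hx.symm)
        rcases hpair e he.1 e' he'.1 hlt with h3 | h3
        · exact hself e' he'.1 (by rw [h3, he.2, he'.2])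
        · exact hself e he.1 (by rw [← h3, he'.2, he.2])
      calc S.card ≤ (insert e0 (S1 ∪ S2)).card := Finset.card_le_card hsub
        _ ≤ (S1 ∪ S2).card + 1 := Finset.card_insert_le _ _
        _ ≤ (S1.card + S2.card) + 1 := by
            have := Finset.card_union_le S1 S2
            omega
        _ ≤ 3 := by omega
  -- last edges
  have hcard2 : (F.filter (fun e => ¬ ∃ b, (e.1, b) ∈ F ∧ x e.2 < x b)).card ≤ X.card := by
    apply Finset.card_le_card_of_injOn (fun e => e.1)
    · intro e he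
      have he' := Finset.mem_filter.1 he
      exact h.left_mem e he'.1
    · intro e he e' he' heq
      have h1 := Finset.mem_filter.1 he
      have h2 := Finset.mem_filter.1 he'
      have heq' : e.1 = e'.1 := heq
      apply Prod.ext heq'
      by_contra hne
      have hx : x e.2 ≠ x e'.2 := fun hx => hne (h.inj _ (h.right_mem _ h1.1) _ (h.right_mem _ h2.1) hx)
      rcases lt_or_gt_of_ne hx with hlt | hlt
      · exact h1.2 ⟨e'.2, by rw [heq']; exact h2.1, hlt⟩
      · exact h2.2 ⟨e.2, by rw [← heq']; exact h1.1, hlt⟩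
  have hsplit : NL.card + (F.filter (fun e => ¬ ∃ b, (e.1, b) ∈ F ∧ x e.2 < x b)).card = F.card := by
    rw [hNL]
    exact Finset.card_filter_add_card_filter_not _
  omega

/-- **C1**: linear bound when only edges sharing an endpoint may cross -/
theorem linear_bound (h : Drawing X x y F g) : F.card ≤ 9 * X.card := by
  classical
  -- leftmost edges into a
  set F0 := F.filter (fun e => ¬ ∃ z, (z, e.2) ∈ F ∧ x z < x e.1) with hF0
  set F1 := F.filter (fun e => ∃ z, (z, e.2) ∈ F ∧ x z < x e.1) with hF1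
  have hcard0 : F0.card ≤ X.card := by
    apply Finset.card_le_card_of_injOn (fun e => e.2)
    · intro e he
      exact h.right_mem e (Finset.mem_filter.1 he).1
    · intro e he e' he' heq
      have h1 := Finset.mem_filter.1 he
      have h2 := Finset.mem_filter.1 he'
      have heq' : e.2 = e'.2 := heq
      refine Prod.ext ?_ heq'
      by_contra hne
      have hx : x e.1 ≠ x e'.1 := fun hx => hne (h.inj _ (h.left_mem _ h1.1) _ (h.left_mem _ h2.1) hx)
      rcases lt_or_gt_of_ne hx with hlt | hlt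
      · exact h2.2 ⟨e.1, by rw [← heq']; exact h1.1, hlt⟩
      · exact h1.2 ⟨e'.1, by rw [heq']; exact h2.1, hlt⟩
  have hne : ∀ {p q : α}, x p < x q → p ≠ q := fun hpq he => by rw [he] at hpq; exact lt_irrefl _ hpq
  -- (b) all edges (u,b) beyond a pass on the same side of a
  have hside : ∀ u a, (u, a) ∈ F1 →
      (∀ b, (u, b) ∈ F → x a < x b → y a < g (u, b) (x a)) ∨
      (∀ b, (u, b) ∈ F → x a < x b → g (u, b) (x a) < y a) := by
    intro u a hua
    rw [hF1, Finset.mem_filter] at hua
    obtain ⟨huaF, z, hza, hzu⟩ := hua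
    simp only [] at hza hzu
    have huX : u ∈ X := h.left_mem _ huaF
    have haX : a ∈ X := h.right_mem _ huaF
    have hxua : x u < x a := h.lt _ huaF
    have key : ∀ b, (u, b) ∈ F → x a < x b → (g (z, a) (x u) < y u ↔ y a < g (u, b) (x a)) := by
      intro b hb hab
      have d1 : z ≠ u := hne hzu
      have d2 : z ≠ b := hne (by linarith)
      have d3 : a ≠ u := (hne hxua).symm
      have d4 : a ≠ b := hne hab
      have e1 : g (u, b) (x u) = y u := h.g_left (u, b) hb
      have e2 : g (z, a) (x a) = y a := h.g_right (z, a) hza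
      constructor
      · intro h1
        rcases lt_trichotomy (g (u, b) (x a)) (y a) with h3 | h3 | h3
        · exfalso
          exact h.nsc (z, a) hza (u, b) hb d1 d2 d3 d4 (x u) (x a) (by simpa using hzu.le) le_rfl
            (by simpa using hxua.le) (by simp only []; linarith) (by simp only []; linarith)
            (by simpa using hxua.le) le_rfl (by simpa using hab.le)
            (by rw [e1]; exact h1) (by rw [e2]; exact h3)
        · exact absurd h3 (h.g_ne (u, b) hb a haX hxua hab)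
        · exact h3
      · intro h1
        rcases lt_trichotomy (g (z, a) (x u)) (y u) with h3 | h3 | h3
        · exact h3
        · exact absurd h3 (h.g_ne (z, a) hza u huX hzu hxua)
        · exfalso
          exact h.nsc (z, a) hza (u, b) hb d1 d2 d3 d4 (x a) (x u) (by simp only []; linarith)
            (by simpa using hxua.le) le_rfl (by simpa using hab.le) (by simpa using hzu.le) le_rfl
            (by simpa using hxua.le) (by simp only []; linarith)
            (by rw [e2]; exact h1) (by rw [e1]; exact h3)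
    by_cases hs : g (z, a) (x u) < y u
    · left
      intro b hb hab
      exact (key b hb hab).1 hs
    · right
      intro b hb hab
      rcases lt_trichotomy (g (u, b) (x a)) (y a) with h3 | h3 | h3
      · exact h3
      · exact absurd h3 (h.g_ne (u, b) hb a haX hxua hab)
      · exact absurd ((key b hb hab).2 h3) hs
  set Fm := F1.filter (fun e => ∀ b, (e.1, b) ∈ F → x e.2 < x b → y e.2 < g (e.1, b) (x e.2)) with hFm
  set Fp := F1.filter (fun e => ∀ b, (e.1, b) ∈ F → x e.2 < x b → g (e.1, b) (x e.2) < y e.2) with hFp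
  have hF1sub : F1 ⊆ F := Finset.filter_subset _ _
  have hFmsub : Fm ⊆ F := (Finset.filter_subset _ _).trans hF1sub
  have hFpsub : Fp ⊆ F := (Finset.filter_subset _ _).trans hF1sub
  have hm : Fm.card ≤ 4 * X.card := by
    apply half_bound (h.subset hFmsub)
    intro u a b hua hub hab
    exact (Finset.mem_filter.1 hua).2 b (hFmsub hub) hab
  have hp : Fp.card ≤ 4 * X.card := by
    apply half_bound (h.subset hFpsub).neg
    intro u a b hua hub hab
    have := (Finset.mem_filter.1 hua).2 b (hFpsub hub) hab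
    simp only [] at this ⊢
    linarith
  have hunion : F1 ⊆ Fm ∪ Fp := by
    intro e he
    rcases hside e.1 e.2 he with h1 | h1
    · exact Finset.mem_union_left _ (Finset.mem_filter.2 ⟨he, h1⟩)
    · exact Finset.mem_union_right _ (Finset.mem_filter.2 ⟨he, h1⟩)
  have h1 : F1.card ≤ Fm.card + Fp.card := (Finset.card_le_card hunion).trans (Finset.card_union_le _ _)
  have hsplit : F1.card + F0.card = F.card := by
    rw [hF1, hF0]
    exact Finset.card_filter_add_card_filter_not _
  omega

end Crest.Agent.R051.C1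
end

-- ▼ part R51/TwoA
section

/-! Row 51, C4 (Lemma H), part A: curves of x-monotone 2-paths and the vertex sampling step. -/

set_option autoImplicit false
noncomputable section
open Classical

namespace Crest.Agent.R51.Two

/-- a 2-path `(x, v, y)` -/
abbrev Pth := Pt × Pt × Pt

/-- end pair -/
def ed (h : Pth) : Pt × Pt := (h.1, h.2.2)

/-- first and second edge -/
def e1 (h : Pth) : Edge := (h.1, h.2.1)
def e2 (h : Pth) : Edge := (h.2.1, h.2.2)

/-- the curve of a 2-path -/
def pc (h : Pth) (t : ℝ) : ℝ := if t ≤ h.2.1.1 then lin (e1 h) t else lin (e2 h) t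

/-- `h` is an x-monotone 2-path with vertices in `P` -/
structure IsP (P : Finset Pt) (h : Pth) : Prop where
  ha : h.1 ∈ P
  hv : h.2.1 ∈ P
  hb : h.2.2 ∈ P
  l1 : h.1.1 < h.2.1.1
  l2 : h.2.1.1 < h.2.2.1

theorem lin_cont (e : Edge) : Continuous (lin e) := by unfold lin; fun_prop

variable {P : Finset Pt}

theorem pc_cont {h : Pth} (hh : IsP P h) : Continuous (pc h) := by
  unfold pc
  apply Continuous.if_le (lin_cont _) (lin_cont _) continuous_id continuous_const
  intro t ht
  simp only [id] at ht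
  rw [ht]
  have a1 : lin (e1 h) h.2.1.1 = h.2.1.2 := lin_right (e := e1 h) hh.l1
  have a2 : lin (e2 h) h.2.1.1 = h.2.1.2 := lin_left (e2 h)
  rw [a1, a2]

theorem pc_left {h : Pth} (hh : IsP P h) : pc h h.1.1 = h.1.2 := by
  unfold pc
  rw [if_pos hh.l1.le]
  exact lin_left (e1 h)

theorem pc_right {h : Pth} (hh : IsP P h) : pc h h.2.2.1 = h.2.2.2 := by
  unfold pc
  rw [if_neg (not_le.2 hh.l2)]
  exact lin_right (e := e2 h) hh.l2

theorem e1_mem {h : Pth} (hh : IsP P h) : e1 h ∈ pairs P := mem_pairs.2 ⟨hh.ha, hh.hv, hh.l1⟩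
theorem e2_mem {h : Pth} (hh : IsP P h) : e2 h ∈ pairs P := mem_pairs.2 ⟨hh.hv, hh.hb, hh.l2⟩

/-- a vertex not on the edge is not on its line -/
theorem lin_ne (hP : Generic P) {e : Edge} (he : e ∈ pairs P) {z : Pt} (hz : z ∈ P)
    (h1 : z ≠ e.1) (h2 : z ≠ e.2) : lin e z.1 ≠ z.2 := by
  intro h
  exact hP.ht_ne he hz h1 h2 ((lin_eq_iff e z).1 h).symm

theorem pc_ne (hP : Generic P) {h : Pth} (hh : IsP P h) {z : Pt} (hz : z ∈ P)
    (h1 : z ≠ h.1) (h2 : z ≠ h.2.1) (h3 : z ≠ h.2.2) : pc h z.1 ≠ z.2 := by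
  unfold pc
  split_ifs
  · exact lin_ne hP (e1_mem hh) hz h1 h2
  · exact lin_ne hP (e2_mem hh) hz h2 h3

/-- on the range of the path, the curve agrees with one of the two edges -/
theorem pc_edge {h : Pth} {t : ℝ} (h1 : h.1.1 ≤ t) (h2 : t ≤ h.2.2.1) :
    ∃ e : Edge, (e = e1 h ∨ e = e2 h) ∧ e.1.1 ≤ t ∧ t ≤ e.2.1 ∧ pc h t = lin e t := by
  unfold pc
  split_ifs with ht
  · exact ⟨e1 h, Or.inl rfl, h1, ht, rfl⟩
  · push Not at ht
    exact ⟨e2 h, Or.inr rfl, ht.le, h2, rfl⟩

/-- independence of two 2-paths -/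
def Ind (h h' : Pth) : Prop :=
  h.1 ≠ h'.1 ∧ h.1 ≠ h'.2.2 ∧ h.2.2 ≠ h'.1 ∧ h.2.2 ≠ h'.2.2 ∧
    h.2.1 ≠ h'.1 ∧ h.2.1 ≠ h'.2.2 ∧ h'.2.1 ≠ h.1 ∧ h'.2.1 ≠ h.2.2

/-- sign change on the common interval -/
def SC (h h' : Pth) : Prop :=
  ∃ s t : ℝ, h.1.1 ≤ s ∧ h'.1.1 ≤ s ∧ s ≤ h.2.2.1 ∧ s ≤ h'.2.2.1 ∧
    h.1.1 ≤ t ∧ h'.1.1 ≤ t ∧ t ≤ h.2.2.1 ∧ t ≤ h'.2.2.1 ∧ pc h s < pc h' s ∧ pc h' t < pc h t

theorem vert_of_mem_edge {h : Pth} {e : Edge} (he : e = e1 h ∨ e = e2 h) :
    (e.1 = h.1 ∨ e.1 = h.2.1) ∧ (e.2 = h.2.1 ∨ e.2 = h.2.2) := by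
  rcases he with rfl | rfl
  · exact ⟨Or.inl rfl, Or.inl rfl⟩
  · exact ⟨Or.inr rfl, Or.inr rfl⟩

/-- sign change of two independent paths with different middle vertices forces a crossing -/
theorem exists_cross (hP : Generic P) {h h' : Pth} (hh : IsP P h) (hh' : IsP P h')
    (hi : Ind h h') (hv : h.2.1 ≠ h'.2.1) (hs : SC h h') :
    ∃ e f : Edge, (e = e1 h ∨ e = e2 h) ∧ (f = e1 h' ∨ f = e2 h') ∧ Cross e f := by
  obtain ⟨i1, i2, i3, i4, i5, i6, i7, i8⟩ := hi
  obtain ⟨s, t, a1, a2, a3, a4, b1, b2, b3, b4, c1, c2⟩ := hs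
  -- zero of the difference
  have hc : Continuous (fun r => pc h r - pc h' r) := (pc_cont hh).sub (pc_cont hh')
  have hz : ∃ r ∈ Set.uIcc s t, pc h r - pc h' r = 0 := by
    have hsub := intermediate_value_uIcc (a := s) (b := t) hc.continuousOn
    have h0 : (0 : ℝ) ∈ Set.uIcc (pc h s - pc h' s) (pc h t - pc h' t) := by
      rw [Set.mem_uIcc]
      left
      constructor <;> linarith
    obtain ⟨r, hr, hr2⟩ := hsub h0
    exact ⟨r, hr, hr2⟩
  obtain ⟨r, hr, hr0⟩ := hz
  have hr1 : min s t ≤ r := hr.1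
  have hr2 : r ≤ max s t := hr.2
  have r1 : h.1.1 ≤ r := (le_min a1 b1).trans hr1
  have r2 : h'.1.1 ≤ r := (le_min a2 b2).trans hr1
  have r3 : r ≤ h.2.2.1 := hr2.trans (max_le a3 b3)
  have r4 : r ≤ h'.2.2.1 := hr2.trans (max_le a4 b4)
  obtain ⟨e, he, he1, he2, he3⟩ := pc_edge r1 r3
  obtain ⟨f, hf, hf1, hf2, hf3⟩ := pc_edge r2 r4
  have heq : lin e r = lin f r := by rw [← he3, ← hf3]; linarith
  have heP : e ∈ pairs P := by
    rcases he with rfl | rfl
    · exact e1_mem hh
    · exact e2_mem hh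
  have hfP : f ∈ pairs P := by
    rcases hf with rfl | rfl
    · exact e1_mem hh'
    · exact e2_mem hh'
  obtain ⟨ve1, ve2⟩ := vert_of_mem_edge he
  obtain ⟨vf1, vf2⟩ := vert_of_mem_edge hf
  -- all vertices distinct
  have d : e.1 ≠ f.1 ∧ e.1 ≠ f.2 ∧ e.2 ≠ f.1 ∧ e.2 ≠ f.2 := by
    refine ⟨?_, ?_, ?_, ?_⟩
    · rcases ve1 with h1 | h1 <;> rcases vf1 with h2 | h2 <;> rw [h1, h2]
      · exact i1
      · exact i7.symm
      · exact i5
      · exact hv
    · rcases ve1 with h1 | h1 <;> rcases vf2 with h2 | h2 <;> rw [h1, h2]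
      · exact i7.symm
      · exact i2
      · exact hv
      · exact i6
    · rcases ve2 with h1 | h1 <;> rcases vf1 with h2 | h2 <;> rw [h1, h2]
      · exact i5
      · exact hv
      · exact i3
      · exact i8.symm
    · rcases ve2 with h1 | h1 <;> rcases vf2 with h2 | h2 <;> rw [h1, h2]
      · exact hv
      · exact i6
      · exact i8.symm
      · exact i4
  obtain ⟨d1, d2, d3, d4⟩ := d
  have heP' := mem_pairs.1 heP
  have hfP' := mem_pairs.1 hfP
  have hsl : esl e ≠ esl f := by
    intro hsl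
    have := hP.esl_inj heP hfP hsl
    exact d1 (by rw [this])
  have hne : ∀ (z : Pt), z ∈ P → z ≠ f.1 → z ≠ f.2 → r = z.1 → lin e z.1 = z.2 → False := by
    intro z hz h1 h2 h3 h4
    apply lin_ne hP hfP hz h1 h2
    rw [← h3, ← heq, h3, h4]
  have hne' : ∀ (z : Pt), z ∈ P → z ≠ e.1 → z ≠ e.2 → r = z.1 → lin f z.1 = z.2 → False := by
    intro z hz h1 h2 h3 h4
    apply lin_ne hP heP hz h1 h2
    rw [← h3, heq, h3, h4]
  have x1 : e.1.1 < r := lt_of_le_of_ne he1 fun hh2 =>
    hne e.1 heP'.1 d1 d2 hh2.symm (lin_left e)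
  have x2 : r < e.2.1 := lt_of_le_of_ne he2 fun hh2 =>
    hne e.2 heP'.2.1 d3 d4 hh2 (lin_right heP'.2.2)
  have x3 : f.1.1 < r := lt_of_le_of_ne hf1 fun hh2 =>
    hne' f.1 hfP'.1 d1.symm d3.symm hh2.symm (lin_left f)
  have x4 : r < f.2.1 := lt_of_le_of_ne hf2 fun hh2 =>
    hne' f.2 hfP'.2.1 d2.symm d4.symm hh2 (lin_right hfP'.2.2)
  exact ⟨e, f, he, hf, r, x1, x2, x3, x4, heq, hsl⟩

/-- ordered independent pairs with sign change -/
def cri (K : Finset Pth) : Finset (Pth × Pth) :=
  (K ×ˢ K).filter (fun x => Ind x.1 x.2 ∧ SC x.1 x.2)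

/-- C1 for a simple family of 2-paths with no bad pair -/
theorem clean_bound (hP : Generic P) {X : Finset Pt} (hX : X ⊆ P) {K : Finset Pth}
    (hK : ∀ h ∈ K, IsP P h ∧ h.1 ∈ X ∧ h.2.2 ∈ X ∧ h.2.1 ∉ X)
    (hinj : ∀ h ∈ K, ∀ h' ∈ K, ed h = ed h' → h = h')
    (hclean : ∀ h ∈ K, ∀ h' ∈ K, Ind h h' → ¬ SC h h') : K.card ≤ 9 * X.card := by
  have hφ : ∀ e ∈ K.image ed, ∃ h ∈ K, ed h = e := fun e he => Finset.mem_image.1 he
  choose! φ hφK hφe using hφ
  have hcard : K.card = (K.image ed).card := (Finset.card_image_of_injOn (fun h hh h' hh' => hinj h hh h' hh')).symm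
  rw [hcard]
  have key : ∀ e ∈ K.image ed, (φ e).1 = e.1 ∧ (φ e).2.2 = e.2 := by
    intro e he
    have := hφe e he
    unfold ed at this
    exact Prod.ext_iff.1 this
  apply Crest.Agent.R051.C1.linear_bound (X := X) (x := fun p : Pt => p.1) (y := fun p : Pt => p.2)
    (g := fun e => pc (φ e))
  refine ⟨?_, ?_, ?_, ?_, ?_, ?_, ?_, ?_⟩
  · intro a ha b hb hab
    exact hP.x_inj a (hX ha) b (hX hb) hab
  · intro e he
    rw [← (key e he).1]; exact (hK _ (hφK e he)).2.1
  · intro e he
    rw [← (key e he).2]; exact (hK _ (hφK e he)).2.2.1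
  · intro e he
    have h1 := (hK _ (hφK e he)).1
    have := h1.l1.trans h1.l2
    rwa [(key e he).1, (key e he).2] at this
  · intro e he
    have h1 := pc_left (hK _ (hφK e he)).1
    rwa [(key e he).1] at h1
  · intro e he
    have h1 := pc_right (hK _ (hφK e he)).1
    rwa [(key e he).2] at h1
  · intro e he z hz hz1 hz2
    have h1 := hK _ (hφK e he)
    apply pc_ne hP h1.1 (hX hz)
    · rw [(key e he).1]; intro h; rw [h] at hz1; exact lt_irrefl _ hz1
    · intro h; rw [h] at hz; exact h1.2.2.2 hz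
    · rw [(key e he).2]; intro h; rw [h] at hz2; exact lt_irrefl _ hz2
  · intro e he f hf n1 n2 n3 n4 s t s1 s2 s3 s4 t1 t2 t3 t4 hs ht
    have he1 := hK _ (hφK e he)
    have hf1 := hK _ (hφK f hf)
    obtain ⟨ke1, ke2⟩ := key e he
    obtain ⟨kf1, kf2⟩ := key f hf
    have hv : ∀ {a b : Pt}, a ∉ X → b ∈ X → a ≠ b := fun ha hb hab => ha (by rw [hab]; exact hb)
    apply hclean _ (hφK e he) _ (hφK f hf)
    · refine ⟨by rw [ke1, kf1]; exact n1, by rw [ke1, kf2]; exact n2, by rw [ke2, kf1]; exact n3,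
        by rw [ke2, kf2]; exact n4, hv he1.2.2.2 hf1.2.1, hv he1.2.2.2 hf1.2.2.1,
        hv hf1.2.2.2 he1.2.1, hv hf1.2.2.2 he1.2.2.1⟩
    · refine ⟨s, t, ?_, ?_, ?_, ?_, ?_, ?_, ?_, ?_, hs, ht⟩
      · rw [ke1]; exact s1
      · rw [kf1]; exact s2
      · rw [ke2]; exact s3
      · rw [kf2]; exact s4
      · rw [ke1]; exact t1
      · rw [kf1]; exact t2
      · rw [ke2]; exact t3
      · rw [kf2]; exact t4

/-- additive form -/
theorem simple_bound (hP : Generic P) {X : Finset Pt} (hX : X ⊆ P) {K : Finset Pth}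
    (hK : ∀ h ∈ K, IsP P h ∧ h.1 ∈ X ∧ h.2.2 ∈ X ∧ h.2.1 ∉ X)
    (hinj : ∀ h ∈ K, ∀ h' ∈ K, ed h = ed h' → h = h') :
    K.card ≤ 9 * X.card + (cri K).card := by
  set K' := K.filter (fun h => ∀ h' ∈ K, Ind h h' → ¬ SC h h') with hK'
  have hsub : K' ⊆ K := Finset.filter_subset _ _
  have h1 : K'.card ≤ 9 * X.card := by
    apply clean_bound hP hX (fun h hh => hK h (hsub hh))
      (fun h hh h' hh' => hinj h (hsub hh) h' (hsub hh'))
    intro h hh h' hh' hi
    exact (Finset.mem_filter.1 hh).2 h' (hsub hh') hi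
  have h2 : (K \ K').card ≤ (cri K).card := by
    have : K \ K' ⊆ (cri K).image Prod.fst := by
      intro h hh
      rw [Finset.mem_sdiff, hK', Finset.mem_filter] at hh
      obtain ⟨hh1, hh2⟩ := hh
      push Not at hh2
      obtain ⟨h', hh', hi, hs⟩ := hh2 hh1
      exact Finset.mem_image.2 ⟨(h, h'), Finset.mem_filter.2 ⟨Finset.mem_product.2 ⟨hh1, hh'⟩, hi, hs⟩, rfl⟩
    exact (Finset.card_le_card this).trans Finset.card_image_le
  have h3 := Finset.card_sdiff_add_card_eq_card hsub
  omega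

/-- vertex sampling -/
theorem vertex_sampling (hP : Generic P) {H : Finset Pth} (hH : ∀ h ∈ H, IsP P h)
    (hinj : ∀ h ∈ H, ∀ h' ∈ H, ed h = ed h' → h = h') {p : ℝ} (h0 : 0 ≤ p) (h1 : p ≤ 1) :
    p ^ 2 * (1 - p) * H.card ≤ 9 * (p * P.card) + p ^ 4 * (cri H).card := by
  -- the sampled family
  let K : Finset Pt → Finset Pth := fun X => H.filter (fun h => {h.1, h.2.2} ⊆ X ∧ Disjoint {h.2.1} X)
  have hKb : ∀ X ∈ P.powerset, ((K X).card : ℝ) ≤ 9 * X.card + ((cri (K X)).card : ℝ) := by
    intro X hX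
    rw [Finset.mem_powerset] at hX
    have := simple_bound hP hX (K := K X) (by
      intro h hh
      have hh' := Finset.mem_filter.1 hh
      refine ⟨hH h hh'.1, hh'.2.1 (by simp), hh'.2.1 (by simp), ?_⟩
      intro hv
      exact Finset.disjoint_left.1 hh'.2.2 (Finset.mem_singleton_self _) hv)
      (fun h hh h' hh' => hinj h (Finset.mem_filter.1 hh).1 h' (Finset.mem_filter.1 hh').1)
    exact_mod_cast this
  have hsum : ∑ X ∈ P.powerset, bw P p X * ((K X).card : ℝ)
      ≤ ∑ X ∈ P.powerset, bw P p X * (9 * X.card + ((cri (K X)).card : ℝ)) :=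
    Finset.sum_le_sum fun X hX => mul_le_mul_of_nonneg_left (hKb X hX) (bw_nonneg P h0 h1 X)
  have e1 : ∑ X ∈ P.powerset, bw P p X * ((K X).card : ℝ) = p ^ 2 * (1 - p) * H.card := by
    have e : ∀ X ∈ P.powerset, bw P p X * ((K X).card : ℝ)
        = ∑ h ∈ H, bw P p X * (if ({h.1, h.2.2} : Finset Pt) ⊆ X ∧ Disjoint {h.2.1} X then 1 else 0) := by
      intro X _
      rw [← Finset.mul_sum]
      congr 1
      rw [Finset.sum_ite, Finset.sum_const_zero, add_zero, Finset.sum_const, nsmul_eq_mul, mul_one]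
    rw [Finset.sum_congr rfl e, Finset.sum_comm]
    have e2 : ∀ h ∈ H, ∑ X ∈ P.powerset, bw P p X *
        (if ({h.1, h.2.2} : Finset Pt) ⊆ X ∧ Disjoint {h.2.1} X then 1 else 0) = p ^ 2 * (1 - p) := by
      intro h hh
      have hp := hH h hh
      have n1 : h.1 ≠ h.2.2 := fun he => by
        have := hp.l1.trans hp.l2; rw [he] at this; exact lt_irrefl _ this
      have n2 : h.2.1 ≠ h.1 := fun he => by
        have := hp.l1; rw [he] at this; exact lt_irrefl _ this
      have n3 : h.2.1 ≠ h.2.2 := fun he => by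
        have := hp.l2; rw [he] at this; exact lt_irrefl _ this
      rw [sum_bw P {h.1, h.2.2} {h.2.1}]
      · rw [Finset.card_pair n1, Finset.card_singleton, pow_one]
      · intro z hz
        rw [Finset.mem_insert, Finset.mem_singleton] at hz
        rcases hz with rfl | rfl
        · exact hp.ha
        · exact hp.hb
      · exact Finset.singleton_subset_iff.2 hp.hv
      · rw [Finset.disjoint_singleton_right, Finset.mem_insert, Finset.mem_singleton]
        push Not
        exact ⟨n2, n3⟩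
    rw [Finset.sum_congr rfl e2, Finset.sum_const, nsmul_eq_mul]
    ring
  have e3 : ∑ X ∈ P.powerset, bw P p X * (9 * X.card + ((cri (K X)).card : ℝ))
      ≤ 9 * (p * P.card) + p ^ 4 * (cri H).card := by
    have e4 : ∑ X ∈ P.powerset, bw P p X * (9 * X.card + ((cri (K X)).card : ℝ))
        = 9 * ∑ X ∈ P.powerset, bw P p X * (X.card : ℝ)
          + ∑ X ∈ P.powerset, bw P p X * ((cri (K X)).card : ℝ) := by
      rw [Finset.mul_sum, ← Finset.sum_add_distrib]
      apply Finset.sum_congr rfl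
      intro X _; ring
    rw [e4, sum_bw_card]
    have e5 := sum_bw_card_le P h0 h1 (cri H)
      (fun x : Pth × Pth => ({x.1.1, x.1.2.2, x.2.1, x.2.2.2} : Finset Pt))
      (by
        intro x hx z hz
        have hx' := Finset.mem_product.1 (Finset.mem_filter.1 hx).1
        have a1 := hH _ hx'.1
        have a2 := hH _ hx'.2
        simp only [Finset.mem_insert, Finset.mem_singleton] at hz
        rcases hz with rfl | rfl | rfl | rfl
        · exact a1.ha
        · exact a1.hb
        · exact a2.ha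
        · exact a2.hb)
      (fun X => cri (K X))
      (by
        intro X _ x hx
        rw [cri, Finset.mem_filter, Finset.mem_product] at hx
        have b1 := Finset.mem_filter.1 hx.1.1
        have b2 := Finset.mem_filter.1 hx.1.2
        refine Finset.mem_filter.2 ⟨Finset.mem_filter.2 ⟨Finset.mem_product.2 ⟨b1.1, b2.1⟩, hx.2⟩, ?_⟩
        intro z hz
        simp only [Finset.mem_insert, Finset.mem_singleton] at hz
        rcases hz with rfl | rfl | rfl | rfl
        · exact b1.2.1 (by simp)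
        · exact b1.2.1 (by simp)
        · exact b2.2.1 (by simp)
        · exact b2.2.1 (by simp))
    have e6 : ∑ x ∈ cri H, p ^ (({x.1.1, x.1.2.2, x.2.1, x.2.2.2} : Finset Pt)).card
        = p ^ 4 * (cri H).card := by
      have : ∀ x ∈ cri H, p ^ (({x.1.1, x.1.2.2, x.2.1, x.2.2.2} : Finset Pt)).card = p ^ 4 := by
        intro x hx
        rw [cri, Finset.mem_filter, Finset.mem_product] at hx
        obtain ⟨⟨c1, c2⟩, ⟨i1, i2, i3, i4, _⟩, _⟩ := hx
        have a1 := hH _ c1
        have a2 := hH _ c2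
        have n1 : x.1.1 ≠ x.1.2.2 := fun he => by
          have := a1.l1.trans a1.l2; rw [he] at this; exact lt_irrefl _ this
        have n2 : x.2.1 ≠ x.2.2.2 := fun he => by
          have := a2.l1.trans a2.l2; rw [he] at this; exact lt_irrefl _ this
        have hc : (({x.1.1, x.1.2.2, x.2.1, x.2.2.2} : Finset Pt)).card = 4 := by
          rw [Finset.card_insert_of_notMem, Finset.card_insert_of_notMem,
            Finset.card_insert_of_notMem, Finset.card_singleton]
          · simpa using n2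
          · simp only [Finset.mem_insert, Finset.mem_singleton]; push Not; exact ⟨i3, i4⟩
          · simp only [Finset.mem_insert, Finset.mem_singleton]; push Not; exact ⟨n1, i1, i2⟩
        rw [hc]
      rw [Finset.sum_congr rfl this, Finset.sum_const, nsmul_eq_mul]
      ring
    rw [e6] at e5
    linarith
  rw [e1] at hsum
  exact hsum.trans e3

end Crest.Agent.R51.Two
end
end

-- ▼ part R51/CrossTwo

/-! Row 51, C4 (Lemma H): thinning of the end-pair classes, counting of the bad pairs, conclusion. -/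

set_option autoImplicit false
noncomputable section
open Classical

namespace Crest.Agent.R51.Two

variable {P : Finset Pt}

theorem cri_mono {K K' : Finset Pth} (h : K ⊆ K') : cri K ⊆ cri K' := by
  intro x hx
  rw [cri, Finset.mem_filter, Finset.mem_product] at hx ⊢
  exact ⟨⟨h hx.1.1, h hx.1.2⟩, hx.2⟩

/-- thinning: classes of size `≤ μ` -/
theorem thinning (hP : Generic P) {H : Finset Pth} (hH : ∀ h ∈ H, IsP P h) {μ : ℕ}
    (hcl : ∀ e : Pt × Pt, (H.filter (fun h => ed h = e)).card ≤ μ)
    {p : ℝ} (h0 : 0 ≤ p) (h1 : p ≤ 1) {q : ℝ} (q0 : 0 ≤ q) (q1 : q ≤ 1) :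
    p ^ 2 * (1 - p) * (q * H.card - q ^ 2 * (μ * H.card))
      ≤ 9 * (p * P.card) + p ^ 4 * (q ^ 2 * (cri H).card) := by
  let Y' : Finset Pth → Finset Pth := fun Y => Y.filter (fun h => ∀ h' ∈ Y, h' ≠ h → ed h' ≠ ed h)
  let Cf : Finset Pth → Finset (Pth × Pth) := fun Y =>
    (Y ×ˢ Y).filter (fun x => x.1 ≠ x.2 ∧ ed x.1 = ed x.2)
  have hsubY : ∀ Y, Y' Y ⊆ Y := fun Y => Finset.filter_subset _ _
  have hY1 : ∀ Y, (Y.card : ℝ) ≤ (Y' Y).card + (Cf Y).card := by
    intro Y
    have h2 : (Y \ Y' Y).card ≤ (Cf Y).card := by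
      have : Y \ Y' Y ⊆ (Cf Y).image Prod.snd := by
        intro h hh
        rw [Finset.mem_sdiff, Finset.mem_filter] at hh
        obtain ⟨hh1, hh2⟩ := hh
        push Not at hh2
        obtain ⟨h', hh', hne, he⟩ := hh2 hh1
        exact Finset.mem_image.2 ⟨(h', h), Finset.mem_filter.2
          ⟨Finset.mem_product.2 ⟨hh', hh1⟩, hne, he⟩, rfl⟩
      exact (Finset.card_le_card this).trans Finset.card_image_le
    have h3 := Finset.card_sdiff_add_card_eq_card (hsubY Y)
    have h4 : Y.card ≤ (Y' Y).card + (Cf Y).card := by omega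
    exact_mod_cast h4
  have hY2 : ∀ Y ∈ H.powerset, p ^ 2 * (1 - p) * ((Y.card : ℝ) - (Cf Y).card)
      ≤ 9 * (p * P.card) + p ^ 4 * ((cri Y).card : ℝ) := by
    intro Y hY
    rw [Finset.mem_powerset] at hY
    have hv := vertex_sampling hP (H := Y' Y) (fun h hh => hH h (hY (hsubY Y hh)))
      (by
        intro h hh h' hh' he
        by_contra hne
        exact (Finset.mem_filter.1 hh').2 h (hsubY Y hh) hne he) h0 h1
    have a1 : ((cri (Y' Y)).card : ℝ) ≤ (cri Y).card := by
      exact_mod_cast Finset.card_le_card (cri_mono (hsubY Y))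
    have a2 := hY1 Y
    have a3 : 0 ≤ p ^ 2 * (1 - p) := by
      have : 0 ≤ 1 - p := by linarith
      positivity
    have a4 : 0 ≤ p ^ 4 := by positivity
    nlinarith [mul_le_mul_of_nonneg_left a1 a4, mul_le_mul_of_nonneg_left
      (show (Y.card : ℝ) - (Cf Y).card ≤ (Y' Y).card by linarith) a3]
  -- average over Y
  have hsum : ∑ Y ∈ H.powerset, bw H q Y * (p ^ 2 * (1 - p) * ((Y.card : ℝ) - (Cf Y).card))
      ≤ ∑ Y ∈ H.powerset, bw H q Y * (9 * (p * P.card) + p ^ 4 * ((cri Y).card : ℝ)) :=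
    Finset.sum_le_sum fun Y hY => mul_le_mul_of_nonneg_left (hY2 Y hY) (bw_nonneg H q0 q1 Y)
  have eL : ∑ Y ∈ H.powerset, bw H q Y * (p ^ 2 * (1 - p) * ((Y.card : ℝ) - (Cf Y).card))
      = p ^ 2 * (1 - p) * ((∑ Y ∈ H.powerset, bw H q Y * (Y.card : ℝ))
        - ∑ Y ∈ H.powerset, bw H q Y * ((Cf Y).card : ℝ)) := by
    rw [← Finset.sum_sub_distrib, Finset.mul_sum]
    apply Finset.sum_congr rfl
    intro Y _; ring
  have eR : ∑ Y ∈ H.powerset, bw H q Y * (9 * (p * P.card) + p ^ 4 * ((cri Y).card : ℝ))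
      = 9 * (p * P.card) + p ^ 4 * ∑ Y ∈ H.powerset, bw H q Y * ((cri Y).card : ℝ) := by
    have : ∀ Y ∈ H.powerset, bw H q Y * (9 * (p * P.card) + p ^ 4 * ((cri Y).card : ℝ))
        = bw H q Y * (9 * (p * P.card)) + p ^ 4 * (bw H q Y * ((cri Y).card : ℝ)) := by
      intro Y _; ring
    rw [Finset.sum_congr rfl this, Finset.sum_add_distrib, ← Finset.sum_mul, sum_bw_one, one_mul,
      ← Finset.mul_sum]
  rw [eL, eR, sum_bw_card] at hsum
  -- conflicts
  have hC : ∑ Y ∈ H.powerset, bw H q Y * ((Cf Y).card : ℝ) ≤ q ^ 2 * (μ * H.card) := by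
    have e5 := sum_bw_card_le H q0 q1 (Cf H) (fun x : Pth × Pth => ({x.1, x.2} : Finset Pth))
      (by
        intro x hx z hz
        have hx' := Finset.mem_product.1 (Finset.mem_filter.1 hx).1
        simp only [Finset.mem_insert, Finset.mem_singleton] at hz
        rcases hz with rfl | rfl
        · exact hx'.1
        · exact hx'.2)
      (fun Y => Cf Y)
      (by
        intro Y hY x hx
        have hx1 := Finset.mem_filter.1 hx
        have hx2 := Finset.mem_product.1 hx1.1
        refine Finset.mem_filter.2 ⟨Finset.mem_filter.2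
          ⟨Finset.mem_product.2 ⟨hY hx2.1, hY hx2.2⟩, hx1.2⟩, ?_⟩
        intro z hz
        simp only [Finset.mem_insert, Finset.mem_singleton] at hz
        rcases hz with rfl | rfl
        · exact hx2.1
        · exact hx2.2)
    have e6 : ∑ x ∈ Cf H, q ^ (({x.1, x.2} : Finset Pth)).card = q ^ 2 * (Cf H).card := by
      have : ∀ x ∈ Cf H, q ^ (({x.1, x.2} : Finset Pth)).card = q ^ 2 := by
        intro x hx
        rw [Finset.card_pair (Finset.mem_filter.1 hx).2.1]
      rw [Finset.sum_congr rfl this, Finset.sum_const, nsmul_eq_mul]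
      ring
    rw [e6] at e5
    have e7 : (Cf H).card ≤ μ * H.card := by
      apply Finset.card_le_mul_card_image_of_maps_to (f := Prod.fst)
      · intro x hx
        exact (Finset.mem_product.1 (Finset.mem_filter.1 hx).1).1
      · intro h _
        calc ((Cf H).filter (fun x => x.1 = h)).card
            ≤ (H.filter (fun h' => ed h' = ed h)).card := by
              apply Finset.card_le_card_of_injOn Prod.snd
              · intro x hx
                have hx1 := Finset.mem_filter.1 hx
                have hx2 := Finset.mem_filter.1 hx1.1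
                refine Finset.mem_filter.2 ⟨(Finset.mem_product.1 hx2.1).2, ?_⟩
                rw [← hx2.2.2, hx1.2]
              · intro x hx x' hx' he
                have hx1 := (Finset.mem_filter.1 hx).2
                have hx2 := (Finset.mem_filter.1 hx').2
                exact Prod.ext (by rw [hx1, hx2]) he
          _ ≤ μ := hcl _
    have e8 : ((Cf H).card : ℝ) ≤ μ * H.card := by exact_mod_cast e7
    calc ∑ Y ∈ H.powerset, bw H q Y * ((Cf Y).card : ℝ) ≤ q ^ 2 * (Cf H).card := e5
      _ ≤ _ := mul_le_mul_of_nonneg_left e8 (by positivity)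
  -- crossings
  have hX : ∑ Y ∈ H.powerset, bw H q Y * ((cri Y).card : ℝ) ≤ q ^ 2 * (cri H).card := by
    have e5 := sum_bw_card_le H q0 q1 (cri H) (fun x : Pth × Pth => ({x.1, x.2} : Finset Pth))
      (by
        intro x hx z hz
        have hx' := Finset.mem_product.1 (Finset.mem_filter.1 hx).1
        simp only [Finset.mem_insert, Finset.mem_singleton] at hz
        rcases hz with rfl | rfl
        · exact hx'.1
        · exact hx'.2)
      (fun Y => cri Y)
      (by
        intro Y hY x hx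
        have hx1 := Finset.mem_filter.1 hx
        have hx2 := Finset.mem_product.1 hx1.1
        refine Finset.mem_filter.2 ⟨Finset.mem_filter.2
          ⟨Finset.mem_product.2 ⟨hY hx2.1, hY hx2.2⟩, hx1.2⟩, ?_⟩
        intro z hz
        simp only [Finset.mem_insert, Finset.mem_singleton] at hz
        rcases hz with rfl | rfl
        · exact hx2.1
        · exact hx2.2)
    have e6 : ∑ x ∈ cri H, q ^ (({x.1, x.2} : Finset Pth)).card = q ^ 2 * (cri H).card := by
      have : ∀ x ∈ cri H, q ^ (({x.1, x.2} : Finset Pth)).card = q ^ 2 := by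
        intro x hx
        have hi := (Finset.mem_filter.1 hx).2.1
        rw [Finset.card_pair (fun he => hi.1 (by rw [he]))]
      rw [Finset.sum_congr rfl this, Finset.sum_const, nsmul_eq_mul]
      ring
    rw [e6] at e5
    exact e5
  have a3 : 0 ≤ p ^ 2 * (1 - p) := by
    have : 0 ≤ 1 - p := by linarith
    positivity
  have a4 : 0 ≤ p ^ 4 := by positivity
  have b1 := mul_le_mul_of_nonneg_left
    (show q * (H.card : ℝ) - q ^ 2 * (μ * H.card)
      ≤ q * H.card - ∑ Y ∈ H.powerset, bw H q Y * ((Cf Y).card : ℝ) by linarith) a3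
  have b2 := mul_le_mul_of_nonneg_left hX a4
  linarith

/-- optimisation -/
theorem optimise {h n c μ : ℝ} (hh : 0 ≤ h) (hn : 0 ≤ n) (hμ : 1 ≤ μ)
    (hyp : ∀ p : ℝ, 0 ≤ p → p ≤ 1 → p ^ 2 * (1 - p) * (h / (4 * μ)) ≤ 9 * (p * n) + p ^ 4 * (c / (4 * μ ^ 2))) :
    h ≤ 288 * μ * n ∨ h ^ 3 ≤ 82944 * μ * n ^ 2 * c := by
  have hμ0 : 0 < μ := by linarith
  rcases eq_or_lt_of_le hh with hz | hh'
  · left; rw [← hz]; positivity
  by_cases hcase : c < h * μ
  · left
    have h1 := hyp (1 / 2) (by norm_num) (by norm_num)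
    have h2 : c / (4 * μ ^ 2) ≤ h / (4 * μ) := by
      rw [div_le_div_iff₀ (by positivity) (by positivity)]
      nlinarith
    have h3 : h / (4 * μ) * (1 / 16) ≤ 9 * (1 / 2 * n) := by nlinarith
    have h4 : h ≤ 288 * μ * n := by
      have : h / (4 * μ) * (1 / 16) = h / (64 * μ) := by field_simp; norm_num
      rw [this, div_le_iff₀ (by positivity)] at h3
      linarith
    exact h4
  · push Not at hcase
    right
    have hc' : 0 < c := lt_of_lt_of_le (by positivity) hcase
    set p : ℝ := Real.sqrt (h * μ / (4 * c)) with hp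
    have hp2 : p ^ 2 = h * μ / (4 * c) := Real.sq_sqrt (by positivity)
    have hp0 : 0 < p := Real.sqrt_pos.2 (by positivity)
    have hp12 : p ≤ 1 / 2 := by
      rw [hp, Real.sqrt_le_left (by norm_num)]
      rw [div_le_iff₀ (by positivity)]
      nlinarith
    have h1 := hyp p hp0.le (by linarith)
    have h2 : p ^ 4 * (c / (4 * μ ^ 2)) = p ^ 2 * (h / (16 * μ)) := by
      have : p ^ 4 = p ^ 2 * (h * μ / (4 * c)) := by rw [← hp2]; ring
      rw [this]; field_simp; norm_num
    rw [h2] at h1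
    have h3 : p ^ 2 * (h / (16 * μ)) ≤ 9 * (p * n) := by
      have h4 : p ^ 2 * (1 / 2) * (h / (4 * μ)) ≤ p ^ 2 * (1 - p) * (h / (4 * μ)) := by
        apply mul_le_mul_of_nonneg_right _ (by positivity)
        apply mul_le_mul_of_nonneg_left _ (by positivity)
        linarith
      have h5 : p ^ 2 * (1 / 2) * (h / (4 * μ)) = 2 * (p ^ 2 * (h / (16 * μ))) := by
        field_simp; norm_num
      linarith
    have h6 : p * h ≤ 144 * μ * n := by
      have h7 : p * (p * (h / (16 * μ))) ≤ p * (9 * n) := by nlinarith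
      have h8 := le_of_mul_le_mul_left h7 hp0
      have h9 : p * (h / (16 * μ)) = p * h / (16 * μ) := by ring
      rw [h9, div_le_iff₀ (by positivity)] at h8
      linarith
    have h10 : (p * h) ^ 2 ≤ (144 * μ * n) ^ 2 := by
      apply pow_le_pow_left₀ (by positivity) h6
    have h11 : (p * h) ^ 2 = h ^ 3 * μ / (4 * c) := by
      rw [mul_pow, hp2]; ring
    rw [h11, div_le_iff₀ (by positivity)] at h10
    have h12 : h ^ 3 * μ ≤ (82944 * μ * n ^ 2 * c) * μ := by nlinarith
    exact le_of_mul_le_mul_right h12 hμ0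

/-- number of bad pairs -/
theorem cri_card_le (hP : Generic P) {G : Finset Edge} {Λ : ℕ}
    (hΛ : ∀ p ∈ P, (G.filter (fun e => e.1 = p ∨ e.2 = p)).card ≤ Λ) {H : Finset Pth}
    (hH : ∀ h ∈ H, IsP P h) (hHG : ∀ h ∈ H, e1 h ∈ G ∧ e2 h ∈ G) :
    (cri H).card ≤ 4 * Λ ^ 2 * crs G G + P.card * Λ ^ 4 := by
  -- number of paths containing a given edge as first / second edge
  have hfirst : ∀ e : Edge, (H.filter (fun h => e1 h = e)).card ≤ Λ := by
    intro e
    rcases (H.filter (fun h => e1 h = e)).eq_empty_or_nonempty with hem | ⟨h0, hh0⟩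
    · rw [hem]; simp
    have hm := Finset.mem_filter.1 hh0
    have hvP : e.2 ∈ P := by
      rw [← hm.2]; exact (hH h0 hm.1).hv
    refine le_trans ?_ (hΛ e.2 hvP)
    apply Finset.card_le_card_of_injOn e2
    · intro h hh
      have := Finset.mem_filter.1 hh
      refine Finset.mem_filter.2 ⟨(hHG h this.1).2, Or.inl ?_⟩
      show h.2.1 = e.2
      rw [← this.2]; rfl
    · intro h hh h' hh' he
      have a1 := (Finset.mem_filter.1 hh).2
      have a2 := (Finset.mem_filter.1 hh').2
      have b1 : e1 h = e1 h' := by rw [a1, a2]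
      have b2 : e2 h = e2 h' := he
      unfold e1 at b1
      unfold e2 at b2
      rw [Prod.ext_iff] at b1 b2
      exact Prod.ext b1.1 (Prod.ext b1.2 b2.2)
  have hsecond : ∀ e : Edge, (H.filter (fun h => e2 h = e)).card ≤ Λ := by
    intro e
    rcases (H.filter (fun h => e2 h = e)).eq_empty_or_nonempty with hem | ⟨h0, hh0⟩
    · rw [hem]; simp
    have hm := Finset.mem_filter.1 hh0
    have hvP : e.1 ∈ P := by
      rw [← hm.2]; exact (hH h0 hm.1).hv
    refine le_trans ?_ (hΛ e.1 hvP)
    apply Finset.card_le_card_of_injOn e1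
    · intro h hh
      have := Finset.mem_filter.1 hh
      refine Finset.mem_filter.2 ⟨(hHG h this.1).1, Or.inr ?_⟩
      show h.2.1 = e.1
      rw [← this.2]; rfl
    · intro h hh h' hh' he
      have a1 := (Finset.mem_filter.1 hh).2
      have a2 := (Finset.mem_filter.1 hh').2
      have b1 : e2 h = e2 h' := by rw [a1, a2]
      have b2 : e1 h = e1 h' := he
      unfold e2 at b1
      unfold e1 at b2
      rw [Prod.ext_iff] at b1 b2
      exact Prod.ext b2.1 (Prod.ext b2.2 b1.2)
  have hany : ∀ e : Edge, (H.filter (fun h => e = e1 h ∨ e = e2 h)).card ≤ 2 * Λ := by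
    intro e
    have : H.filter (fun h => e = e1 h ∨ e = e2 h)
        ⊆ H.filter (fun h => e1 h = e) ∪ H.filter (fun h => e2 h = e) := by
      intro h hh
      have := Finset.mem_filter.1 hh
      rcases this.2 with h3 | h3
      · exact Finset.mem_union_left _ (Finset.mem_filter.2 ⟨this.1, h3.symm⟩)
      · exact Finset.mem_union_right _ (Finset.mem_filter.2 ⟨this.1, h3.symm⟩)
    have h2 := (Finset.card_le_card this).trans (Finset.card_union_le _ _)
    have h3 := hfirst e
    have h4 := hsecond e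
    omega
  -- number of paths through v
  have hmid : ∀ v ∈ P, (H.filter (fun h => h.2.1 = v)).card ≤ Λ ^ 2 := by
    intro v hv
    rw [pow_two]
    calc (H.filter (fun h => h.2.1 = v)).card
        ≤ ((G.filter (fun e => e.1 = v ∨ e.2 = v)) ×ˢ (G.filter (fun e => e.1 = v ∨ e.2 = v))).card := by
          apply Finset.card_le_card_of_injOn (fun h => (e1 h, e2 h))
          · intro h hh
            have := Finset.mem_filter.1 hh
            refine Finset.mem_product.2 ⟨Finset.mem_filter.2 ⟨(hHG h this.1).1, Or.inr this.2⟩,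
              Finset.mem_filter.2 ⟨(hHG h this.1).2, Or.inl this.2⟩⟩
          · intro h _ h' _ he
            simp only [Prod.mk.injEq] at he
            obtain ⟨b1, b2⟩ := he
            unfold e1 at b1
            unfold e2 at b2
            rw [Prod.ext_iff] at b1 b2
            exact Prod.ext b1.1 (Prod.ext b1.2 b2.2)
      _ ≤ Λ * Λ := by
          rw [Finset.card_product]
          exact Nat.mul_le_mul (hΛ v hv) (hΛ v hv)
  -- split
  set A := (H ×ˢ H).filter (fun x : Pth × Pth => x.1.2.1 = x.2.2.1) with hA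
  set CG := (G ×ˢ G).filter (fun x : Edge × Edge => Cross x.1 x.2) with hCG
  set B := CG.biUnion (fun y => (H.filter (fun h => y.1 = e1 h ∨ y.1 = e2 h)) ×ˢ
    (H.filter (fun h => y.2 = e1 h ∨ y.2 = e2 h))) with hB
  have hsub : cri H ⊆ A ∪ B := by
    intro x hx
    rw [cri, Finset.mem_filter, Finset.mem_product] at hx
    obtain ⟨⟨c1, c2⟩, hi, hs⟩ := hx
    by_cases hv : x.1.2.1 = x.2.2.1
    · exact Finset.mem_union_left _ (Finset.mem_filter.2 ⟨Finset.mem_product.2 ⟨c1, c2⟩, hv⟩)
    · apply Finset.mem_union_right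
      obtain ⟨e, f, he, hf, hc⟩ := exists_cross hP (hH _ c1) (hH _ c2) hi hv hs
      rw [hB, Finset.mem_biUnion]
      refine ⟨(e, f), Finset.mem_filter.2 ⟨Finset.mem_product.2 ⟨?_, ?_⟩, hc⟩, ?_⟩
      · rcases he with rfl | rfl
        · exact (hHG _ c1).1
        · exact (hHG _ c1).2
      · rcases hf with rfl | rfl
        · exact (hHG _ c2).1
        · exact (hHG _ c2).2
      · exact Finset.mem_product.2 ⟨Finset.mem_filter.2 ⟨c1, he⟩, Finset.mem_filter.2 ⟨c2, hf⟩⟩
  have hBcard : B.card ≤ 4 * Λ ^ 2 * crs G G := by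
    calc B.card ≤ ∑ y ∈ CG, ((H.filter (fun h => y.1 = e1 h ∨ y.1 = e2 h)) ×ˢ
          (H.filter (fun h => y.2 = e1 h ∨ y.2 = e2 h))).card := Finset.card_biUnion_le
      _ ≤ ∑ _y ∈ CG, 4 * Λ ^ 2 := by
          apply Finset.sum_le_sum
          intro y _
          rw [Finset.card_product]
          calc _ ≤ (2 * Λ) * (2 * Λ) := Nat.mul_le_mul (hany _) (hany _)
            _ = 4 * Λ ^ 2 := by ring
      _ = 4 * Λ ^ 2 * crs G G := by
          rw [Finset.sum_const, smul_eq_mul, mul_comm]; rfl
  have hAcard : A.card ≤ P.card * Λ ^ 4 := by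
    have hsubA : A ⊆ P.biUnion (fun v => (H.filter (fun h => h.2.1 = v)) ×ˢ
        (H.filter (fun h => h.2.1 = v))) := by
      intro x hx
      rw [hA, Finset.mem_filter, Finset.mem_product] at hx
      rw [Finset.mem_biUnion]
      refine ⟨x.1.2.1, (hH _ hx.1.1).hv, Finset.mem_product.2
        ⟨Finset.mem_filter.2 ⟨hx.1.1, rfl⟩, Finset.mem_filter.2 ⟨hx.1.2, hx.2.symm⟩⟩⟩
    calc A.card ≤ _ := Finset.card_le_card hsubA
      _ ≤ ∑ v ∈ P, ((H.filter (fun h => h.2.1 = v)) ×ˢ (H.filter (fun h => h.2.1 = v))).card :=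
          Finset.card_biUnion_le
      _ ≤ ∑ _v ∈ P, Λ ^ 4 := by
          apply Finset.sum_le_sum
          intro v hv
          rw [Finset.card_product]
          calc _ ≤ Λ ^ 2 * Λ ^ 2 := Nat.mul_le_mul (hmid v hv) (hmid v hv)
            _ = Λ ^ 4 := by ring
      _ = P.card * Λ ^ 4 := by rw [Finset.sum_const, smul_eq_mul]
  calc (cri H).card ≤ (A ∪ B).card := Finset.card_le_card hsub
    _ ≤ A.card + B.card := Finset.card_union_le _ _
    _ ≤ _ := by omega

end Two

open Two in
/-- **C4 (Lemma H)**. -/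
theorem lemmaH {P : Finset Pt} (hP : Generic P) {G : Finset Edge} (hG : G ⊆ pairs P) {Λ : ℕ}
    (hΛ : ∀ p ∈ P, (G.filter (fun e => e.1 = p ∨ e.2 = p)).card ≤ Λ)
    {H : Finset (Pt × Pt × Pt)} (hH : ∀ h ∈ H, (h.1, h.2.1) ∈ G ∧ (h.2.1, h.2.2) ∈ G)
    {μ : ℕ} (hμ : 1 ≤ μ)
    (hend : ∀ x y : Pt, (H.filter (fun h => h.1 = x ∧ h.2.2 = y)).card ≤ μ) :
    (H.card : ℝ) ≤ 288 * μ * P.card ∨
      (H.card : ℝ) ^ 3 ≤ 331776 * μ * (P.card : ℝ) ^ 2 *
        ((Λ : ℝ) ^ 2 * crs G G + P.card * (Λ : ℝ) ^ 4) := by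
  have hIs : ∀ h ∈ H, IsP P h := by
    intro h hh
    have h1 := mem_pairs.1 (hG (hH h hh).1)
    have h2 := mem_pairs.1 (hG (hH h hh).2)
    exact ⟨h1.1, h1.2.1, h2.2.1, h1.2.2, h2.2.2⟩
  have hcl : ∀ e : Pt × Pt, (H.filter (fun h => ed h = e)).card ≤ μ := by
    intro e
    refine le_trans (Finset.card_le_card ?_) (hend e.1 e.2)
    intro h hh
    have := Finset.mem_filter.1 hh
    have h2 := Prod.ext_iff.1 this.2
    exact Finset.mem_filter.2 ⟨this.1, h2.1, h2.2⟩
  have hμ' : (1 : ℝ) ≤ μ := by exact_mod_cast hμ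
  have hμ0 : (0 : ℝ) < μ := by linarith
  have hcri := cri_card_le hP hΛ hIs hH
  have hcri' : ((cri H).card : ℝ) ≤ 4 * (Λ : ℝ) ^ 2 * crs G G + P.card * (Λ : ℝ) ^ 4 := by
    exact_mod_cast hcri
  have hopt := optimise (h := H.card) (n := P.card) (c := (cri H).card) (μ := μ)
    (by positivity) (by positivity) hμ' (by
      intro p h0 h1
      have hq0 : (0 : ℝ) ≤ 1 / (2 * μ) := by positivity
      have hq1 : (1 : ℝ) / (2 * μ) ≤ 1 := by
        rw [div_le_one (by positivity)]; linarith
      have ht := thinning hP hIs hcl h0 h1 hq0 hq1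
      have e1 : 1 / (2 * (μ : ℝ)) * H.card - (1 / (2 * (μ : ℝ))) ^ 2 * (μ * H.card)
          = H.card / (4 * μ) := by field_simp; ring
      have e2 : (1 / (2 * (μ : ℝ))) ^ 2 * ((cri H).card : ℝ) = (cri H).card / (4 * (μ : ℝ) ^ 2) := by
        field_simp; ring
      rw [e1, e2] at ht
      exact ht)
  rcases hopt with h1 | h1
  · left; exact h1
  · right
    refine h1.trans ?_
    have h2 : 82944 * (μ : ℝ) * (P.card : ℝ) ^ 2 * ((cri H).card : ℝ)
        ≤ 82944 * (μ : ℝ) * (P.card : ℝ) ^ 2 * (4 * (Λ : ℝ) ^ 2 * crs G G + P.card * (Λ : ℝ) ^ 4) :=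
      mul_le_mul_of_nonneg_left hcri' (by positivity)
    refine h2.trans ?_
    have h3 : (0 : ℝ) ≤ μ * (P.card : ℝ) ^ 2 * (P.card * (Λ : ℝ) ^ 4) := by positivity
    nlinarith

end Crest.Agent.R51
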