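import Crest.Agent.R51.Level2

/-!
# Row 51, B2: G7 (FLUX), G11, G12 (helper194)
-/

set_option autoImplicit false

noncomputable section

open Classical

namespace Crest.Agent.R51

variable {P : Finset Pt}

/-! ### G11 -/

/-- G11: slopes of an `x`-monotone path of two pairs and its chord. -/
theorem sl_between {p q r : Pt} (hpq : p.1 < q.1) (hqr : q.1 < r.1) {s t : ℝ}
    (h1 : s < sl p q) (h2 : sl p q < t) (h3 : s < sl q r) (h4 : sl q r < t) :
    s < sl p r ∧ sl p r < t := by
  have e1 : (q.1 - p.1) * sl p q = q.2 - p.2 := by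
    unfold sl; field_simp [(by linarith : q.1 - p.1 ≠ 0)]
  have e2 : (r.1 - q.1) * sl q r = r.2 - q.2 := by
    unfold sl; field_simp [(by linarith : r.1 - q.1 ≠ 0)]
  have hpr : 0 < r.1 - p.1 := by linarith
  constructor
  · unfold sl
    rw [lt_div_iff₀ hpr]
    nlinarith [mul_pos (sub_pos.2 hpq) (sub_pos.2 h1), mul_pos (sub_pos.2 hqr) (sub_pos.2 h3)]
  · unfold sl
    rw [div_lt_iff₀ hpr]
    nlinarith [mul_pos (sub_pos.2 hpq) (sub_pos.2 h2), mul_pos (sub_pos.2 hqr) (sub_pos.2 h4)]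

/-! ### Ranks -/

namespace FluxAux

lemma rk_inj (hG : Generic P) {θ : ℝ} (hθ : NonSlope P θ) {p q : Pt} (hp : p ∈ P) (hq : q ∈ P)
    (h : rk P θ p = rk P θ q) : p = q := by
  by_contra hpq
  rcases lt_or_gt_of_ne (ht_ne_of_nonSlope hG hθ hp hq hpq) with h' | h'
  · exact absurd h (rk_lt_rk hp h').ne
  · exact absurd h (rk_lt_rk hq h').ne'

/-! ### Crossing criterion -/

lemma cross_iff {e f : Edge} (he : e.1.1 < e.2.1) (hf : f.1.1 < f.2.1) :
    Cross e f ↔
      (ht (esl f) e.1 - ht (esl f) f.1) * (ht (esl f) e.2 - ht (esl f) f.1) < 0 ∧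
      (ht (esl e) f.1 - ht (esl e) e.1) * (ht (esl e) f.2 - ht (esl e) e.1) < 0 := by
  set d := esl e - esl f with hd
  -- D x = lin e x - lin f x
  have hD : ∀ x y, (lin e x - lin f x) - (lin e y - lin f y) = d * (x - y) := by
    intro x y; unfold lin; rw [hd]; ring
  have hp : ht (esl f) e.1 - ht (esl f) f.1 = lin e e.1.1 - lin f e.1.1 := by
    unfold lin ht; ring
  have hq : ht (esl f) e.2 - ht (esl f) f.1 = lin e e.2.1 - lin f e.2.1 := by
    rw [lin_right he]; unfold lin ht; ring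
  have hv : ht (esl e) f.1 - ht (esl e) e.1 = -(lin e f.1.1 - lin f f.1.1) := by
    unfold lin ht; ring
  have hw : ht (esl e) f.2 - ht (esl e) e.1 = -(lin e f.2.1 - lin f f.2.1) := by
    rw [lin_right hf]; unfold lin ht; ring
  constructor
  · rintro ⟨x, h1, h2, h3, h4, h5, h6⟩
    have hd0 : d ≠ 0 := sub_ne_zero.2 h6
    have hd2 : 0 < d ^ 2 := by positivity
    have hx : lin e x - lin f x = 0 := by rw [h5]; ring
    have a1 : lin e e.1.1 - lin f e.1.1 = d * (e.1.1 - x) := by
      have := hD e.1.1 x; rw [hx] at this; linarith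
    have a2 : lin e e.2.1 - lin f e.2.1 = d * (e.2.1 - x) := by
      have := hD e.2.1 x; rw [hx] at this; linarith
    have a3 : lin e f.1.1 - lin f f.1.1 = d * (f.1.1 - x) := by
      have := hD f.1.1 x; rw [hx] at this; linarith
    have a4 : lin e f.2.1 - lin f f.2.1 = d * (f.2.1 - x) := by
      have := hD f.2.1 x; rw [hx] at this; linarith
    rw [hp, hq, hv, hw, a1, a2, a3, a4]
    constructor
    · have : (e.1.1 - x) * (e.2.1 - x) < 0 := mul_neg_of_neg_of_pos (by linarith) (by linarith)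
      nlinarith
    · have : (f.1.1 - x) * (f.2.1 - x) < 0 := mul_neg_of_neg_of_pos (by linarith) (by linarith)
      nlinarith
  · rintro ⟨h1, h2⟩
    rw [hp, hq] at h1
    rw [hv, hw] at h2
    have hd0 : d ≠ 0 := by
      intro h0
      have := hD e.1.1 e.2.1
      rw [h0, zero_mul] at this
      have h3 : lin e e.1.1 - lin f e.1.1 = lin e e.2.1 - lin f e.2.1 := by linarith
      rw [h3] at h1
      nlinarith [mul_self_nonneg (lin e e.2.1 - lin f e.2.1)]
    set x := e.1.1 - (lin e e.1.1 - lin f e.1.1) / d with hxdef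
    have hx : lin e x - lin f x = 0 := by
      have := hD x e.1.1
      have h4 : d * (x - e.1.1) = -(lin e e.1.1 - lin f e.1.1) := by
        rw [hxdef]; field_simp; ring
      linarith
    have a1 : lin e e.1.1 - lin f e.1.1 = d * (e.1.1 - x) := by
      have := hD e.1.1 x; rw [hx] at this; linarith
    have a2 : lin e e.2.1 - lin f e.2.1 = d * (e.2.1 - x) := by
      have := hD e.2.1 x; rw [hx] at this; linarith
    have a3 : lin e f.1.1 - lin f f.1.1 = d * (f.1.1 - x) := by
      have := hD f.1.1 x; rw [hx] at this; linarith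
    have a4 : lin e f.2.1 - lin f f.2.1 = d * (f.2.1 - x) := by
      have := hD f.2.1 x; rw [hx] at this; linarith
    rw [a1, a2] at h1
    rw [a3, a4] at h2
    have hd2 : 0 < d ^ 2 := by positivity
    have h1' : (e.1.1 - x) * (e.2.1 - x) < 0 := by
      by_contra hh
      have : 0 ≤ d ^ 2 * ((e.1.1 - x) * (e.2.1 - x)) := mul_nonneg hd2.le (not_lt.1 hh)
      nlinarith
    have h2' : (f.1.1 - x) * (f.2.1 - x) < 0 := by
      by_contra hh
      have : 0 ≤ d ^ 2 * ((f.1.1 - x) * (f.2.1 - x)) := mul_nonneg hd2.le (not_lt.1 hh)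
      nlinarith
    rcases mul_neg_iff.1 h1' with ⟨b1, b2⟩ | ⟨b1, b2⟩
    · linarith
    rcases mul_neg_iff.1 h2' with ⟨b3, b4⟩ | ⟨b3, b4⟩
    · linarith
    exact ⟨x, by linarith, by linarith, by linarith, by linarith, by linarith, sub_ne_zero.1 hd0⟩


/-! ### Counting changes at a single slope -/

/-- If `A` and `B` agree on `P` outside `{p, q}` then the counts differ only at `p, q`. -/
lemma card_filter_two {p q : Pt} (hp : p ∈ P) (hq : q ∈ P) (hpq : p ≠ q) (A B : Pt → Prop)
    [DecidablePred A] [DecidablePred B] (h : ∀ r ∈ P, r ≠ p → r ≠ q → (A r ↔ B r)) :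
    ((P.filter B).card : ℤ) + ((if A p then 1 else 0) + (if A q then 1 else 0)) =
      ((P.filter A).card : ℤ) + ((if B p then 1 else 0) + (if B q then 1 else 0)) := by
  have key : ∀ (C : Pt → Prop) [DecidablePred C], ((P.filter C).card : ℤ) =
      (∑ r ∈ (P.erase p).erase q, (if C r then (1:ℤ) else 0)) +
        ((if C p then 1 else 0) + (if C q then 1 else 0)) := by
    intro C _
    have h1 : ((P.filter C).card : ℤ) = ∑ r ∈ P, (if C r then (1:ℤ) else 0) := by
      rw [Finset.card_filter]; push_cast; rfl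
    rw [h1, ← Finset.add_sum_erase _ _ hp,
      ← Finset.add_sum_erase _ _ (Finset.mem_erase.2 ⟨Ne.symm hpq, hq⟩)]
    ring
  rw [key A, key B]
  have : (∑ r ∈ (P.erase p).erase q, (if A r then (1:ℤ) else 0)) =
      ∑ r ∈ (P.erase p).erase q, (if B r then (1:ℤ) else 0) := by
    apply Finset.sum_congr rfl
    intro r hr
    rw [Finset.mem_erase, Finset.mem_erase] at hr
    have := h r hr.2.2 hr.2.1 hr.1
    by_cases hA : A r
    · rw [if_pos hA, if_pos (this.1 hA)]
    · rw [if_neg hA, if_neg (fun hB => hA (this.2 hB))]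
  rw [this]; ring

/-- Order of a third point with respect to an endpoint of the edge is seen from its rank. -/
lemma below_line_iff (hG : Generic P) {u t : ℝ} {e : Edge} (hu : NonSlope P u)
    (h : pairsIn P u t = {e}) {r : Pt} (hr : r ∈ P) (h1 : r ≠ e.1)
    (h2 : r ≠ e.2) : ht (esl e) r < ht (esl e) e.1 ↔ rk P u r < rk P u e.1 := by
  have he : e ∈ pairsIn P u t := by rw [h]; simp
  rw [mem_pairsIn] at he
  obtain ⟨hep, hue, het⟩ := he
  have hep' := mem_pairs.1 hep
  have main : ht (esl e) r < ht (esl e) e.1 ↔ ht u r < ht u e.1 := by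
    rcases hG.x_lt_or_gt hr hep'.1 h1 with hx | hx
    · rw [ht_lt_iff hx, ht_lt_iff hx]
      constructor
      · intro h3; linarith
      · intro h3
        have hmem : (r, e.1) ∈ pairs P := mem_pairs.2 ⟨hr, hep'.1, hx⟩
        by_contra h4
        push Not at h4
        have : (r, e.1) ∈ pairsIn P u t := mem_pairsIn.2 ⟨hmem, h3, lt_of_le_of_lt h4 het⟩
        rw [h, Finset.mem_singleton] at this
        have h5 : e.1 = e.2 := by
          have := congrArg Prod.snd this
          simpa using this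
        exact absurd hep'.2.2 (by rw [← h5]; exact lt_irrefl _)
    · rw [ht_gt_iff hx, ht_gt_iff hx]
      constructor
      · intro h3
        have hmem : (e.1, r) ∈ pairs P := mem_pairs.2 ⟨hep'.1, hr, hx⟩
        by_contra h4
        push Not at h4
        have h4' : u < sl e.1 r := lt_of_le_of_ne h4 (fun h6 => hu _ hmem h6.symm)
        have : (e.1, r) ∈ pairsIn P u t := mem_pairsIn.2 ⟨hmem, h4', h3.trans het⟩
        rw [h, Finset.mem_singleton] at this
        exact h2 (congrArg Prod.snd this)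
      · intro h3; linarith
  rw [main]
  exact (rk_lt_rk_iff hr).symm


lemma step_facts (hG : Generic P) {u t : ℝ} {e : Edge} (hut : u < t) (hu : NonSlope P u)
    (ht' : NonSlope P t) (h : pairsIn P u t = {e}) :
    rk P u e.1 + 1 = lv P e ∧ rk P t e.1 = lv P e ∧ rk P u e.2 = lv P e ∧
      rk P t e.2 + 1 = lv P e ∧ e.1 ∈ P ∧ e.2 ∈ P ∧ e.1 ≠ e.2 ∧
      ∀ r ∈ P, r ≠ e.1 → r ≠ e.2 →
        rk P t r = rk P u r ∧ rk P u r + 1 ≠ lv P e ∧ rk P u r ≠ lv P e := by
  have he : e ∈ pairsIn P u t := by rw [h]; simp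
  rw [mem_pairsIn] at he
  have hep' := mem_pairs.1 he.1
  obtain ⟨a1, a2⟩ := step_rk_left hG hu ht' hut h
  obtain ⟨a3, a4⟩ := step_rk_right hG hu ht' hut h
  refine ⟨a1, a2, a3, a4, hep'.1, hep'.2.1, ?_, ?_⟩
  · intro h0
    exact absurd hep'.2.2 (by rw [h0]; exact lt_irrefl _)
  · intro r hr h1 h2
    refine ⟨(step_rk_other hG hu ht' hut h hr h1 h2).symm, ?_, ?_⟩
    · intro h3
      exact h1 (rk_inj hG hu hr hep'.1 (by omega))
    · intro h3
      exact h2 (rk_inj hG hu hr hep'.2.1 (by omega))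

/-- The separation data used in the flux lemma: `H` is (up to sign) the height above the line
of the edge `f`, whose endpoints are `v` and `w`. -/
structure SepData (P : Finset Pt) (s t : ℝ) (f : Edge) (v w : Pt) (H : Pt → ℝ) : Prop where
  vw : v ≠ w
  v_mem : v ∈ P
  w_mem : w ∈ P
  zero : ∀ r ∈ P, r ≠ v → r ≠ w → H r ≠ 0
  Hw : H w = 0
  mono : ∀ e ∈ pairsIn P s t, H e.2 < H e.1
  crossA : ∀ e ∈ pairsIn P s t, ht (esl e) e.1 < ht (esl e) v →
    (Cross e f ↔ (0 < H e.1 ∧ H e.2 < 0) ∧ ht (esl e) w < ht (esl e) e.1)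
  crossB : ∀ e ∈ pairsIn P s t, ht (esl e) v < ht (esl e) e.1 →
    (Cross e f ↔ (0 < H e.1 ∧ H e.2 < 0) ∧ ht (esl e) e.1 < ht (esl e) w)
  ncross : ∀ e ∈ pairsIn P s t, (e.1 = w ∨ e.2 = w) → ¬ Cross e f

def gAL (P : Finset Pt) (H : Pt → ℝ) (w : Pt) (i : ℕ) (θ : ℝ) : ℕ :=
  (P.filter (fun r => 0 < H r ∧ rk P θ w < rk P θ r ∧ rk P θ r < i)).card

def gAR (P : Finset Pt) (H : Pt → ℝ) (w : Pt) (i : ℕ) (θ : ℝ) : ℕ :=
  (P.filter (fun r => H r < 0 ∧ rk P θ w < rk P θ r ∧ rk P θ r < i)).card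

def gBL (P : Finset Pt) (H : Pt → ℝ) (w : Pt) (i : ℕ) (θ : ℝ) : ℕ :=
  (P.filter (fun r => 0 < H r ∧ rk P θ r < rk P θ w ∧ i ≤ rk P θ r)).card

def gBR (P : Finset Pt) (H : Pt → ℝ) (w : Pt) (i : ℕ) (θ : ℝ) : ℕ :=
  (P.filter (fun r => H r < 0 ∧ rk P θ r < rk P θ w ∧ i ≤ rk P θ r)).card

set_option maxHeartbeats 1000000 in
lemma step_gAL (hG : Generic P) {s t u u' : ℝ} {f : Edge} {v w : Pt} {H : Pt → ℝ}
    (S : SepData P s t f v w H) {e : Edge} (hsu : s ≤ u) (huu : u < u') (hut : u' ≤ t)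
    (hu : NonSlope P u) (hu' : NonSlope P u') (h : pairsIn P u u' = {e}) {i : ℕ}
    (hv1 : i ≤ rk P u v) (hv2 : i ≤ rk P u' v) :
    (gAL P H w i u' : ℤ) + (if lv P e = i ∧ Cross e f then 1 else 0) =
      gAL P H w i u + (if e.2 = w ∧ lv P e < i then 1 else 0) := by
  obtain ⟨a1, a2, a3, a4, hp, hq, hpq, hr⟩ := step_facts hG huu hu hu' h
  have he : e ∈ pairsIn P u u' := by rw [h]; simp
  have he' : e ∈ pairsIn P s t := by
    rw [mem_pairsIn] at he ⊢
    exact ⟨he.1, by linarith [he.2.1], by linarith [he.2.2]⟩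
  have hmono := S.mono e he'
  have hzero := S.zero
  have hHw := S.Hw
  have key := card_filter_two (P := P) hp hq hpq
    (fun r => 0 < H r ∧ rk P u w < rk P u r ∧ rk P u r < i)
    (fun r => 0 < H r ∧ rk P u' w < rk P u' r ∧ rk P u' r < i) (by
      intro r hrP h1 h2
      obtain ⟨b1, b2, b3⟩ := hr r hrP h1 h2
      by_cases hw1 : w = e.1
      · subst hw1; constructor <;> rintro ⟨c1, c2, c3⟩ <;> exact ⟨c1, by omega, by omega⟩
      by_cases hw2 : w = e.2
      · subst hw2; constructor <;> rintro ⟨c1, c2, c3⟩ <;> exact ⟨c1, by omega, by omega⟩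
      obtain ⟨d1, d2, d3⟩ := hr w S.w_mem hw1 hw2
      constructor <;> rintro ⟨c1, c2, c3⟩ <;> exact ⟨c1, by omega, by omega⟩)
  unfold gAL
  by_cases hw1 : w = e.1
  · have hnc := S.ncross e he' (Or.inl hw1.symm)
    have hq0 : ¬ (0 < H e.2) := by rw [← hw1, hHw] at hmono; linarith
    have hw2 : ¬ (e.2 = w) := fun h0 => hpq (by rw [h0, hw1])
    have e1 : ¬ (0 < H e.1 ∧ rk P u w < rk P u e.1 ∧ rk P u e.1 < i) := by
      rw [← hw1, hHw]; simp
    have e2 : ¬ (0 < H e.1 ∧ rk P u' w < rk P u' e.1 ∧ rk P u' e.1 < i) := by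
      rw [← hw1, hHw]; simp
    rw [if_neg e1, if_neg (by tauto), if_neg e2, if_neg (by tauto)] at key
    rw [if_neg (by tauto), if_neg (by tauto)]
    linarith
  by_cases hw2 : w = e.2
  · have hnc := S.ncross e he' (Or.inr hw2.symm)
    have hp0 : 0 < H e.1 := by rw [← hw2, hHw] at hmono; exact hmono
    have e1 : ¬ (0 < H e.1 ∧ rk P u w < rk P u e.1 ∧ rk P u e.1 < i) := by
      rw [hw2]; rintro ⟨_, c, _⟩; omega
    have e2 : ¬ (0 < H e.2 ∧ rk P u w < rk P u e.2 ∧ rk P u e.2 < i) := by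
      rw [← hw2, hHw]; simp
    have e3 : ¬ (0 < H e.2 ∧ rk P u' w < rk P u' e.2 ∧ rk P u' e.2 < i) := by
      rw [← hw2, hHw]; simp
    have e4 : (0 < H e.1 ∧ rk P u' w < rk P u' e.1 ∧ rk P u' e.1 < i) ↔
        (e.2 = w ∧ lv P e < i) := by
      constructor
      · rintro ⟨_, _, c⟩; exact ⟨hw2.symm, by omega⟩
      · rintro ⟨_, c⟩; exact ⟨hp0, by rw [hw2]; omega, by omega⟩
    rw [if_neg e1, if_neg e2, if_neg e3, if_congr e4 rfl rfl] at key
    rw [if_neg (by tauto)]
    linarith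
  obtain ⟨d1, d2, d3⟩ := hr w S.w_mem hw1 hw2
  have hw2' : ¬ (e.2 = w) := fun h0 => hw2 h0.symm
  rw [if_neg (by tauto : ¬ (e.2 = w ∧ lv P e < i))]
  by_cases hji : lv P e = i
  · have hve1 : v ≠ e.1 := by rintro rfl; omega
    have hve2 : v ≠ e.2 := by rintro rfl; omega
    obtain ⟨f1, f2, f3⟩ := hr v S.v_mem hve1 hve2
    have hvabove : ht (esl e) e.1 < ht (esl e) v := by
      rcases lt_or_gt_of_ne (hG.ht_ne (mem_pairsIn.1 he).1 S.v_mem hve1 hve2) with h0 | h0
      · exfalso
        have := (below_line_iff hG hu h S.v_mem hve1 hve2).1 h0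
        omega
      · exact h0
    have hcr := S.crossA e he' hvabove
    have hbel := below_line_iff hG hu h S.w_mem hw1 hw2
    have hq0 : H e.2 ≠ 0 := hzero _ hq (Ne.symm hve2) (Ne.symm hw2)
    have e1 : ¬ (0 < H e.2 ∧ rk P u w < rk P u e.2 ∧ rk P u e.2 < i) := by
      rintro ⟨_, _, c⟩; omega
    have e2 : ¬ (0 < H e.1 ∧ rk P u' w < rk P u' e.1 ∧ rk P u' e.1 < i) := by
      rintro ⟨_, _, c⟩; omega
    rw [if_neg e1, if_neg e2] at key
    by_cases hω : rk P u w < rk P u e.1
    · by_cases hp1 : 0 < H e.1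
      · by_cases hq1 : 0 < H e.2
        · rw [if_pos ⟨hp1, hω, by omega⟩, if_pos ⟨hq1, by omega, by omega⟩] at key
          rw [if_neg (by rw [hcr]; rintro ⟨_, ⟨_, c⟩, _⟩; linarith)]
          linarith
        · rw [if_pos ⟨hp1, hω, by omega⟩, if_neg (by tauto)] at key
          have hq2 : H e.2 < 0 := lt_of_le_of_ne (not_lt.1 hq1) hq0
          rw [if_pos ⟨hji, hcr.2 ⟨⟨hp1, hq2⟩, hbel.2 hω⟩⟩]
          linarith
      · have hq1 : ¬ 0 < H e.2 := by intro c; exact hp1 (c.trans hmono)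
        rw [if_neg (by tauto), if_neg (by tauto)] at key
        rw [if_neg (by rw [hcr]; tauto)]
        linarith
    · rw [if_neg (by tauto), if_neg (by rintro ⟨_, c, _⟩; omega)] at key
      rw [if_neg (by rw [hcr, hbel]; tauto)]
      linarith
  · rw [if_neg (by tauto)]
    have e1 : (0 < H e.1 ∧ rk P u w < rk P u e.1 ∧ rk P u e.1 < i) ↔
        (0 < H e.1 ∧ rk P u' w < rk P u' e.1 ∧ rk P u' e.1 < i) := by
      constructor <;> rintro ⟨c1, c2, c3⟩ <;> exact ⟨c1, by omega, by omega⟩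
    have e2 : (0 < H e.2 ∧ rk P u w < rk P u e.2 ∧ rk P u e.2 < i) ↔
        (0 < H e.2 ∧ rk P u' w < rk P u' e.2 ∧ rk P u' e.2 < i) := by
      constructor <;> rintro ⟨c1, c2, c3⟩ <;> exact ⟨c1, by omega, by omega⟩
    rw [if_congr e1 rfl rfl, if_congr e2 rfl rfl] at key
    linarith


set_option maxHeartbeats 1000000 in
lemma step_gAR (hG : Generic P) {s t u u' : ℝ} {f : Edge} {v w : Pt} {H : Pt → ℝ}
    (S : SepData P s t f v w H) {e : Edge} (hsu : s ≤ u) (huu : u < u') (hut : u' ≤ t)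
    (hu : NonSlope P u) (hu' : NonSlope P u') (h : pairsIn P u u' = {e}) {i : ℕ}
    (hv1 : i ≤ rk P u v) (hv2 : i ≤ rk P u' v) :
    (gAR P H w i u' : ℤ) + (if e.1 = w ∧ lv P e < i then 1 else 0) =
      gAR P H w i u + (if lv P e = i ∧ Cross e f then 1 else 0) := by
  obtain ⟨a1, a2, a3, a4, hp, hq, hpq, hr⟩ := step_facts hG huu hu hu' h
  have he : e ∈ pairsIn P u u' := by rw [h]; simp
  have he' : e ∈ pairsIn P s t := by
    rw [mem_pairsIn] at he ⊢
    exact ⟨he.1, by linarith [he.2.1], by linarith [he.2.2]⟩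
  have hmono := S.mono e he'
  have hzero := S.zero
  have hHw := S.Hw
  have key := card_filter_two (P := P) hp hq hpq
    (fun r => H r < 0 ∧ rk P u w < rk P u r ∧ rk P u r < i)
    (fun r => H r < 0 ∧ rk P u' w < rk P u' r ∧ rk P u' r < i) (by
      intro r hrP h1 h2
      obtain ⟨b1, b2, b3⟩ := hr r hrP h1 h2
      by_cases hw1 : w = e.1
      · subst hw1; constructor <;> rintro ⟨c1, c2, c3⟩ <;> exact ⟨c1, by omega, by omega⟩
      by_cases hw2 : w = e.2
      · subst hw2; constructor <;> rintro ⟨c1, c2, c3⟩ <;> exact ⟨c1, by omega, by omega⟩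
      obtain ⟨d1, d2, d3⟩ := hr w S.w_mem hw1 hw2
      constructor <;> rintro ⟨c1, c2, c3⟩ <;> exact ⟨c1, by omega, by omega⟩)
  unfold gAR
  by_cases hw1 : w = e.1
  · have hnc := S.ncross e he' (Or.inl hw1.symm)
    have hq0 : H e.2 < 0 := by rw [← hw1, hHw] at hmono; linarith
    have e1 : ¬ (H e.1 < 0 ∧ rk P u w < rk P u e.1 ∧ rk P u e.1 < i) := by
      rw [← hw1, hHw]; simp
    have e2 : ¬ (H e.1 < 0 ∧ rk P u' w < rk P u' e.1 ∧ rk P u' e.1 < i) := by
      rw [← hw1, hHw]; simp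
    have e3 : ¬ (H e.2 < 0 ∧ rk P u' w < rk P u' e.2 ∧ rk P u' e.2 < i) := by
      rw [hw1]; rintro ⟨_, c, _⟩; omega
    have e4 : (H e.2 < 0 ∧ rk P u w < rk P u e.2 ∧ rk P u e.2 < i) ↔
        (e.1 = w ∧ lv P e < i) := by
      constructor
      · rintro ⟨_, _, c⟩; exact ⟨hw1.symm, by omega⟩
      · rintro ⟨_, c⟩; exact ⟨hq0, by rw [hw1]; omega, by omega⟩
    rw [if_neg e1, if_neg e2, if_neg e3, if_congr e4 rfl rfl] at key
    rw [if_neg (by tauto : ¬ (lv P e = i ∧ Cross e f))]
    linarith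
  by_cases hw2 : w = e.2
  · have hnc := S.ncross e he' (Or.inr hw2.symm)
    have hp0 : ¬ (H e.1 < 0) := by rw [← hw2, hHw] at hmono; linarith
    have hw1' : ¬ (e.1 = w) := fun h0 => hw1 h0.symm
    have e2 : ¬ (H e.2 < 0 ∧ rk P u w < rk P u e.2 ∧ rk P u e.2 < i) := by
      rw [← hw2, hHw]; simp
    have e3 : ¬ (H e.2 < 0 ∧ rk P u' w < rk P u' e.2 ∧ rk P u' e.2 < i) := by
      rw [← hw2, hHw]; simp
    rw [if_neg (by tauto), if_neg e2, if_neg (by tauto), if_neg e3] at key
    rw [if_neg (by tauto), if_neg (by tauto)]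
    linarith
  obtain ⟨d1, d2, d3⟩ := hr w S.w_mem hw1 hw2
  have hw1' : ¬ (e.1 = w) := fun h0 => hw1 h0.symm
  rw [if_neg (by tauto : ¬ (e.1 = w ∧ lv P e < i))]
  by_cases hji : lv P e = i
  · have hve1 : v ≠ e.1 := by rintro rfl; omega
    have hve2 : v ≠ e.2 := by rintro rfl; omega
    obtain ⟨f1, f2, f3⟩ := hr v S.v_mem hve1 hve2
    have hvabove : ht (esl e) e.1 < ht (esl e) v := by
      rcases lt_or_gt_of_ne (hG.ht_ne (mem_pairsIn.1 he).1 S.v_mem hve1 hve2) with h0 | h0
      · exfalso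
        have := (below_line_iff hG hu h S.v_mem hve1 hve2).1 h0
        omega
      · exact h0
    have hcr := S.crossA e he' hvabove
    have hbel := below_line_iff hG hu h S.w_mem hw1 hw2
    have hp0 : H e.1 ≠ 0 := hzero _ hp (Ne.symm hve1) (Ne.symm hw1)
    have e1 : ¬ (H e.2 < 0 ∧ rk P u w < rk P u e.2 ∧ rk P u e.2 < i) := by
      rintro ⟨_, _, c⟩; omega
    have e2 : ¬ (H e.1 < 0 ∧ rk P u' w < rk P u' e.1 ∧ rk P u' e.1 < i) := by
      rintro ⟨_, _, c⟩; omega
    rw [if_neg e1, if_neg e2] at key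
    by_cases hω : rk P u w < rk P u e.1
    · by_cases hq1 : H e.2 < 0
      · by_cases hp1 : H e.1 < 0
        · rw [if_pos ⟨hp1, hω, by omega⟩, if_pos ⟨hq1, by omega, by omega⟩] at key
          rw [if_neg (by rw [hcr]; rintro ⟨_, ⟨c, _⟩, _⟩; linarith)]
          linarith
        · rw [if_neg (by tauto), if_pos ⟨hq1, by omega, by omega⟩] at key
          have hp2 : 0 < H e.1 := lt_of_le_of_ne (not_lt.1 hp1) (Ne.symm hp0)
          rw [if_pos ⟨hji, hcr.2 ⟨⟨hp2, hq1⟩, hbel.2 hω⟩⟩]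
          linarith
      · have hp1 : ¬ H e.1 < 0 := by intro c; exact hq1 (hmono.trans c)
        rw [if_neg (by tauto), if_neg (by tauto)] at key
        rw [if_neg (by rw [hcr]; tauto)]
        linarith
    · rw [if_neg (by tauto), if_neg (by rintro ⟨_, c, _⟩; omega)] at key
      rw [if_neg (by rw [hcr, hbel]; tauto)]
      linarith
  · rw [if_neg (by tauto)]
    have e1 : (H e.1 < 0 ∧ rk P u w < rk P u e.1 ∧ rk P u e.1 < i) ↔
        (H e.1 < 0 ∧ rk P u' w < rk P u' e.1 ∧ rk P u' e.1 < i) := by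
      constructor <;> rintro ⟨c1, c2, c3⟩ <;> exact ⟨c1, by omega, by omega⟩
    have e2 : (H e.2 < 0 ∧ rk P u w < rk P u e.2 ∧ rk P u e.2 < i) ↔
        (H e.2 < 0 ∧ rk P u' w < rk P u' e.2 ∧ rk P u' e.2 < i) := by
      constructor <;> rintro ⟨c1, c2, c3⟩ <;> exact ⟨c1, by omega, by omega⟩
    rw [if_congr e1 rfl rfl, if_congr e2 rfl rfl] at key
    linarith

set_option maxHeartbeats 1000000 in
lemma step_gBL (hG : Generic P) {s t u u' : ℝ} {f : Edge} {v w : Pt} {H : Pt → ℝ}
    (S : SepData P s t f v w H) {e : Edge} (hsu : s ≤ u) (huu : u < u') (hut : u' ≤ t)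
    (hu : NonSlope P u) (hu' : NonSlope P u') (h : pairsIn P u u' = {e}) {i : ℕ}
    (hv1 : rk P u v < i) (hv2 : rk P u' v < i) :
    (gBL P H w i u' : ℤ) + (if e.2 = w ∧ i < lv P e then 1 else 0) =
      gBL P H w i u + (if lv P e = i ∧ Cross e f then 1 else 0) := by
  obtain ⟨a1, a2, a3, a4, hp, hq, hpq, hr⟩ := step_facts hG huu hu hu' h
  have he : e ∈ pairsIn P u u' := by rw [h]; simp
  have he' : e ∈ pairsIn P s t := by
    rw [mem_pairsIn] at he ⊢
    exact ⟨he.1, by linarith [he.2.1], by linarith [he.2.2]⟩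
  have hmono := S.mono e he'
  have hzero := S.zero
  have hHw := S.Hw
  have key := card_filter_two (P := P) hp hq hpq
    (fun r => 0 < H r ∧ rk P u r < rk P u w ∧ i ≤ rk P u r)
    (fun r => 0 < H r ∧ rk P u' r < rk P u' w ∧ i ≤ rk P u' r) (by
      intro r hrP h1 h2
      obtain ⟨b1, b2, b3⟩ := hr r hrP h1 h2
      by_cases hw1 : w = e.1
      · subst hw1; constructor <;> rintro ⟨c1, c2, c3⟩ <;> exact ⟨c1, by omega, by omega⟩
      by_cases hw2 : w = e.2
      · subst hw2; constructor <;> rintro ⟨c1, c2, c3⟩ <;> exact ⟨c1, by omega, by omega⟩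
      obtain ⟨d1, d2, d3⟩ := hr w S.w_mem hw1 hw2
      constructor <;> rintro ⟨c1, c2, c3⟩ <;> exact ⟨c1, by omega, by omega⟩)
  unfold gBL
  by_cases hw1 : w = e.1
  · have hnc := S.ncross e he' (Or.inl hw1.symm)
    have hq0 : ¬ (0 < H e.2) := by rw [← hw1, hHw] at hmono; linarith
    have hw2 : ¬ (e.2 = w) := fun h0 => hpq (by rw [h0, hw1])
    have e1 : ¬ (0 < H e.1 ∧ rk P u e.1 < rk P u w ∧ i ≤ rk P u e.1) := by
      rw [← hw1, hHw]; simp
    have e2 : ¬ (0 < H e.1 ∧ rk P u' e.1 < rk P u' w ∧ i ≤ rk P u' e.1) := by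
      rw [← hw1, hHw]; simp
    rw [if_neg e1, if_neg (by tauto), if_neg e2, if_neg (by tauto)] at key
    rw [if_neg (by tauto), if_neg (by tauto)]
    linarith
  by_cases hw2 : w = e.2
  · have hnc := S.ncross e he' (Or.inr hw2.symm)
    have hp0 : 0 < H e.1 := by rw [← hw2, hHw] at hmono; exact hmono
    have e1 : ¬ (0 < H e.1 ∧ rk P u' e.1 < rk P u' w ∧ i ≤ rk P u' e.1) := by
      rw [hw2]; rintro ⟨_, c, _⟩; omega
    have e2 : ¬ (0 < H e.2 ∧ rk P u e.2 < rk P u w ∧ i ≤ rk P u e.2) := by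
      rw [← hw2, hHw]; simp
    have e3 : ¬ (0 < H e.2 ∧ rk P u' e.2 < rk P u' w ∧ i ≤ rk P u' e.2) := by
      rw [← hw2, hHw]; simp
    have e4 : (0 < H e.1 ∧ rk P u e.1 < rk P u w ∧ i ≤ rk P u e.1) ↔
        (e.2 = w ∧ i < lv P e) := by
      constructor
      · rintro ⟨_, _, c⟩; exact ⟨hw2.symm, by omega⟩
      · rintro ⟨_, c⟩; exact ⟨hp0, by rw [hw2]; omega, by omega⟩
    rw [if_neg e1, if_neg e2, if_neg e3, if_congr e4 rfl rfl] at key
    rw [if_neg (by tauto : ¬ (lv P e = i ∧ Cross e f))]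
    linarith
  obtain ⟨d1, d2, d3⟩ := hr w S.w_mem hw1 hw2
  have hw2' : ¬ (e.2 = w) := fun h0 => hw2 h0.symm
  rw [if_neg (by tauto : ¬ (e.2 = w ∧ i < lv P e))]
  by_cases hji : lv P e = i
  · have hve1 : v ≠ e.1 := by rintro rfl; omega
    have hve2 : v ≠ e.2 := by rintro rfl; omega
    obtain ⟨f1, f2, f3⟩ := hr v S.v_mem hve1 hve2
    have hvbelow : ht (esl e) v < ht (esl e) e.1 := by
      exact (below_line_iff hG hu h S.v_mem hve1 hve2).2 (by omega)
    have hcr := S.crossB e he' hvbelow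
    have hbel := below_line_iff hG hu h S.w_mem hw1 hw2
    have hwab : ht (esl e) e.1 < ht (esl e) w ↔ rk P u e.2 < rk P u w := by
      constructor
      · intro h0
        by_contra h1
        have : rk P u w < rk P u e.1 := by omega
        exact absurd (hbel.2 this) (not_lt.2 h0.le)
      · intro h0
        rcases lt_or_gt_of_ne (hG.ht_ne (mem_pairsIn.1 he).1 S.w_mem hw1 hw2) with h1 | h1
        · have := hbel.1 h1; omega
        · exact h1
    have hq0 : H e.2 ≠ 0 := hzero _ hq (Ne.symm hve2) (Ne.symm hw2)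
    have e1 : ¬ (0 < H e.1 ∧ rk P u e.1 < rk P u w ∧ i ≤ rk P u e.1) := by
      rintro ⟨_, _, c⟩; omega
    have e2 : ¬ (0 < H e.2 ∧ rk P u' e.2 < rk P u' w ∧ i ≤ rk P u' e.2) := by
      rintro ⟨_, _, c⟩; omega
    rw [if_neg e1, if_neg e2] at key
    by_cases hω : rk P u e.2 < rk P u w
    · by_cases hp1 : 0 < H e.1
      · by_cases hq1 : 0 < H e.2
        · rw [if_pos ⟨hq1, by omega, by omega⟩, if_pos ⟨hp1, by omega, by omega⟩] at key
          rw [if_neg (by rw [hcr]; rintro ⟨_, ⟨_, c⟩, _⟩; linarith)]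
          linarith
        · rw [if_neg (by tauto), if_pos ⟨hp1, by omega, by omega⟩] at key
          have hq2 : H e.2 < 0 := lt_of_le_of_ne (not_lt.1 hq1) hq0
          rw [if_pos ⟨hji, hcr.2 ⟨⟨hp1, hq2⟩, hwab.2 hω⟩⟩]
          linarith
      · have hq1 : ¬ 0 < H e.2 := by intro c; exact hp1 (c.trans hmono)
        rw [if_neg (by tauto), if_neg (by tauto)] at key
        rw [if_neg (by rw [hcr]; tauto)]
        linarith
    · rw [if_neg (by rintro ⟨_, c, _⟩; omega), if_neg (by rintro ⟨_, c, _⟩; omega)] at key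
      rw [if_neg (by rw [hcr, hwab]; tauto)]
      linarith
  · rw [if_neg (by tauto)]
    have e1 : (0 < H e.1 ∧ rk P u e.1 < rk P u w ∧ i ≤ rk P u e.1) ↔
        (0 < H e.1 ∧ rk P u' e.1 < rk P u' w ∧ i ≤ rk P u' e.1) := by
      constructor <;> rintro ⟨c1, c2, c3⟩ <;> exact ⟨c1, by omega, by omega⟩
    have e2 : (0 < H e.2 ∧ rk P u e.2 < rk P u w ∧ i ≤ rk P u e.2) ↔
        (0 < H e.2 ∧ rk P u' e.2 < rk P u' w ∧ i ≤ rk P u' e.2) := by
      constructor <;> rintro ⟨c1, c2, c3⟩ <;> exact ⟨c1, by omega, by omega⟩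
    rw [if_congr e1 rfl rfl, if_congr e2 rfl rfl] at key
    linarith

set_option maxHeartbeats 1000000 in
lemma step_gBR (hG : Generic P) {s t u u' : ℝ} {f : Edge} {v w : Pt} {H : Pt → ℝ}
    (S : SepData P s t f v w H) {e : Edge} (hsu : s ≤ u) (huu : u < u') (hut : u' ≤ t)
    (hu : NonSlope P u) (hu' : NonSlope P u') (h : pairsIn P u u' = {e}) {i : ℕ}
    (hv1 : rk P u v < i) (hv2 : rk P u' v < i) :
    (gBR P H w i u' : ℤ) + (if lv P e = i ∧ Cross e f then 1 else 0) =
      gBR P H w i u + (if e.1 = w ∧ i < lv P e then 1 else 0) := by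
  obtain ⟨a1, a2, a3, a4, hp, hq, hpq, hr⟩ := step_facts hG huu hu hu' h
  have he : e ∈ pairsIn P u u' := by rw [h]; simp
  have he' : e ∈ pairsIn P s t := by
    rw [mem_pairsIn] at he ⊢
    exact ⟨he.1, by linarith [he.2.1], by linarith [he.2.2]⟩
  have hmono := S.mono e he'
  have hzero := S.zero
  have hHw := S.Hw
  have key := card_filter_two (P := P) hp hq hpq
    (fun r => H r < 0 ∧ rk P u r < rk P u w ∧ i ≤ rk P u r)
    (fun r => H r < 0 ∧ rk P u' r < rk P u' w ∧ i ≤ rk P u' r) (by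
      intro r hrP h1 h2
      obtain ⟨b1, b2, b3⟩ := hr r hrP h1 h2
      by_cases hw1 : w = e.1
      · subst hw1; constructor <;> rintro ⟨c1, c2, c3⟩ <;> exact ⟨c1, by omega, by omega⟩
      by_cases hw2 : w = e.2
      · subst hw2; constructor <;> rintro ⟨c1, c2, c3⟩ <;> exact ⟨c1, by omega, by omega⟩
      obtain ⟨d1, d2, d3⟩ := hr w S.w_mem hw1 hw2
      constructor <;> rintro ⟨c1, c2, c3⟩ <;> exact ⟨c1, by omega, by omega⟩)
  unfold gBR
  by_cases hw1 : w = e.1
  · have hnc := S.ncross e he' (Or.inl hw1.symm)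
    have hq0 : H e.2 < 0 := by rw [← hw1, hHw] at hmono; linarith
    have e1 : ¬ (H e.1 < 0 ∧ rk P u e.1 < rk P u w ∧ i ≤ rk P u e.1) := by
      rw [← hw1, hHw]; simp
    have e2 : ¬ (H e.1 < 0 ∧ rk P u' e.1 < rk P u' w ∧ i ≤ rk P u' e.1) := by
      rw [← hw1, hHw]; simp
    have e3 : ¬ (H e.2 < 0 ∧ rk P u e.2 < rk P u w ∧ i ≤ rk P u e.2) := by
      rw [hw1]; rintro ⟨_, c, _⟩; omega
    have e4 : (H e.2 < 0 ∧ rk P u' e.2 < rk P u' w ∧ i ≤ rk P u' e.2) ↔
        (e.1 = w ∧ i < lv P e) := by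
      constructor
      · rintro ⟨_, _, c⟩; exact ⟨hw1.symm, by omega⟩
      · rintro ⟨_, c⟩; exact ⟨hq0, by rw [hw1]; omega, by omega⟩
    rw [if_neg e1, if_neg e2, if_neg e3, if_congr e4 rfl rfl] at key
    rw [if_neg (by tauto : ¬ (lv P e = i ∧ Cross e f))]
    linarith
  by_cases hw2 : w = e.2
  · have hnc := S.ncross e he' (Or.inr hw2.symm)
    have hp0 : ¬ (H e.1 < 0) := by rw [← hw2, hHw] at hmono; linarith
    have hw1' : ¬ (e.1 = w) := fun h0 => hw1 h0.symm
    have e2 : ¬ (H e.2 < 0 ∧ rk P u e.2 < rk P u w ∧ i ≤ rk P u e.2) := by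
      rw [← hw2, hHw]; simp
    have e3 : ¬ (H e.2 < 0 ∧ rk P u' e.2 < rk P u' w ∧ i ≤ rk P u' e.2) := by
      rw [← hw2, hHw]; simp
    rw [if_neg (by tauto), if_neg e2, if_neg (by tauto), if_neg e3] at key
    rw [if_neg (by tauto), if_neg (by tauto)]
    linarith
  obtain ⟨d1, d2, d3⟩ := hr w S.w_mem hw1 hw2
  have hw1' : ¬ (e.1 = w) := fun h0 => hw1 h0.symm
  rw [if_neg (by tauto : ¬ (e.1 = w ∧ i < lv P e))]
  by_cases hji : lv P e = i
  · have hve1 : v ≠ e.1 := by rintro rfl; omega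
    have hve2 : v ≠ e.2 := by rintro rfl; omega
    obtain ⟨f1, f2, f3⟩ := hr v S.v_mem hve1 hve2
    have hvbelow : ht (esl e) v < ht (esl e) e.1 := by
      exact (below_line_iff hG hu h S.v_mem hve1 hve2).2 (by omega)
    have hcr := S.crossB e he' hvbelow
    have hbel := below_line_iff hG hu h S.w_mem hw1 hw2
    have hwab : ht (esl e) e.1 < ht (esl e) w ↔ rk P u e.2 < rk P u w := by
      constructor
      · intro h0
        by_contra h1
        have : rk P u w < rk P u e.1 := by omega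
        exact absurd (hbel.2 this) (not_lt.2 h0.le)
      · intro h0
        rcases lt_or_gt_of_ne (hG.ht_ne (mem_pairsIn.1 he).1 S.w_mem hw1 hw2) with h1 | h1
        · have := hbel.1 h1; omega
        · exact h1
    have hp0 : H e.1 ≠ 0 := hzero _ hp (Ne.symm hve1) (Ne.symm hw1)
    have e1 : ¬ (H e.1 < 0 ∧ rk P u e.1 < rk P u w ∧ i ≤ rk P u e.1) := by
      rintro ⟨_, _, c⟩; omega
    have e2 : ¬ (H e.2 < 0 ∧ rk P u' e.2 < rk P u' w ∧ i ≤ rk P u' e.2) := by
      rintro ⟨_, _, c⟩; omega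
    rw [if_neg e1, if_neg e2] at key
    by_cases hω : rk P u e.2 < rk P u w
    · by_cases hq1 : H e.2 < 0
      · by_cases hp1 : H e.1 < 0
        · rw [if_pos ⟨hq1, by omega, by omega⟩, if_pos ⟨hp1, by omega, by omega⟩] at key
          rw [if_neg (by rw [hcr]; rintro ⟨_, ⟨c, _⟩, _⟩; linarith)]
          linarith
        · rw [if_pos ⟨hq1, by omega, by omega⟩, if_neg (by tauto)] at key
          have hp2 : 0 < H e.1 := lt_of_le_of_ne (not_lt.1 hp1) (Ne.symm hp0)
          rw [if_pos ⟨hji, hcr.2 ⟨⟨hp2, hq1⟩, hwab.2 hω⟩⟩]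
          linarith
      · have hp1 : ¬ H e.1 < 0 := by intro c; exact hq1 (hmono.trans c)
        rw [if_neg (by tauto), if_neg (by tauto)] at key
        rw [if_neg (by rw [hcr]; tauto)]
        linarith
    · rw [if_neg (by rintro ⟨_, c, _⟩; omega), if_neg (by rintro ⟨_, c, _⟩; omega)] at key
      rw [if_neg (by rw [hcr, hwab]; tauto)]
      linarith
  · rw [if_neg (by tauto)]
    have e1 : (H e.1 < 0 ∧ rk P u e.1 < rk P u w ∧ i ≤ rk P u e.1) ↔
        (H e.1 < 0 ∧ rk P u' e.1 < rk P u' w ∧ i ≤ rk P u' e.1) := by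
      constructor <;> rintro ⟨c1, c2, c3⟩ <;> exact ⟨c1, by omega, by omega⟩
    have e2 : (H e.2 < 0 ∧ rk P u e.2 < rk P u w ∧ i ≤ rk P u e.2) ↔
        (H e.2 < 0 ∧ rk P u' e.2 < rk P u' w ∧ i ≤ rk P u' e.2) := by
      constructor <;> rintro ⟨c1, c2, c3⟩ <;> exact ⟨c1, by omega, by omega⟩
    rw [if_congr e1 rfl rfl, if_congr e2 rfl rfl] at key
    linarith


/-! ### Telescoping -/

lemma card_pairsIn_split (C : Edge → Prop) [DecidablePred C] {s u t : ℝ} (h1 : s < u)
    (h2 : u < t) (hu : NonSlope P u) :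
    ((pairsIn P s t).filter C).card =
      ((pairsIn P s u).filter C).card + ((pairsIn P u t).filter C).card := by
  rw [← Finset.card_union_of_disjoint]
  · congr 1
    ext e
    simp only [Finset.mem_filter, Finset.mem_union, mem_pairsIn]
    constructor
    · rintro ⟨⟨he, h3, h4⟩, hC⟩
      rcases lt_or_gt_of_ne (hu e he) with h5 | h5
      · exact Or.inl ⟨⟨he, h3, h5⟩, hC⟩
      · exact Or.inr ⟨⟨he, h5, h4⟩, hC⟩
    · rintro (⟨⟨he, h3, h4⟩, hC⟩ | ⟨⟨he, h3, h4⟩, hC⟩)
      · exact ⟨⟨he, h3, h4.trans h2⟩, hC⟩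
      · exact ⟨⟨he, h1.trans h3, h4⟩, hC⟩
  · rw [Finset.disjoint_left]
    intro e he he'
    simp only [Finset.mem_filter, mem_pairsIn] at he he'
    linarith [he.1.2.2, he'.1.2.1]

lemma telescope (hG : Generic P) {s0 t0 : ℝ} (hs0 : NonSlope P s0) (g : ℝ → ℤ)
    (C D : Edge → Prop) [DecidablePred C] [DecidablePred D]
    (hconst : ∀ u u', s0 ≤ u → u < u' → u' ≤ t0 → NonSlope P u → NonSlope P u' →
      pairsIn P u u' = ∅ → g u' = g u)
    (hstep : ∀ u u' e, s0 ≤ u → u < u' → u' ≤ t0 → NonSlope P u → NonSlope P u' →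
      pairsIn P u u' = {e} → g u' + (if C e then 1 else 0) = g u + (if D e then 1 else 0)) :
    ∀ t, s0 < t → NonSlope P t → t ≤ t0 →
      g t + (((pairsIn P s0 t).filter C).card : ℤ) =
        g s0 + (((pairsIn P s0 t).filter D).card : ℤ) := by
  refine sweep hG (motive := fun t => t ≤ t0 →
      g t + (((pairsIn P s0 t).filter C).card : ℤ) =
        g s0 + (((pairsIn P s0 t).filter D).card : ℤ)) ?_ ?_
  · intro t hst ht' hempty htt
    rw [hempty, Finset.filter_empty, Finset.filter_empty, hconst s0 t le_rfl hst htt hs0 ht' hempty]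
  · intro u t e hsu hut hu ht' hsing ih htt
    have ih' := ih (hut.le.trans htt)
    have h1 := hstep u t e hsu.le hut htt hu ht' hsing
    rw [card_pairsIn_split C hsu hut hu, card_pairsIn_split D hsu hut hu, hsing]
    have hC : (({e} : Finset Edge).filter C).card = if C e then 1 else 0 := by
      rw [Finset.filter_singleton]; split_ifs <;> simp
    have hD : (({e} : Finset Edge).filter D).card = if D e then 1 else 0 := by
      rw [Finset.filter_singleton]; split_ifs <;> simp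
    rw [hC, hD]
    push_cast
    linarith

lemma filter_congr_rk (hG : Generic P) {u u' : ℝ} (huu : u < u') (hu : NonSlope P u)
    (hu' : NonSlope P u') (h : pairsIn P u u' = ∅) {w : Pt} (hw : w ∈ P)
    (Q : Pt → ℕ → ℕ → Prop) [∀ r a b, Decidable (Q r a b)] :
    P.filter (fun r => Q r (rk P u' w) (rk P u' r)) = P.filter (fun r => Q r (rk P u w) (rk P u r)) := by
  apply Finset.filter_congr
  intro r hr
  rw [rk_const hG hu hu' huu h hr, rk_const hG hu hu' huu h hw]

/-- Number of points with rank in an interval. -/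
lemma card_rk_between (hG : Generic P) {θ : ℝ} (hθ : NonSlope P θ) (Q : Pt → Prop) [DecidablePred Q]
    (I : Finset ℕ) (h : ∀ r ∈ P, Q r → rk P θ r ∈ I) : (P.filter Q).card ≤ I.card := by
  apply Finset.card_le_card_of_injOn (fun r => rk P θ r)
  · intro r hr
    rw [Finset.mem_coe, Finset.mem_filter] at hr
    exact h r hr.1 hr.2
  · intro r hr r' hr' heq
    rw [Finset.mem_coe, Finset.mem_filter] at hr hr'
    exact rk_inj hG hθ hr.1 hr'.1 heq

lemma Lp_eq (P : Finset Pt) (k b : ℕ) (s t : ℝ) (p : Pt) :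
    Lp P k b s t p = ((pairsIn P s t).filter (fun e => Near P k b e ∧ e.2 = p)).card := by
  unfold Lp nearE; rw [Finset.filter_filter]

lemma Rp_eq (P : Finset Pt) (k b : ℕ) (s t : ℝ) (p : Pt) :
    Rp P k b s t p = ((pairsIn P s t).filter (fun e => Near P k b e ∧ e.1 = p)).card := by
  unfold Rp nearE; rw [Finset.filter_filter]

/-- Case A (`v` above): bound for one level. -/
lemma flux_level_A (hG : Generic P) {s t θ : ℝ} {f : Edge} {v w : Pt} {H : Pt → ℝ}
    (S : SepData P s t f v w H) (h1 : s < θ) (h2 : θ < t) (hs : NonSlope P s)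
    (hθ : NonSlope P θ) (ht' : NonSlope P t) {k b i : ℕ} (hi1 : k + b < i) (hi2 : i ≤ k + 2 * b)
    (hw : Central P k b θ w)
    (hv : ∀ u, s ≤ u → u ≤ t → NonSlope P u → i ≤ rk P u v) :
    Lp P k b s t w + Rp P k b s t w ≤
      2 * ((pairsIn P s t).filter (fun e => lv P e = i ∧ Cross e f)).card + (16 * b + 2) := by
  have A1 := telescope hG (s0 := s) (t0 := t) hs (fun u => (gAL P H w i u : ℤ))
    (fun e => lv P e = i ∧ Cross e f) (fun e => e.2 = w ∧ lv P e < i)
    (by
      intro u u' _ huu _ hu hu' h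
      unfold gAL
      rw [filter_congr_rk hG huu hu hu' h S.w_mem (fun r a b => 0 < H r ∧ a < b ∧ b < i)])
    (by
      intro u u' e hsu huu hut hu hu' h
      exact step_gAL hG S hsu huu hut hu hu' h (hv u hsu (huu.le.trans hut) hu)
        (hv u' (hsu.trans huu.le) hut hu')) θ h1 hθ h2.le
  have A2 := telescope hG (s0 := θ) (t0 := t) hθ (fun u => (gAR P H w i u : ℤ))
    (fun e => e.1 = w ∧ lv P e < i) (fun e => lv P e = i ∧ Cross e f)
    (by
      intro u u' _ huu _ hu hu' h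
      unfold gAR
      rw [filter_congr_rk hG huu hu hu' h S.w_mem (fun r a b => H r < 0 ∧ a < b ∧ b < i)])
    (by
      intro u u' e hsu huu hut hu hu' h
      have hsu' : s ≤ u := h1.le.trans hsu
      exact step_gAR hG S hsu' huu hut hu hu' h (hv u hsu' (huu.le.trans hut) hu)
        (hv u' (hsu'.trans huu.le) hut hu')) t h2 ht' le_rfl
  have B1 : gAL P H w i θ ≤ (Finset.Ioo (rk P θ w) i).card :=
    card_rk_between hG hθ _ _ (by rintro r _ ⟨_, c1, c2⟩; exact Finset.mem_Ioo.2 ⟨c1, c2⟩)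
  have B2 : gAR P H w i θ ≤ (Finset.Ioo (rk P θ w) i).card :=
    card_rk_between hG hθ _ _ (by rintro r _ ⟨_, c1, c2⟩; exact Finset.mem_Ioo.2 ⟨c1, c2⟩)
  rw [Nat.card_Ioo] at B1 B2
  have C1 : Lp P k b s θ w ≤ ((pairsIn P s θ).filter (fun e => e.2 = w ∧ lv P e < i)).card := by
    rw [Lp_eq]
    apply Finset.card_le_card
    intro e he
    rw [Finset.mem_filter] at he ⊢
    exact ⟨he.1, he.2.2, by have := he.2.1.1; omega⟩
  have C2 : Rp P k b θ t w ≤ ((pairsIn P θ t).filter (fun e => e.1 = w ∧ lv P e < i)).card := by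
    rw [Rp_eq]
    apply Finset.card_le_card
    intro e he
    rw [Finset.mem_filter] at he ⊢
    exact ⟨he.1, he.2.2, by have := he.2.1.1; omega⟩
  have D1 := balance hG hs hθ h1 k b w
  have D2 := balance hG hθ ht' h2 k b w
  have E1 : Lp P k b s t w = Lp P k b s θ w + Lp P k b θ t w := by
    simp only [Lp_eq]; exact card_pairsIn_split _ h1 h2 hθ
  have E2 : Rp P k b s t w = Rp P k b s θ w + Rp P k b θ t w := by
    simp only [Rp_eq]; exact card_pairsIn_split _ h1 h2 hθ
  have E3 := card_pairsIn_split (P := P) (fun e => lv P e = i ∧ Cross e f) h1 h2 hθ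
  obtain ⟨hw1, hw2⟩ := hw
  omega

/-- Case B (`v` below): bound for one level. -/
lemma flux_level_B (hG : Generic P) {s t θ : ℝ} {f : Edge} {v w : Pt} {H : Pt → ℝ}
    (S : SepData P s t f v w H) (h1 : s < θ) (h2 : θ < t) (hs : NonSlope P s)
    (hθ : NonSlope P θ) (ht' : NonSlope P t) {k b i : ℕ} (hi1 : k ≤ i + 2 * b) (hi2 : i + b < k)
    (hw : Central P k b θ w)
    (hv : ∀ u, s ≤ u → u ≤ t → NonSlope P u → rk P u v < i) :
    Lp P k b s t w + Rp P k b s t w ≤
      2 * ((pairsIn P s t).filter (fun e => lv P e = i ∧ Cross e f)).card + (16 * b + 2) := by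
  have A1 := telescope hG (s0 := s) (t0 := t) hs (fun u => (gBR P H w i u : ℤ))
    (fun e => lv P e = i ∧ Cross e f) (fun e => e.1 = w ∧ i < lv P e)
    (by
      intro u u' _ huu _ hu hu' h
      unfold gBR
      rw [filter_congr_rk hG huu hu hu' h S.w_mem (fun r a b => H r < 0 ∧ b < a ∧ i ≤ b)])
    (by
      intro u u' e hsu huu hut hu hu' h
      exact step_gBR hG S hsu huu hut hu hu' h (hv u hsu (huu.le.trans hut) hu)
        (hv u' (hsu.trans huu.le) hut hu')) θ h1 hθ h2.le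
  have A2 := telescope hG (s0 := θ) (t0 := t) hθ (fun u => (gBL P H w i u : ℤ))
    (fun e => e.2 = w ∧ i < lv P e) (fun e => lv P e = i ∧ Cross e f)
    (by
      intro u u' _ huu _ hu hu' h
      unfold gBL
      rw [filter_congr_rk hG huu hu hu' h S.w_mem (fun r a b => 0 < H r ∧ b < a ∧ i ≤ b)])
    (by
      intro u u' e hsu huu hut hu hu' h
      have hsu' : s ≤ u := h1.le.trans hsu
      exact step_gBL hG S hsu' huu hut hu hu' h (hv u hsu' (huu.le.trans hut) hu)
        (hv u' (hsu'.trans huu.le) hut hu')) t h2 ht' le_rfl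
  have B1 : gBL P H w i θ ≤ (Finset.Ico i (rk P θ w)).card :=
    card_rk_between hG hθ _ _ (by rintro r _ ⟨_, c1, c2⟩; exact Finset.mem_Ico.2 ⟨c2, c1⟩)
  have B2 : gBR P H w i θ ≤ (Finset.Ico i (rk P θ w)).card :=
    card_rk_between hG hθ _ _ (by rintro r _ ⟨_, c1, c2⟩; exact Finset.mem_Ico.2 ⟨c2, c1⟩)
  rw [Nat.card_Ico] at B1 B2
  have C1 : Lp P k b θ t w ≤ ((pairsIn P θ t).filter (fun e => e.2 = w ∧ i < lv P e)).card := by
    rw [Lp_eq]
    apply Finset.card_le_card
    intro e he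
    rw [Finset.mem_filter] at he ⊢
    exact ⟨he.1, he.2.2, by have := he.2.1.2; omega⟩
  have C2 : Rp P k b s θ w ≤ ((pairsIn P s θ).filter (fun e => e.1 = w ∧ i < lv P e)).card := by
    rw [Rp_eq]
    apply Finset.card_le_card
    intro e he
    rw [Finset.mem_filter] at he ⊢
    exact ⟨he.1, he.2.2, by have := he.2.1.2; omega⟩
  have D1 := balance hG hs hθ h1 k b w
  have D2 := balance hG hθ ht' h2 k b w
  have E1 : Lp P k b s t w = Lp P k b s θ w + Lp P k b θ t w := by
    simp only [Lp_eq]; exact card_pairsIn_split _ h1 h2 hθ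
  have E2 : Rp P k b s t w = Rp P k b s θ w + Rp P k b θ t w := by
    simp only [Rp_eq]; exact card_pairsIn_split _ h1 h2 hθ
  have E3 := card_pairsIn_split (P := P) (fun e => lv P e = i ∧ Cross e f) h1 h2 hθ
  obtain ⟨hw1, hw2⟩ := hw
  omega


/-! ### The separation data exist -/

lemma exists_sep (hG : Generic P) {s t : ℝ} {f : Edge} {v w : Pt} (hf : f ∈ pairs P)
    (hvw : (f.1 = v ∧ f.2 = w) ∨ (f.1 = w ∧ f.2 = v)) (hsl : esl f ≤ s ∨ t ≤ esl f) :
    ∃ H : Pt → ℝ, SepData P s t f v w H := by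
  have hf' := mem_pairs.1 hf
  have hne : f.1 ≠ f.2 := by
    intro h0
    exact absurd hf'.2.2 (by rw [h0]; exact lt_irrefl _)
  set τ := esl f with hτ
  -- the sign
  obtain ⟨c, hc2, hc⟩ : ∃ c : ℝ, c * c = 1 ∧ ∀ e ∈ pairsIn P s t,
      c * (ht τ e.2 - ht τ f.1) < c * (ht τ e.1 - ht τ f.1) := by
    rcases hsl with h0 | h0
    · refine ⟨-1, by norm_num, ?_⟩
      intro e he
      rw [mem_pairsIn] at he
      have := (ht_lt_iff (mem_pairs.1 he.1).2.2 τ).2 (show τ < sl e.1 e.2 from lt_of_le_of_lt h0 he.2.1)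
      linarith
    · refine ⟨1, by norm_num, ?_⟩
      intro e he
      rw [mem_pairsIn] at he
      have := (ht_gt_iff (mem_pairs.1 he.1).2.2 τ).2 (show sl e.1 e.2 < τ from lt_of_lt_of_le he.2.2 h0)
      linarith
  have hprod : ∀ a b : ℝ, a * b = (c * a) * (c * b) := by
    intro a b
    have : (c * a) * (c * b) = (c * c) * (a * b) := by ring
    rw [this, hc2, one_mul]
  have hc0 : c ≠ 0 := by
    rintro rfl
    norm_num at hc2
  have hfh : ht τ f.2 = ht τ f.1 := (ht_esl hf'.2.2).symm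
  have hHw : c * (ht τ w - ht τ f.1) = 0 := by
    rcases hvw with ⟨_, h2⟩ | ⟨h1, _⟩
    · rw [← h2, hfh]; ring
    · rw [← h1]; ring
  -- product criteria
  have hP1 : ∀ e ∈ pairsIn P s t,
      ((ht τ e.1 - ht τ f.1) * (ht τ e.2 - ht τ f.1) < 0 ↔
        0 < c * (ht τ e.1 - ht τ f.1) ∧ c * (ht τ e.2 - ht τ f.1) < 0) := by
    intro e he
    have hlt := hc e he
    rw [hprod, mul_neg_iff]
    constructor
    · rintro (h0 | h0)
      · exact h0
      · linarith [h0.1, h0.2]
    · intro h0; exact Or.inl h0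
  refine ⟨fun r => c * (ht τ r - ht τ f.1), ⟨?_, ?_, ?_, ?_, hHw, hc, ?_, ?_, ?_⟩⟩
  · rcases hvw with ⟨h1, h2⟩ | ⟨h1, h2⟩
    · rw [← h1, ← h2]; exact hne
    · rw [← h1, ← h2]; exact hne.symm
  · rcases hvw with ⟨h1, h2⟩ | ⟨h1, h2⟩
    · rw [← h1]; exact hf'.1
    · rw [← h2]; exact hf'.2.1
  · rcases hvw with ⟨h1, h2⟩ | ⟨h1, h2⟩
    · rw [← h2]; exact hf'.2.1
    · rw [← h1]; exact hf'.1
  · intro r hr hrv hrw
    have h1 : r ≠ f.1 := by
      rcases hvw with ⟨h1, h2⟩ | ⟨h1, h2⟩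
      · rw [h1]; exact hrv
      · rw [h1]; exact hrw
    have h2 : r ≠ f.2 := by
      rcases hvw with ⟨h1, h2⟩ | ⟨h1, h2⟩
      · rw [h2]; exact hrw
      · rw [h2]; exact hrv
    exact mul_ne_zero hc0 (sub_ne_zero.2 (hG.ht_ne hf hr h1 h2))
  · intro e he hv
    have he' := (mem_pairs.1 (mem_pairsIn.1 he).1).2.2
    rw [cross_iff he' hf'.2.2, hP1 e he]
    have : (ht (esl e) f.1 - ht (esl e) e.1) * (ht (esl e) f.2 - ht (esl e) e.1) < 0 ↔
        ht (esl e) w < ht (esl e) e.1 := by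
      rcases hvw with ⟨h1, h2⟩ | ⟨h1, h2⟩
      · rw [h1, h2, mul_neg_iff]
        constructor
        · rintro (h0 | h0)
          · linarith [h0.2]
          · linarith [h0.1]
        · intro h0; exact Or.inl ⟨by linarith, by linarith⟩
      · rw [h1, h2, mul_neg_iff]
        constructor
        · rintro (h0 | h0)
          · linarith [h0.2]
          · linarith [h0.1]
        · intro h0; exact Or.inr ⟨by linarith, by linarith⟩
    rw [this]
  · intro e he hv
    have he' := (mem_pairs.1 (mem_pairsIn.1 he).1).2.2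
    rw [cross_iff he' hf'.2.2, hP1 e he]
    have : (ht (esl e) f.1 - ht (esl e) e.1) * (ht (esl e) f.2 - ht (esl e) e.1) < 0 ↔
        ht (esl e) e.1 < ht (esl e) w := by
      rcases hvw with ⟨h1, h2⟩ | ⟨h1, h2⟩
      · rw [h1, h2, mul_neg_iff]
        constructor
        · rintro (h0 | h0)
          · linarith [h0.1]
          · linarith [h0.2]
        · intro h0; exact Or.inr ⟨by linarith, by linarith⟩
      · rw [h1, h2, mul_neg_iff]
        constructor
        · rintro (h0 | h0)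
          · linarith [h0.1]
          · linarith [h0.2]
        · intro h0; exact Or.inl ⟨by linarith, by linarith⟩
    rw [this]
  · intro e he hw hcr
    have he' := (mem_pairs.1 (mem_pairsIn.1 he).1).2.2
    have h0 := ((cross_iff he' hf'.2.2).1 hcr).2
    have hwe : ht (esl e) w = ht (esl e) e.1 := by
      rcases hw with h1 | h1
      · rw [h1]
      · rw [← h1]; exact (ht_esl he').symm
    rcases hvw with ⟨h1, h2⟩ | ⟨h1, h2⟩
    · rw [h2, hwe, sub_self, mul_zero] at h0; exact lt_irrefl _ h0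
    · rw [h1, hwe, sub_self, zero_mul] at h0; exact lt_irrefl _ h0

/-- The side of `v` does not change if `v` is never `2b`-central. -/
lemma side_const (hG : Generic P) {s t : ℝ} (hst : s < t) (hs : NonSlope P s) {k c : ℕ}
    (hc : 1 ≤ c) {v : Pt} (hv : v ∈ P)
    (hfar : ∀ θ, s ≤ θ → θ ≤ t → NonSlope P θ → ¬ Central P k c θ v) :
    (∀ θ, s ≤ θ → θ ≤ t → NonSlope P θ → k + c < rk P θ v) ∨
      (∀ θ, s ≤ θ → θ ≤ t → NonSlope P θ → rk P θ v + c < k) := by
  have hstep : ∀ u u' e, u < u' → NonSlope P u → NonSlope P u' → pairsIn P u u' = {e} →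
      rk P u' v ≤ rk P u v + 1 ∧ rk P u v ≤ rk P u' v + 1 := by
    intro u u' e huu hu hu' h
    obtain ⟨a1, a2, a3, a4, hp, hq, hpq, hr⟩ := step_facts hG huu hu hu' h
    by_cases h1 : v = e.1
    · subst h1; omega
    by_cases h2 : v = e.2
    · subst h2; omega
    have := (hr v hv h1 h2).1
    omega
  have hs' := hfar s le_rfl hst.le hs
  have hcase : k + c < rk P s v ∨ rk P s v + c < k := by
    unfold Central at hs'
    omega
  rcases hcase with h0 | h0
  · left
    have main : ∀ θ, s < θ → NonSlope P θ → θ ≤ t → k + c < rk P θ v := by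
      refine sweep hG (motive := fun θ => θ ≤ t → k + c < rk P θ v) ?_ ?_
      · intro θ h1 h2 h3 _
        rw [← rk_const hG hs h2 h1 h3 hv]; exact h0
      · intro u θ e h1 h2 h3 h4 h5 ih h6
        have ih' := ih (h2.le.trans h6)
        have := hstep u θ e h2 h3 h4 h5
        have h7 := hfar θ (h1.le.trans h2.le) h6 h4
        unfold Central at h7
        omega
    intro θ h1 h2 h3
    rcases h1.eq_or_lt with rfl | h1
    · exact h0
    · exact main θ h1 h3 h2
  · right
    have main : ∀ θ, s < θ → NonSlope P θ → θ ≤ t → rk P θ v + c < k := by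
      refine sweep hG (motive := fun θ => θ ≤ t → rk P θ v + c < k) ?_ ?_
      · intro θ h1 h2 h3 _
        rw [← rk_const hG hs h2 h1 h3 hv]; exact h0
      · intro u θ e h1 h2 h3 h4 h5 ih h6
        have ih' := ih (h2.le.trans h6)
        have := hstep u θ e h2 h3 h4 h5
        have h7 := hfar θ (h1.le.trans h2.le) h6 h4
        unfold Central at h7
        omega
    intro θ h1 h2 h3
    rcases h1.eq_or_lt with rfl | h1
    · exact h0
    · exact main θ h1 h3 h2

/-- Sum over a set of levels. -/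
lemma sum_levels (P : Finset Pt) (s t : ℝ) (f : Edge) (k b : ℕ) (I : Finset ℕ)
    (hI : ∀ i ∈ I, i ≤ k + b ∧ k ≤ i + b) :
    ∑ i ∈ I, ((pairsIn P s t).filter (fun e => lv P e = i ∧ Cross e f)).card ≤
      ((nearE P k b s t).filter (fun e => Cross e f)).card := by
  rw [← Finset.card_biUnion]
  · apply Finset.card_le_card
    intro e he
    rw [Finset.mem_biUnion] at he
    obtain ⟨i, hi, he⟩ := he
    rw [Finset.mem_filter] at he
    unfold nearE
    rw [Finset.mem_filter, Finset.mem_filter]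
    refine ⟨⟨he.1, ?_⟩, he.2.2⟩
    unfold Near
    rw [he.2.1]
    exact hI i hi
  · intro i _ j _ hij
    rw [Function.onFun, Finset.disjoint_left]
    intro e he he'
    rw [Finset.mem_filter] at he he'
    exact hij (he.2.1.symm.trans he'.2.1)

end FluxAux

open FluxAux

/-- **G7 (FLUX)**, version with closed window and a non-slope `θ`. -/
theorem flux_closed (hG : Generic P) {s t θ : ℝ} (h1 : s < θ) (h2 : θ < t) (hs : NonSlope P s)
    (hθ : NonSlope P θ) (ht' : NonSlope P t) {k b : ℕ} (hb : 1 ≤ b) {f : Edge} {v w : Pt}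
    (hf : f ∈ pairs P) (hvw : (f.1 = v ∧ f.2 = w) ∨ (f.1 = w ∧ f.2 = v))
    (hsl : esl f ≤ s ∨ t ≤ esl f)
    (hfar : ∀ u, s ≤ u → u ≤ t → NonSlope P u → ¬ Central P k (2 * b) u v)
    (hcen : Central P k b θ w) :
    b * (Lp P k b s t w + Rp P k b s t w) ≤
      2 * ((nearE P k (2 * b) s t).filter (fun e => Cross e f)).card + b * (16 * b + 2) := by
  obtain ⟨H, S⟩ := exists_sep hG hf hvw hsl
  rcases side_const hG (h1.trans h2) hs (c := 2 * b) (by omega) S.v_mem hfar with hside | hside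
  · have hlev : ∀ i ∈ Finset.Ioc (k + b) (k + 2 * b),
        Lp P k b s t w + Rp P k b s t w ≤
          2 * ((pairsIn P s t).filter (fun e => lv P e = i ∧ Cross e f)).card + (16 * b + 2) := by
      intro i hi
      rw [Finset.mem_Ioc] at hi
      exact flux_level_A hG S h1 h2 hs hθ ht' hi.1 hi.2 hcen
        (fun u hu1 hu2 hu3 => hi.2.trans (hside u hu1 hu2 hu3).le)
    have hsum := Finset.sum_le_sum hlev
    have hle := sum_levels P s t f k (2 * b) (Finset.Ioc (k + b) (k + 2 * b)) (by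
      intro i hi; rw [Finset.mem_Ioc] at hi; omega)
    rw [Finset.sum_const, Nat.card_Ioc, smul_eq_mul, Finset.sum_add_distrib, ← Finset.mul_sum,
      Finset.sum_const, Nat.card_Ioc, smul_eq_mul,
      show k + 2 * b - (k + b) = b by omega] at hsum
    linarith
  · have hk : 2 * b < k := by
      have := hside s le_rfl (h1.le.trans h2.le) hs
      omega
    have hlev : ∀ i ∈ Finset.Ico (k - 2 * b) (k - b),
        Lp P k b s t w + Rp P k b s t w ≤
          2 * ((pairsIn P s t).filter (fun e => lv P e = i ∧ Cross e f)).card + (16 * b + 2) := by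
      intro i hi
      rw [Finset.mem_Ico] at hi
      exact flux_level_B hG S h1 h2 hs hθ ht' (by omega) (by omega) hcen
        (fun u hu1 hu2 hu3 => by have := hside u hu1 hu2 hu3; omega)
    have hsum := Finset.sum_le_sum hlev
    have hle := sum_levels P s t f k (2 * b) (Finset.Ico (k - 2 * b) (k - b)) (by
      intro i hi; rw [Finset.mem_Ico] at hi; omega)
    rw [Finset.sum_const, Nat.card_Ico, smul_eq_mul, Finset.sum_add_distrib, ← Finset.mul_sum,
      Finset.sum_const, Nat.card_Ico, smul_eq_mul,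
      show k - b - (k - 2 * b) = b by omega] at hsum
    linarith


namespace FluxAux

lemma exists_free_right (P : Finset Pt) {a b : ℝ} (hab : a < b) :
    ∃ u, a < u ∧ u < b ∧ ∀ e ∈ pairs P, a < esl e → u < esl e := by
  have hne : (insert b (((pairs P).filter (fun e => a < esl e)).image esl)).Nonempty :=
    ⟨b, Finset.mem_insert_self _ _⟩
  set M := (insert b (((pairs P).filter (fun e => a < esl e)).image esl)).min' hne with hM
  have hMb : a < M := by
    rw [hM, Finset.lt_min'_iff]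
    intro x hx
    rcases Finset.mem_insert.1 hx with rfl | hx
    · exact hab
    · obtain ⟨e, he, rfl⟩ := Finset.mem_image.1 hx
      exact (Finset.mem_filter.1 he).2
  have hMb' : M ≤ b := Finset.min'_le _ _ (Finset.mem_insert_self _ _)
  refine ⟨(a + M) / 2, by linarith, by linarith, ?_⟩
  intro e he hae
  have : M ≤ esl e := Finset.min'_le _ _ (Finset.mem_insert_of_mem
    (Finset.mem_image.2 ⟨e, Finset.mem_filter.2 ⟨he, hae⟩, rfl⟩))
  linarith

lemma exists_free_left' (P : Finset Pt) {a b : ℝ} (hab : a < b) :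
    ∃ u, a < u ∧ u < b ∧ ∀ e ∈ pairs P, esl e < b → esl e < u := by
  have hne : (insert a (((pairs P).filter (fun e => esl e < b)).image esl)).Nonempty :=
    ⟨a, Finset.mem_insert_self _ _⟩
  set M := (insert a (((pairs P).filter (fun e => esl e < b)).image esl)).max' hne with hM
  have hMb : M < b := by
    rw [hM, Finset.max'_lt_iff]
    intro x hx
    rcases Finset.mem_insert.1 hx with rfl | hx
    · exact hab
    · obtain ⟨e, he, rfl⟩ := Finset.mem_image.1 hx
      exact (Finset.mem_filter.1 he).2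
  have hMb' : a ≤ M := Finset.le_max' _ _ (Finset.mem_insert_self _ _)
  refine ⟨(b + M) / 2, by linarith, by linarith, ?_⟩
  intro e he hae
  have : esl e ≤ M := Finset.le_max' _ _ (Finset.mem_insert_of_mem
    (Finset.mem_image.2 ⟨e, Finset.mem_filter.2 ⟨he, hae⟩, rfl⟩))
  linarith

end FluxAux

/-- Every direction in an open window can be replaced by a non-slope with the same rank of `p`. -/
theorem exists_nonSlope_rk (hG : Generic P) {s t θ : ℝ} (h1 : s < θ) (h2 : θ < t) {p : Pt}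
    (hp : p ∈ P) : ∃ θ', s < θ' ∧ θ' < t ∧ NonSlope P θ' ∧ rk P θ' p = rk P θ p := by
  by_cases hcase : ∃ e0 ∈ pairs P, esl e0 = θ ∧ e0.2 = p
  · obtain ⟨e0, he0, hs0, hp0⟩ := hcase
    obtain ⟨c, hc1, hc2, hc3⟩ := exists_free_right P h2
    refine ⟨c, by linarith, hc2, ?_, ?_⟩
    · intro e he hce
      rcases lt_or_ge θ (esl e) with h | h
      · exact absurd (hc3 e he h) (by rw [hce]; exact lt_irrefl _)
      · linarith
    · rw [rk_formula hG hp, rk_formula hG hp]
      congr 1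
      · congr 1
        apply Finset.filter_congr
        intro e he
        constructor
        · rintro ⟨h3, h4⟩; exact ⟨h3, by linarith⟩
        · rintro ⟨h3, h4⟩; exact ⟨h3, hc3 e he h4⟩
      · congr 1
        apply Finset.filter_congr
        intro e he
        constructor
        · rintro ⟨h3, h4⟩
          refine ⟨h3, ?_⟩
          rcases lt_trichotomy (esl e) θ with h5 | h5 | h5
          · exact h5
          · exfalso
            have := hG.esl_inj he he0 (h5.trans hs0.symm)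
            rw [this] at h3
            have h6 := (mem_pairs.1 he0).2.2
            rw [h3, hp0] at h6
            exact lt_irrefl _ h6
          · have := hc3 e he h5; linarith
        · rintro ⟨h3, h4⟩; exact ⟨h3, by linarith⟩
  · push Not at hcase
    obtain ⟨c, hc1, hc2, hc3⟩ := exists_free_left' P h1
    refine ⟨c, hc1, by linarith, ?_, ?_⟩
    · intro e he hce
      rcases lt_or_ge (esl e) θ with h | h
      · exact absurd (hc3 e he h) (by rw [hce]; exact lt_irrefl _)
      · linarith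
    · rw [rk_formula hG hp, rk_formula hG hp]
      congr 1
      · congr 1
        apply Finset.filter_congr
        intro e he
        constructor
        · rintro ⟨h3, h4⟩
          refine ⟨h3, ?_⟩
          rcases lt_trichotomy (esl e) θ with h5 | h5 | h5
          · have := hc3 e he h5; linarith
          · exact absurd h3 (hcase e he h5)
          · exact h5
        · rintro ⟨h3, h4⟩; exact ⟨h3, by linarith⟩
      · congr 1
        apply Finset.filter_congr
        intro e he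
        constructor
        · rintro ⟨h3, h4⟩; exact ⟨h3, by linarith⟩
        · rintro ⟨h3, h4⟩; exact ⟨h3, hc3 e he h4⟩

/-- **G7 (FLUX).** `f` is the pair `{v, w}`, its slope is outside the open window, `v` is never
`2b`-central at a non-slope of the window and `w` is `b`-central somewhere in the window.  Then many
near-`2b` pairs of the window cross `f`:
`b (X - 16 b - 2) ≤ 2 #crossings`, `X` = number of near-`b` partners of `w` in the window. -/
theorem flux (hG : Generic P) {s t : ℝ} (hs : NonSlope P s) (ht' : NonSlope P t)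
    {k b : ℕ} (hb : 1 ≤ b) {f : Edge} {v w : Pt}
    (hf : f ∈ pairs P) (hvw : (f.1 = v ∧ f.2 = w) ∨ (f.1 = w ∧ f.2 = v))
    (hsl : ¬ (s < esl f ∧ esl f < t))
    (hfar : ∀ u, s < u → u < t → NonSlope P u → ¬ Central P k (2 * b) u v)
    (hcen : ∃ θ, s < θ ∧ θ < t ∧ Central P k b θ w) :
    b * (Lp P k b s t w + Rp P k b s t w) ≤
      2 * ((nearE P k (2 * b) s t).filter (fun e => Cross e f)).card + b * (16 * b + 2) := by
  obtain ⟨θ0, h1, h2, hc⟩ := hcen
  have hf' := mem_pairs.1 hf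
  have hv : v ∈ P := by
    rcases hvw with ⟨h, _⟩ | ⟨_, h⟩
    · rw [← h]; exact hf'.1
    · rw [← h]; exact hf'.2.1
  have hw : w ∈ P := by
    rcases hvw with ⟨_, h⟩ | ⟨h, _⟩
    · rw [← h]; exact hf'.2.1
    · rw [← h]; exact hf'.1
  obtain ⟨θ, h3, h4, h5, h6⟩ := exists_nonSlope_rk hG h1 h2 hw
  have hst := h1.trans h2
  refine flux_closed hG h3 h4 hs h5 ht' hb hf hvw ?_ ?_ ?_
  · by_contra h0
    push Not at h0
    exact hsl ⟨h0.1, h0.2⟩
  · intro u hu1 hu2 hu3
    rcases hu1.eq_or_lt with rfl | hu1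
    · obtain ⟨c, hc1, hc2, hc3⟩ := exists_free_right P hst
      have hcN : NonSlope P c := by
        intro e he hce
        rcases lt_or_ge s (esl e) with h | h
        · exact absurd (hc3 e he h) (by rw [hce]; exact lt_irrefl _)
        · linarith
      have hemp : pairsIn P s c = ∅ := by
        rw [Finset.eq_empty_iff_forall_notMem]
        intro e he
        rw [mem_pairsIn] at he
        linarith [hc3 e he.1 he.2.1, he.2.2]
      have := hfar c hc1 hc2 hcN
      unfold Central at this ⊢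
      rwa [← rk_const hG hs hcN hc1 hemp hv] at this
    rcases hu2.eq_or_lt with rfl | hu2
    · obtain ⟨c, hc1, hc2, hc3⟩ := exists_free_left' P hst
      have hcN : NonSlope P c := by
        intro e he hce
        rcases lt_or_ge (esl e) u with h | h
        · exact absurd (hc3 e he h) (by rw [hce]; exact lt_irrefl _)
        · linarith
      have hemp : pairsIn P c u = ∅ := by
        rw [Finset.eq_empty_iff_forall_notMem]
        intro e he
        rw [mem_pairsIn] at he
        linarith [hc3 e he.1 he.2.2, he.2.1]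
      have := hfar c hc1 hc2 hcN
      unfold Central at this ⊢
      rwa [rk_const hG hcN ht' hc2 hemp hv] at this
    exact hfar u hu1 hu2 hu3
  · unfold Central at hc ⊢
    rwa [h6]

/-! ### G12 -/


end Crest.Agent.R51
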