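import Mathlib

/-!
# Row 51, section 7.5 / B8 (A5)(b): the weight `w_{ab}` and its comparison with `|θ-c|^{-τ}`
(helper209)

* `wab a b θ = |a-b| / (|θ-a| |θ-b|)`, `om c τ θ = 1 / |θ-c|^τ`, `alf a b θ = log|θ-a| - log|θ-b|`.
* `wab_compare`: on an interval whose closure avoids the five special directions
  `a, b, (a+b)/2, 2a-b, 2b-a` the weight `wab a b` lies between `K ω` and `2 K ω` for a suitable
  `ω = om c τ`, `c ∈ {a,b}`, `τ ∈ {1,2}`.
* `integral_wab`: `∫_s^t wab a b = |alf a b t - alf a b s|` if `a, b ∉ [s,t]`.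
* monotonicity of `alf` on intervals avoiding `a, b`, additivity of masses.
-/

set_option autoImplicit false

noncomputable section

open Set MeasureTheory intervalIntegral

namespace Crest.Agent.R51.Wab

/-- the weight `w_{ab}` of note B7 -/
def wab (a b θ : ℝ) : ℝ := |a - b| / (|θ - a| * |θ - b|)

/-- the weight `ω_{c,τ}` of note B7 -/
def om (c : ℝ) (τ : ℕ) (θ : ℝ) : ℝ := 1 / |θ - c| ^ τ

/-- the function `α = log |θ-a| - log |θ-b|` of note B8 -/
def alf (a b θ : ℝ) : ℝ := Real.log (θ - a) - Real.log (θ - b)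

/-- the derivative of `alf` -/
def dalf (a b θ : ℝ) : ℝ := (a - b) / ((θ - a) * (θ - b))

theorem wab_symm (a b θ : ℝ) : wab a b θ = wab b a θ := by
  unfold wab
  rw [abs_sub_comm a b, mul_comm]

theorem wab_eq_abs (a b θ : ℝ) : wab a b θ = |dalf a b θ| := by
  unfold wab dalf
  rw [abs_div, abs_mul]

theorem wab_nonneg (a b θ : ℝ) : 0 ≤ wab a b θ := by
  rw [wab_eq_abs]; exact abs_nonneg _


theorem om_nonneg (c : ℝ) (τ : ℕ) (θ : ℝ) : 0 ≤ om c τ θ := by unfold om; positivity


/-- special directions of the pair `a, b` -/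
def special (a b : ℝ) : Set ℝ := {a, b, (a + b) / 2, 2 * a - b, 2 * b - a}

theorem special_symm (a b : ℝ) : special a b = special b a := by
  unfold special
  ext x
  simp only [mem_insert_iff, mem_singleton_iff]
  rw [add_comm a b]
  tauto

/-- pointwise comparison, on each of the six components (`a < b`) -/
theorem wab_compare_pt {a b : ℝ} (hab : a < b) :
    (∀ θ, θ < 2 * a - b → (b - a) / 2 * om a 2 θ ≤ wab a b θ ∧
        wab a b θ ≤ 2 * ((b - a) / 2) * om a 2 θ) ∧
    (∀ θ, 2 * a - b < θ → θ < a → 1 / 2 * om a 1 θ ≤ wab a b θ ∧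
        wab a b θ ≤ 2 * (1 / 2) * om a 1 θ) ∧
    (∀ θ, a < θ → θ < (a + b) / 2 → 1 * om a 1 θ ≤ wab a b θ ∧
        wab a b θ ≤ 2 * 1 * om a 1 θ) ∧
    (∀ θ, (a + b) / 2 < θ → θ < b → 1 * om b 1 θ ≤ wab a b θ ∧
        wab a b θ ≤ 2 * 1 * om b 1 θ) ∧
    (∀ θ, b < θ → θ < 2 * b - a → 1 / 2 * om b 1 θ ≤ wab a b θ ∧
        wab a b θ ≤ 2 * (1 / 2) * om b 1 θ) ∧
    (∀ θ, 2 * b - a < θ → (b - a) / 2 * om b 2 θ ≤ wab a b θ ∧
        wab a b θ ≤ 2 * ((b - a) / 2) * om b 2 θ) := by
  have habs : |a - b| = b - a := by rw [abs_sub_comm]; exact abs_of_pos (by linarith)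
  unfold wab om
  rw [habs]
  refine ⟨?_, ?_, ?_, ?_, ?_, ?_⟩
  · intro θ h
    have h1 : |θ - a| = a - θ := by rw [abs_sub_comm]; exact abs_of_pos (by linarith)
    have h2 : |θ - b| = b - θ := by rw [abs_sub_comm]; exact abs_of_pos (by linarith)
    rw [h1, h2]
    have p1 : 0 < a - θ := by linarith
    have p2 : 0 < b - θ := by linarith
    have p3 : 0 < b - a := by linarith
    constructor
    · rw [div_mul_div_comm, div_le_div_iff₀ (by positivity) (by positivity)]
      have : (b - θ) ≤ 2 * (a - θ) := by linarith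
      nlinarith [mul_le_mul_of_nonneg_left this (mul_pos p3 p1).le]
    · have e : 2 * ((b - a) / 2) * (1 / (a - θ) ^ 2) = (b - a) / (a - θ) ^ 2 := by ring
      rw [e]
      apply div_le_div_of_nonneg_left p3.le (by positivity)
      nlinarith
  · intro θ h h'
    have h1 : |θ - a| = a - θ := by rw [abs_sub_comm]; exact abs_of_pos (by linarith)
    have h2 : |θ - b| = b - θ := by rw [abs_sub_comm]; exact abs_of_pos (by linarith)
    rw [h1, h2, pow_one]
    have p1 : 0 < a - θ := by linarith
    have p2 : 0 < b - θ := by linarith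
    have p3 : 0 < b - a := by linarith
    constructor
    · rw [div_mul_div_comm, div_le_div_iff₀ (by positivity) (by positivity)]
      nlinarith
    · have e : 2 * (1 / 2) * (1 / (a - θ)) = 1 / (a - θ) := by ring
      rw [e, div_le_div_iff₀ (by positivity) (by positivity)]
      nlinarith
  · intro θ h h'
    have h1 : |θ - a| = θ - a := abs_of_pos (by linarith)
    have h2 : |θ - b| = b - θ := by rw [abs_sub_comm]; exact abs_of_pos (by linarith)
    rw [h1, h2, pow_one]
    have p1 : 0 < θ - a := by linarith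
    have p2 : 0 < b - θ := by linarith
    have p3 : 0 < b - a := by linarith
    constructor
    · rw [one_mul, div_le_div_iff₀ (by positivity) (by positivity)]
      nlinarith
    · have e : 2 * 1 * (1 / (θ - a)) = 2 / (θ - a) := by ring
      rw [e, div_le_div_iff₀ (by positivity) (by positivity)]
      nlinarith
  · intro θ h h'
    have h1 : |θ - a| = θ - a := abs_of_pos (by linarith)
    have h2 : |θ - b| = b - θ := by rw [abs_sub_comm]; exact abs_of_pos (by linarith)
    rw [h1, h2, pow_one]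
    have p1 : 0 < θ - a := by linarith
    have p2 : 0 < b - θ := by linarith
    have p3 : 0 < b - a := by linarith
    constructor
    · rw [one_mul, div_le_div_iff₀ (by positivity) (by positivity)]
      nlinarith
    · have e : 2 * 1 * (1 / (b - θ)) = 2 / (b - θ) := by ring
      rw [e, div_le_div_iff₀ (by positivity) (by positivity)]
      nlinarith
  · intro θ h h'
    have h1 : |θ - a| = θ - a := abs_of_pos (by linarith)
    have h2 : |θ - b| = θ - b := abs_of_pos (by linarith)
    rw [h1, h2, pow_one]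
    have p1 : 0 < θ - a := by linarith
    have p2 : 0 < θ - b := by linarith
    have p3 : 0 < b - a := by linarith
    constructor
    · rw [div_mul_div_comm, div_le_div_iff₀ (by positivity) (by positivity)]
      nlinarith
    · have e : 2 * (1 / 2) * (1 / (θ - b)) = 1 / (θ - b) := by ring
      rw [e, div_le_div_iff₀ (by positivity) (by positivity)]
      nlinarith
  · intro θ h
    have h1 : |θ - a| = θ - a := abs_of_pos (by linarith)
    have h2 : |θ - b| = θ - b := abs_of_pos (by linarith)
    rw [h1, h2]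
    have p1 : 0 < θ - a := by linarith
    have p2 : 0 < θ - b := by linarith
    have p3 : 0 < b - a := by linarith
    constructor
    · rw [div_mul_div_comm, div_le_div_iff₀ (by positivity) (by positivity)]
      have : (θ - a) ≤ 2 * (θ - b) := by linarith
      nlinarith [mul_le_mul_of_nonneg_left this (mul_pos p3 p2).le]
    · have e : 2 * ((b - a) / 2) * (1 / (θ - b) ^ 2) = (b - a) / (θ - b) ^ 2 := by ring
      rw [e]
      apply div_le_div_of_nonneg_left p3.le (by positivity)
      nlinarith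

theorem wab_compare_lt {a b s t : ℝ} (hab : a < b)
    (h : ∀ x ∈ special a b, x ∉ Icc s t) :
    ∃ c : ℝ, (c = a ∨ c = b) ∧ ∃ τ : ℕ, (τ = 1 ∨ τ = 2) ∧ ∃ K : ℝ, 0 < K ∧
      ∀ θ ∈ Icc s t, K * om c τ θ ≤ wab a b θ ∧ wab a b θ ≤ 2 * K * om c τ θ := by
  obtain ⟨c1, c2, c3, c4, c5, c6⟩ := wab_compare_pt hab
  have ha := h a (by simp [special])
  have hb := h b (by simp [special])
  have hm := h ((a + b) / 2) (by simp [special])
  have hl := h (2 * a - b) (by simp [special])
  have hr := h (2 * b - a) (by simp [special])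
  simp only [mem_Icc, not_and_or, not_le] at ha hb hm hl hr
  rcases le_or_gt s t with hst | hst
  swap
  · exact ⟨a, Or.inl rfl, 1, Or.inl rfl, 1, one_pos, fun θ hθ => absurd hst
      (not_lt.2 (hθ.1.trans hθ.2))⟩
  rcases hl with hl | hl
  swap
  · exact ⟨a, Or.inl rfl, 2, Or.inr rfl, (b - a) / 2, by linarith,
      fun θ hθ => c1 θ (by linarith [hθ.2])⟩
  rcases ha with ha | ha
  swap
  · exact ⟨a, Or.inl rfl, 1, Or.inl rfl, 1 / 2, by norm_num,
      fun θ hθ => c2 θ (by linarith [hθ.1]) (by linarith [hθ.2])⟩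
  rcases hm with hm | hm
  swap
  · exact ⟨a, Or.inl rfl, 1, Or.inl rfl, 1, by norm_num,
      fun θ hθ => c3 θ (by linarith [hθ.1]) (by linarith [hθ.2])⟩
  rcases hb with hb | hb
  swap
  · exact ⟨b, Or.inr rfl, 1, Or.inl rfl, 1, by norm_num,
      fun θ hθ => c4 θ (by linarith [hθ.1]) (by linarith [hθ.2])⟩
  rcases hr with hr | hr
  swap
  · exact ⟨b, Or.inr rfl, 1, Or.inl rfl, 1 / 2, by norm_num,
      fun θ hθ => c5 θ (by linarith [hθ.1]) (by linarith [hθ.2])⟩
  · exact ⟨b, Or.inr rfl, 2, Or.inr rfl, (b - a) / 2, by linarith,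
      fun θ hθ => c6 θ (by linarith [hθ.1])⟩

/-- **comparison** of `w_{ab}` with `ω_{c,τ}` on an interval avoiding the special directions -/
theorem wab_compare {a b s t : ℝ} (hab : a ≠ b) (h : ∀ x ∈ special a b, x ∉ Icc s t) :
    ∃ c : ℝ, (c = a ∨ c = b) ∧ ∃ τ : ℕ, (τ = 1 ∨ τ = 2) ∧ ∃ K : ℝ, 0 < K ∧
      ∀ θ ∈ Icc s t, K * om c τ θ ≤ wab a b θ ∧ wab a b θ ≤ 2 * K * om c τ θ := by
  rcases lt_or_gt_of_ne hab with hlt | hlt
  · exact wab_compare_lt hlt h
  · obtain ⟨c, hc, τ, hτ, K, hK, h'⟩ := wab_compare_lt hlt (by rwa [special_symm])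
    exact ⟨c, hc.symm, τ, hτ, K, hK, fun θ hθ => by rw [wab_symm]; exact h' θ hθ⟩

/-! ### integrals -/

theorem continuousOn_wab {a b s t : ℝ} (ha : a ∉ Icc s t) (hb : b ∉ Icc s t) :
    ContinuousOn (wab a b) (Icc s t) := by
  intro θ hθ
  have h1 : |θ - a| * |θ - b| ≠ 0 := by
    refine mul_ne_zero ?_ ?_
    · exact abs_ne_zero.2 (sub_ne_zero.2 fun h => ha (h ▸ hθ))
    · exact abs_ne_zero.2 (sub_ne_zero.2 fun h => hb (h ▸ hθ))
  have : ContinuousAt (wab a b) θ := by
    unfold wab
    exact ContinuousAt.div continuousAt_const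
      ((continuousAt_id.sub continuousAt_const).abs.mul
        (continuousAt_id.sub continuousAt_const).abs) h1
  exact this.continuousWithinAt

theorem continuousOn_om {c s t : ℝ} {τ : ℕ} (hc : c ∉ Icc s t) :
    ContinuousOn (om c τ) (Icc s t) := by
  intro θ hθ
  have h1 : |θ - c| ^ τ ≠ 0 :=
    pow_ne_zero _ (abs_ne_zero.2 (sub_ne_zero.2 fun h => hc (h ▸ hθ)))
  have : ContinuousAt (om c τ) θ := by
    unfold om
    exact ContinuousAt.div continuousAt_const
      ((continuousAt_id.sub continuousAt_const).abs.pow τ) h1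
  exact this.continuousWithinAt

theorem continuousOn_dalf {a b s t : ℝ} (ha : a ∉ Icc s t) (hb : b ∉ Icc s t) :
    ContinuousOn (dalf a b) (Icc s t) := by
  intro θ hθ
  have h1 : (θ - a) * (θ - b) ≠ 0 := by
    refine mul_ne_zero ?_ ?_
    · exact sub_ne_zero.2 fun h => ha (h ▸ hθ)
    · exact sub_ne_zero.2 fun h => hb (h ▸ hθ)
  have : ContinuousAt (dalf a b) θ := by
    unfold dalf
    exact ContinuousAt.div continuousAt_const
      ((continuousAt_id.sub continuousAt_const).mul
        (continuousAt_id.sub continuousAt_const)) h1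
  exact this.continuousWithinAt

theorem hasDerivAt_alf {a b θ : ℝ} (ha : θ ≠ a) (hb : θ ≠ b) :
    HasDerivAt (alf a b) (dalf a b θ) θ := by
  have h1 : θ - a ≠ 0 := sub_ne_zero.2 ha
  have h2 : θ - b ≠ 0 := sub_ne_zero.2 hb
  have d1 : HasDerivAt (fun x : ℝ => Real.log (x - a)) (1 / (θ - a)) θ :=
    ((hasDerivAt_id θ).sub_const a).log h1
  have d2 : HasDerivAt (fun x : ℝ => Real.log (x - b)) (1 / (θ - b)) θ :=
    ((hasDerivAt_id θ).sub_const b).log h2
  have := d1.sub d2
  have e : 1 / (θ - a) - 1 / (θ - b) = dalf a b θ := by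
    unfold dalf
    field_simp
    ring
  rw [e] at this
  exact this

/-- sign of the derivative is constant on an interval avoiding `a, b` -/
theorem dalf_sign {a b s t : ℝ} (hab : a ≠ b) (ha : a ∉ Icc s t) (hb : b ∉ Icc s t) :
    (∀ θ ∈ Icc s t, 0 < dalf a b θ) ∨ (∀ θ ∈ Icc s t, dalf a b θ < 0) := by
  rcases le_or_gt s t with hst | hst
  swap
  · left; intro θ hθ; exact absurd hst (not_lt.2 (hθ.1.trans hθ.2))
  simp only [mem_Icc, not_and_or, not_le] at ha hb
  unfold dalf
  have key : ∀ θ ∈ Icc s t, (0 < θ - a ↔ 0 < s - a) ∧ (0 < θ - b ↔ 0 < s - b) := by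
    intro θ hθ
    constructor
    · rcases ha with ha | ha
      · exact ⟨fun _ => by linarith, fun _ => by linarith [hθ.1]⟩
      · exact ⟨fun h => by linarith [hθ.2], fun h => by linarith⟩
    · rcases hb with hb | hb
      · exact ⟨fun _ => by linarith, fun _ => by linarith [hθ.1]⟩
      · exact ⟨fun h => by linarith [hθ.2], fun h => by linarith⟩
  rcases lt_or_gt_of_ne hab with hlt | hlt
  · -- a < b, numerator negative
    rcases ha with ha | ha
    · rcases hb with hb | hb
      · right; intro θ hθ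
        exact div_neg_of_neg_of_pos (by linarith)
          (mul_pos (by linarith [hθ.1]) (by linarith [hθ.1]))
      · left; intro θ hθ
        exact div_pos_of_neg_of_neg (by linarith)
          (mul_neg_of_pos_of_neg (by linarith [hθ.1]) (by linarith [hθ.2]))
    · rcases hb with hb | hb
      · exfalso; linarith
      · right; intro θ hθ
        exact div_neg_of_neg_of_pos (by linarith)
          (mul_pos_of_neg_of_neg (by linarith [hθ.2]) (by linarith [hθ.2]))
  · rcases ha with ha | ha
    · rcases hb with hb | hb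
      · left; intro θ hθ
        exact div_pos (by linarith) (mul_pos (by linarith [hθ.1]) (by linarith [hθ.1]))
      · exfalso; linarith
    · rcases hb with hb | hb
      · right; intro θ hθ
        exact div_neg_of_pos_of_neg (by linarith)
          (mul_neg_of_neg_of_pos (by linarith [hθ.2]) (by linarith [hθ.1]))
      · left; intro θ hθ
        exact div_pos (by linarith)
          (mul_pos_of_neg_of_neg (by linarith [hθ.2]) (by linarith [hθ.2]))



theorem integral_dalf {a b s t : ℝ} (hst : s ≤ t) (ha : a ∉ Icc s t) (hb : b ∉ Icc s t) :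
    ∫ θ in s..t, dalf a b θ = alf a b t - alf a b s := by
  apply intervalIntegral.integral_eq_sub_of_hasDerivAt
  · intro θ hθ
    rw [uIcc_of_le hst] at hθ
    exact hasDerivAt_alf (fun h => ha (h ▸ hθ)) (fun h => hb (h ▸ hθ))
  · apply ContinuousOn.intervalIntegrable
    rw [uIcc_of_le hst]
    exact continuousOn_dalf ha hb

/-- the mass of an interval is the variation of `α` -/
theorem integral_wab {a b s t : ℝ} (hst : s ≤ t) (ha : a ∉ Icc s t) (hb : b ∉ Icc s t) :
    ∫ θ in s..t, wab a b θ = |alf a b t - alf a b s| := by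
  by_cases hab : a = b
  · subst hab
    simp [wab, alf]
  rw [← integral_dalf hst ha hb]
  rcases dalf_sign hab ha hb with h | h
  · have e : ∫ θ in s..t, wab a b θ = ∫ θ in s..t, dalf a b θ := by
      apply intervalIntegral.integral_congr
      intro θ hθ
      rw [uIcc_of_le hst] at hθ
      show wab a b θ = dalf a b θ
      rw [wab_eq_abs, abs_of_pos (h θ hθ)]
    rw [e, abs_of_nonneg]
    rw [← e]
    exact intervalIntegral.integral_nonneg hst fun θ _ => wab_nonneg a b θ
  · have e : ∫ θ in s..t, wab a b θ = - ∫ θ in s..t, dalf a b θ := by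
      rw [← intervalIntegral.integral_neg]
      apply intervalIntegral.integral_congr
      intro θ hθ
      rw [uIcc_of_le hst] at hθ
      show wab a b θ = - dalf a b θ
      rw [wab_eq_abs, abs_of_neg (h θ hθ)]
    rw [e, ← abs_neg, abs_of_nonneg]
    rw [← e]
    exact intervalIntegral.integral_nonneg hst fun θ _ => wab_nonneg a b θ

theorem intervalIntegrable_wab {a b s t : ℝ} (hst : s ≤ t) (ha : a ∉ Icc s t)
    (hb : b ∉ Icc s t) : IntervalIntegrable (wab a b) volume s t := by
  apply ContinuousOn.intervalIntegrable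
  rw [uIcc_of_le hst]
  exact continuousOn_wab ha hb

theorem intervalIntegrable_om {c s t : ℝ} {τ : ℕ} (hst : s ≤ t) (hc : c ∉ Icc s t) :
    IntervalIntegrable (om c τ) volume s t := by
  apply ContinuousOn.intervalIntegrable
  rw [uIcc_of_le hst]
  exact continuousOn_om hc

/-- comparison of masses -/
theorem mass_compare {a b c s t u v K : ℝ} {τ : ℕ} (huv : u ≤ v) (hsu : s ≤ u) (hvt : v ≤ t)
    (ha : a ∉ Icc s t) (hb : b ∉ Icc s t) (hc : c ∉ Icc s t)
    (h : ∀ θ ∈ Icc s t, K * om c τ θ ≤ wab a b θ ∧ wab a b θ ≤ 2 * K * om c τ θ) :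
    K * (∫ θ in u..v, om c τ θ) ≤ ∫ θ in u..v, wab a b θ ∧
      ∫ θ in u..v, wab a b θ ≤ 2 * K * (∫ θ in u..v, om c τ θ) := by
  have hsub : Icc u v ⊆ Icc s t := Icc_subset_Icc hsu hvt
  have ia := intervalIntegrable_wab (a := a) (b := b) huv (fun h => ha (hsub h))
    (fun h => hb (hsub h))
  have io := intervalIntegrable_om (c := c) (τ := τ) huv (fun h => hc (hsub h))
  constructor
  · rw [← intervalIntegral.integral_const_mul]
    exact intervalIntegral.integral_mono_on huv (io.const_mul K) ia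
      fun θ hθ => (h θ (hsub hθ)).1
  · rw [← intervalIntegral.integral_const_mul]
    exact intervalIntegral.integral_mono_on huv ia (io.const_mul (2 * K))
      fun θ hθ => (h θ (hsub hθ)).2


/-! ### closed forms of the masses of `ω_{c,τ}` (the same formulas as `om1`, `om2` in HSys.lean) -/

theorem integral_om_one {c s t : ℝ} (hst : s ≤ t) (hc : c ∉ Icc s t) :
    ∫ θ in s..t, om c 1 θ = abs (Real.log (abs (t - c)) - Real.log (abs (s - c))) := by
  have hd : ∀ θ ∈ Icc s t, HasDerivAt (fun x : ℝ => Real.log (x - c)) (1 / (θ - c)) θ := by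
    intro θ hθ
    have h1 : θ - c ≠ 0 := sub_ne_zero.2 fun h => hc (h ▸ hθ)
    exact ((hasDerivAt_id θ).sub_const c).log h1
  have hcont : ContinuousOn (fun θ : ℝ => 1 / (θ - c)) (uIcc s t) := by
    rw [uIcc_of_le hst]
    intro θ hθ
    have h1 : θ - c ≠ 0 := sub_ne_zero.2 fun h => hc (h ▸ hθ)
    exact (ContinuousAt.div continuousAt_const (continuousAt_id.sub continuousAt_const)
      h1).continuousWithinAt
  have hint : ∫ θ in s..t, 1 / (θ - c) = Real.log (t - c) - Real.log (s - c) := by
    apply intervalIntegral.integral_eq_sub_of_hasDerivAt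
    · intro θ hθ
      rw [uIcc_of_le hst] at hθ
      exact hd θ hθ
    · exact hcont.intervalIntegrable
  rw [Real.log_abs, Real.log_abs, ← hint]
  have hc' := hc
  simp only [mem_Icc, not_and_or, not_le] at hc'
  rcases hc' with h | h
  · have e : ∫ θ in s..t, om c 1 θ = ∫ θ in s..t, 1 / (θ - c) := by
      apply intervalIntegral.integral_congr
      intro θ hθ
      rw [uIcc_of_le hst] at hθ
      show om c 1 θ = 1 / (θ - c)
      unfold om
      rw [pow_one, abs_of_pos (by linarith [hθ.1])]
    rw [← e, abs_of_nonneg]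
    exact intervalIntegral.integral_nonneg hst fun θ _ => om_nonneg c 1 θ
  · have e : ∫ θ in s..t, om c 1 θ = - ∫ θ in s..t, 1 / (θ - c) := by
      rw [← intervalIntegral.integral_neg]
      apply intervalIntegral.integral_congr
      intro θ hθ
      rw [uIcc_of_le hst] at hθ
      show om c 1 θ = - (1 / (θ - c))
      unfold om
      rw [pow_one, abs_of_neg (by linarith [hθ.2]), div_neg]
    rw [← abs_neg, ← e, abs_of_nonneg]
    exact intervalIntegral.integral_nonneg hst fun θ _ => om_nonneg c 1 θ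

theorem integral_om_two {c s t : ℝ} (hst : s ≤ t) (hc : c ∉ Icc s t) :
    ∫ θ in s..t, om c 2 θ = |1 / (s - c) - 1 / (t - c)| := by
  have hd : ∀ θ ∈ Icc s t, HasDerivAt (fun x : ℝ => - (1 / (x - c))) (1 / |θ - c| ^ 2) θ := by
    intro θ hθ
    have h1 : θ - c ≠ 0 := sub_ne_zero.2 fun h => hc (h ▸ hθ)
    have h2 := (((hasDerivAt_id θ).sub_const c).inv h1).neg
    have h3 : (fun x : ℝ => - (1 / (x - c))) = -(fun y : ℝ => id y - c)⁻¹ := by
      funext x
      simp [one_div]
    rw [h3]
    have h4 : (1 : ℝ) / |θ - c| ^ 2 = - (-1 / (id θ - c) ^ 2) := by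
      rw [sq_abs, neg_div, neg_neg]
      rfl
    rw [h4]
    exact h2
  have hcont : ContinuousOn (fun θ : ℝ => 1 / |θ - c| ^ 2) (uIcc s t) := by
    rw [uIcc_of_le hst]
    exact continuousOn_om hc
  have hint : ∫ θ in s..t, om c 2 θ = - (1 / (t - c)) - - (1 / (s - c)) := by
    show ∫ θ in s..t, 1 / |θ - c| ^ 2 = _
    apply intervalIntegral.integral_eq_sub_of_hasDerivAt
    · intro θ hθ
      rw [uIcc_of_le hst] at hθ
      exact hd θ hθ
    · exact hcont.intervalIntegrable
  have h5 : 0 ≤ ∫ θ in s..t, om c 2 θ :=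
    intervalIntegral.integral_nonneg hst fun θ _ => om_nonneg c 2 θ
  have h6 : 1 / (s - c) - 1 / (t - c) = - (1 / (t - c)) - - (1 / (s - c)) := by ring
  rw [h6, ← hint, abs_of_nonneg h5]

end Crest.Agent.R51.Wab
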