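import Crest.Agent.R51.WinDefs

-- ▼ part R51/LacBase
section

/-!
# Row 51, section B7 (7.1): windows, children, dominating windows — counting

`IsWin C J`: `J = (J.1, J.2)` is a pair of consecutive elements of the finite set of cuts `C`.
`kids C K`: windows of `C` inside `K`.  `DomF C B t F K J`: `J` is interior (at least `B` cuts of
`C` inside `K` on each side) and each of the two blocks of `B` windows next to `J` has `F`-length
`< t` times the `F`-length of `J` (`F` = antiderivative of the weight).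
-/

set_option autoImplicit false

noncomputable section

open Classical

namespace Crest.Agent.R51.Lac

lemma win_or {C : Finset ℝ} {J : ℝ × ℝ} (h : IsWin C J) : ∀ x ∈ C, x ≤ J.1 ∨ J.2 ≤ x := by
  intro x hx
  by_contra hcon
  push Not at hcon
  exact h.2.2.2 x hx hcon

lemma isWin_of_or {C : Finset ℝ} {J : ℝ × ℝ} (h1 : J.1 ∈ C) (h2 : J.2 ∈ C) (h3 : J.1 < J.2)
    (h : ∀ x ∈ C, x ≤ J.1 ∨ J.2 ≤ x) : IsWin C J := by
  refine ⟨h1, h2, h3, ?_⟩
  rintro x hx ⟨h4, h5⟩
  rcases h x hx with h | h <;> linarith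

/-- windows of `C` inside `K` -/
def kids (C : Finset ℝ) (K : ℝ × ℝ) : Finset (ℝ × ℝ) :=
  (wins C).filter (fun J => K.1 ≤ J.1 ∧ J.2 ≤ K.2)

lemma mem_kids {C : Finset ℝ} {K J : ℝ × ℝ} :
    J ∈ kids C K ↔ IsWin C J ∧ K.1 ≤ J.1 ∧ J.2 ≤ K.2 := by
  unfold kids
  rw [Finset.mem_filter, mem_wins]

lemma win_disj {C : Finset ℝ} {J J' : ℝ × ℝ} (h : IsWin C J) (h' : IsWin C J')
    (hne : J ≠ J') : J.2 ≤ J'.1 ∨ J'.2 ≤ J.1 := by
  have h4 := win_or h
  have h4' := win_or h'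
  obtain ⟨h1, h2, h3, _⟩ := h
  obtain ⟨h1', h2', h3', _⟩ := h'
  by_contra hcon
  push Not at hcon
  apply hne
  have a1 := h4 J'.1 h1'
  have a2 := h4' J.1 h1
  have a3 := h4 J'.2 h2'
  have a4 := h4' J.2 h2
  have e1 : J.1 = J'.1 := by
    rcases a1 with a1 | a1
    · rcases a2 with a2 | a2
      · exact le_antisymm a2 a1
      · linarith
    · linarith
  have e2 : J.2 = J'.2 := by
    rcases a3 with a3 | a3
    · linarith
    · rcases a4 with a4 | a4
      · linarith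
      · exact le_antisymm a3 a4
  exact Prod.ext e1 e2

/-- the number of cuts in `[u, v)` -/
def cntL (C : Finset ℝ) (u v : ℝ) : ℕ := (C.filter (fun x => u ≤ x ∧ x < v)).card

/-- the number of cuts in `(u, v]` -/
def cntR (C : Finset ℝ) (u v : ℝ) : ℕ := (C.filter (fun x => u < x ∧ x ≤ v)).card

/-- at least `B` windows of `C` on each side of `J` inside `K` -/
def Interior (C : Finset ℝ) (B : ℕ) (K J : ℝ × ℝ) : Prop :=
  B ≤ cntL C K.1 J.1 ∧ B ≤ cntR C J.2 K.2

/-- dominating, in terms of the antiderivative `F` of the weight -/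
def DomF (C : Finset ℝ) (B : ℕ) (t : ℝ) (F : ℝ → ℝ) (K J : ℝ × ℝ) : Prop :=
  Interior C B K J ∧
  (∀ l ∈ C, cntL C l J.1 = B → F J.1 - F l < t * (F J.2 - F J.1)) ∧
  (∀ r ∈ C, cntR C J.2 r = B → F r - F J.2 < t * (F J.2 - F J.1))

/-- reflected cuts -/
def neg (C : Finset ℝ) : Finset ℝ := C.image (fun x => -x)

lemma mem_neg {C : Finset ℝ} {x : ℝ} : x ∈ neg C ↔ -x ∈ C := by
  unfold neg
  rw [Finset.mem_image]
  constructor
  · rintro ⟨y, hy, rfl⟩
    simpa using hy
  · intro h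
    exact ⟨-x, h, by simp⟩

lemma cntL_neg (C : Finset ℝ) (u v : ℝ) : cntL (neg C) (-v) (-u) = cntR C u v := by
  unfold cntL cntR
  refine Finset.card_bij' (fun x _ => -x) (fun x _ => -x) ?_ ?_ ?_ ?_
  · intro x hx
    simp only [Finset.mem_filter, mem_neg] at hx ⊢
    exact ⟨hx.1, by linarith [hx.2.2], by linarith [hx.2.1]⟩
  · intro x hx
    simp only [Finset.mem_filter, mem_neg, neg_neg] at hx ⊢
    exact ⟨hx.1, by linarith [hx.2.2], by linarith [hx.2.1]⟩
  · intro x _; simp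
  · intro x _; simp

lemma isWin_neg {C : Finset ℝ} {J : ℝ × ℝ} (h : IsWin C J) : IsWin (neg C) (-J.2, -J.1) := by
  have h4 := win_or h
  obtain ⟨h1, h2, h3, _⟩ := h
  refine isWin_of_or (by simpa [mem_neg] using h2) (by simpa [mem_neg] using h1)
    (by simpa using h3) ?_
  intro x hx
  rcases h4 _ (mem_neg.1 hx) with h | h
  · right; simp only; linarith
  · left; simp only; linarith

/-! ### The sum lemma -/

lemma sum_le_of_mono {C : Finset ℝ} (F : ℝ → ℝ) (a : ℝ) (S : Finset (ℝ × ℝ)) :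
    ∀ b : ℝ, a ≤ b → (∀ J ∈ S, IsWin C J) → (∀ J ∈ S, a ≤ J.1 ∧ J.2 ≤ b) →
      MonotoneOn F (Set.Icc a b) → ∑ J ∈ S, (F J.2 - F J.1) ≤ F b - F a := by
  refine Finset.induction_on_max_value (fun J : ℝ × ℝ => J.1) S ?_ ?_
  · intro b hab _ _ hF
    simp only [Finset.sum_empty, sub_nonneg]
    exact hF ⟨le_refl _, hab⟩ ⟨hab, le_refl _⟩ hab
  · intro J₀ s hJ₀ hmax ih b hab hwin hin hF
    rw [Finset.sum_insert hJ₀]
    have hJw := hwin J₀ (Finset.mem_insert_self _ _)
    have hJi := hin J₀ (Finset.mem_insert_self _ _)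
    have hlt := hJw.2.2.1
    have h1 : ∑ J ∈ s, (F J.2 - F J.1) ≤ F J₀.1 - F a := by
      apply ih J₀.1 hJi.1 (fun J hJ => hwin J (Finset.mem_insert_of_mem hJ))
      · intro J hJ
        refine ⟨(hin J (Finset.mem_insert_of_mem hJ)).1, ?_⟩
        have hne : J ≠ J₀ := fun h => hJ₀ (h ▸ hJ)
        rcases win_disj (hwin J (Finset.mem_insert_of_mem hJ)) hJw hne with h | h
        · exact h
        · have := hmax J hJ
          have := (hwin J (Finset.mem_insert_of_mem hJ)).2.2.1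
          linarith
      · exact hF.mono (Set.Icc_subset_Icc_right (by linarith))
    have h2 : F J₀.2 ≤ F b :=
      hF ⟨by linarith, by linarith⟩ ⟨hab, le_refl _⟩ hJi.2
    linarith

/-! ### Counting cuts -/

lemma cntL_add {C : Finset ℝ} {u v w : ℝ} (h1 : u ≤ v) (h2 : v ≤ w) :
    cntL C u w = cntL C u v + cntL C v w := by
  unfold cntL
  rw [← Finset.card_union_of_disjoint]
  · congr 1
    ext x
    simp only [Finset.mem_filter, Finset.mem_union]
    constructor
    · rintro ⟨hx, hx1, hx2⟩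
      rcases lt_or_ge x v with h | h
      · exact Or.inl ⟨hx, hx1, h⟩
      · exact Or.inr ⟨hx, h, hx2⟩
    · rintro (⟨hx, hx1, hx2⟩ | ⟨hx, hx1, hx2⟩)
      · exact ⟨hx, hx1, by linarith⟩
      · exact ⟨hx, by linarith, hx2⟩
  · rw [Finset.disjoint_left]
    intro x hx hx'
    simp only [Finset.mem_filter] at hx hx'
    linarith [hx.2.2, hx'.2.1]

lemma cntL_pos {C : Finset ℝ} {u v : ℝ} (hu : u ∈ C) (h : u < v) : 1 ≤ cntL C u v := by
  unfold cntL
  exact Finset.card_pos.2 ⟨u, Finset.mem_filter.2 ⟨hu, le_refl _, h⟩⟩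

lemma exists_card_ge (A : Finset ℝ) : ∀ B : ℕ, 1 ≤ B → B ≤ A.card →
    ∃ l ∈ A, (A.filter (fun x => l ≤ x)).card = B := by
  refine Finset.induction_on_min A ?_ ?_
  · intro B h1 h2
    simp at h2
    omega
  · intro a s ha ih B h1 h2
    have has : a ∉ s := fun h => lt_irrefl _ (ha a h)
    rw [Finset.card_insert_of_notMem has] at h2
    rcases Nat.lt_or_ge s.card B with h | h
    · have hB : B = s.card + 1 := by omega
      refine ⟨a, Finset.mem_insert_self _ _, ?_⟩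
      rw [Finset.filter_true_of_mem, Finset.card_insert_of_notMem has, hB]
      intro x hx
      rcases Finset.mem_insert.1 hx with rfl | hx
      · exact le_refl _
      · exact (ha x hx).le
    · obtain ⟨l, hl, hcard⟩ := ih B h1 h
      refine ⟨l, Finset.mem_insert_of_mem hl, ?_⟩
      rw [Finset.filter_insert, if_neg (not_le.2 (ha l hl))]
      exact hcard

lemma exists_left {C : Finset ℝ} {B : ℕ} {u v : ℝ} (hB : 1 ≤ B) (h : B ≤ cntL C u v) :
    ∃ l ∈ C, u ≤ l ∧ l < v ∧ cntL C l v = B := by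
  obtain ⟨l, hl, hc⟩ := exists_card_ge (C.filter (fun x => u ≤ x ∧ x < v)) B hB h
  rw [Finset.mem_filter] at hl
  refine ⟨l, hl.1, hl.2.1, hl.2.2, ?_⟩
  rw [← hc, Finset.filter_filter]
  unfold cntL
  congr 1
  ext x
  simp only [Finset.mem_filter]
  constructor
  · rintro ⟨hx, h1, h2⟩
    exact ⟨hx, ⟨le_trans hl.2.1 h1, h2⟩, h1⟩
  · rintro ⟨hx, ⟨_, h2⟩, h3⟩
    exact ⟨hx, h3, h2⟩

lemma exists_right {C : Finset ℝ} {B : ℕ} {u v : ℝ} (hB : 1 ≤ B) (h : B ≤ cntR C u v) :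
    ∃ r ∈ C, u < r ∧ r ≤ v ∧ cntR C u r = B := by
  rw [← cntL_neg] at h
  obtain ⟨l, hl, h1, h2, h3⟩ := exists_left hB h
  refine ⟨-l, mem_neg.1 hl, by linarith, by linarith, ?_⟩
  rw [← cntL_neg, neg_neg]
  exact h3

lemma exists_win_right {C : Finset ℝ} {x z : ℝ} (hx : x ∈ C) (hz : z ∈ C) (h : x < z) :
    ∃ y, IsWin C (x, y) ∧ y ≤ z := by
  have hne : (C.filter (fun y => x < y)).Nonempty := ⟨z, Finset.mem_filter.2 ⟨hz, h⟩⟩
  have hm := Finset.min'_mem _ hne
  rw [Finset.mem_filter] at hm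
  refine ⟨(C.filter (fun y => x < y)).min' hne, isWin_of_or hx hm.1 hm.2 ?_, ?_⟩
  · intro w hw
    rcases le_or_gt w x with h' | h'
    · exact Or.inl h'
    · exact Or.inr (Finset.min'_le _ _ (Finset.mem_filter.2 ⟨hw, h'⟩))
  · exact Finset.min'_le _ _ (Finset.mem_filter.2 ⟨hz, h⟩)

/-- the index of a child is smaller than the number of children -/
lemma cntL_lt_card_kids {C : Finset ℝ} {K J : ℝ × ℝ} (hJ : J ∈ kids C K) :
    cntL C K.1 J.1 < (kids C K).card := by
  have hJ' := mem_kids.1 hJ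
  have key : ∀ x ∈ C.filter (fun x => K.1 ≤ x ∧ x < J.1), ∃ y, IsWin C (x, y) ∧ y ≤ J.1 := by
    intro x hx
    rw [Finset.mem_filter] at hx
    exact exists_win_right hx.1 hJ'.1.1 hx.2.2
  choose! y hy using key
  have hsub : (insert J ((C.filter (fun x => K.1 ≤ x ∧ x < J.1)).image (fun x => (x, y x))))
      ⊆ kids C K := by
    intro I hI
    rcases Finset.mem_insert.1 hI with rfl | hI
    · exact hJ
    · obtain ⟨x, hx, rfl⟩ := Finset.mem_image.1 hI
      have h1 := hy x hx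
      rw [Finset.mem_filter] at hx
      rw [mem_kids]
      exact ⟨h1.1, hx.2.1, by linarith [h1.2, hJ'.2.2, hJ'.1.2.2.1]⟩
  have hcard := Finset.card_le_card hsub
  rw [Finset.card_insert_of_notMem, Finset.card_image_of_injective] at hcard
  · unfold cntL
    omega
  · intro x x' h
    exact (Prod.ext_iff.1 h).1
  · intro h
    obtain ⟨x, hx, h2⟩ := Finset.mem_image.1 h
    rw [Finset.mem_filter] at hx
    have : x = J.1 := (Prod.ext_iff.1 h2).1
    linarith [hx.2.2]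

lemma cntL_inj_kids {C : Finset ℝ} {K J J' : ℝ × ℝ} (hJ : J ∈ kids C K) (hJ' : J' ∈ kids C K)
    (h : cntL C K.1 J.1 = cntL C K.1 J'.1) : J = J' := by
  have key : ∀ I I' : ℝ × ℝ, I ∈ kids C K → I' ∈ kids C K → I.2 ≤ I'.1 →
      cntL C K.1 I.1 < cntL C K.1 I'.1 := by
    intro I I' hI hI' h2
    rw [mem_kids] at hI hI'
    have h3 : I.1 < I'.1 := lt_of_lt_of_le hI.1.2.2.1 h2
    rw [cntL_add hI.2.1 h3.le]
    have := cntL_pos hI.1.1 h3
    omega
  by_contra hne
  rcases win_disj (mem_kids.1 hJ).1 (mem_kids.1 hJ').1 hne with h1 | h1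
  · have := key J J' hJ hJ' h1
    omega
  · have := key J' J hJ' hJ h1
    omega

/-- children with fewer than `B` windows on the left -/
lemma card_left_lt {C : Finset ℝ} (B : ℕ) (K : ℝ × ℝ) :
    ((kids C K).filter (fun J => cntL C K.1 J.1 < B)).card ≤ B := by
  have : ((kids C K).filter (fun J => cntL C K.1 J.1 < B)).card ≤ (Finset.range B).card := by
    apply Finset.card_le_card_of_injOn (fun J => cntL C K.1 J.1)
    · intro J hJ
      have hJ' := Finset.mem_coe.1 hJ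
      rw [Finset.mem_filter] at hJ'
      simpa using hJ'.2
    · intro J hJ J' hJ' h
      have h1 := Finset.mem_coe.1 hJ
      have h2 := Finset.mem_coe.1 hJ'
      rw [Finset.mem_filter] at h1 h2
      exact cntL_inj_kids h1.1 h2.1 h
  simpa using this

lemma kids_neg {C : Finset ℝ} {K J : ℝ × ℝ} (h : J ∈ kids C K) :
    (-J.2, -J.1) ∈ kids (neg C) (-K.2, -K.1) := by
  rw [mem_kids] at h ⊢
  exact ⟨isWin_neg h.1, by simpa using h.2.2, by simpa using h.2.1⟩

lemma card_right_lt {C : Finset ℝ} (B : ℕ) (K : ℝ × ℝ) :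
    ((kids C K).filter (fun J => cntR C J.2 K.2 < B)).card ≤ B := by
  refine le_trans ?_ (card_left_lt (C := neg C) B (-K.2, -K.1))
  apply Finset.card_le_card_of_injOn (fun J => (-J.2, -J.1))
  · intro J hJ
    have hJ' := Finset.mem_coe.1 hJ
    rw [Finset.mem_filter] at hJ'
    apply Finset.mem_coe.2
    rw [Finset.mem_filter]
    refine ⟨kids_neg hJ'.1, ?_⟩
    simp only
    rw [cntL_neg]
    exact hJ'.2
  · intro J _ J' _ h
    have h' := Prod.ext_iff.1 h
    simp only at h'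
    exact Prod.ext (neg_injective h'.2) (neg_injective h'.1)

/-- **7.1, non-interior children** -/
theorem card_not_interior {C : Finset ℝ} (B : ℕ) (K : ℝ × ℝ) :
    ((kids C K).filter (fun J => ¬ Interior C B K J)).card ≤ 2 * B := by
  have h : (kids C K).filter (fun J => ¬ Interior C B K J) ⊆
      ((kids C K).filter (fun J => cntL C K.1 J.1 < B)) ∪
      ((kids C K).filter (fun J => cntR C J.2 K.2 < B)) := by
    intro J hJ
    rw [Finset.mem_filter] at hJ
    rw [Finset.mem_union, Finset.mem_filter, Finset.mem_filter]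
    by_cases h1 : cntL C K.1 J.1 < B
    · exact Or.inl ⟨hJ.1, h1⟩
    · by_cases h2 : cntR C J.2 K.2 < B
      · exact Or.inr ⟨hJ.1, h2⟩
      · exact absurd ⟨not_lt.1 h1, not_lt.1 h2⟩ hJ.2
  have h2 := Finset.card_le_card h
  have h3 := Finset.card_union_le ((kids C K).filter (fun J => cntL C K.1 J.1 < B))
    ((kids C K).filter (fun J => cntR C J.2 K.2 < B))
  have h4 := card_left_lt (C := C) B K
  have h5 := card_right_lt (C := C) B K
  omega

/-- one-sided count in a run -/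
lemma card_side {C : Finset ℝ} {B : ℕ} {t : ℝ} {F : ℝ → ℝ} {K : ℝ × ℝ}
    (hB : 1 ≤ B) (hF : StrictMonoOn F (Set.Icc K.1 K.2)) {J₀ : ℝ × ℝ} (hJ₀ : J₀ ∈ kids C K)
    (hL : B ≤ cntL C K.1 J₀.1)
    (hdom : ∀ l ∈ C, cntL C l J₀.1 = B → F J₀.1 - F l < t * (F J₀.2 - F J₀.1))
    (S : Finset (ℝ × ℝ)) (hS : ∀ J ∈ S, J ∈ kids C K ∧ J.2 ≤ J₀.1 ∧
      cntL C K.1 J₀.1 < cntL C K.1 J.1 + B ∧ F J₀.2 - F J₀.1 ≤ F J.2 - F J.1) :
    (S.card : ℝ) ≤ t := by
  have hJ₀' := mem_kids.1 hJ₀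
  have hJ0lt := hJ₀'.1.2.2.1
  have hm : 0 < F J₀.2 - F J₀.1 := by
    rw [sub_pos]
    exact hF ⟨hJ₀'.2.1, by linarith [hJ₀'.2.2]⟩ ⟨by linarith [hJ₀'.2.1], hJ₀'.2.2⟩ hJ0lt
  obtain ⟨l, hl, h1, h2, h3⟩ := exists_left hB hL
  have hsum : ∑ J ∈ S, (F J.2 - F J.1) ≤ F J₀.1 - F l := by
    apply sum_le_of_mono F l S J₀.1 h2.le (fun J hJ => (mem_kids.1 (hS J hJ).1).1)
    · intro J hJ
      obtain ⟨hk, hk2, hk3, _⟩ := hS J hJ
      refine ⟨?_, hk2⟩
      rw [mem_kids] at hk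
      by_contra hlt
      push Not at hlt
      have e1 := cntL_add (C := C) hk.2.1 (show J.1 ≤ J₀.1 by linarith [hk.1.2.2.1])
      have e2 : cntL C l J₀.1 + 1 ≤ cntL C J.1 J₀.1 := by
        rw [cntL_add (C := C) hlt.le h2.le]
        have := cntL_pos hk.1.1 hlt
        omega
      omega
    · exact (hF.monotoneOn).mono (Set.Icc_subset_Icc h1 (by linarith [hJ₀'.2.2]))
  have hlow : (S.card : ℝ) * (F J₀.2 - F J₀.1) ≤ ∑ J ∈ S, (F J.2 - F J.1) := by
    rw [← nsmul_eq_mul, ← Finset.sum_const]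
    exact Finset.sum_le_sum (fun J hJ => (hS J hJ).2.2.2)
  have hd := hdom l hl h3
  have : (S.card : ℝ) * (F J₀.2 - F J₀.1) < t * (F J₀.2 - F J₀.1) := by linarith
  exact (lt_of_mul_lt_mul_right this hm.le).le




lemma card_side_right {C : Finset ℝ} {B : ℕ} {t : ℝ} {F : ℝ → ℝ} {K : ℝ × ℝ}
    (hB : 1 ≤ B) (hF : StrictMonoOn F (Set.Icc K.1 K.2)) {J₀ : ℝ × ℝ} (hJ₀ : J₀ ∈ kids C K)
    (hR : B ≤ cntR C J₀.2 K.2)
    (hdom : ∀ r ∈ C, cntR C J₀.2 r = B → F r - F J₀.2 < t * (F J₀.2 - F J₀.1))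
    (S : Finset (ℝ × ℝ)) (hS : ∀ J ∈ S, J ∈ kids C K ∧ J₀.2 ≤ J.1 ∧
      cntR C J₀.2 K.2 < cntR C J.2 K.2 + B ∧ F J₀.2 - F J₀.1 ≤ F J.2 - F J.1) :
    (S.card : ℝ) ≤ t := by
  have hinj : Function.Injective (fun J : ℝ × ℝ => ((-J.2, -J.1) : ℝ × ℝ)) := by
    intro J J' h
    have h' := Prod.ext_iff.1 h
    simp only at h'
    exact Prod.ext (neg_injective h'.2) (neg_injective h'.1)
  rw [← Finset.card_image_of_injective S hinj]
  apply card_side (C := neg C) (B := B) (F := fun x => - F (-x)) (K := (-K.2, -K.1)) hB ?_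
    (kids_neg hJ₀) ?_ ?_
  · intro J hJ
    obtain ⟨I, hI, rfl⟩ := Finset.mem_image.1 hJ
    obtain ⟨h1, h2, h3, h4⟩ := hS I hI
    refine ⟨kids_neg h1, by simpa using h2, ?_, ?_⟩
    · simp only
      rw [cntL_neg, cntL_neg]
      exact h3
    · simp only [neg_neg]
      linarith
  · intro x hx y hy hxy
    simp only
    have h1 : F (-y) < F (-x) :=
      hF ⟨by linarith [hy.2], by linarith [hy.1]⟩ ⟨by linarith [hx.2], by linarith [hx.1]⟩
        (by linarith)
    linarith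
  · simp only
    rw [cntL_neg]
    exact hR
  · intro l hl hc
    simp only at hc ⊢
    have hl' := mem_neg.1 hl
    have h := hdom (-l) hl' (by rw [← cntL_neg, neg_neg]; exact hc)
    simp only [neg_neg]
    linarith

/-- **7.1, one run** of at most `B` consecutive children -/
theorem card_run {C : Finset ℝ} {B : ℕ} {t : ℝ} {F : ℝ → ℝ} {K : ℝ × ℝ} (ht : 0 ≤ t)
    (hB : 1 ≤ B) (hF : StrictMonoOn F (Set.Icc K.1 K.2)) (q : ℕ) :
    (((kids C K).filter (fun J => DomF C B t F K J ∧ cntL C K.1 J.1 / B = q)).card : ℝ)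
      ≤ 2 * t + 1 := by
  set S := (kids C K).filter (fun J => DomF C B t F K J ∧ cntL C K.1 J.1 / B = q) with hSdef
  rcases S.eq_empty_or_nonempty with hE | hne
  · rw [hE]
    simp
    linarith
  obtain ⟨J₀, hJ₀, hmin⟩ := Finset.exists_min_image S (fun J => F J.2 - F J.1) hne
  have hmem : ∀ J ∈ S, J ∈ kids C K ∧ DomF C B t F K J ∧ cntL C K.1 J.1 / B = q := by
    intro J hJ
    rw [hSdef, Finset.mem_filter] at hJ
    exact hJ
  obtain ⟨hk0, hd0, hq0⟩ := hmem J₀ hJ₀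
  have hidx : ∀ J ∈ S, cntL C K.1 J.1 < cntL C K.1 J₀.1 + B ∧
      cntL C K.1 J₀.1 < cntL C K.1 J.1 + B := by
    intro J hJ
    obtain ⟨_, _, hq⟩ := hmem J hJ
    have hBpos : 0 < B := hB
    have e1 := Nat.div_add_mod (cntL C K.1 J.1) B
    have e2 := Nat.div_add_mod (cntL C K.1 J₀.1) B
    have e3 := Nat.mod_lt (cntL C K.1 J.1) hBpos
    have e4 := Nat.mod_lt (cntL C K.1 J₀.1) hBpos
    rw [hq] at e1
    rw [hq0] at e2
    constructor <;> omega
  have hL : ((S.filter (fun J => J.2 ≤ J₀.1)).card : ℝ) ≤ t := by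
    apply card_side hB hF hk0 hd0.1.1 hd0.2.1
    intro J hJ
    rw [Finset.mem_filter] at hJ
    exact ⟨(hmem J hJ.1).1, hJ.2, (hidx J hJ.1).2, hmin J hJ.1⟩
  have hR : ((S.filter (fun J => J₀.2 ≤ J.1)).card : ℝ) ≤ t := by
    apply card_side_right hB hF hk0 hd0.1.2 hd0.2.2
    intro J hJ
    rw [Finset.mem_filter] at hJ
    have hkJ := (hmem J hJ.1).1
    refine ⟨hkJ, hJ.2, ?_, hmin J hJ.1⟩
    -- the count from the right
    have h0 := mem_kids.1 hk0
    have h1 := mem_kids.1 hkJ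
    have hlt0 := h0.1.2.2.1
    have hlt1 := h1.1.2.2.1
    have key : ∀ I : ℝ × ℝ, IsWin C I → K.1 ≤ I.1 → I.2 ≤ K.2 →
        cntL C K.1 I.1 + 1 + cntR C I.2 K.2 + 1 = (C.filter (fun x => K.1 ≤ x ∧ x ≤ K.2)).card := by
      intro I hI h1 h2
      have i4 := win_or hI
      obtain ⟨i1, i2, i3, _⟩ := hI
      have : C.filter (fun x => K.1 ≤ x ∧ x ≤ K.2) =
          insert I.1 (insert I.2 (C.filter (fun x => K.1 ≤ x ∧ x < I.1) ∪
            C.filter (fun x => I.2 < x ∧ x ≤ K.2))) := by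
        ext x
        simp only [Finset.mem_filter, Finset.mem_insert, Finset.mem_union]
        constructor
        · rintro ⟨hx, hx1, hx2⟩
          rcases i4 x hx with h | h
          · rcases eq_or_lt_of_le h with h | h
            · exact Or.inl h
            · exact Or.inr (Or.inr (Or.inl ⟨hx, hx1, h⟩))
          · rcases eq_or_lt_of_le h with h | h
            · exact Or.inr (Or.inl h.symm)
            · exact Or.inr (Or.inr (Or.inr ⟨hx, h, hx2⟩))
        · rintro (rfl | rfl | ⟨hx, hx1, hx2⟩ | ⟨hx, hx1, hx2⟩)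
          · exact ⟨i1, h1, by linarith⟩
          · exact ⟨i2, by linarith, h2⟩
          · exact ⟨hx, hx1, by linarith⟩
          · exact ⟨hx, by linarith, hx2⟩
      rw [this, Finset.card_insert_of_notMem, Finset.card_insert_of_notMem,
        Finset.card_union_of_disjoint]
      · unfold cntL cntR
        omega
      · rw [Finset.disjoint_left]
        intro x hx hx'
        simp only [Finset.mem_filter] at hx hx'
        linarith [hx.2.2, hx'.2.1]
      · intro h
        simp only [Finset.mem_union, Finset.mem_filter] at h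
        rcases h with h | h
        · linarith [h.2.2]
        · linarith [h.2.1]
      · intro h
        simp only [Finset.mem_insert, Finset.mem_union, Finset.mem_filter] at h
        rcases h with h | h | h
        · linarith
        · linarith [h.2.2]
        · linarith [h.2.1]
    have e1 := key J₀ h0.1 h0.2.1 h0.2.2
    have e2 := key J h1.1 h1.2.1 h1.2.2
    have e3 := (hidx J hJ.1).1
    omega
  have hcover : S ⊆ insert J₀ (S.filter (fun J => J.2 ≤ J₀.1) ∪ S.filter (fun J => J₀.2 ≤ J.1)) := by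
    intro J hJ
    by_cases hJ0 : J = J₀
    · rw [hJ0]; exact Finset.mem_insert_self _ _
    · apply Finset.mem_insert_of_mem
      rw [Finset.mem_union]
      rcases win_disj (mem_kids.1 (hmem J hJ).1).1 (mem_kids.1 hk0).1 hJ0 with h | h
      · exact Or.inl (Finset.mem_filter.2 ⟨hJ, h⟩)
      · exact Or.inr (Finset.mem_filter.2 ⟨hJ, h⟩)
  have h1 := Finset.card_le_card hcover
  have h2 := Finset.card_insert_le J₀
    (S.filter (fun J => J.2 ≤ J₀.1) ∪ S.filter (fun J => J₀.2 ≤ J.1))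
  have h3 := Finset.card_union_le (S.filter (fun J => J.2 ≤ J₀.1)) (S.filter (fun J => J₀.2 ≤ J.1))
  have h4 : (S.card : ℝ) ≤ (S.filter (fun J => J.2 ≤ J₀.1)).card +
      (S.filter (fun J => J₀.2 ≤ J.1)).card + 1 := by
    have : S.card ≤ (S.filter (fun J => J.2 ≤ J₀.1)).card +
      (S.filter (fun J => J₀.2 ≤ J.1)).card + 1 := by omega
    exact_mod_cast this
  linarith

/-- **7.1 (COUNT)**: a parent with `n` children has at most `(n/B+1)(2t+1)` dominating ones -/
theorem card_dom {C : Finset ℝ} {B : ℕ} {t : ℝ} {F : ℝ → ℝ} {K : ℝ × ℝ} (ht : 0 ≤ t)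
    (hB : 1 ≤ B) (hF : StrictMonoOn F (Set.Icc K.1 K.2)) {n : ℝ}
    (hn : ((kids C K).card : ℝ) ≤ n) :
    (((kids C K).filter (fun J => DomF C B t F K J)).card : ℝ) ≤ (n / B + 1) * (2 * t + 1) := by
  have hsub : (kids C K).filter (fun J => DomF C B t F K J) ⊆
      (Finset.range ((kids C K).card / B + 1)).biUnion
        (fun q => (kids C K).filter (fun J => DomF C B t F K J ∧ cntL C K.1 J.1 / B = q)) := by
    intro J hJ
    rw [Finset.mem_filter] at hJ
    rw [Finset.mem_biUnion]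
    refine ⟨cntL C K.1 J.1 / B, ?_, ?_⟩
    · rw [Finset.mem_range]
      have h := cntL_lt_card_kids hJ.1
      have : cntL C K.1 J.1 / B ≤ (kids C K).card / B := Nat.div_le_div_right h.le
      omega
    · rw [Finset.mem_filter]
      exact ⟨hJ.1, hJ.2, rfl⟩
  have h1 := (Finset.card_le_card hsub).trans Finset.card_biUnion_le
  have h2 : (((kids C K).filter (fun J => DomF C B t F K J)).card : ℝ) ≤
      ∑ q ∈ Finset.range ((kids C K).card / B + 1),
        (((kids C K).filter (fun J => DomF C B t F K J ∧ cntL C K.1 J.1 / B = q)).card : ℝ) := by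
    exact_mod_cast h1
  have h3 : ∑ q ∈ Finset.range ((kids C K).card / B + 1),
        (((kids C K).filter (fun J => DomF C B t F K J ∧ cntL C K.1 J.1 / B = q)).card : ℝ) ≤
      ∑ _q ∈ Finset.range ((kids C K).card / B + 1), (2 * t + 1) :=
    Finset.sum_le_sum (fun q _ => card_run ht hB hF q)
  rw [Finset.sum_const, Finset.card_range, nsmul_eq_mul] at h3
  refine h2.trans (h3.trans ?_)
  apply mul_le_mul_of_nonneg_right _ (by linarith)
  push_cast
  have h4 : (((kids C K).card / B : ℕ) : ℝ) ≤ ((kids C K).card : ℝ) / B := Nat.cast_div_le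
  have h5 : ((kids C K).card : ℝ) / B ≤ n / B := by
    apply div_le_div_of_nonneg_right hn
    positivity
  linarith

end Crest.Agent.R51.Lac
end
end

-- ▼ part R51/LacDefs

/-!
# Row 51, section B7: definitions (weights = interval integrals)

* `Dom C B t ω K J` : the child `J` (window of the cuts `C`) of the parent window `K` is
  `(ω,t)`-dominating: at least `B` cuts of `C` in `[K.1, J.1)` and in `(J.2, K.2]`, and each of the
  two blocks of `B` windows adjacent to `J` has `ω`-integral `< t ∫_J ω`;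
* `omg c τ θ = |θ - c|^(-τ)`;
* `Flag C B t K J` : `J` is not interior, or `(1,t)`-dominating;
* `DomAt cuts B t ω j J` : the level-`j` ancestor of `J` is `(ω,t)`-dominating in its parent;
* `Prb` : the windows `Prob_{c,τ}` of 7.3.
-/

set_option autoImplicit false

noncomputable section

open Classical

namespace Crest.Agent.R51.Lac

/-- `(ω,t)`-dominating -/
def Dom (C : Finset ℝ) (B : ℕ) (t : ℝ) (ω : ℝ → ℝ) (K J : ℝ × ℝ) : Prop :=
  Interior C B K J ∧
  (∀ l ∈ C, cntL C l J.1 = B → ∫ θ in l..J.1, ω θ < t * ∫ θ in J.1..J.2, ω θ) ∧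
  (∀ r ∈ C, cntR C J.2 r = B → ∫ θ in J.2..r, ω θ < t * ∫ θ in J.1..J.2, ω θ)

/-- the weight `|θ - c|^(-τ)` -/
def omg (c : ℝ) (τ : ℕ) (θ : ℝ) : ℝ := (|θ - c| ^ τ)⁻¹

/-- flagged child `J` of the parent `K` -/
def Flag (C : Finset ℝ) (B : ℕ) (t : ℝ) (K J : ℝ × ℝ) : Prop :=
  ¬ Interior C B K J ∨ Dom C B t (fun _ => 1) K J

/-- the level-`j` ancestor of `J` is `(ω,t)`-dominating in its parent -/
def DomAt (cuts : ℕ → Finset ℝ) (B : ℕ) (t : ℝ) (ω : ℝ → ℝ) (j : ℕ) (J : ℝ × ℝ) : Prop :=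
  ∃ K ∈ wins (cuts (j - 1)), ∃ J' ∈ kids (cuts j) K, J'.1 ≤ J.1 ∧ J.2 ≤ J'.2 ∧
    Dom (cuts j) B t ω K J'

/-- the level-`j` ancestor of `J` is flagged (in its parent) -/
def FlagAt (cuts : ℕ → Finset ℝ) (B : ℕ) (t : ℝ) (j : ℕ) (J : ℝ × ℝ) : Prop :=
  ∃ K ∈ wins (cuts (j - 1)), ∃ J' ∈ kids (cuts j) K, J'.1 ≤ J.1 ∧ J.2 ≤ J'.2 ∧
    Flag (cuts j) B t K J'

/-- the level-`n2` windows `Prob_{c,τ}`: at distance `≤ 17 Λ |J|` of `c`, and dominating for
`|θ-c|^(-τ)` at `9/10` of the levels of `(j1, n2]` -/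
def Prb (cuts : ℕ → Finset ℝ) (B : ℕ) (Λ : ℝ) (j1 n2 : ℕ) (c : ℝ) (τ : ℕ) (J : ℝ × ℝ) : Prop :=
  J ∈ wins (cuts n2) ∧ J.1 - 17 * Λ * (J.2 - J.1) ≤ c ∧ c ≤ J.2 + 17 * Λ * (J.2 - J.1) ∧
  9 * n2 ≤ 10 * ((Finset.Ioc j1 n2).filter
    (fun j => DomAt cuts B (4 * Λ) (omg c τ) j J)).card


end Crest.Agent.R51.Lac
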