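import Crest.Agent.R51.Level

/-!
# Row 51: monotonicity of `D^i(s,t)`, G3 (Lovász), G4, G5 (balance), reflection (note B2)
-/

set_option autoImplicit false

noncomputable section

open Classical

namespace Crest.Agent.R51

/-! ### Splitting windows -/

lemma pairsIn_split {P : Finset Pt} {s u t : ℝ} (hu : NonSlope P u) (hsu : s ≤ u) (hut : u ≤ t) :
    pairsIn P s t = pairsIn P s u ∪ pairsIn P u t := by
  ext e
  rw [Finset.mem_union, mem_pairsIn, mem_pairsIn, mem_pairsIn]
  constructor
  · rintro ⟨he, h1, h2⟩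
    rcases lt_trichotomy (esl e) u with h | h | h
    · exact Or.inl ⟨he, h1, h⟩
    · exact absurd h (hu e he)
    · exact Or.inr ⟨he, h, h2⟩
  · rintro (⟨he, h1, h2⟩ | ⟨he, h1, h2⟩)
    · exact ⟨he, h1, h2.trans_le hut⟩
    · exact ⟨he, hsu.trans_lt h1, h2⟩

lemma pairsIn_disj (P : Finset Pt) (s u t : ℝ) : Disjoint (pairsIn P s u) (pairsIn P u t) := by
  rw [Finset.disjoint_left]
  intro e h1 h2
  linarith [(mem_pairsIn.1 h1).2.2, (mem_pairsIn.1 h2).2.1]

lemma kE_split {P : Finset Pt} {i : ℕ} {s u t : ℝ} (hu : NonSlope P u) (hsu : s ≤ u)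
    (hut : u ≤ t) : kE P i s t = kE P i s u ∪ kE P i u t := by
  unfold kE
  rw [pairsIn_split hu hsu hut, Finset.filter_union]

lemma kE_disj (P : Finset Pt) (i : ℕ) (s u t : ℝ) : Disjoint (kE P i s u) (kE P i u t) :=
  Finset.disjoint_filter_filter (pairsIn_disj P s u t)



/-- The near-`b` edges are the disjoint union of the level classes `|i-k| ≤ b`. -/
lemma nearE_filter_card (P : Finset Pt) (k b : ℕ) (s t : ℝ) (Q : Edge → Prop)
    [DecidablePred Q] :
    ((nearE P k b s t).filter Q).card
      = ∑ i ∈ Finset.Icc (k - b) (k + b), ((kE P i s t).filter Q).card := by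
  rw [← Finset.card_biUnion]
  · congr 1
    ext e
    simp only [Finset.mem_filter, Finset.mem_biUnion, mem_nearE, mem_kE, Finset.mem_Icc, Near]
    constructor
    · rintro ⟨⟨h1, h2, h3, h4, h5⟩, h6⟩
      exact ⟨lv P e, ⟨by omega, h4⟩, ⟨h1, h2, h3, rfl⟩, h6⟩
    · rintro ⟨i, ⟨h1, h2⟩, ⟨h3, h4, h5, h6⟩, h7⟩
      exact ⟨⟨h3, h4, h5, by omega, by omega⟩, h7⟩
  · intro i _ j _ hij
    refine Finset.disjoint_left.2 ?_
    intro e h1 h2
    have h1' := (mem_kE.1 (Finset.mem_filter.1 h1).1).2.2.2
    have h2' := (mem_kE.1 (Finset.mem_filter.1 h2).1).2.2.2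
    exact hij (h1'.symm.trans h2')

lemma card_levels_le (k b : ℕ) : (Finset.Icc (k - b) (k + b)).card ≤ 2 * b + 1 := by
  rw [Nat.card_Icc]; omega

lemma kE_empty_of {P : Finset Pt} {i : ℕ} {s t : ℝ} (h : pairsIn P s t = ∅) :
    kE P i s t = ∅ := by simp [kE, h]

lemma kE_step {P : Finset Pt} {i : ℕ} {s t : ℝ} {e : Edge} (h : pairsIn P s t = {e}) :
    kE P i s t = if lv P e = i then {e} else ∅ := by
  unfold kE
  rw [h, Finset.filter_singleton]

/-! ### Entering and leaving `S^i` -/



/-- Exact balance at one level. -/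
lemma level_balance {P : Finset Pt} (hG : Generic P) {s t : ℝ} (hs : NonSlope P s)
    (ht' : NonSlope P t) (hst : s < t) (i : ℕ) (p : Pt) :
    (if p ∈ Bel P i t then 1 else 0) + ((kE P i s t).filter (fun e => e.1 = p)).card
      = (if p ∈ Bel P i s then 1 else 0) + ((kE P i s t).filter (fun e => e.2 = p)).card := by
  refine sweep hG (s := s) (motive := fun t =>
    (if p ∈ Bel P i t then 1 else 0) + ((kE P i s t).filter (fun e => e.1 = p)).card
      = (if p ∈ Bel P i s then 1 else 0) + ((kE P i s t).filter (fun e => e.2 = p)).card)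
    ?_ ?_ t hst ht'
  · intro t hst ht' h0
    simp only [kE_empty_of h0, Finset.filter_empty, Finset.card_empty, Bel_const hG hs ht' hst h0]
  · intro u t e hsu hut hu ht' h ih
    rw [kE_split hu hsu.le hut.le]
    simp only [Finset.filter_union]
    rw [Finset.card_union_of_disjoint
        (Finset.disjoint_filter_filter (kE_disj P i s u t)),
      Finset.card_union_of_disjoint
        (Finset.disjoint_filter_filter (kE_disj P i s u t)), kE_step h]
    by_cases hi : lv P e = i
    · obtain ⟨h4, h5, h6⟩ := step_Bel_swap hG hu ht' hut h hi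
      have hne := step_ne h
      simp only [if_pos hi, Finset.filter_singleton]
      by_cases hp1 : e.1 = p
      · have hp2 : ¬ e.2 = p := fun h' => hne (hp1.trans h'.symm)
        have hu' : p ∈ Bel P i u := hp1 ▸ h4
        have ht2 : p ∉ Bel P i t := by
          rw [h6, Finset.mem_insert, Finset.mem_erase]
          rintro (h' | h')
          · exact hp2 h'.symm
          · exact h'.1 hp1.symm
        simp only [if_pos hp1, if_neg hp2, if_pos hu', if_neg ht2, Finset.card_singleton,
          Finset.card_empty] at ih ⊢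
        omega
      · by_cases hp2 : e.2 = p
        · have hu' : p ∉ Bel P i u := hp2 ▸ h5
          have ht2 : p ∈ Bel P i t := by
            rw [h6, Finset.mem_insert]; exact Or.inl hp2.symm
          simp only [if_neg hp1, if_pos hp2, if_neg hu', if_pos ht2, Finset.card_singleton,
            Finset.card_empty] at ih ⊢
          omega
        · have hiff : p ∈ Bel P i t ↔ p ∈ Bel P i u := by
            rw [h6, Finset.mem_insert, Finset.mem_erase]
            constructor
            · rintro (h' | h')
              · exact absurd h'.symm hp2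
              · exact h'.2
            · intro h'; exact Or.inr ⟨fun h'' => hp1 h''.symm, h'⟩
          simp only [if_neg hp1, if_neg hp2, Finset.card_empty, hiff] at ih ⊢
          omega
    · simp only [if_neg hi, Finset.filter_empty, Finset.card_empty,
        ← step_Bel_eq hG hu ht' hut h hi] at ih ⊢
      omega

/-- **G5** (balance). -/
lemma balance {P : Finset Pt} (hG : Generic P) {s t : ℝ} (hs : NonSlope P s)
    (ht' : NonSlope P t) (hst : s < t) (k b : ℕ) (p : Pt) :
    Lp P k b s t p ≤ Rp P k b s t p + (2 * b + 1) ∧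
      Rp P k b s t p ≤ Lp P k b s t p + (2 * b + 1) := by
  unfold Lp Rp
  rw [nearE_filter_card, nearE_filter_card]
  have key : ∀ i, ((kE P i s t).filter (fun e => e.2 = p)).card
      ≤ ((kE P i s t).filter (fun e => e.1 = p)).card + 1 ∧
      ((kE P i s t).filter (fun e => e.1 = p)).card
      ≤ ((kE P i s t).filter (fun e => e.2 = p)).card + 1 := by
    intro i
    have := level_balance hG hs ht' hst i p
    constructor
    · split_ifs at this <;> omega
    · split_ifs at this <;> omega
  have hc := card_levels_le k b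
  constructor
  · calc ∑ i ∈ Finset.Icc (k - b) (k + b), ((kE P i s t).filter (fun e => e.2 = p)).card
        ≤ ∑ i ∈ Finset.Icc (k - b) (k + b),
            (((kE P i s t).filter (fun e => e.1 = p)).card + 1) :=
          Finset.sum_le_sum (fun i _ => (key i).1)
      _ = ∑ i ∈ Finset.Icc (k - b) (k + b), ((kE P i s t).filter (fun e => e.1 = p)).card
            + (Finset.Icc (k - b) (k + b)).card := by
          rw [Finset.sum_add_distrib]; simp
      _ ≤ _ := by omega
  · calc ∑ i ∈ Finset.Icc (k - b) (k + b), ((kE P i s t).filter (fun e => e.1 = p)).card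
        ≤ ∑ i ∈ Finset.Icc (k - b) (k + b),
            (((kE P i s t).filter (fun e => e.2 = p)).card + 1) :=
          Finset.sum_le_sum (fun i _ => (key i).2)
      _ = ∑ i ∈ Finset.Icc (k - b) (k + b), ((kE P i s t).filter (fun e => e.2 = p)).card
            + (Finset.Icc (k - b) (k + b)).card := by
          rw [Finset.sum_add_distrib]; simp
      _ ≤ _ := by omega

/-! ### Monotonicity of `D^i` -/

lemma card_Bel_eq {P : Finset Pt} (hG : Generic P) {s t : ℝ} (hs : NonSlope P s)
    (ht' : NonSlope P t) (i : ℕ) : (Bel P i s).card = (Bel P i t).card := by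
  rw [card_Bel hG hs, card_Bel hG ht']

lemma Dl_add_inter (P : Finset Pt) (i : ℕ) (s t : ℝ) :
    Dl P i s t + (Bel P i s ∩ Bel P i t).card = (Bel P i s).card := by
  unfold Dl
  exact Finset.card_sdiff_add_card_inter _ _

lemma Dl_comm {P : Finset Pt} (hG : Generic P) {s t : ℝ} (hs : NonSlope P s)
    (ht' : NonSlope P t) (i : ℕ) : Dl P i t s = Dl P i s t := by
  have h1 := Dl_add_inter P i s t
  have h2 := Dl_add_inter P i t s
  rw [Finset.inter_comm, card_Bel_eq hG ht' hs] at h2
  omega

/-- For `θ` below the slope of `e`, `e.1` is lower than `e.2`. -/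
lemma ht_lt_of_lt_esl {P : Finset Pt} {e : Edge} (he : e ∈ pairs P) {θ : ℝ} (h : θ < esl e) :
    ht θ e.1 < ht θ e.2 := (ht_lt_iff (mem_pairs.1 he).2.2 θ).2 h

lemma ht_gt_of_esl_lt {P : Finset Pt} {e : Edge} (he : e ∈ pairs P) {θ : ℝ} (h : esl e < θ) :
    ht θ e.2 < ht θ e.1 := (ht_gt_iff (mem_pairs.1 he).2.2 θ).2 h

lemma Bel_of_ht_le {P : Finset Pt} {i : ℕ} {θ : ℝ} {p q : Pt} (hp : p ∈ P)
    (h : ht θ p ≤ ht θ q) (hq : q ∈ Bel P i θ) : p ∈ Bel P i θ := by
  rw [mem_Bel] at hq ⊢
  exact ⟨hp, (rk_le_rk h).trans_lt hq.2⟩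

lemma inter_mono_right {P : Finset Pt} (hG : Generic P) {i : ℕ} {s u t : ℝ}
    (hu : NonSlope P u) (ht' : NonSlope P t) (hsu : s ≤ u) (hut : u < t) :
    (Bel P i s ∩ Bel P i t).card ≤ (Bel P i s ∩ Bel P i u).card := by
  refine sweep hG (s := u) (motive := fun t =>
    (Bel P i s ∩ Bel P i t).card ≤ (Bel P i s ∩ Bel P i u).card) ?_ ?_ t hut ht'
  · intro t hst ht' h0
    rw [Bel_const hG hu ht' hst h0]
  · intro v t e huv hvt hv ht' h ih
    refine le_trans ?_ ih
    by_cases hi : lv P e = i
    · obtain ⟨h4, h5, h6⟩ := step_Bel_swap hG hv ht' hvt h hi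
      obtain ⟨he, g2, g3⟩ := step_mem h
      by_cases h7 : e.2 ∈ Bel P i s
      · have h8 : e.1 ∈ Bel P i s :=
          Bel_of_ht_le (mem_pairs.1 he).1 (ht_lt_of_lt_esl he
            (hsu.trans_lt (huv.trans g2))).le h7
        have h9 : Bel P i s ∩ Bel P i t ⊆ insert e.2 ((Bel P i s ∩ Bel P i v).erase e.1) := by
          intro p hp
          rw [h6] at hp
          rw [Finset.mem_inter, Finset.mem_insert, Finset.mem_erase] at hp
          rw [Finset.mem_insert, Finset.mem_erase, Finset.mem_inter]
          tauto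
        calc _ ≤ (insert e.2 ((Bel P i s ∩ Bel P i v).erase e.1)).card :=
              Finset.card_le_card h9
          _ ≤ ((Bel P i s ∩ Bel P i v).erase e.1).card + 1 := Finset.card_insert_le _ _
          _ = (Bel P i s ∩ Bel P i v).card :=
              Finset.card_erase_add_one (Finset.mem_inter.2 ⟨h8, h4⟩)
      · apply Finset.card_le_card
        intro p hp
        rw [h6] at hp
        rw [Finset.mem_inter, Finset.mem_insert, Finset.mem_erase] at hp
        rw [Finset.mem_inter]
        rcases hp with ⟨h10, h11 | h11⟩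
        · exact absurd (h11 ▸ h10) h7
        · exact ⟨h10, h11.2⟩
    · rw [step_Bel_eq hG hv ht' hvt h hi]

lemma inter_mono_left {P : Finset Pt} (hG : Generic P) {i : ℕ} {s u t : ℝ}
    (hs : NonSlope P s) (hu : NonSlope P u) (hsu : s < u) (hut : u ≤ t) :
    (Bel P i s ∩ Bel P i t).card ≤ (Bel P i u ∩ Bel P i t).card := by
  revert hut
  refine sweep hG (s := s) (motive := fun u => u ≤ t →
    (Bel P i s ∩ Bel P i t).card ≤ (Bel P i u ∩ Bel P i t).card) ?_ ?_ u hsu hu
  · intro u hst hu' h0 _
    rw [Bel_const hG hs hu' hst h0]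
  · intro v u e hsv hvu hv hu' h ih hut
    refine (ih (hvu.le.trans hut)).trans ?_
    by_cases hi : lv P e = i
    · obtain ⟨h4, h5, h6⟩ := step_Bel_swap hG hv hu' hvu h hi
      obtain ⟨he, g2, g3⟩ := step_mem h
      by_cases h7 : e.1 ∈ Bel P i t
      · have h8 : e.2 ∈ Bel P i t :=
          Bel_of_ht_le (mem_pairs.1 he).2.1 (ht_gt_of_esl_lt he (g3.trans_le hut)).le h7
        have h9 : insert e.2 ((Bel P i v ∩ Bel P i t).erase e.1) ⊆ Bel P i u ∩ Bel P i t := by
          intro p hp
          rw [Finset.mem_insert, Finset.mem_erase, Finset.mem_inter] at hp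
          rw [h6, Finset.mem_inter, Finset.mem_insert, Finset.mem_erase]
          rcases hp with hp | hp
          · exact ⟨Or.inl hp, hp ▸ h8⟩
          · exact ⟨Or.inr ⟨hp.1, hp.2.1⟩, hp.2.2⟩
        have h10 : e.2 ∉ (Bel P i v ∩ Bel P i t).erase e.1 := by
          rw [Finset.mem_erase, Finset.mem_inter]
          exact fun h' => h5 h'.2.1
        calc (Bel P i v ∩ Bel P i t).card
            = ((Bel P i v ∩ Bel P i t).erase e.1).card + 1 :=
              (Finset.card_erase_add_one (Finset.mem_inter.2 ⟨h4, h7⟩)).symm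
          _ = (insert e.2 ((Bel P i v ∩ Bel P i t).erase e.1)).card :=
              (Finset.card_insert_of_notMem h10).symm
          _ ≤ _ := Finset.card_le_card h9
      · apply Finset.card_le_card
        intro p hp
        rw [Finset.mem_inter] at hp
        rw [h6, Finset.mem_inter, Finset.mem_insert, Finset.mem_erase]
        refine ⟨Or.inr ⟨?_, hp.1⟩, hp.2⟩
        rintro rfl
        exact h7 hp.2
    · rw [step_Bel_eq hG hv hu' hvu h hi]

/-- `D^i` is monotone in the window. -/
lemma Dl_mono {P : Finset Pt} (hG : Generic P) {i : ℕ} {s s' t' t : ℝ}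
    (hs : NonSlope P s) (hs' : NonSlope P s') (ht' : NonSlope P t') (ht : NonSlope P t)
    (h1 : s ≤ s') (h2 : s' ≤ t') (h3 : t' ≤ t) : Dl P i s' t' ≤ Dl P i s t := by
  have e1 := Dl_add_inter P i s t
  have e2 := Dl_add_inter P i s' t'
  have e3 := card_Bel_eq hG hs hs' i
  have e4 : (Bel P i s ∩ Bel P i t).card ≤ (Bel P i s' ∩ Bel P i t).card := by
    rcases h1.lt_or_eq with h | h
    · exact inter_mono_left hG hs hs' h (h2.trans h3)
    · rw [h]
  have e5 : (Bel P i s' ∩ Bel P i t).card ≤ (Bel P i s' ∩ Bel P i t').card := by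
    rcases h3.lt_or_eq with h | h
    · exact inter_mono_right hG ht' ht h2 h
    · rw [h]
  omega



/-- **G4**. -/
lemma Dl_level_le {P : Finset Pt} (hG : Generic P) {s t : ℝ} (hs : NonSlope P s)
    (ht' : NonSlope P t) {i j : ℕ} (hij : i ≤ j) :
    Dl P i s t ≤ Dl P j s t + (j - i) ∧ Dl P j s t ≤ Dl P i s t + (j - i) := by
  constructor
  · have h1 : Bel P i s \ Bel P i t ⊆ (Bel P j s \ Bel P j t) ∪ (Bel P j t \ Bel P i t) := by
      intro p hp
      rw [Finset.mem_sdiff] at hp
      rw [Finset.mem_union, Finset.mem_sdiff, Finset.mem_sdiff]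
      by_cases h : p ∈ Bel P j t
      · exact Or.inr ⟨h, hp.2⟩
      · exact Or.inl ⟨Bel_mono_level hij s hp.1, h⟩
    calc Dl P i s t ≤ ((Bel P j s \ Bel P j t) ∪ (Bel P j t \ Bel P i t)).card :=
          Finset.card_le_card h1
      _ ≤ (Bel P j s \ Bel P j t).card + (Bel P j t \ Bel P i t).card :=
          Finset.card_union_le _ _
      _ ≤ Dl P j s t + (j - i) := Nat.add_le_add le_rfl (card_Bel_sdiff_le hG ht' i j)
  · have h1 : Bel P j s \ Bel P j t ⊆ (Bel P i s \ Bel P i t) ∪ (Bel P j s \ Bel P i s) := by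
      intro p hp
      rw [Finset.mem_sdiff] at hp
      rw [Finset.mem_union, Finset.mem_sdiff, Finset.mem_sdiff]
      by_cases h : p ∈ Bel P i s
      · exact Or.inl ⟨h, fun h' => hp.2 (Bel_mono_level hij t h')⟩
      · exact Or.inr ⟨hp.1, h⟩
    calc Dl P j s t ≤ ((Bel P i s \ Bel P i t) ∪ (Bel P j s \ Bel P i s)).card :=
          Finset.card_le_card h1
      _ ≤ (Bel P i s \ Bel P i t).card + (Bel P j s \ Bel P i s).card :=
          Finset.card_union_le _ _
      _ ≤ Dl P i s t + (j - i) := Nat.add_le_add le_rfl (card_Bel_sdiff_le hG hs i j)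

/-! ### G3 (Lovász) -/

/-- Points of `P` strictly above the line of `f`. -/
def Abv (P : Finset Pt) (f : Edge) : Finset Pt :=
  P.filter (fun r => ht (esl f) f.1 < ht (esl f) r)


lemma cross_left {e f : Edge} (h : Cross e f) (hs : esl e < esl f) :
    ht (esl f) f.1 < ht (esl f) e.1 ∧ ht (esl f) e.2 < ht (esl f) f.1 := by
  obtain ⟨x, h1, h2, h3, h4, h5, -⟩ := h
  have a1 := lin_sub e x e.1.1
  have a2 := lin_sub f x e.1.1
  have a3 := lin_sub e x e.2.1
  have a4 := lin_sub f x e.2.1
  have b1 : lin f e.1.1 < e.1.2 := by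
    rw [← lin_left e]; nlinarith
  have b2 : e.2.2 < lin f e.2.1 := by
    rw [← lin_right (e := e) (h1.trans h2)]; nlinarith
  exact ⟨(lin_lt_iff f e.1).1 b1, (lt_lin_iff f e.2).1 b2⟩

lemma cross_right {e f : Edge} (h : Cross e f) (hs : esl f < esl e) :
    ht (esl f) e.1 < ht (esl f) f.1 ∧ ht (esl f) f.1 < ht (esl f) e.2 := by
  obtain ⟨x, h1, h2, h3, h4, h5, -⟩ := h
  have a1 := lin_sub e x e.1.1
  have a2 := lin_sub f x e.1.1
  have a3 := lin_sub e x e.2.1
  have a4 := lin_sub f x e.2.1
  have b1 : e.1.2 < lin f e.1.1 := by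
    rw [← lin_left e]; nlinarith
  have b2 : lin f e.2.1 < e.2.2 := by
    rw [← lin_right (e := e) (h1.trans h2)]; nlinarith
  exact ⟨(lt_lin_iff f e.1).1 b1, (lin_lt_iff f e.2).1 b2⟩

lemma Cross.symm {e f : Edge} (h : Cross e f) : Cross f e := by
  obtain ⟨x, h1, h2, h3, h4, h5, h6⟩ := h
  exact ⟨x, h3, h4, h1, h2, h5.symm, h6.symm⟩

lemma Cross.esl_ne {e f : Edge} (h : Cross e f) : esl e ≠ esl f := by
  obtain ⟨x, h1, h2, h3, h4, h5, h6⟩ := h
  exact h6

/-- Flux inequality, part before the slope of `f`. -/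
lemma lovasz_before {P : Finset Pt} (hG : Generic P) {i : ℕ} {s t : ℝ} {f : Edge}
    (hs : NonSlope P s) (ht' : NonSlope P t) (hst : s < t) (htf : t ≤ esl f) :
    ((kE P i s t).filter (fun e => Cross e f)).card + (Bel P i t ∩ Abv P f).card
      ≤ (Bel P i s ∩ Abv P f).card := by
  revert htf
  refine sweep hG (s := s) (motive := fun t => t ≤ esl f →
    ((kE P i s t).filter (fun e => Cross e f)).card + (Bel P i t ∩ Abv P f).card
      ≤ (Bel P i s ∩ Abv P f).card) ?_ ?_ t hst ht'
  · intro t hst ht' h0 _
    rw [kE_empty_of h0, Bel_const hG hs ht' hst h0]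
    simp
  · intro u t e hsu hut hu ht' h ih htf
    have ih' := ih (hut.le.trans htf)
    refine le_trans ?_ ih'
    rw [kE_split hu hsu.le hut.le, Finset.filter_union, Finset.card_union_of_disjoint
        (Finset.disjoint_filter_filter (kE_disj P i s u t)), kE_step h]
    obtain ⟨he, g2, g3⟩ := step_mem h
    have hef : esl e < esl f := g3.trans_le htf
    have hdown : ht (esl f) e.2 < ht (esl f) e.1 := ht_gt_of_esl_lt he hef
    by_cases hi : lv P e = i
    · obtain ⟨h4, h5, h6⟩ := step_Bel_swap hG hu ht' hut h hi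
      rw [if_pos hi, Finset.filter_singleton]
      by_cases ha : e.2 ∈ Abv P f
      · -- both above, no crossing
        have ha1 : e.1 ∈ Abv P f := by
          rw [Abv, Finset.mem_filter] at ha ⊢
          exact ⟨(mem_pairs.1 he).1, ha.2.trans hdown⟩
        have hnc : ¬ Cross e f := by
          intro hc
          have := (cross_left hc hef).2
          exact absurd (Finset.mem_filter.1 ha).2 (not_lt.2 this.le)
        rw [if_neg hnc]
        have h9 : Bel P i t ∩ Abv P f ⊆ insert e.2 ((Bel P i u ∩ Abv P f).erase e.1) := by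
          intro p hp
          rw [h6] at hp
          rw [Finset.mem_inter, Finset.mem_insert, Finset.mem_erase] at hp
          rw [Finset.mem_insert, Finset.mem_erase, Finset.mem_inter]
          tauto
        have h10 := Finset.card_le_card h9
        have h11 := Finset.card_insert_le e.2 ((Bel P i u ∩ Abv P f).erase e.1)
        have h12 := Finset.card_erase_add_one (Finset.mem_inter.2 ⟨h4, ha1⟩)
        simp only [Finset.card_empty]
        omega
      · -- e.2 not above
        have h9 : Bel P i t ∩ Abv P f ⊆ (Bel P i u ∩ Abv P f).erase e.1 := by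
          intro p hp
          rw [h6] at hp
          rw [Finset.mem_inter, Finset.mem_insert, Finset.mem_erase] at hp
          rw [Finset.mem_erase, Finset.mem_inter]
          rcases hp with ⟨h10 | h10, h11⟩
          · exact absurd (h10 ▸ h11) ha
          · exact ⟨h10.1, h10.2, h11⟩
        have h10 := Finset.card_le_card h9
        by_cases hc : Cross e f
        · have ha1 : e.1 ∈ Abv P f := by
            rw [Abv, Finset.mem_filter]
            exact ⟨(mem_pairs.1 he).1, (cross_left hc hef).1⟩
          have h12 := Finset.card_erase_add_one (Finset.mem_inter.2 ⟨h4, ha1⟩)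
          rw [if_pos hc]
          simp only [Finset.card_singleton]
          omega
        · have h12 := Finset.card_erase_le (s := Bel P i u ∩ Abv P f) (a := e.1)
          rw [if_neg hc]
          simp only [Finset.card_empty]
          omega
    · rw [if_neg hi, step_Bel_eq hG hu ht' hut h hi]
      simp

/-- Flux inequality, part after the slope of `f`. -/
lemma lovasz_after {P : Finset Pt} (hG : Generic P) {i : ℕ} {s t : ℝ} {f : Edge}
    (hs : NonSlope P s) (ht' : NonSlope P t) (hst : s < t) (hfs : esl f ≤ s) :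
    ((kE P i s t).filter (fun e => Cross e f)).card + (Bel P i s ∩ Abv P f).card
      ≤ (Bel P i t ∩ Abv P f).card := by
  refine sweep hG (s := s) (motive := fun t =>
    ((kE P i s t).filter (fun e => Cross e f)).card + (Bel P i s ∩ Abv P f).card
      ≤ (Bel P i t ∩ Abv P f).card) ?_ ?_ t hst ht'
  · intro t hst ht' h0
    rw [kE_empty_of h0, Bel_const hG hs ht' hst h0]
    simp
  · intro u t e hsu hut hu ht' h ih
    rw [kE_split hu hsu.le hut.le, Finset.filter_union, Finset.card_union_of_disjoint
        (Finset.disjoint_filter_filter (kE_disj P i s u t)), kE_step h]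
    obtain ⟨he, g2, g3⟩ := step_mem h
    have hef : esl f < esl e := hfs.trans_lt (hsu.trans g2)
    have hup : ht (esl f) e.1 < ht (esl f) e.2 := ht_lt_of_lt_esl he hef
    by_cases hi : lv P e = i
    · obtain ⟨h4, h5, h6⟩ := step_Bel_swap hG hu ht' hut h hi
      rw [if_pos hi, Finset.filter_singleton]
      have h2notin : e.2 ∉ (Bel P i u ∩ Abv P f).erase e.1 := by
        rw [Finset.mem_erase, Finset.mem_inter]
        exact fun h' => h5 h'.2.1
      by_cases ha : e.1 ∈ Abv P f
      · have ha2 : e.2 ∈ Abv P f := by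
          rw [Abv, Finset.mem_filter] at ha ⊢
          exact ⟨(mem_pairs.1 he).2.1, ha.2.trans hup⟩
        have hnc : ¬ Cross e f := by
          intro hc
          have := (cross_right hc hef).1
          exact absurd (Finset.mem_filter.1 ha).2 (not_lt.2 this.le)
        rw [if_neg hnc]
        have h9 : insert e.2 ((Bel P i u ∩ Abv P f).erase e.1) ⊆ Bel P i t ∩ Abv P f := by
          intro p hp
          rw [Finset.mem_insert, Finset.mem_erase, Finset.mem_inter] at hp
          rw [h6, Finset.mem_inter, Finset.mem_insert, Finset.mem_erase]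
          rcases hp with hp | hp
          · exact ⟨Or.inl hp, hp ▸ ha2⟩
          · exact ⟨Or.inr ⟨hp.1, hp.2.1⟩, hp.2.2⟩
        have h10 := Finset.card_le_card h9
        rw [Finset.card_insert_of_notMem h2notin] at h10
        have h12 := Finset.card_erase_add_one (Finset.mem_inter.2 ⟨h4, ha⟩)
        simp only [Finset.card_empty]
        omega
      · have herase : (Bel P i u ∩ Abv P f).erase e.1 = Bel P i u ∩ Abv P f := by
          apply Finset.erase_eq_of_notMem
          rw [Finset.mem_inter]
          exact fun h' => ha h'.2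
        by_cases hc : Cross e f
        · have ha2 : e.2 ∈ Abv P f := by
            rw [Abv, Finset.mem_filter]
            exact ⟨(mem_pairs.1 he).2.1, (cross_right hc hef).2⟩
          have h9 : insert e.2 ((Bel P i u ∩ Abv P f).erase e.1) ⊆ Bel P i t ∩ Abv P f := by
            intro p hp
            rw [Finset.mem_insert, Finset.mem_erase, Finset.mem_inter] at hp
            rw [h6, Finset.mem_inter, Finset.mem_insert, Finset.mem_erase]
            rcases hp with hp | hp
            · exact ⟨Or.inl hp, hp ▸ ha2⟩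
            · exact ⟨Or.inr ⟨hp.1, hp.2.1⟩, hp.2.2⟩
          have h10 := Finset.card_le_card h9
          rw [Finset.card_insert_of_notMem h2notin, herase] at h10
          rw [if_pos hc]
          simp only [Finset.card_singleton]
          omega
        · have h9 : (Bel P i u ∩ Abv P f).erase e.1 ⊆ Bel P i t ∩ Abv P f := by
            intro p hp
            rw [Finset.mem_erase, Finset.mem_inter] at hp
            rw [h6, Finset.mem_inter, Finset.mem_insert, Finset.mem_erase]
            exact ⟨Or.inr ⟨hp.1, hp.2.1⟩, hp.2.2⟩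
          have h10 := Finset.card_le_card h9
          rw [herase] at h10
          rw [if_neg hc]
          simp only [Finset.card_empty]
          omega
    · rw [if_neg hi, ← step_Bel_eq hG hu ht' hut h hi]
      simpa using ih

lemma card_inter_le_Dl (P : Finset Pt) (i : ℕ) (s t : ℝ) (A : Finset Pt) :
    (Bel P i s ∩ A).card ≤ (Bel P i t ∩ A).card + Dl P i s t := by
  have h : Bel P i s ∩ A ⊆ (Bel P i t ∩ A) ∪ (Bel P i s \ Bel P i t) := by
    intro p hp
    rw [Finset.mem_inter] at hp
    rw [Finset.mem_union, Finset.mem_inter, Finset.mem_sdiff]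
    by_cases h : p ∈ Bel P i t
    · exact Or.inl ⟨h, hp.2⟩
    · exact Or.inr ⟨hp.1, h⟩
  exact (Finset.card_le_card h).trans (Finset.card_union_le _ _)

/-- **G3** (Lovász). -/
theorem lovasz {P : Finset Pt} (hG : Generic P) {i : ℕ} {s t : ℝ} {f : Edge}
    (hs : NonSlope P s) (ht' : NonSlope P t) (_hf : f ∈ pairs P) (h1 : s < esl f)
    (h2 : esl f < t) :
    ((kE P i s t).filter (fun e => Cross e f)).card ≤ 2 * Dl P i s t := by
  obtain ⟨u, hu1, hu2, hu3⟩ := exists_free_left P h1
  obtain ⟨v, hv1, hv2, hv3⟩ := exists_free_right P h2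
  have hu : NonSlope P u := by
    intro e he h'
    have := hu3 e he (h' ▸ hu2)
    rw [h'] at this
    exact lt_irrefl _ this
  have hv : NonSlope P v := by
    intro e he h'
    have := hv3 e he (h' ▸ hv1)
    rw [h'] at this
    exact lt_irrefl _ this
  have hsub : (kE P i s t).filter (fun e => Cross e f)
      ⊆ ((kE P i s u).filter (fun e => Cross e f)) ∪
        ((kE P i v t).filter (fun e => Cross e f)) := by
    intro e he
    rw [Finset.mem_filter, mem_kE] at he
    obtain ⟨⟨he1, he2, he3, he4⟩, hc⟩ := he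
    rw [Finset.mem_union, Finset.mem_filter, Finset.mem_filter, mem_kE, mem_kE]
    rcases lt_or_gt_of_ne hc.esl_ne with h | h
    · exact Or.inl ⟨⟨he1, he2, hu3 e he1 h, he4⟩, hc⟩
    · exact Or.inr ⟨⟨he1, hv3 e he1 h, he3, he4⟩, hc⟩
  have hA := lovasz_before hG (i := i) (f := f) hs hu hu1 hu2.le
  have hB := lovasz_after hG (i := i) (f := f) hv ht' hv2 hv1.le
  have hA' := card_inter_le_Dl P i s u (Abv P f)
  have hB' := card_inter_le_Dl P i t v (Abv P f)
  rw [Dl_comm hG hv ht'] at hB'
  have hA'' := Dl_mono hG (i := i) hs hs hu ht' le_rfl hu1.le (hu2.trans h2).le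
  have hB'' := Dl_mono hG (i := i) hs hv ht' ht' (h1.trans hv1).le hv2.le le_rfl
  have := (Finset.card_le_card hsub).trans (Finset.card_union_le _ _)
  omega

end Crest.Agent.R51
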