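import Crest.Agent.R51.WalkDefs
import Crest.Agent.R51.Active

-- ▼ part R51/Loc1
section

/-!
# Row 51, B4 (locality lemma): the combinatorial core (helper476)

`W` is a finite family of pairwise disjoint windows covering all slopes.
-/

set_option autoImplicit false

noncomputable section

open Classical

namespace Crest.Agent.R51.Loc

/-- A finite family of disjoint windows covering all slopes. -/
structure Wins (P : Finset Pt) (W : Finset (ℝ × ℝ)) : Prop where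
  ns : ∀ J ∈ W, NonSlope P J.1 ∧ NonSlope P J.2
  lt : ∀ J ∈ W, J.1 < J.2
  disj : ∀ J ∈ W, ∀ J' ∈ W, J ≠ J' → J.2 ≤ J'.1 ∨ J'.2 ≤ J.1
  cover : ∀ e ∈ pairs P, ∃ J ∈ W, J.1 < esl e ∧ esl e < J.2

variable {P : Finset Pt} {W : Finset (ℝ × ℝ)}

lemma Wins.eq_of_mem (hW : Wins P W) {J J' : ℝ × ℝ} (hJ : J ∈ W) (hJ' : J' ∈ W) {θ : ℝ}
    (h1 : J.1 < θ) (h2 : θ < J.2) (h3 : J'.1 < θ) (h4 : θ < J'.2) : J = J' := by
  by_contra hne
  rcases hW.disj J hJ J' hJ' hne with h | h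
  · linarith
  · linarith

/-- Sum over disjoint windows of a count of edges. -/
lemma sum_filter_windows_le (hW : Wins P W) (k b : ℕ) (Q : Edge → Prop) (W' : Finset (ℝ × ℝ))
    (hW' : W' ⊆ W) :
    ∑ J ∈ W', ((nearE P k b J.1 J.2).filter Q).card ≤ ((nearAll P k b).filter Q).card := by
  rw [← Finset.card_biUnion]
  · apply Finset.card_le_card
    intro e he
    rw [Finset.mem_biUnion] at he
    obtain ⟨J, _, he⟩ := he
    rw [Finset.mem_filter] at he ⊢
    exact ⟨nearE_subset he.1, he.2⟩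
  · intro J hJ J' hJ' hne
    rw [Function.onFun, Finset.disjoint_left]
    intro e he he'
    rw [Finset.mem_filter, mem_nearE] at he he'
    exact hne (hW.eq_of_mem (hW' hJ) (hW' hJ') he.1.2.1 he.1.2.2.1 he'.1.2.1 he'.1.2.2.1)

/-- Sum over disjoint windows of the window degrees. -/
lemma sum_nbW_le (hW : Wins P W) (k b : ℕ) (v : Pt) (W' : Finset (ℝ × ℝ)) (hW' : W' ⊆ W) :
    ∑ J ∈ W', (nbW P k b J.1 J.2 v).card ≤ (nb P k b v).card := by
  rw [← Finset.card_biUnion]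
  · apply Finset.card_le_card
    intro w hw
    rw [Finset.mem_biUnion] at hw
    obtain ⟨J, _, hw⟩ := hw
    exact nbW_subset hw
  · intro J hJ J' hJ' hne
    rw [Function.onFun, Finset.disjoint_left]
    intro w hw hw'
    rw [mem_nbW_iff] at hw hw'
    exact hne (hW.eq_of_mem (hW' hJ) (hW' hJ') hw.2.1 hw.2.2 hw'.2.1 hw'.2.2)

/-- At the slope of a near-`b` pair both ends are `(b+1)`-central. -/
lemma central_of_NP {k b : ℕ} {v w : Pt} (h : NP P k b v w) :
    Central P k (b + 1) (sl v w) v ∧ Central P k (b + 1) (sl v w) w := by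
  have h1 := mem_nearAll.1 h
  have hN : Near P k b (mk v w) := h1.2
  have hlv : lv P (mk v w) = 1 + rk P (sl v w) (mk v w).1 := by
    rw [← esl_mk]; rfl
  have hr : rk P (sl v w) (mk v w).2 = rk P (sl v w) (mk v w).1 := by
    have := Active.lv_eq_right (P := P) (e := mk v w) (mem_pairs.1 h1.1).2.2
    have h2 : lv P (mk v w) = 1 + rk P (sl v w) (mk v w).2 := by
      rw [this, ← esl_mk]
    omega
  have hc : ∀ p : Pt, rk P (sl v w) p = rk P (sl v w) (mk v w).1 →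
      Central P k (b + 1) (sl v w) p := by
    intro p hp
    unfold Central
    rw [hp]
    obtain ⟨h3, h4⟩ := hN
    constructor <;> omega
  rcases lt_or_gt_of_ne h.ne with hlt | hlt
  · rw [mk_of_lt hlt] at hc hr
    exact ⟨hc v rfl, hc w hr⟩
  · rw [mk_of_gt hlt] at hc hr
    exact ⟨hc v hr, hc w rfl⟩

lemma Central.mono {k b b' : ℕ} {θ : ℝ} {p : Pt} (h : Central P k b θ p) (hb : b ≤ b') :
    Central P k b' θ p := ⟨h.1.trans (by omega), h.2.trans (by omega)⟩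

/-! ### The five classes of bad walks -/

/-- windows where `v` moves fast: `a`-central somewhere, not `K`-central somewhere -/
def WF (P : Finset Pt) (W : Finset (ℝ × ℝ)) (k a K : ℕ) (v : Pt) : Finset (ℝ × ℝ) :=
  W.filter (fun J => (∃ θ, J.1 < θ ∧ θ < J.2 ∧ Central P k a θ v) ∧
    ∃ θ, J.1 < θ ∧ θ < J.2 ∧ ¬ Central P k K θ v)

lemma card_WF (hG : Generic P) (hW : Wins P W) {k a K : ℕ} (v : Pt) (hv : v ∈ P) :
    (WF P W k a K v).card * (K - a) ≤ (nb P k K v).card := by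
  have h1 : ∀ J ∈ WF P W k a K v, K - a ≤ (nbW P k K J.1 J.2 v).card := by
    intro J hJ
    rw [WF, Finset.mem_filter] at hJ
    obtain ⟨hJW, ⟨θ₁, h1, h2, h3⟩, θ₂, h4, h5, h6⟩ := hJ
    rw [card_nbW]
    have h7 : k + K ≤ rk P θ₂ v ∨ rk P θ₂ v + K ≤ k := by
      unfold Central at h6
      by_contra hc
      rw [not_or, not_le, not_le] at hc
      exact h6 ⟨by omega, by omega⟩
    have := Active.fast_partners hG hv (hW.ns J hJW).1 (hW.ns J hJW).2 h1.le h2.le h4.le h5.le h3 h7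
    omega
  calc (WF P W k a K v).card * (K - a) = ∑ J ∈ WF P W k a K v, (K - a) := by
        rw [Finset.sum_const, smul_eq_mul]
    _ ≤ ∑ J ∈ WF P W k a K v, (nbW P k K J.1 J.2 v).card := Finset.sum_le_sum h1
    _ ≤ _ := sum_nbW_le hW k K v _ (Finset.filter_subset _ _)

/-- windows in which at least `χ` near-`b` pairs cross `{v,w}` -/
def WS (P : Finset Pt) (W : Finset (ℝ × ℝ)) (k b χ : ℕ) (v w : Pt) : Finset (ℝ × ℝ) :=
  W.filter (fun J => χ ≤ ((nearE P k b J.1 J.2).filter (fun e => Cross e (mk v w))).card)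

lemma card_WS (hW : Wins P W) {k b χ : ℕ} (v w : Pt) :
    (WS P W k b χ v w).card * χ ≤ ((nearAll P k b).filter (fun e => Cross e (mk v w))).card := by
  calc (WS P W k b χ v w).card * χ = ∑ J ∈ WS P W k b χ v w, χ := by
        rw [Finset.sum_const, smul_eq_mul]
    _ ≤ ∑ J ∈ WS P W k b χ v w,
          ((nearE P k b J.1 J.2).filter (fun e => Cross e (mk v w))).card :=
        Finset.sum_le_sum fun J hJ => (Finset.mem_filter.1 hJ).2
    _ ≤ _ := sum_filter_windows_le hW k b _ _ (Finset.filter_subset _ _)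

/-- The sum over ordered adjacent pairs of a function of the edge. -/
lemma sum_nb_edge (P : Finset Pt) (k b : ℕ) (f : Edge → ℕ) :
    ∑ v ∈ P, ∑ w ∈ nb P k b v, f (mk v w) = 2 * ∑ e ∈ nearAll P k b, f e := by
  have h1 : ∀ v ∈ P, ∑ w ∈ nb P k b v, f (mk v w) =
      ∑ w ∈ (nb P k b v).filter (fun w => v.1 < w.1), f (v, w) +
        ∑ w ∈ (nb P k b v).filter (fun w => w.1 < v.1), f (w, v) := by
    intro v _
    rw [← Finset.sum_filter_add_sum_filter_not (nb P k b v) (fun w => v.1 < w.1)]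
    congr 1
    · refine Finset.sum_congr rfl fun w hw => ?_
      rw [mk_of_lt (Finset.mem_filter.1 hw).2]
    · have : (nb P k b v).filter (fun w => ¬ v.1 < w.1) =
          (nb P k b v).filter (fun w => w.1 < v.1) := by
        refine Finset.filter_congr fun w hw => ?_
        have := (mem_nb.1 hw).ne
        constructor
        · intro h; exact lt_of_le_of_ne (not_lt.1 h) this.symm
        · intro h; exact not_lt.2 h.le
      rw [this]
      refine Finset.sum_congr rfl fun w hw => ?_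
      rw [mk_of_gt (Finset.mem_filter.1 hw).2]
  rw [Finset.sum_congr rfl h1, Finset.sum_add_distrib]
  have h2 : ∑ v ∈ P, ∑ w ∈ (nb P k b v).filter (fun w => v.1 < w.1), f (v, w) =
      ∑ e ∈ nearAll P k b, f e := by
    rw [Finset.sum_sigma']
    refine Finset.sum_bij (fun x _ => ((x.1, x.2) : Edge)) ?_ ?_ ?_ ?_
    · rintro ⟨v, w⟩ h
      rw [Finset.mem_sigma, Finset.mem_filter, mem_nb] at h
      obtain ⟨_, h3, h4⟩ := h
      have h3 : mk v w ∈ nearAll P k b := h3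
      rw [mk_of_lt h4] at h3
      exact h3
    · rintro ⟨v, w⟩ _ ⟨v', w'⟩ _ h
      simp only [Prod.mk.injEq] at h
      obtain ⟨rfl, rfl⟩ := h
      rfl
    · rintro ⟨v, w⟩ h
      have h3 := mem_pairs.1 (nearAll_subset h)
      refine ⟨⟨v, w⟩, ?_, rfl⟩
      rw [Finset.mem_sigma, Finset.mem_filter, mem_nb]
      refine ⟨h3.1, ?_, h3.2.2⟩
      unfold NP
      rw [mk_of_lt h3.2.2]
      exact h
    · rintro ⟨v, w⟩ _
      rfl
  have h3 : ∑ v ∈ P, ∑ w ∈ (nb P k b v).filter (fun w => w.1 < v.1), f (w, v) =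
      ∑ e ∈ nearAll P k b, f e := by
    rw [Finset.sum_sigma']
    refine Finset.sum_bij (fun x _ => ((x.2, x.1) : Edge)) ?_ ?_ ?_ ?_
    · rintro ⟨v, w⟩ h
      rw [Finset.mem_sigma, Finset.mem_filter, mem_nb] at h
      obtain ⟨_, h3, h4⟩ := h
      have h3 : mk v w ∈ nearAll P k b := h3
      rw [mk_of_gt h4] at h3
      exact h3
    · rintro ⟨v, w⟩ _ ⟨v', w'⟩ _ h
      simp only [Prod.mk.injEq] at h
      obtain ⟨rfl, rfl⟩ := h
      rfl
    · rintro ⟨w, v⟩ h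
      have h3 := mem_pairs.1 (nearAll_subset h)
      refine ⟨⟨v, w⟩, ?_, rfl⟩
      rw [Finset.mem_sigma, Finset.mem_filter, mem_nb]
      refine ⟨h3.2.1, ?_, h3.2.2⟩
      unfold NP
      rw [mk_of_gt h3.2.2]
      exact h
    · rintro ⟨v, w⟩ _
      rfl
  rw [h2, h3]
  ring

/-- total number of slow windows over all ordered adjacent pairs -/
lemma sum_WS (hW : Wins P W) {k b b' χ : ℕ} :
    (∑ v ∈ P, ∑ w ∈ nb P k b' v, (WS P W k b χ v w).card) * χ ≤
      2 * crs (nearAll P k b) (nearAll P k b') := by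
  have h1 : crs (nearAll P k b) (nearAll P k b') =
      ∑ f ∈ nearAll P k b', ((nearAll P k b).filter (fun e => Cross e f)).card := by
    unfold crs
    rw [Finset.card_filter, Finset.sum_product_right]
    refine Finset.sum_congr rfl fun f _ => ?_
    rw [Finset.card_filter]
  rw [h1, ← sum_nb_edge P k b' (fun f => ((nearAll P k b).filter (fun e => Cross e f)).card),
    Finset.sum_mul]
  refine Finset.sum_le_sum fun v _ => ?_
  rw [Finset.sum_mul]
  exact Finset.sum_le_sum fun w _ => card_WS hW v w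

end Crest.Agent.R51.Loc
end
end

-- ▼ part R51/Loc2

/-!
# Row 51, B4 (locality lemma): counting the bad walks (helper476)
-/

set_option autoImplicit false

noncomputable section

open Classical

namespace Crest.Agent.R51.Loc

variable {P : Finset Pt} {W : Finset (ℝ × ℝ)}

/-- Ordered 2-walks `(v,w,x)` with low degrees at `v`, `w` whose first vertex is not
`K`-central in the direction of the second edge. -/
def Bad (P : Finset Pt) (k b' K : ℕ) (L1 : ℝ) : Finset (Pt × Pt × Pt) :=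
  (P ×ˢ P ×ˢ P).filter (fun z => z.1 ≠ z.2.2 ∧ z.2.1 ∈ nb P k b' z.1 ∧ z.2.2 ∈ nb P k b' z.2.1 ∧
    ((nb P k b' z.1).card : ℝ) ≤ L1 ∧ ((nb P k b' z.2.1).card : ℝ) ≤ L1 ∧
    ¬ Central P k K (sl z.2.1 z.2.2) z.1)

/-- ordered pairs with too large window degree -/
def AA (P : Finset Pt) (W : Finset (ℝ × ℝ)) (k b' : ℕ) (L2 : ℝ) : Finset (Pt × Pt) :=
  (P ×ˢ P).filter (fun z => z.2 ∈ nb P k b' z.1 ∧
    ∃ J ∈ W, J.1 < sl z.1 z.2 ∧ sl z.1 z.2 < J.2 ∧ L2 < ((nbW P k b' J.1 J.2 z.1).card : ℝ))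

/-- ordered pairs with few near-`bf` partners in the window -/
def BB (P : Finset Pt) (W : Finset (ℝ × ℝ)) (k b' bf X : ℕ) : Finset (Pt × Pt) :=
  (P ×ˢ P).filter (fun z => z.2 ∈ nb P k b' z.1 ∧
    ∃ J ∈ W, J.1 < sl z.1 z.2 ∧ sl z.1 z.2 < J.2 ∧ (nbW P k bf J.1 J.2 z.1).card < X)

/-- points of large near-`K` degree -/
def CC (P : Finset Pt) (k K : ℕ) (L3 : ℝ) : Finset Pt :=
  P.filter (fun v => L3 < ((nb P k K v).card : ℝ))

/-- The flux statement used for the slow windows. -/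
def FluxHyp (P : Finset Pt) (W : Finset (ℝ × ℝ)) (k bf X χ : ℕ) : Prop :=
  ∀ v ∈ P, ∀ w ∈ P, ∀ J ∈ W, v.1 ≠ w.1 → ¬ (J.1 < sl v w ∧ sl v w < J.2) →
    (∀ θ, J.1 < θ → θ < J.2 → ¬ Central P k (2 * bf) θ v) →
    (∃ θ, J.1 < θ ∧ θ < J.2 ∧ Central P k bf θ w) →
    X ≤ (nbW P k bf J.1 J.2 w).card →
    χ ≤ ((nearE P k (2 * bf) J.1 J.2).filter (fun e => Cross e (mk v w))).card

lemma mem_Bad {k b' K : ℕ} {L1 : ℝ} {z : Pt × Pt × Pt} : z ∈ Bad P k b' K L1 ↔
    z.1 ≠ z.2.2 ∧ NP P k b' z.1 z.2.1 ∧ NP P k b' z.2.1 z.2.2 ∧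
    ((nb P k b' z.1).card : ℝ) ≤ L1 ∧ ((nb P k b' z.2.1).card : ℝ) ≤ L1 ∧
    ¬ Central P k K (sl z.2.1 z.2.2) z.1 := by
  unfold Bad
  rw [Finset.mem_filter, mem_nb, mem_nb]
  constructor
  · exact fun h => h.2
  · intro h
    refine ⟨?_, h⟩
    rw [Finset.mem_product, Finset.mem_product]
    exact ⟨h.2.1.mem_left, h.2.1.mem_right, h.2.2.1.mem_right⟩

/-- The four sets covering the bad walks. -/
def UA (P : Finset Pt) (W : Finset (ℝ × ℝ)) (k b' : ℕ) (L1 L2 : ℝ) : Finset (Pt × Pt × Pt) :=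
  ((AA P W k b' L2).filter (fun y => ((nb P k b' y.1).card : ℝ) ≤ L1)).biUnion
    (fun y => (nb P k b' y.1).image (fun v => (v, y.1, y.2)))

def UB (P : Finset Pt) (W : Finset (ℝ × ℝ)) (k b' bf X : ℕ) (L1 : ℝ) : Finset (Pt × Pt × Pt) :=
  ((BB P W k b' bf X).filter (fun y => ((nb P k b' y.1).card : ℝ) ≤ L1)).biUnion
    (fun y => (nb P k b' y.1).image (fun v => (v, y.1, y.2)))

def UC (P : Finset Pt) (k b' K : ℕ) (L1 L3 : ℝ) : Finset (Pt × Pt × Pt) :=
  ((CC P k K L3).filter (fun v => ((nb P k b' v).card : ℝ) ≤ L1)).biUnion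
    (fun v => ((nb P k b' v).filter (fun w => ((nb P k b' w).card : ℝ) ≤ L1)).biUnion
      (fun w => (nb P k b' w).image (fun x => (v, w, x))))

def UF (P : Finset Pt) (W : Finset (ℝ × ℝ)) (k b' a K : ℕ) (L1 L2 L3 : ℝ) :
    Finset (Pt × Pt × Pt) :=
  (P.filter (fun v => ((nb P k b' v).card : ℝ) ≤ L1 ∧ ((nb P k K v).card : ℝ) ≤ L3)).biUnion
    (fun v => (WF P W k a K v).biUnion (fun J =>
      ((nb P k b' v).filter (fun w => ((nbW P k b' J.1 J.2 w).card : ℝ) ≤ L2)).biUnion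
        (fun w => (nbW P k b' J.1 J.2 w).image (fun x => (v, w, x)))))

def US (P : Finset Pt) (W : Finset (ℝ × ℝ)) (k b' bf χ : ℕ) (L2 : ℝ) : Finset (Pt × Pt × Pt) :=
  P.biUnion (fun v => (nb P k b' v).biUnion (fun w =>
    ((WS P W k (2 * bf) χ v w).filter
        (fun J => ((nbW P k b' J.1 J.2 w).card : ℝ) ≤ L2)).biUnion
      (fun J => (nbW P k b' J.1 J.2 w).image (fun x => (v, w, x)))))

lemma Bad_subset (hW : Wins P W) {k b' bf a K X χ : ℕ} {L1 L2 L3 : ℝ}
    (hflux : FluxHyp P W k bf X χ) (h1 : b' + 1 ≤ bf) (h2 : b' + 1 ≤ a) (h3 : 2 * bf ≤ a) :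
    Bad P k b' K L1 ⊆ UA P W k b' L1 L2 ∪ UB P W k b' bf X L1 ∪ UC P k b' K L1 L3 ∪
      UF P W k b' a K L1 L2 L3 ∪ US P W k b' bf χ L2 := by
  rintro ⟨v, w, x⟩ hz
  obtain ⟨hvx, hvw, hwx, hdv, hdw, hcen⟩ := mem_Bad.1 hz
  dsimp only at hvx hvw hwx hdv hdw hcen
  obtain ⟨J, hJ, hJ1, hJ2⟩ := hW.cover _ (nearAll_subset hwx)
  rw [esl_mk] at hJ1 hJ2
  by_cases hA : L2 < ((nbW P k b' J.1 J.2 w).card : ℝ)
  · refine Finset.mem_union_left _ (Finset.mem_union_left _ (Finset.mem_union_left _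
      (Finset.mem_union_left _ ?_)))
    unfold UA
    rw [Finset.mem_biUnion]
    refine ⟨(w, x), ?_, Finset.mem_image.2 ⟨v, mem_nb.2 hvw.symm, rfl⟩⟩
    rw [Finset.mem_filter, AA, Finset.mem_filter, Finset.mem_product]
    exact ⟨⟨⟨hwx.mem_left, hwx.mem_right⟩, mem_nb.2 hwx, J, hJ, hJ1, hJ2, hA⟩, hdw⟩
  by_cases hB : (nbW P k bf J.1 J.2 w).card < X
  · refine Finset.mem_union_left _ (Finset.mem_union_left _ (Finset.mem_union_left _
      (Finset.mem_union_right _ ?_)))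
    unfold UB
    rw [Finset.mem_biUnion]
    refine ⟨(w, x), ?_, Finset.mem_image.2 ⟨v, mem_nb.2 hvw.symm, rfl⟩⟩
    rw [Finset.mem_filter, BB, Finset.mem_filter, Finset.mem_product]
    exact ⟨⟨⟨hwx.mem_left, hwx.mem_right⟩, mem_nb.2 hwx, J, hJ, hJ1, hJ2, hB⟩, hdw⟩
  by_cases hC : L3 < ((nb P k K v).card : ℝ)
  · refine Finset.mem_union_left _ (Finset.mem_union_left _ (Finset.mem_union_right _ ?_))
    unfold UC
    rw [Finset.mem_biUnion]
    refine ⟨v, ?_, ?_⟩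
    · rw [Finset.mem_filter, CC, Finset.mem_filter]
      exact ⟨⟨hvw.mem_left, hC⟩, hdv⟩
    · rw [Finset.mem_biUnion]
      refine ⟨w, ?_, Finset.mem_image.2 ⟨x, mem_nb.2 hwx, rfl⟩⟩
      rw [Finset.mem_filter]
      exact ⟨mem_nb.2 hvw, hdw⟩
  rw [not_lt] at hA hB hC
  by_cases hF : ∃ θ, J.1 < θ ∧ θ < J.2 ∧ Central P k a θ v
  · refine Finset.mem_union_left _ (Finset.mem_union_right _ ?_)
    unfold UF
    rw [Finset.mem_biUnion]
    refine ⟨v, Finset.mem_filter.2 ⟨hvw.mem_left, hdv, hC⟩, ?_⟩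
    rw [Finset.mem_biUnion]
    refine ⟨J, ?_, ?_⟩
    · rw [WF, Finset.mem_filter]
      exact ⟨hJ, hF, _, hJ1, hJ2, hcen⟩
    · rw [Finset.mem_biUnion]
      refine ⟨w, Finset.mem_filter.2 ⟨mem_nb.2 hvw, hA⟩,
        Finset.mem_image.2 ⟨x, mem_nbW_iff.2 ⟨mem_nb.2 hwx, hJ1, hJ2⟩, rfl⟩⟩
  · refine Finset.mem_union_right _ ?_
    push Not at hF
    unfold US
    rw [Finset.mem_biUnion]
    refine ⟨v, hvw.mem_left, ?_⟩
    rw [Finset.mem_biUnion]
    refine ⟨w, mem_nb.2 hvw, ?_⟩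
    rw [Finset.mem_biUnion]
    refine ⟨J, ?_, Finset.mem_image.2 ⟨x, mem_nbW_iff.2 ⟨mem_nb.2 hwx, hJ1, hJ2⟩, rfl⟩⟩
    rw [Finset.mem_filter, WS, Finset.mem_filter]
    refine ⟨⟨hJ, ?_⟩, hA⟩
    refine hflux v hvw.mem_left w hvw.mem_right J hJ hvw.ne ?_ ?_ ?_ hB
    · rintro ⟨h4, h5⟩
      exact hF _ h4 h5 (Central.mono (central_of_NP hvw).1 h2)
    · intro θ h4 h5 h6
      exact hF θ h4 h5 (Central.mono h6 h3)
    · exact ⟨_, hJ1, hJ2, Central.mono (central_of_NP hwx).1 h1⟩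

/-! ### Cardinalities -/

lemma card_UA (k b' : ℕ) {L1 L2 : ℝ} (hL1 : 0 ≤ L1) :
    ((UA P W k b' L1 L2).card : ℝ) ≤ (AA P W k b' L2).card * L1 := by
  have h1 : ((UA P W k b' L1 L2).card : ℝ) ≤
      ∑ y ∈ (AA P W k b' L2).filter (fun y => ((nb P k b' y.1).card : ℝ) ≤ L1), L1 := by
    refine (Nat.cast_le.2 Finset.card_biUnion_le).trans ?_
    push_cast
    refine Finset.sum_le_sum fun y hy => ?_
    refine (Nat.cast_le.2 Finset.card_image_le).trans (Finset.mem_filter.1 hy).2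
  refine h1.trans ?_
  rw [Finset.sum_const, nsmul_eq_mul]
  exact mul_le_mul_of_nonneg_right (Nat.cast_le.2 (Finset.card_filter_le _ _)) hL1

lemma card_UB (k b' bf X : ℕ) {L1 : ℝ} (hL1 : 0 ≤ L1) :
    ((UB P W k b' bf X L1).card : ℝ) ≤ (BB P W k b' bf X).card * L1 := by
  have h1 : ((UB P W k b' bf X L1).card : ℝ) ≤
      ∑ y ∈ (BB P W k b' bf X).filter (fun y => ((nb P k b' y.1).card : ℝ) ≤ L1), L1 := by
    refine (Nat.cast_le.2 Finset.card_biUnion_le).trans ?_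
    push_cast
    refine Finset.sum_le_sum fun y hy => ?_
    refine (Nat.cast_le.2 Finset.card_image_le).trans (Finset.mem_filter.1 hy).2
  refine h1.trans ?_
  rw [Finset.sum_const, nsmul_eq_mul]
  exact mul_le_mul_of_nonneg_right (Nat.cast_le.2 (Finset.card_filter_le _ _)) hL1

lemma card_UC (k b' K : ℕ) {L1 L3 : ℝ} (hL1 : 0 ≤ L1) :
    ((UC P k b' K L1 L3).card : ℝ) ≤ (CC P k K L3).card * L1 ^ 2 := by
  have h1 : ((UC P k b' K L1 L3).card : ℝ) ≤
      ∑ v ∈ (CC P k K L3).filter (fun v => ((nb P k b' v).card : ℝ) ≤ L1), L1 ^ 2 := by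
    refine (Nat.cast_le.2 Finset.card_biUnion_le).trans ?_
    push_cast
    refine Finset.sum_le_sum fun v hv => ?_
    have hv2 := (Finset.mem_filter.1 hv).2
    refine (Nat.cast_le.2 Finset.card_biUnion_le).trans ?_
    push_cast
    calc ∑ w ∈ (nb P k b' v).filter (fun w => ((nb P k b' w).card : ℝ) ≤ L1),
          ((((nb P k b' w).image (fun x => (v, w, x))).card : ℕ) : ℝ)
        ≤ ∑ w ∈ (nb P k b' v).filter (fun w => ((nb P k b' w).card : ℝ) ≤ L1), L1 := by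
          refine Finset.sum_le_sum fun w hw => ?_
          exact (Nat.cast_le.2 Finset.card_image_le).trans (Finset.mem_filter.1 hw).2
      _ ≤ L1 * L1 := by
          rw [Finset.sum_const, nsmul_eq_mul]
          refine mul_le_mul_of_nonneg_right ?_ hL1
          exact (Nat.cast_le.2 (Finset.card_filter_le _ _)).trans hv2
      _ = L1 ^ 2 := by ring
  refine h1.trans ?_
  rw [Finset.sum_const, nsmul_eq_mul]
  exact mul_le_mul_of_nonneg_right (Nat.cast_le.2 (Finset.card_filter_le _ _)) (sq_nonneg _)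

lemma card_UF (hG : Generic P) (hW : Wins P W) (k b' a K : ℕ) (haK : a < K) {L1 L2 L3 : ℝ}
    (hL1 : 0 ≤ L1) (hL2 : 0 ≤ L2) (hL3 : 0 ≤ L3) :
    ((UF P W k b' a K L1 L2 L3).card : ℝ) ≤
      P.card * ((L3 / ((K : ℝ) - a)) * (L1 * L2)) := by
  have hKa : (0 : ℝ) < (K : ℝ) - a := by
    have : (a : ℝ) < K := by exact_mod_cast haK
    linarith
  have h1 : ((UF P W k b' a K L1 L2 L3).card : ℝ) ≤
      ∑ v ∈ P.filter (fun v => ((nb P k b' v).card : ℝ) ≤ L1 ∧ ((nb P k K v).card : ℝ) ≤ L3),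
        (L3 / ((K : ℝ) - a)) * (L1 * L2) := by
    refine (Nat.cast_le.2 Finset.card_biUnion_le).trans ?_
    push_cast
    refine Finset.sum_le_sum fun v hv => ?_
    obtain ⟨hvP, hv2, hv3⟩ := Finset.mem_filter.1 hv
    refine (Nat.cast_le.2 Finset.card_biUnion_le).trans ?_
    push_cast
    have h2 : ∀ J ∈ WF P W k a K v,
        ((((nb P k b' v).filter (fun w => ((nbW P k b' J.1 J.2 w).card : ℝ) ≤ L2)).biUnion
          (fun w => (nbW P k b' J.1 J.2 w).image (fun x => (v, w, x)))).card : ℝ) ≤ L1 * L2 := by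
      intro J _
      refine (Nat.cast_le.2 Finset.card_biUnion_le).trans ?_
      push_cast
      calc ∑ w ∈ (nb P k b' v).filter (fun w => ((nbW P k b' J.1 J.2 w).card : ℝ) ≤ L2),
            ((((nbW P k b' J.1 J.2 w).image (fun x => (v, w, x))).card : ℕ) : ℝ)
          ≤ ∑ w ∈ (nb P k b' v).filter (fun w => ((nbW P k b' J.1 J.2 w).card : ℝ) ≤ L2), L2 := by
            refine Finset.sum_le_sum fun w hw => ?_
            exact (Nat.cast_le.2 Finset.card_image_le).trans (Finset.mem_filter.1 hw).2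
        _ ≤ L1 * L2 := by
            rw [Finset.sum_const, nsmul_eq_mul]
            refine mul_le_mul_of_nonneg_right ?_ hL2
            exact (Nat.cast_le.2 (Finset.card_filter_le _ _)).trans hv2
    refine (Finset.sum_le_sum h2).trans ?_
    rw [Finset.sum_const, nsmul_eq_mul]
    refine mul_le_mul_of_nonneg_right ?_ (mul_nonneg hL1 hL2)
    rw [le_div_iff₀ hKa]
    have h3 := card_WF hG hW (k := k) (a := a) (K := K) v hvP
    have h4 : (((WF P W k a K v).card * (K - a) : ℕ) : ℝ) ≤ L3 :=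
      (Nat.cast_le.2 h3).trans hv3
    rw [Nat.cast_mul, Nat.cast_sub haK.le] at h4
    exact h4
  refine h1.trans ?_
  rw [Finset.sum_const, nsmul_eq_mul]
  refine mul_le_mul_of_nonneg_right (Nat.cast_le.2 (Finset.card_filter_le _ _)) ?_
  exact mul_nonneg (div_nonneg hL3 hKa.le) (mul_nonneg hL1 hL2)

lemma card_US (hW : Wins P W) (k b' bf χ : ℕ) (hχ : 0 < χ) {L2 : ℝ} (hL2 : 0 ≤ L2) :
    ((US P W k b' bf χ L2).card : ℝ) ≤
      (2 * crs (nearAll P k (2 * bf)) (nearAll P k b') : ℝ) / χ * L2 := by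
  have hχ' : (0 : ℝ) < χ := by exact_mod_cast hχ
  have h1 : ((US P W k b' bf χ L2).card : ℝ) ≤
      ∑ v ∈ P, ∑ w ∈ nb P k b' v, ((WS P W k (2 * bf) χ v w).card : ℝ) * L2 := by
    refine (Nat.cast_le.2 Finset.card_biUnion_le).trans ?_
    push_cast
    refine Finset.sum_le_sum fun v _ => ?_
    refine (Nat.cast_le.2 Finset.card_biUnion_le).trans ?_
    push_cast
    refine Finset.sum_le_sum fun w _ => ?_
    refine (Nat.cast_le.2 Finset.card_biUnion_le).trans ?_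
    push_cast
    calc ∑ J ∈ (WS P W k (2 * bf) χ v w).filter
            (fun J => ((nbW P k b' J.1 J.2 w).card : ℝ) ≤ L2),
            ((((nbW P k b' J.1 J.2 w).image (fun x => (v, w, x))).card : ℕ) : ℝ)
        ≤ ∑ J ∈ (WS P W k (2 * bf) χ v w).filter
            (fun J => ((nbW P k b' J.1 J.2 w).card : ℝ) ≤ L2), L2 := by
          refine Finset.sum_le_sum fun J hJ => ?_
          exact (Nat.cast_le.2 Finset.card_image_le).trans (Finset.mem_filter.1 hJ).2
      _ ≤ ((WS P W k (2 * bf) χ v w).card : ℝ) * L2 := by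
          rw [Finset.sum_const, nsmul_eq_mul]
          exact mul_le_mul_of_nonneg_right (Nat.cast_le.2 (Finset.card_filter_le _ _)) hL2
  refine h1.trans ?_
  have h2 : ∑ v ∈ P, ∑ w ∈ nb P k b' v, ((WS P W k (2 * bf) χ v w).card : ℝ) * L2 =
      (((∑ v ∈ P, ∑ w ∈ nb P k b' v, (WS P W k (2 * bf) χ v w).card : ℕ)) : ℝ) * L2 := by
    push_cast
    rw [Finset.sum_mul]
    refine Finset.sum_congr rfl fun v _ => ?_
    rw [Finset.sum_mul]
  rw [h2]
  refine mul_le_mul_of_nonneg_right ?_ hL2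
  rw [le_div_iff₀ hχ']
  have h3 := sum_WS (k := k) (b := 2 * bf) (b' := b') (χ := χ) hW
  exact_mod_cast h3

/-- **The combinatorial core of B4.** -/
theorem card_Bad_le (hG : Generic P) (hW : Wins P W) {k b' bf a K X χ : ℕ} {L1 L2 L3 : ℝ}
    (hflux : FluxHyp P W k bf X χ) (h1 : b' + 1 ≤ bf) (h2 : b' + 1 ≤ a) (h3 : 2 * bf ≤ a)
    (haK : a < K) (hχ : 0 < χ) (hL1 : 0 ≤ L1) (hL2 : 0 ≤ L2) (hL3 : 0 ≤ L3) :
    ((Bad P k b' K L1).card : ℝ) ≤
      (AA P W k b' L2).card * L1 + (BB P W k b' bf X).card * L1 + (CC P k K L3).card * L1 ^ 2 +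
      P.card * ((L3 / ((K : ℝ) - a)) * (L1 * L2)) +
      (2 * crs (nearAll P k (2 * bf)) (nearAll P k b') : ℝ) / χ * L2 := by
  have h4 := Finset.card_le_card
    (Bad_subset (K := K) (L1 := L1) (L2 := L2) (L3 := L3) hW hflux h1 h2 h3)
  have h5 := (h4.trans (Finset.card_union_le _ _)).trans
    (Nat.add_le_add_right ((Finset.card_union_le _ _).trans
      (Nat.add_le_add_right ((Finset.card_union_le _ _).trans
        (Nat.add_le_add_right (Finset.card_union_le _ _) _)) _)) _)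
  have h6 : ((Bad P k b' K L1).card : ℝ) ≤ (UA P W k b' L1 L2).card +
      (UB P W k b' bf X L1).card + (UC P k b' K L1 L3).card +
      (UF P W k b' a K L1 L2 L3).card + (US P W k b' bf χ L2).card := by
    exact_mod_cast h5
  have hA := card_UA (P := P) (W := W) k b' (L2 := L2) hL1
  have hB := card_UB (P := P) (W := W) k b' bf X hL1
  have hC := card_UC (P := P) k b' K (L3 := L3) hL1
  have hF := card_UF hG hW k b' a K haK hL1 hL2 hL3
  have hS := card_US hW k b' bf χ hχ hL2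
  linarith

end Crest.Agent.R51.Loc
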