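import Crest.Agent.R51.WalkA
import Crest.Agent.R51.WinIrr
import Crest.Agent.R51.HSys

/-!
# Row 51, B5.2: the discards `(t3)_l`, `(t67)`, `(t8)` (helper834)

* `card_T0_last_le`, `card_T0_first_le`: the number of walks of `T₀` over a set `S` of edges is at most
  `Λ |S|`;
* `t3_of_W4`, `t3_card`, `t3_eps` : `(t3)` from W4 (i);
* `fib_card_le`, `fib_win_le`: the sizes of the fibres, also over one window;
* `card_avg_le` : averaging over levels (Markov), `card_avg_or_le` with two kinds of bad events;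
* `t8_level`, `t8_card` : walks whose last edge lies in a flagged window;
* `t67_H`, `t8_H`: the same in the form of `HSystem`.
-/

set_option autoImplicit false

noncomputable section

open Classical

namespace Crest.Agent.R51

/-! ### walks over a set of edges -/

/-- walks of `T₀` whose last edge lies in `S` -/
lemma card_T0_last_le {P : Finset Pt} {k b' : ℕ} {Λ : ℝ} (hΛ : 0 ≤ Λ) {H : Finset Walk}
    (hH : H ⊆ T0 P k b' Λ) {S : Finset Edge} (hS : ∀ z ∈ H, lastE z ∈ S) :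
    (H.card : ℝ) ≤ Λ * S.card := by
  have h : H.card ≤ ⌊Λ⌋₊ * S.card := by
    refine card_walks_le_of_last (G := nearAll P k b') ?_ hS ?_
    · intro z hz
      exact lowG_subset _ _ (mem_T0.1 (hH hz)).1
    · intro z hz
      exact Nat.le_floor (mem_T0' (hH hz)).2.2.2.2.2.2.2.2.1
  calc (H.card : ℝ) ≤ (⌊Λ⌋₊ : ℝ) * S.card := by exact_mod_cast h
    _ ≤ Λ * S.card := mul_le_mul_of_nonneg_right (Nat.floor_le hΛ) (Nat.cast_nonneg _)


/-! ### (t3) -/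

/-- the window degree of the middle point of a walk: number of near-`b'` partners `u` of `w` with
`sl w u` in the window of `C` containing the slope of `(w,x)` -/
def wdeg (P : Finset Pt) (k b' : ℕ) (C : Finset ℝ) (z : Walk) : ℕ :=
  (nbW P k b' (winOf C (esl (lastE z))).1 (winOf C (esl (lastE z))).2 z.2.1).card

/-- `(t3)` from the count of W4 (i): `X` bounds the number of ordered near-`b'` pairs `(w,x)` with
window degree `> y` at `w`. -/
lemma t3_of_W4 {P : Finset Pt} {k b' : ℕ} {Λ X y : ℝ} (hΛ : 0 ≤ Λ) {C : Finset ℝ}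
    (hW : (((P ×ˢ P).filter (fun a : Pt × Pt => a.2 ∈ nb P k b' a.1 ∧
      y < ((nbW P k b' (winOf C (sl a.1 a.2)).1 (winOf C (sl a.1 a.2)).2 a.1).card : ℝ))).card : ℝ)
      ≤ X) :
    (((T0 P k b' Λ).filter (fun z => y < (wdeg P k b' C z : ℝ))).card : ℝ) ≤ Λ * X := by
  refine (card_T0_last_le hΛ (Finset.filter_subset _ _)
    (S := (P ×ˢ P).filter (fun a : Pt × Pt => a.2 ∈ nb P k b' a.1 ∧
      y < ((nbW P k b' (winOf C (sl a.1 a.2)).1 (winOf C (sl a.1 a.2)).2 a.1).card : ℝ)))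
    ?_).trans (mul_le_mul_of_nonneg_left hW hΛ)
  intro z hz
  rw [Finset.mem_filter] at hz
  obtain ⟨hz1, hz2⟩ := hz
  obtain ⟨a1, a2, a3, a4, a5, a6, a7, _⟩ := mem_T0' hz1
  rw [Finset.mem_filter, Finset.mem_product]
  refine ⟨⟨a2, a3⟩, ?_, hz2⟩
  rw [mem_nb]
  unfold NP lastE
  rw [mk_of_lt a5, mem_nearAll, mem_pairs]
  exact ⟨⟨a2, a3, a5⟩, a7⟩

/-- `(t3)_l` with explicit constants -/
theorem t3_card {C : ℝ} (hC : 0 ≤ C) (h2 : W2V C) (h3 : W3V C) {P : Finset Pt} (hG : Generic P)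
    {k : ℕ} {V : ℕ → ℕ} {L : ℕ} {Cw : ℝ} (S : WSys P k V L Cw) {l : ℕ} (hl : l ≤ L)
    (hV : 1 ≤ V l) {V' : ℕ} (hV' : 2 * V l ≤ V') (hN : V' ^ 3 ≤ P.card) {lam1 lam2 : ℝ}
    (hlam1 : 0 ≤ lam1) (hlam2 : 0 < lam2) :
    (((T0 P k (bb P.card V') (lam1 * ((P.card : ℝ) / (V' : ℝ) ^ 2))).filter (fun z =>
      lam2 * ((P.card : ℝ) / (V' : ℝ) ^ 2) / (V l : ℝ)
        < (wdeg P k (bb P.card V') (S.cuts l) z : ℝ))).card : ℝ)
      ≤ lam1 * ((P.card : ℝ) / (V' : ℝ) ^ 2) * (2 * Cw * C * (2 * C / lam2) ^ ((1 : ℝ) / 3)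
          * ((P.card : ℝ) * ((P.card : ℝ) / (V' : ℝ) ^ 2))
        + 2 * Cw * C * ((P.card : ℝ) * (V l : ℝ))) := by
  refine t3_of_W4 (by positivity) ?_
  exact W4_i hC h2 h3 hG S hl hV hV' hN hlam2

/-- `(t3)_l`: at most `ε N D'^2` walks if `λ₂` is large in terms of `λ₁`, `ε` -/
theorem t3_eps {C Cw lam1 ε : ℝ} (hC : 0 ≤ C) (h2 : W2V C) (h3 : W3V C) (hCw : 0 ≤ Cw)
    (hlam1 : 0 ≤ lam1) (hε : 0 < ε) :
    ∃ lam0 : ℝ, 1 ≤ lam0 ∧ ∀ lam2 : ℝ, lam0 ≤ lam2 → ∀ Vm V' : ℕ, 0 < V' →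
    ∃ N0 : ℕ, ∀ P : Finset Pt, Generic P → N0 ≤ P.card → ∀ (k : ℕ) (V : ℕ → ℕ) (L : ℕ)
      (S : WSys P k V L Cw) (l : ℕ), l ≤ L → 1 ≤ V l → V l ≤ Vm → 2 * V l ≤ V' →
    (((T0 P k (bb P.card V') (lam1 * ((P.card : ℝ) / (V' : ℝ) ^ 2))).filter (fun z =>
      lam2 * ((P.card : ℝ) / (V' : ℝ) ^ 2) / (V l : ℝ)
        < (wdeg P k (bb P.card V') (S.cuts l) z : ℝ))).card : ℝ)
      ≤ ε * ((P.card : ℝ) * ((P.card : ℝ) / (V' : ℝ) ^ 2) ^ 2) := by
  -- a positive number `δ` with `λ₁ * 2 Cw C δ ≤ ε / 2`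
  set A : ℝ := lam1 * (2 * Cw * C) with hA
  have hA0 : 0 ≤ A := by positivity
  obtain ⟨δ, hδ, hδA⟩ : ∃ δ : ℝ, 0 < δ ∧ A * δ ≤ ε / 2 := by
    refine ⟨ε / (2 * (A + 1)), by positivity, ?_⟩
    rw [mul_div_assoc', div_le_div_iff₀ (by positivity) (by norm_num)]
    nlinarith
  refine ⟨max 1 (2 * C / δ ^ 3), le_max_left _ _, fun lam2 hlam Vm V' hV'0 => ?_⟩
  have hlam2 : 0 < lam2 := lt_of_lt_of_le one_pos ((le_max_left _ _).trans hlam)
  obtain ⟨M, hM⟩ := exists_nat_ge ((2 * A * Vm + 2 * A) * (V' : ℝ) ^ 2 / ε)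
  refine ⟨max (V' ^ 3) M, fun P hG hN k V L S l hl hV hVm hV' => ?_⟩
  have hN1 : V' ^ 3 ≤ P.card := (le_max_left _ _).trans hN
  have hN2 : (M : ℝ) ≤ (P.card : ℝ) := by exact_mod_cast (le_max_right _ _).trans hN
  have hV'pos : (0 : ℝ) < (V' : ℝ) := by exact_mod_cast hV'0
  refine (t3_card hC h2 h3 hG S hl hV hV' hN1 hlam1 hlam2).trans ?_
  set N : ℝ := (P.card : ℝ) with hNd
  have hN0 : 0 ≤ N := Nat.cast_nonneg _
  set D : ℝ := N / (V' : ℝ) ^ 2 with hD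
  have hD0 : 0 ≤ D := by positivity
  have e1 : (2 * C / lam2) ^ ((1 : ℝ) / 3) ≤ δ := by
    have h4 : 2 * C / lam2 ≤ δ ^ 3 := by
      rw [div_le_iff₀ hlam2]
      have h5 := (le_max_right _ _).trans hlam
      rw [div_le_iff₀ (by positivity)] at h5
      linarith
    calc (2 * C / lam2) ^ ((1 : ℝ) / 3) ≤ (δ ^ 3) ^ ((1 : ℝ) / 3) :=
          Real.rpow_le_rpow (by positivity) h4 (by norm_num)
      _ = δ := by
          rw [← Real.rpow_natCast, ← Real.rpow_mul hδ.le]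
          norm_num
  have e2 : A * (V l : ℝ) ≤ ε / 2 * D := by
    have h4 : (V l : ℝ) ≤ (Vm : ℝ) := by exact_mod_cast hVm
    have h5 := hM.trans hN2
    rw [div_le_iff₀ hε] at h5
    rw [hD, mul_div_assoc', le_div_iff₀ (by positivity)]
    have h6 : A * (V l : ℝ) * (V' : ℝ) ^ 2 ≤ A * (Vm : ℝ) * (V' : ℝ) ^ 2 := by gcongr
    have h7 : 0 ≤ A * (V' : ℝ) ^ 2 := by positivity
    nlinarith
  have e3 : lam1 * D * (2 * Cw * C * (2 * C / lam2) ^ ((1 : ℝ) / 3) * (N * D)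
      + 2 * Cw * C * (N * (V l : ℝ)))
      = A * (2 * C / lam2) ^ ((1 : ℝ) / 3) * (N * D ^ 2) + A * (V l : ℝ) * (N * D) := by
    rw [hA]; ring
  rw [e3]
  have e4 : A * (2 * C / lam2) ^ ((1 : ℝ) / 3) * (N * D ^ 2) ≤ ε / 2 * (N * D ^ 2) := by
    refine mul_le_mul_of_nonneg_right ?_ (by positivity)
    exact (mul_le_mul_of_nonneg_left e1 hA0).trans hδA
  have e5 : A * (V l : ℝ) * (N * D) ≤ ε / 2 * D * (N * D) :=
    mul_le_mul_of_nonneg_right e2 (by positivity)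
  have e6 : ε / 2 * D * (N * D) = ε / 2 * (N * D ^ 2) := by ring
  linarith

/-! ### sizes of the fibres -/

/-- a set of edges `(w,x)` of the fibre of `v` is at most `Λ y` if every `w` occurs at most
`y` times -/
lemma fib_sub_card_le {P : Finset Pt} {k b' : ℕ} {Λ y : ℝ} {H : Finset Walk} (hΛ : 0 ≤ Λ)
    (hH : H ⊆ T0 P k b' Λ) {v : Pt} {S : Finset Edge} (hS : S ⊆ fib H v) (hy : 0 ≤ y)
    (hSy : ∀ e ∈ S, ((S.filter (fun f => f.1 = e.1)).card : ℝ) ≤ y) :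
    (S.card : ℝ) ≤ Λ * y := by
  rcases S.eq_empty_or_nonempty with h0 | ⟨e0, he0⟩
  · rw [h0]; simpa using mul_nonneg hΛ hy
  have h1 : S.card = ∑ w ∈ S.image Prod.fst, (S.filter (fun f => f.1 = w)).card :=
    Finset.card_eq_sum_card_fiberwise (fun e he => Finset.mem_image_of_mem _ he)
  have h2 : ((S.image Prod.fst).card : ℝ) ≤ Λ := by
    have h3 : (S.image Prod.fst) ⊆ nbrs (nearAll P k b') v := by
      intro w hw
      obtain ⟨e, he, rfl⟩ := Finset.mem_image.1 hw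
      have h4 := mem_fib.1 (hS he)
      exact mem_nbrs.2 (Or.inl (lowG_subset _ _ (mem_T0.1 (hH h4)).1))
    have h4 : (dg (nearAll P k b') v : ℝ) ≤ Λ :=
      (mem_T0' (hH (mem_fib.1 (hS he0)))).2.2.2.2.2.2.2.1
    have h5 := (Finset.card_le_card h3).trans (card_nbrs_le _ _)
    exact le_trans (by exact_mod_cast h5) h4
  have h3 : (S.card : ℝ) ≤ ∑ _w ∈ S.image Prod.fst, y := by
    rw [h1]
    push_cast
    refine Finset.sum_le_sum (fun w hw => ?_)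
    obtain ⟨e, he, rfl⟩ := Finset.mem_image.1 hw
    exact hSy e he
  rw [Finset.sum_const, nsmul_eq_mul] at h3
  exact h3.trans (mul_le_mul_of_nonneg_right h2 hy)


/-- the part of the fibre in one window `J`, from `not (t3)_l` -/
theorem fib_win_le {P : Finset Pt} {k : ℕ} {V : ℕ → ℕ} {L : ℕ} {Cw : ℝ} (S : WSys P k V L Cw)
    {l b' : ℕ} (hl : l ≤ L) {Λ y : ℝ} {H : Finset Walk} (hΛ : 0 ≤ Λ) (hy : 0 ≤ y)
    (hH : H ⊆ T0 P k b' Λ) (h3 : ∀ z ∈ H, (wdeg P k b' (S.cuts l) z : ℝ) ≤ y) (v : Pt)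
    (J : ℝ × ℝ) :
    (((fib H v).filter (fun e => winOf (S.cuts l) (esl e) = J)).card : ℝ) ≤ Λ * y := by
  refine fib_sub_card_le hΛ hH (Finset.filter_subset _ _) hy (fun e he => ?_)
  obtain ⟨he1, he2⟩ := Finset.mem_filter.1 he
  have h1 : (((fib H v).filter (fun e => winOf (S.cuts l) (esl e) = J)).filter
      (fun f => f.1 = e.1)).card ≤ wdeg P k b' (S.cuts l) (v, e.1, e.2) := by
    unfold wdeg
    refine Finset.card_le_card_of_injOn Prod.snd ?_ ?_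
    · intro f hf
      obtain ⟨hf1, hf2⟩ := Finset.mem_filter.1 (Finset.mem_coe.1 hf)
      obtain ⟨hf3, hf4⟩ := Finset.mem_filter.1 hf1
      have h4 : f ∈ nearAll P k b' := lowG_subset _ _ (mem_T0.1 (hH (mem_fib.1 hf3))).2
      have h5 := S.winOf_pair hl (nearAll_subset h4)
      rw [hf4] at h5
      have h6 : winOf (S.cuts l) (esl (lastE (v, e.1, e.2))) = J := he2
      rw [Finset.mem_coe, h6, mem_nbW]
      have h7 := mem_pairs.1 (nearAll_subset h4)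
      have h8 : mk e.1 f.2 = f := by
        rw [← hf2, mk_of_lt h7.2.2]
      show mk e.1 f.2 ∈ _
      rw [h8]
      rw [mem_nearAll] at h4
      exact mem_nearE.2 ⟨h4.1, h5.2.1, h5.2.2, h4.2⟩
    · intro f hf g hg hfg
      have a := (Finset.mem_filter.1 (Finset.mem_coe.1 hf)).2
      have b := (Finset.mem_filter.1 (Finset.mem_coe.1 hg)).2
      exact Prod.ext (a.trans b.symm) hfg
  have h2 := h3 _ (mem_fib.1 he1)
  exact le_trans (by exact_mod_cast h1) h2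

/-! ### averaging over levels -/



/-! ### (t8) -/

/-- near-`b'` pairs with slope in one of the windows of `F` -/
lemma card_near_in_le {P : Finset Pt} {k b' : ℕ} (F : Finset (ℝ × ℝ)) {y : ℝ}
    (hF : ∀ J ∈ F, ((nearE P k b' J.1 J.2).card : ℝ) ≤ y) :
    (((nearAll P k b').filter (fun e => ∃ J ∈ F, J.1 < esl e ∧ esl e < J.2)).card : ℝ)
      ≤ F.card * y := by
  have h1 : (nearAll P k b').filter (fun e => ∃ J ∈ F, J.1 < esl e ∧ esl e < J.2)
      ⊆ F.biUnion (fun J => nearE P k b' J.1 J.2) := by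
    intro e he
    rw [Finset.mem_filter, mem_nearAll] at he
    obtain ⟨⟨h1, h2⟩, J, hJ, h3, h4⟩ := he
    exact Finset.mem_biUnion.2 ⟨J, hJ, mem_nearE.2 ⟨h1, h3, h4, h2⟩⟩
  have h2 := (Finset.card_le_card h1).trans Finset.card_biUnion_le
  calc (((nearAll P k b').filter (fun e => ∃ J ∈ F, J.1 < esl e ∧ esl e < J.2)).card : ℝ)
      ≤ ∑ J ∈ F, ((nearE P k b' J.1 J.2).card : ℝ) := by exact_mod_cast h2
    _ ≤ ∑ _J ∈ F, y := Finset.sum_le_sum hF
    _ = F.card * y := by rw [Finset.sum_const, nsmul_eq_mul]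

/-- walks whose last edge lies in a window of `F` -/
lemma t8_level {P : Finset Pt} {k : ℕ} {V : ℕ → ℕ} {L : ℕ} {Cw : ℝ} (S : WSys P k V L Cw)
    {l b' : ℕ} (hl : l ≤ L) {Λ : ℝ} (hΛ : 0 ≤ Λ) (F : Finset (ℝ × ℝ)) {y : ℝ}
    (hF : ∀ J ∈ F, ((nearE P k b' J.1 J.2).card : ℝ) ≤ y) :
    (((T0 P k b' Λ).filter (fun z => winOf (S.cuts l) (esl (lastE z)) ∈ F)).card : ℝ)
      ≤ Λ * (F.card * y) := by
  refine (card_T0_last_le hΛ (Finset.filter_subset _ _)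
    (S := (nearAll P k b').filter (fun e => ∃ J ∈ F, J.1 < esl e ∧ esl e < J.2))
    ?_).trans (mul_le_mul_of_nonneg_left (card_near_in_le F hF) hΛ)
  intro z hz
  rw [Finset.mem_filter] at hz
  have h1 : lastE z ∈ nearAll P k b' := lowG_subset _ _ (mem_T0.1 hz.1).2
  have h2 := S.winOf_pair hl (nearAll_subset h1)
  exact Finset.mem_filter.2 ⟨h1, _, hz.2, h2.2.1, h2.2.2⟩


/-! ### the forms used in `HSystem` -/



/-- the flagged windows of level `l` -/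
def flagW {P : Finset Pt} {k : ℕ} {V : ℕ → ℕ} {L : ℕ} {Cw : ℝ} (W : WSys P k V L Cw)
    (mu l : ℕ) : Finset (ℝ × ℝ) :=
  (wins (W.cuts l)).filter (fun J => ∃ I ∈ wins (W.cuts (l - 1)), I.1 ≤ J.1 ∧ J.2 ≤ I.2 ∧
    Flagged (W.cuts l) (mu ^ 39) ((mu : ℝ) ^ 11) I J)

/-- windows of a slope at two levels are nested -/
lemma WSys.winOf_nested {P : Finset Pt} {k : ℕ} {V : ℕ → ℕ} {L : ℕ} {Cw : ℝ}
    (W : WSys P k V L Cw) {l l' : ℕ} (hll : l ≤ l') (hl' : l' ≤ L) {e : Edge}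
    (he : e ∈ pairs P) :
    (winOf (W.cuts l) (esl e)).1 ≤ (winOf (W.cuts l') (esl e)).1 ∧
      (winOf (W.cuts l') (esl e)).2 ≤ (winOf (W.cuts l) (esl e)).2 := by
  obtain ⟨a1, a2, a3⟩ := W.winOf_pair (hll.trans hl') he
  obtain ⟨b1, b2, b3⟩ := W.winOf_pair hl' he
  obtain ⟨J, hJ, h1, h2⟩ := exists_parent (W.sub l l' hll hl')
    (W.sub 0 l (Nat.zero_le _) (hll.trans hl') W.lo_mem)
    (W.sub 0 l (Nat.zero_le _) (hll.trans hl') W.hi_mem)
    (W.lo_le l' hl') (W.le_hi l' hl') b1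
  have h3 : winOf (W.cuts l) (esl e) = J :=
    winOf_eq hJ (h1.trans_lt b2) (b3.trans_le h2)
  rw [h3]
  exact ⟨h1, h2⟩


end Crest.Agent.R51
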