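import Crest.Agent.R51.HSys
import Crest.Agent.R51.LacDefs
import Crest.Agent.R51.WabWeight
import Crest.Agent.R51.LacPair
import Crest.Agent.R51.WalkH
import Crest.Agent.R51.WalkDis
import Crest.Agent.R51.QuadDefs
import Crest.Agent.R51.Active
import Crest.Agent.R51.Level2
import Mathlib
import Crest.Agent.R51.CrossStr
import Crest.Agent.R51.CrossTwo
import Crest.Agent.R51.FluxNb
import Crest.Agent.R51.Dey

-- ▼ part R51/LacPts
section

/-!
# Row 51, section B7 (7.4): the number of lacunary points (helper445)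

A point `v` is lacunary if for some centre `(c,τ)` a fixed proportion of the good 2-walks starting
at `v` has its last direction in a problematic window (`good c τ`). Robustness gives `≥ c V²` pairs
of problematic windows with small intersection which contain `v`; summing over `v` and using the
pair count 7.3 bounds the number of lacunary points.
-/

set_option autoImplicit false
set_option linter.unusedVariables false

noncomputable section

open Classical Finset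

namespace Crest.Agent.R51

namespace Lac7

/-- 7.4, abstract form, for the level `l` of a window system. -/
theorem card_lac_le {β : Type*} {P : Finset Pt} {k : ℕ} {V : ℕ → ℕ} {L : ℕ} {Cw : ℝ}
    (W : WSys P k V L Cw) (l : ℕ) {D' a lam3 K c8 δ8 M : ℝ}
    {H : Pt → Finset Edge} {good : ℝ → β → ℝ × ℝ → Prop} {LL : Finset Pt}
    (hV : 0 < V l) (hD : 0 < D') (ha : 0 < a) (hc8 : 0 < c8) (hδ8 : 0 < δ8) (hK : 0 ≤ K)
    (hLP : LL ⊆ P)
    (hwinof : ∀ v ∈ LL, ∀ e ∈ H v, W.J l (esl e) ∈ wins (W.cuts l))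
    (hcen : ∀ v ∈ LL, ∀ e ∈ H v, v ∈ W.A l (W.J l (esl e)))
    (hwin : ∀ v ∈ LL, ∀ J ∈ wins (W.cuts l),
      (((H v).filter (fun e => W.J l (esl e) = J)).card : ℝ) ≤ a * D' ^ 2 / (V l : ℝ))
    (hT6 : ∀ v ∈ LL, (H v).Nonempty → ¬ W.T6 lam3 l v)
    (hrob : ∀ v ∈ LL, ∀ S ⊆ H v, δ8 * D' ^ 2 ≤ (S.card : ℝ) →
      c8 * (S.card : ℝ) ^ 3 / D' ^ 2 ≤ (((S ×ˢ S).filter (fun x : Edge × Edge =>
        W.NK lam3 K l (W.J l (esl x.1)) (W.J l (esl x.2)))).card : ℝ))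
    (hpairs : (((wins (W.cuts l) ×ˢ wins (W.cuts l)).filter (fun x : (ℝ × ℝ) × (ℝ × ℝ) =>
      x.1 ≠ x.2 ∧ ∃ c τ, good c τ x.1 ∧ good c τ x.2)).card : ℝ) ≤ M)
    (hlac : ∀ v ∈ LL, ∃ c τ, δ8 * D' ^ 2 ≤
      (((H v).filter (fun e => good c τ (W.J l (esl e)))).card : ℝ)) :
    (LL.card : ℝ) * (c8 * δ8 ^ 3 / a ^ 2) * (V l : ℝ) ^ 2 ≤ M * (K * P.card / (V l : ℝ) ^ 4) := by
  classical
  have hV' : (0 : ℝ) < (V l : ℝ) := by exact_mod_cast hV
  -- the problematic related pairs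
  set PP := (wins (W.cuts l) ×ˢ wins (W.cuts l)).filter (fun x : (ℝ × ℝ) × (ℝ × ℝ) =>
    x.1 ≠ x.2 ∧ ∃ c τ, good c τ x.1 ∧ good c τ x.2) with hPP
  set QQ := PP.filter (fun x => W.NK lam3 K l x.1 x.2) with hQQ
  -- lacunary points have walks
  have hne : ∀ v ∈ LL, (H v).Nonempty := by
    intro v hv
    obtain ⟨c, τ, h⟩ := hlac v hv
    by_contra hcon
    rw [Finset.not_nonempty_iff_eq_empty] at hcon
    rw [hcon] at h
    simp only [Finset.filter_empty, Finset.card_empty, Nat.cast_zero] at h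
    have : 0 < δ8 * D' ^ 2 := by positivity
    linarith
  -- per point lower bound
  have hpt : ∀ v ∈ LL, c8 * δ8 ^ 3 / a ^ 2 * (V l : ℝ) ^ 2 ≤
      ((QQ.filter (fun x => v ∈ W.A l x.1 ∧ v ∈ W.A l x.2)).card : ℝ) := by
    intro v hv
    obtain ⟨c, τ, hS⟩ := hlac v hv
    set S := (H v).filter (fun e => good c τ (W.J l (esl e))) with hSdef
    have hSsub : S ⊆ H v := Finset.filter_subset _ _
    have h1 := hrob v hv S hSsub hS
    set T := (S ×ˢ S).filter (fun x : Edge × Edge =>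
      W.NK lam3 K l (W.J l (esl x.1)) (W.J l (esl x.2))) with hT
    set Q := QQ.filter (fun x => v ∈ W.A l x.1 ∧ v ∈ W.A l x.2) with hQ
    have hmaps : ∀ x ∈ T, (W.J l (esl x.1), W.J l (esl x.2)) ∈ Q := by
      intro x hx
      rw [hT, Finset.mem_filter, Finset.mem_product] at hx
      obtain ⟨⟨hx1, hx2⟩, hrel⟩ := hx
      have g1 := (Finset.mem_filter.1 hx1).2
      have g2 := (Finset.mem_filter.1 hx2).2
      have m1 := hSsub hx1
      have m2 := hSsub hx2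
      rw [hQ, Finset.mem_filter, hQQ, Finset.mem_filter, hPP, Finset.mem_filter,
        Finset.mem_product]
      exact ⟨⟨⟨⟨hwinof v hv _ m1, hwinof v hv _ m2⟩, hrel.1, c, τ, g1, g2⟩, hrel⟩,
        hcen v hv _ m1, hcen v hv _ m2⟩
    have hfib : ∀ y ∈ Q, ((T.filter (fun x => (W.J l (esl x.1), W.J l (esl x.2)) = y)).card
        : ℝ) ≤ (a * D' ^ 2 / (V l : ℝ)) ^ 2 := by
      intro y hy
      rw [hQ, Finset.mem_filter, hQQ, Finset.mem_filter, hPP, Finset.mem_filter,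
        Finset.mem_product] at hy
      have w1 := hy.1.1.1.1
      have w2 := hy.1.1.1.2
      have hsub : T.filter (fun x => (W.J l (esl x.1), W.J l (esl x.2)) = y) ⊆
          ((H v).filter (fun e => W.J l (esl e) = y.1)) ×ˢ
            ((H v).filter (fun e => W.J l (esl e) = y.2)) := by
        intro x hx
        rw [Finset.mem_filter, hT, Finset.mem_filter, Finset.mem_product] at hx
        obtain ⟨⟨⟨hx1, hx2⟩, -⟩, hxy⟩ := hx
        rw [Finset.mem_product, Finset.mem_filter, Finset.mem_filter]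
        refine ⟨⟨hSsub hx1, ?_⟩, hSsub hx2, ?_⟩
        · rw [← hxy]
        · rw [← hxy]
      have hc := Finset.card_le_card hsub
      rw [Finset.card_product] at hc
      have hc' : ((T.filter (fun x => (W.J l (esl x.1), W.J l (esl x.2)) = y)).card : ℝ) ≤
          (((H v).filter (fun e => W.J l (esl e) = y.1)).card : ℝ) *
            (((H v).filter (fun e => W.J l (esl e) = y.2)).card : ℝ) := by exact_mod_cast hc
      refine hc'.trans ?_
      rw [sq]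
      exact mul_le_mul (hwin v hv _ w1) (hwin v hv _ w2) (by positivity) (by positivity)
    have hT' : (T.card : ℝ) ≤ Q.card * (a * D' ^ 2 / (V l : ℝ)) ^ 2 := by
      have : T.card = ∑ y ∈ Q, (T.filter (fun x =>
          (W.J l (esl x.1), W.J l (esl x.2)) = y)).card :=
        Finset.card_eq_sum_card_fiberwise (fun x hx => hmaps x (Finset.mem_coe.1 hx))
      rw [this]
      push_cast
      calc ∑ y ∈ Q, ((T.filter (fun x => (W.J l (esl x.1), W.J l (esl x.2)) = y)).card : ℝ)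
          ≤ ∑ _y ∈ Q, (a * D' ^ 2 / (V l : ℝ)) ^ 2 := Finset.sum_le_sum hfib
        _ = Q.card * (a * D' ^ 2 / (V l : ℝ)) ^ 2 := by rw [Finset.sum_const, nsmul_eq_mul]
    have h2 : c8 * δ8 ^ 3 * D' ^ 4 ≤ Q.card * (a * D' ^ 2 / (V l : ℝ)) ^ 2 := by
      refine le_trans ?_ (h1.trans hT')
      rw [le_div_iff₀ (by positivity)]
      have h3 : (δ8 * D' ^ 2) ^ 3 ≤ (S.card : ℝ) ^ 3 :=
        pow_le_pow_left₀ (by positivity) hS 3
      calc c8 * δ8 ^ 3 * D' ^ 4 * D' ^ 2 = c8 * (δ8 * D' ^ 2) ^ 3 := by ring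
        _ ≤ c8 * (S.card : ℝ) ^ 3 := mul_le_mul_of_nonneg_left h3 hc8.le
    have h4 : (Q.card : ℝ) * (a * D' ^ 2 / (V l : ℝ)) ^ 2 =
        (Q.card * a ^ 2 / (V l : ℝ) ^ 2) * D' ^ 4 := by
      field_simp
    rw [h4] at h2
    have h5 : c8 * δ8 ^ 3 ≤ Q.card * a ^ 2 / (V l : ℝ) ^ 2 :=
      le_of_mul_le_mul_right h2 (by positivity)
    rw [le_div_iff₀ (by positivity)] at h5
    rw [div_mul_eq_mul_div, div_le_iff₀ (by positivity)]
    exact h5
  -- sum over `LL`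
  have hsum : (LL.card : ℝ) * (c8 * δ8 ^ 3 / a ^ 2 * (V l : ℝ) ^ 2) ≤
      QQ.card * (K * P.card / (V l : ℝ) ^ 4) := by
    calc (LL.card : ℝ) * (c8 * δ8 ^ 3 / a ^ 2 * (V l : ℝ) ^ 2)
        = ∑ _v ∈ LL, (c8 * δ8 ^ 3 / a ^ 2 * (V l : ℝ) ^ 2) := by
          rw [Finset.sum_const, nsmul_eq_mul]
      _ ≤ ∑ v ∈ LL, ((QQ.filter (fun x => v ∈ W.A l x.1 ∧ v ∈ W.A l x.2)).card : ℝ) :=
          Finset.sum_le_sum hpt
      _ = ∑ x ∈ QQ, ((LL.filter (fun v => v ∈ W.A l x.1 ∧ v ∈ W.A l x.2)).card : ℝ) := by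
          have := Finset.sum_card_bipartiteAbove_eq_sum_card_bipartiteBelow (s := LL) (t := QQ)
            (fun (v : Pt) (x : (ℝ × ℝ) × (ℝ × ℝ)) => v ∈ W.A l x.1 ∧ v ∈ W.A l x.2)
          simp only [Finset.bipartiteAbove, Finset.bipartiteBelow] at this
          exact_mod_cast this
      _ ≤ ∑ x ∈ QQ, (K * P.card / (V l : ℝ) ^ 4) := by
          refine Finset.sum_le_sum (fun x hx => ?_)
          have hrel := (Finset.mem_filter.1 hx).2
          refine le_trans ?_ hrel.2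
          have : LL.filter (fun v => v ∈ W.A l x.1 ∧ v ∈ W.A l x.2) ⊆ W.cc lam3 l x.1 x.2 := by
            intro v hv
            rw [Finset.mem_filter] at hv
            rw [WSys.cc, Finset.mem_filter]
            exact ⟨hLP hv.1, hv.2.1, hv.2.2, hT6 v hv.1 (hne v hv.1)⟩
          exact_mod_cast Finset.card_le_card this
      _ = QQ.card * (K * P.card / (V l : ℝ) ^ 4) := by rw [Finset.sum_const, nsmul_eq_mul]
  have hQM : (QQ.card : ℝ) ≤ M := by
    have : (QQ.card : ℝ) ≤ PP.card := by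
      exact_mod_cast Finset.card_le_card (Finset.filter_subset _ _)
    exact this.trans hpairs
  have hKN : 0 ≤ K * (P.card : ℝ) / (V l : ℝ) ^ 4 := by positivity
  calc (LL.card : ℝ) * (c8 * δ8 ^ 3 / a ^ 2) * (V l : ℝ) ^ 2
      = (LL.card : ℝ) * (c8 * δ8 ^ 3 / a ^ 2 * (V l : ℝ) ^ 2) := by ring
    _ ≤ QQ.card * (K * P.card / (V l : ℝ) ^ 4) := hsum
    _ ≤ M * (K * P.card / (V l : ℝ) ^ 4) := mul_le_mul_of_nonneg_right hQM hKN

end Lac7

end Crest.Agent.R51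
end
end

-- ▼ part R51/LacBridge
section

/-!
# Row 51: bridge between `Blocks/Domin/Flagged/Lac` (HSys.lean) and `Interior/Dom/Flag/Prb`
(LacDefs.lean), and between the closed forms `om1, om2` and interval integrals  (helper209)
-/

set_option autoImplicit false

noncomputable section

open Classical

namespace Crest.Agent.R51.LacB

open Crest.Agent.R51.Lac

/-! ### directions and their windows -/

section dir

variable {P : Finset Pt} {k : ℕ} {V : ℕ → ℕ} {L : ℕ} {Cw : ℝ}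

/-- `θ` is strictly inside the range of the window system and is not a cut -/
def OK (W : WSys P k V L Cw) (θ : ℝ) : Prop := W.lo < θ ∧ θ < W.hi ∧ ∀ l ≤ L, θ ∉ W.cuts l

theorem OK_esl (W : WSys P k V L Cw) {e : Edge} (he : e ∈ pairs P) : OK W (esl e) :=
  ⟨W.lo_lt_slope e he, W.slope_lt_hi e he, fun l hl h => W.nons l hl _ h e he rfl⟩


theorem J_spec (W : WSys P k V L Cw) {l : ℕ} (hl : l ≤ L) {θ : ℝ} (hθ : OK W θ) :
    W.J l θ ∈ wins (W.cuts l) ∧ (W.J l θ).1 < θ ∧ θ < (W.J l θ).2 :=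
  winOf_spec (exists_win (W.sub 0 l (Nat.zero_le _) hl W.lo_mem)
    (W.sub 0 l (Nat.zero_le _) hl W.hi_mem) hθ.1 hθ.2.1 (hθ.2.2 l hl))

theorem J_nested (W : WSys P k V L Cw) {l l' : ℕ} (hll : l ≤ l') (hl' : l' ≤ L) {θ : ℝ}
    (hθ : OK W θ) : (W.J l θ).1 ≤ (W.J l' θ).1 ∧ (W.J l' θ).2 ≤ (W.J l θ).2 := by
  obtain ⟨a1, a2, a3⟩ := J_spec W (hll.trans hl') hθ
  obtain ⟨b1, b2, b3⟩ := J_spec W hl' hθ
  have hw := win_or (mem_wins.1 b1)
  have ha := mem_wins.1 a1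
  constructor
  · rcases hw _ (W.sub l l' hll hl' ha.1) with h | h
    · exact h
    · linarith
  · rcases hw _ (W.sub l l' hll hl' ha.2.1) with h | h
    · linarith
    · exact h

theorem J_kid (W : WSys P k V L Cw) {j : ℕ} (hj : j ≤ L) {θ : ℝ} (hθ : OK W θ) :
    W.J j θ ∈ kids (W.cuts j) (W.J (j - 1) θ) := by
  obtain ⟨b1, b2, b3⟩ := J_spec W hj hθ
  obtain ⟨h1, h2⟩ := J_nested W (Nat.sub_le j 1) hj hθ
  exact mem_kids.2 ⟨mem_wins.1 b1, h1, h2⟩

end dir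

/-! ### blocks -/

theorem blocks_iff {C : Finset ℝ} {B : ℕ} (hB : 1 ≤ B) {K J : ℝ × ℝ} : (∃ l r, Blocks C B K J l r) ↔ Interior C B K J := by
  constructor
  · rintro ⟨l, r, b1, b2, b3, b4, b5, b6, b7, b8⟩
    constructor
    · rw [cntL_add b5 b3.le]
      have : cntL C l J.1 = B := b7
      omega
    · have e := cntL_add (C := neg C) (u := -K.2) (v := -r) (w := -J.2) (by linarith)
        (by linarith)
      rw [cntL_neg, cntL_neg, cntL_neg] at e
      have : cntR C J.2 r = B := b8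
      omega
  · rintro ⟨h3, h4⟩
    obtain ⟨l, a1, a2, a3, a4⟩ := exists_left hB h3
    obtain ⟨r, c1, c2, c3, c4⟩ := exists_right hB h4
    exact ⟨l, r, a1, c1, a3, c2, a2, c3, a4, c4⟩

theorem cntL_lt {C : Finset ℝ} {l x : ℝ} (h : 1 ≤ cntL C l x) : l < x := by
  by_contra hge
  rw [not_lt] at hge
  have : cntL C l x = 0 := by
    unfold cntL
    rw [Finset.card_eq_zero, Finset.filter_eq_empty_iff]
    rintro y _ ⟨h1, h2⟩
    linarith
  omega


theorem left_unique {C : Finset ℝ} {B : ℕ} (hB : 1 ≤ B) {x l l' : ℝ} (hl : l ∈ C) (hl' : l' ∈ C)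
    (h : cntL C l x = B) (h' : cntL C l' x = B) : l = l' := by
  have a := cntL_lt (C := C) (l := l) (x := x) (by omega)
  have a' := cntL_lt (C := C) (l := l') (x := x) (by omega)
  rcases lt_trichotomy l l' with h1 | h1 | h1
  · have e := cntL_add (C := C) h1.le a'.le
    have := cntL_pos hl h1
    omega
  · exact h1
  · have e := cntL_add (C := C) h1.le a.le
    have := cntL_pos hl' h1
    omega

theorem right_unique {C : Finset ℝ} {B : ℕ} (hB : 1 ≤ B) {x r r' : ℝ} (hr : r ∈ C) (hr' : r' ∈ C)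
    (h : cntR C x r = B) (h' : cntR C x r' = B) : r = r' := by
  have := left_unique (C := neg C) hB (x := -x) (l := -r) (l' := -r')
    (by rw [mem_neg, neg_neg]; exact hr) (by rw [mem_neg, neg_neg]; exact hr')
    (by rw [cntL_neg]; exact h) (by rw [cntL_neg]; exact h')
  linarith

/-- `Domin` (∃ blocks, closed weight) iff `Dom` (∀ blocks, integrals) -/
theorem domin_iff {C : Finset ℝ} {B : ℕ} (hB : 1 ≤ B) {K J : ℝ × ℝ} (h1 : K.1 ≤ J.1)
    (h2 : J.2 ≤ K.2) (hJ : J.1 ≤ J.2) {wt : ℝ → ℝ → ℝ} {ω : ℝ → ℝ} {t : ℝ}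
    (hwt : ∀ u v, K.1 ≤ u → u ≤ v → v ≤ K.2 → wt u v = ∫ θ in u..v, ω θ) :
    Domin C B K wt t J ↔ Dom C B t ω K J := by
  constructor
  · rintro ⟨l, r, hb, d1, d2⟩
    refine ⟨(blocks_iff hB).1 ⟨l, r, hb⟩, ?_, ?_⟩
    · intro l' hl' hc
      have e : l' = l := left_unique hB hl' hb.1 hc hb.2.2.2.2.2.2.1
      rw [e]
      rw [hwt l J.1 hb.2.2.2.2.1 hb.2.2.1.le (by linarith), hwt J.1 J.2 h1 hJ h2] at d1
      exact d1
    · intro r' hr' hc
      have e : r' = r := right_unique hB hr' hb.2.1 hc hb.2.2.2.2.2.2.2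
      rw [e]
      rw [hwt J.2 r (by linarith) hb.2.2.2.1.le hb.2.2.2.2.2.1, hwt J.1 J.2 h1 hJ h2] at d2
      exact d2
  · rintro ⟨hI, dL, dR⟩
    obtain ⟨l, r, hb⟩ := (blocks_iff hB).2 hI
    refine ⟨l, r, hb, ?_, ?_⟩
    · rw [hwt l J.1 hb.2.2.2.2.1 hb.2.2.1.le (by linarith), hwt J.1 J.2 h1 hJ h2]
      exact dL l hb.1 hb.2.2.2.2.2.2.1
    · rw [hwt J.2 r (by linarith) hb.2.2.2.1.le hb.2.2.2.2.2.1, hwt J.1 J.2 h1 hJ h2]
      exact dR r hb.2.1 hb.2.2.2.2.2.2.2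

/-! ### closed forms -/

/-- the exponent attached to `two` -/
def tau (two : Bool) : ℕ := if two then 2 else 1

theorem tau_cases (two : Bool) : tau two = 1 ∨ tau two = 2 := by
  cases two
  · left; rfl
  · right; rfl

theorem omg_eq (c : ℝ) (τ : ℕ) : omg c τ = Wab.om c τ := by
  funext θ
  unfold omg Wab.om
  rw [one_div]

/-- `om two c u v` is the integral of `|θ-c|^(-τ)` over `[u,v]` if `c ∉ [u,v]` -/
theorem om_eq_integral {two : Bool} {c u v : ℝ} (huv : u ≤ v) (hc : c < u ∨ v < c) :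
    om two c u v = ∫ θ in u..v, omg c (tau two) θ := by
  have hc' : c ∉ Set.Icc u v := by
    rintro ⟨h1, h2⟩
    rcases hc with h | h <;> linarith
  rw [omg_eq]
  cases two
  · show om1 c u v = ∫ θ in u..v, Wab.om c 1 θ
    rw [Wab.integral_om_one huv hc']
    rfl
  · show om2 c u v = ∫ θ in u..v, Wab.om c 2 θ
    rw [Wab.integral_om_two huv hc']
    rfl

theorem domin_om_iff {C : Finset ℝ} {B : ℕ} (hB : 1 ≤ B) {K J : ℝ × ℝ} (h1 : K.1 ≤ J.1)
    (h2 : J.2 ≤ K.2) (hJ : J.1 ≤ J.2) {two : Bool} {c t : ℝ} (hc : c < K.1 ∨ K.2 < c) :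
    Domin C B K (om two c) t J ↔ Dom C B t (omg c (tau two)) K J := by
  refine domin_iff hB h1 h2 hJ fun u v hu huv hv => om_eq_integral huv ?_
  rcases hc with h | h
  · left; linarith
  · right; linarith



section sys

variable {P : Finset Pt} {k : ℕ} {V : ℕ → ℕ} {L : ℕ} {Cw : ℝ}


theorem domin_iff_kids {C : Finset ℝ} {B : ℕ} (hB : 1 ≤ B) {K J : ℝ × ℝ} (hJ : J ∈ kids C K)
    {two : Bool} {c t : ℝ} (hc : c < K.1 ∨ K.2 < c) :
    Domin C B K (om two c) t J ↔ Dom C B t (omg c (tau two)) K J := by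
  rw [mem_kids] at hJ
  exact domin_om_iff hB hJ.2.1 hJ.2.2 hJ.1.2.2.1.le hc




/-- `Domin` along a direction implies `DomAt` (`c` outside the closed parent) -/
theorem domAt_of_domin (W : WSys P k V L Cw) {B : ℕ} (hB : 1 ≤ B) {l l' : ℕ} (hll : l ≤ l')
    (hl' : l' ≤ L) {θ : ℝ} (hθ : OK W θ) {two : Bool} {c t : ℝ}
    (hc : c < (W.J (l - 1) θ).1 ∨ (W.J (l - 1) θ).2 < c)
    (h : Domin (W.cuts l) B (W.J (l - 1) θ) (om two c) t (W.J l θ)) :
    DomAt W.cuts B t (omg c (tau two)) l (W.J l' θ) := by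
  have hl := hll.trans hl'
  have hk := J_kid W hl hθ
  have hn := J_nested W hll hl' hθ
  exact ⟨W.J (l - 1) θ, (J_spec W ((Nat.sub_le l 1).trans hl) hθ).1, W.J l θ, hk, hn.1, hn.2,
    (domin_iff_kids hB hk hc).1 h⟩

/-- **`Lac` implies `Prb`** -/
theorem prb_of_lac (W : WSys P k V L Cw) {mu n2 : ℕ} (hmu : 1 ≤ mu) (hn2 : n2 ≤ L) {c : ℝ}
    {two : Bool} {θ : ℝ} (hθ : OK W θ) (h : Lac W mu n2 c two θ) :
    Prb W.cuts (mu ^ 39) ((mu : ℝ) ^ 11) 1 n2 c (tau two) (W.J n2 θ) := by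
  obtain ⟨h1, h2, h3, h4⟩ := h
  refine ⟨(J_spec W hn2 hθ).1, by linarith, by linarith, h4.trans ?_⟩
  apply Nat.mul_le_mul_left
  apply Finset.card_le_card
  intro j hj
  rw [Finset.mem_filter] at hj ⊢
  refine ⟨hj.1, ?_⟩
  have hj1 := Finset.mem_Ioc.1 hj.1
  have hj2 : 1 ≤ j - 1 := by omega
  refine domAt_of_domin W (Nat.one_le_pow _ _ hmu) hj1.2 hn2 hθ ?_ hj.2
  have hn := J_nested W hj2 ((Nat.sub_le j 1).trans (hj1.2.trans hn2)) hθ
  rw [not_and_or, not_le, not_le] at h1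
  rcases h1 with h | h
  · left; exact lt_of_lt_of_le h hn.1
  · right; exact lt_of_le_of_lt hn.2 h

end sys

end Crest.Agent.R51.LacB
end
end

-- ▼ part R51/LacPts2
section

/-!
# Row 51, section B7 (7.4): the number of lacunary points is `≤ ε N` (helper445)

`i74 : I74` from helper259's pair count, helper209's bridge, and `card_lac_le`.
-/

set_option autoImplicit false
set_option linter.unusedVariables false

noncomputable section

open Classical Finset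

namespace Crest.Agent.R51

namespace Lac7

/-- the window `J` contains a direction of `Prob_{c,τ}` -/
def LacWin {P : Finset Pt} {k : ℕ} {V : ℕ → ℕ} {L : ℕ} {Cw : ℝ} (W : WSys P k V L Cw)
    (mu n2 : ℕ) (c : ℝ) (two : Bool) (J : ℝ × ℝ) : Prop :=
  ∃ θ, LacB.OK W θ ∧ W.J n2 θ = J ∧ Lac W mu n2 c two θ

/-- **7.3** (pair count) for the windows of `Lac` -/
theorem pairCount {Cw : ℝ} (hCw : 1 ≤ Cw) {mu n2 : ℕ} (hmu : (80 * Cw) ^ 5 ≤ (mu : ℝ))
    (hn2 : 1 ≤ n2) {P : Finset Pt} {k : ℕ} {V : ℕ → ℕ} {L : ℕ} (W : WSys P k V L Cw)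
    (hL : n2 ≤ L) (hV : ∀ l ≤ n2, V l = mu ^ (10 * l)) :
    (((wins (W.cuts n2) ×ˢ wins (W.cuts n2)).filter (fun x : (ℝ × ℝ) × (ℝ × ℝ) =>
      x.1 ≠ x.2 ∧ ∃ (c : ℝ) (two : Bool), LacWin W mu n2 c two x.1 ∧
        LacWin W mu n2 c two x.2)).card : ℝ) ≤
      4 * Cw * ((144 * (mu : ℝ) ^ 11 + 2) + Cw * (mu : ℝ) ^ (40 * 1) +
        (144 * (mu : ℝ) ^ 11 + 2) * (Cw * (mu : ℝ) ^ 40)) * n2 * (mu : ℝ) ^ (55 * n2) := by
  have hmu1 : 1 ≤ mu := by
    have h1 : (1 : ℝ) ≤ (80 * Cw) ^ 5 := one_le_pow₀ (by linarith)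
    exact_mod_cast h1.trans hmu
  have hN := Lac.nest_of_wsys W hL hmu1 hV
  have h := Lac.pair_count hN hCw hmu hn2 hn2 (Lac.card_wins_wsys W hL hV hn2)
    (Lac.card_wins_wsys W hL hV le_rfl)
  refine le_trans ?_ h
  have hsub : (wins (W.cuts n2) ×ˢ wins (W.cuts n2)).filter (fun x : (ℝ × ℝ) × (ℝ × ℝ) =>
      x.1 ≠ x.2 ∧ ∃ (c : ℝ) (two : Bool), LacWin W mu n2 c two x.1 ∧
        LacWin W mu n2 c two x.2) ⊆ Lac.pairSet W.cuts n2 (mu ^ 39) ((mu : ℝ) ^ 11) 1 := by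
    intro x hx
    rw [Finset.mem_filter] at hx
    obtain ⟨hx1, _, c, two, ⟨θ, h1, h2, h3⟩, ⟨θ', h1', h2', h3'⟩⟩ := hx
    unfold Lac.pairSet
    rw [Finset.mem_filter]
    refine ⟨hx1, c, LacB.tau two, LacB.tau_cases two, ?_, ?_⟩
    · rw [← h2]
      exact LacB.prb_of_lac W hmu1 hL h1 h3
    · rw [← h2']
      exact LacB.prb_of_lac W hmu1 hL h1' h3'
  exact_mod_cast Finset.card_le_card hsub

/-- `n q^n → 0` in the form used below -/
lemma exists_small {mu : ℕ} (hmu : 2 ≤ mu) {c η : ℝ} (hc : 0 < c) (hη : 0 < η) :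
    ∃ n0 : ℕ, ∀ n : ℕ, n0 ≤ n → c * n ≤ η * (mu : ℝ) ^ (5 * n) := by
  obtain ⟨n0, hn0⟩ := exists_nat_gt (c / η)
  refine ⟨n0, fun n hn => ?_⟩
  have h1 : c / η ≤ n := hn0.le.trans (by exact_mod_cast hn)
  have h2 : (n : ℝ) ≤ 2 ^ n := by exact_mod_cast n.lt_two_pow_self.le
  have hmu' : (2 : ℝ) ≤ mu := by exact_mod_cast hmu
  have h3 : (n : ℝ) * n ≤ (mu : ℝ) ^ (5 * n) := by
    calc (n : ℝ) * n ≤ 2 ^ n * 2 ^ n := mul_le_mul h2 h2 (by positivity) (by positivity)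
      _ = 2 ^ (2 * n) := by rw [← pow_add]; congr 1; ring
      _ ≤ 2 ^ (5 * n) := pow_le_pow_right₀ (by norm_num) (by omega)
      _ ≤ (mu : ℝ) ^ (5 * n) := pow_le_pow_left₀ (by norm_num) hmu' _
  rw [div_le_iff₀ hη] at h1
  have hn' : (0 : ℝ) ≤ n := by positivity
  nlinarith

/-- the numerical conclusion of 7.4 -/
lemma num_concl {mu n2 : ℕ} {LL N Cm K c0 ε v : ℝ} (hmu : 0 < mu) (hc0 : 0 < c0) (hN : 0 ≤ N)
    (hv : v = (mu : ℝ) ^ (10 * n2))
    (hsm : (Cm * K + 1) * n2 ≤ ε * c0 * (mu : ℝ) ^ (5 * n2))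
    (key : LL * c0 * v ^ 2 ≤ (Cm * n2 * (mu : ℝ) ^ (55 * n2)) * (K * N / v ^ 4)) :
    LL ≤ ε * N := by
  have hmuR : (0 : ℝ) < mu := by exact_mod_cast hmu
  set q : ℝ := (mu : ℝ) ^ (5 * n2) with hq
  have hq0 : 0 < q := by positivity
  have e10 : v = q ^ 2 := by rw [hv, hq, ← pow_mul]; congr 1; ring
  have e55 : (mu : ℝ) ^ (55 * n2) = q ^ 11 := by rw [hq, ← pow_mul]; congr 1; ring
  rw [e10, e55] at key
  have hn2' : (0 : ℝ) ≤ n2 := by positivity
  have key2 : LL * c0 * q ^ 12 ≤ (Cm * K * n2) * N * q ^ 11 := by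
    have h1 : Cm * ↑n2 * q ^ 11 * (K * N / (q ^ 2) ^ 4) * q ^ 8
        = (Cm * K * n2) * N * q ^ 11 := by
      field_simp
    have h2 : LL * c0 * (q ^ 2) ^ 2 * q ^ 8 = LL * c0 * q ^ 12 := by ring
    rw [← h1, ← h2]
    exact mul_le_mul_of_nonneg_right key (by positivity)
  have key3 : LL * c0 * q ≤ (Cm * K * n2) * N := by
    have h1 : LL * c0 * q ^ 12 = (LL * c0 * q) * q ^ 11 := by ring
    rw [h1] at key2
    exact le_of_mul_le_mul_right key2 (by positivity)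
  have key4 : (Cm * K * n2) * N ≤ (ε * c0 * q) * N := by
    refine mul_le_mul_of_nonneg_right ?_ hN
    refine le_trans ?_ hsm
    nlinarith
  have key5 : LL * (c0 * q) ≤ (ε * N) * (c0 * q) := by
    calc LL * (c0 * q) = LL * c0 * q := by ring
      _ ≤ _ := key3
      _ ≤ _ := key4
      _ = (ε * N) * (c0 * q) := by ring
  exact le_of_mul_le_mul_right key5 (by positivity)

/-- **7.4**: the number of robust lacunary points is `≤ ε N`. -/
theorem card_lac (Cw : ℝ) (hCw : 1 ≤ Cw) : ∃ mu0 : ℕ, ∀ mu : ℕ, mu0 ≤ mu →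
    ∀ a lam3 K c8 δ8 ε : ℝ, 0 < a → 0 ≤ K → 0 < c8 → 0 < δ8 → 0 < ε →
    ∃ n20 : ℕ, ∀ n2 : ℕ, n20 ≤ n2 →
    ∀ (P : Finset Pt) (k : ℕ) (V : ℕ → ℕ) (L : ℕ) (W : WSys P k V L Cw),
      n2 ≤ L → (∀ l ≤ n2, V l = mu ^ (10 * l)) → ∀ D' : ℝ, 0 < D' →
    ∀ (F : Pt → Finset Edge) (LL : Finset Pt), LL ⊆ P →
      (∀ v ∈ LL, ∀ e ∈ F v, e ∈ pairs P) →
      (∀ v ∈ LL, ∀ e ∈ F v, v ∈ W.A n2 (W.J n2 (esl e))) →
      (∀ v ∈ LL, ∀ J ∈ wins (W.cuts n2),
        (((F v).filter (fun e => W.J n2 (esl e) = J)).card : ℝ) ≤ a * D' ^ 2 / (V n2 : ℝ)) →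
      (∀ v ∈ LL, (F v).Nonempty → ¬ W.T6 lam3 n2 v) →
      (∀ v ∈ LL, ∀ S ⊆ F v, δ8 * D' ^ 2 ≤ (S.card : ℝ) →
        c8 * (S.card : ℝ) ^ 3 / D' ^ 2 ≤ (((S ×ˢ S).filter (fun x : Edge × Edge =>
          W.NK lam3 K n2 (W.J n2 (esl x.1)) (W.J n2 (esl x.2)))).card : ℝ)) →
      (∀ v ∈ LL, ∃ c two, δ8 * D' ^ 2 ≤
        (((F v).filter (fun e => Lac W mu n2 c two (esl e))).card : ℝ)) →
      (LL.card : ℝ) ≤ ε * P.card := by
  obtain ⟨mu0, hmu0⟩ := exists_nat_ge ((80 * Cw) ^ 5)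
  refine ⟨max mu0 2, fun mu hmu a lam3 K c8 δ8 ε ha hK hc8 hδ8 hε => ?_⟩
  have hmu2 : 2 ≤ mu := (le_max_right _ _).trans hmu
  have hmu80 : (80 * Cw) ^ 5 ≤ (mu : ℝ) :=
    hmu0.trans (by exact_mod_cast (le_max_left _ _).trans hmu)
  obtain ⟨Cm, hCm, hCmdef⟩ : ∃ Cm : ℝ, 0 < Cm ∧ Cm = 4 * Cw * ((144 * (mu : ℝ) ^ 11 + 2) +
      Cw * (mu : ℝ) ^ (40 * 1) + (144 * (mu : ℝ) ^ 11 + 2) * (Cw * (mu : ℝ) ^ 40)) :=
    ⟨_, by positivity, rfl⟩
  have hc0 : 0 < c8 * δ8 ^ 3 / a ^ 2 := by positivity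
  obtain ⟨n1, hn1⟩ := exists_small hmu2 (c := Cm * K + 1) (η := ε * (c8 * δ8 ^ 3 / a ^ 2))
    (by positivity) (by positivity)
  refine ⟨max 1 n1, ?_⟩
  intro n2 hn2 P k V L W hL hVl D' hD F LL hLP hpair hcen hwin hT6 hrob hlac
  have hM := pairCount hCw hmu80 ((le_max_left _ _).trans hn2) W hL hVl
  rw [← hCmdef] at hM
  have hVn := hVl n2 le_rfl
  have hmupos : 0 < mu := by omega
  have hVpos : 0 < V n2 := by rw [hVn]; positivity
  have key := card_lac_le W n2 (β := Bool) (H := F) (good := LacWin W mu n2) (LL := LL) (M := _)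
    hVpos hD ha hc8 hδ8 hK hLP (fun v hv e he => (W.winOf_pair hL (hpair v hv e he)).1) hcen hwin
    hT6 hrob hM (by
      intro v hv
      obtain ⟨c, two, h⟩ := hlac v hv
      refine ⟨c, two, h.trans ?_⟩
      have : (F v).filter (fun e => Lac W mu n2 c two (esl e)) ⊆
          (F v).filter (fun e => LacWin W mu n2 c two (W.J n2 (esl e))) := by
        intro e he
        rw [Finset.mem_filter] at he ⊢
        exact ⟨he.1, esl e, LacB.OK_esl W (hpair v hv e he.1), rfl, he.2⟩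
      exact_mod_cast Finset.card_le_card this)
  have hVR : (V n2 : ℝ) = (mu : ℝ) ^ (10 * n2) := by rw [hVn]; push_cast; rfl
  exact num_concl hmupos hc0 (by positivity) hVR (hn1 n2 ((le_max_right _ _).trans hn2)) key

end Lac7

/-- **7.4**, in the interface of `WalkH.lean`. -/
theorem i74 : I74 := by
  intro Cw lam1 lam2 lam3 c8 K d ε hCw hlam1 hlam2 hlam3 hc8 hK hd hε
  obtain ⟨mu0, hmu0⟩ := Lac7.card_lac Cw hCw
  refine ⟨mu0, fun mu hmu => ?_⟩
  obtain ⟨n20, hn20⟩ := hmu0 mu hmu (lam1 * lam2) lam3 K c8 d ε (by positivity) hK.le hc8 hd hε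
  refine ⟨n20, fun n2 hn2 n0 be hn0 hbe Vp hVp => ⟨1, ?_⟩⟩
  intro P hG hN k W H hH hg3 ht6 hcen LP hLP hrob hlac
  have hNR : (0 : ℝ) < P.card := by exact_mod_cast hN
  have hVpR : (0 : ℝ) < Vp := by exact_mod_cast hVp
  have hD : 0 < DD P Vp := by unfold DD; positivity
  have hpair : ∀ z ∈ H, lastE z ∈ pairs P := by
    intro z hz
    have h := mem_T0' (hH hz)
    exact mem_pairs.2 ⟨h.2.1, h.2.2.1, h.2.2.2.2.1⟩
  have hL : n2 ≤ n0 + 1 := by omega
  have hVl : ∀ l ≤ n2, lev mu n0 be l = mu ^ (10 * l) := by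
    intro l hl
    have : l ≤ n0 := hl.trans hn0
    unfold lev
    simp [this]
  have h3 : ∀ (v : Pt) (J : ℝ × ℝ),
      (((fib H v).filter (fun e => W.J n2 (esl e) = J)).card : ℝ) ≤
        lam1 * lam2 * DD P Vp ^ 2 / (lev mu n0 be n2 : ℝ) := by
    intro v J
    have h := fib_win_le W hL (Λ := lam1 * DD P Vp) (y := lam2 * DD P Vp / (lev mu n0 be n2 : ℝ))
      (by positivity) (by positivity) hH hg3 v J
    refine h.trans (le_of_eq ?_)
    ring
  have hfpair : ∀ v ∈ LP, ∀ e ∈ fib H v, e ∈ pairs P := by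
    intro v _ e he
    have := hpair _ (mem_fib.1 he)
    exact this
  have hfcen : ∀ v ∈ LP, ∀ e ∈ fib H v, v ∈ W.A n2 (W.J n2 (esl e)) := by
    intro v _ e he
    have := hcen _ (mem_fib.1 he)
    exact this
  have hft6 : ∀ v ∈ LP, (fib H v).Nonempty → ¬ W.T6 lam3 n2 v := by
    rintro v _ ⟨e, he⟩
    have := ht6 _ (mem_fib.1 he)
    exact this
  exact hn20 n2 hn2 P k _ _ W hL hVl (DD P Vp) hD (fib H) LP hLP hfpair hfcen
    (fun v _ J _ => h3 v J) hft6 hrob hlac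

end Crest.Agent.R51
end
end

-- ▼ part R51/Quad1
section

/-!
# Row 51, section B6: context, windows, 6.1 (helper422)
-/

set_option autoImplicit false

noncomputable section

open Classical Finset

namespace Crest.Agent.R51.Quad

open Crest.Agent.R51 Crest.Agent.R51.Active

/-- counting by fibres: if every fibre of `f` on `E` has at most `B` elements -/
lemma card_le_image_mul {α ι : Type*} [DecidableEq ι] (E : Finset α) (f : α → ι) (B : ℝ)
    (hB : ∀ i ∈ E.image f, ((E.filter (fun e => f e = i)).card : ℝ) ≤ B) :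
    (E.card : ℝ) ≤ (E.image f).card * B := by
  have h1 : E.card = ∑ i ∈ E.image f, (E.filter (fun e => f e = i)).card :=
    Finset.card_eq_sum_card_image f E
  rw [h1]
  push_cast
  calc (∑ i ∈ E.image f, ((E.filter (fun e => f e = i)).card : ℝ))
      ≤ ∑ _i ∈ E.image f, B := Finset.sum_le_sum hB
    _ = (E.image f).card * B := by rw [Finset.sum_const, nsmul_eq_mul]

/-- the data of section B6 -/
structure BCtx where
  P : Finset Pt
  hP : Generic P
  k : ℕ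
  V : ℕ
  β : ℕ
  L : ℕ
  Vs : ℕ → ℕ
  Lw : ℕ
  Cw : ℝ
  lam1 : ℝ
  lam2 : ℝ
  lam3 : ℝ
  κ : ℝ
  c2 : ℝ
  c8 : ℝ
  δ1 : ℝ
  ε1 : ℝ
  D' : ℝ
  W : WSys P k Vs Lw Cw
  l0 : ℕ
  hl0 : l0 + 1 ≤ Lw
  hVs : Vs l0 = V
  hVb : Vs (l0 + 1) = β * V
  Rel : ℝ × ℝ → ℝ × ℝ → Prop
  H : Pt → Finset Edge
  hH : HSys P k V β L (W.cuts l0) (W.cuts (l0 + 1)) lam1 lam2 lam3 κ c2 c8 δ1 D' Rel H
  hCw : 1 ≤ Cw
  h1 : 1 ≤ lam1
  h2 : 1 ≤ lam2
  h3 : 1 ≤ lam3
  hκ : 0 < κ
  hκ2 : κ ≤ 1 / 2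
  hc2 : 0 < c2
  hc8 : 0 < c8
  hδ1 : 0 < δ1
  hε1 : 0 < ε1
  hD' : 0 < D'
  hV1 : 1 ≤ V
  hβ : 2 ≤ β
  hL : 1 ≤ L

namespace BCtx

variable (c : BCtx)

/-- cuts of the finest level -/
def Cf : Finset ℝ := c.W.cuts c.l0
/-- cuts of the level `V_b` -/
def Cb : Finset ℝ := c.W.cuts (c.l0 + 1)
/-- number of points -/
def N : ℕ := c.P.card
/-- width of the finest level -/
def bV : ℕ := bb c.P.card c.V
/-- width of the level `V_b` -/
def bB : ℕ := bb c.P.card (c.β * c.V)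
/-- `⌊κ b_{V_b}⌋` -/
def kb : ℕ := ⌊c.κ * (bb c.P.card (c.β * c.V) : ℝ)⌋₊

lemma Cf_sub_Cb : c.Cf ⊆ c.Cb := c.W.sub _ _ (Nat.le_succ _) c.hl0

lemma hl0' : c.l0 ≤ c.Lw := (Nat.le_succ _).trans c.hl0

lemma nonsf : ∀ x ∈ c.Cf, NonSlope c.P x := c.W.nons _ c.hl0'
lemma nonsb : ∀ x ∈ c.Cb, NonSlope c.P x := c.W.nons _ c.hl0

lemma win_nonslope {J : ℝ × ℝ} (hJ : J ∈ wins c.Cf) : NonSlope c.P J.1 ∧ NonSlope c.P J.2 := by
  rw [mem_wins] at hJ
  exact ⟨c.nonsf _ hJ.1, c.nonsf _ hJ.2.1⟩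

lemma winb_nonslope {J : ℝ × ℝ} (hJ : J ∈ wins c.Cb) : NonSlope c.P J.1 ∧ NonSlope c.P J.2 := by
  rw [mem_wins] at hJ
  exact ⟨c.nonsb _ hJ.1, c.nonsb _ hJ.2.1⟩

lemma lo_mem_f : c.W.lo ∈ c.Cf := c.W.sub 0 _ (Nat.zero_le _) c.hl0' c.W.lo_mem
lemma hi_mem_f : c.W.hi ∈ c.Cf := c.W.sub 0 _ (Nat.zero_le _) c.hl0' c.W.hi_mem
lemma lo_mem_b : c.W.lo ∈ c.Cb := c.W.sub 0 _ (Nat.zero_le _) c.hl0 c.W.lo_mem
lemma hi_mem_b : c.W.hi ∈ c.Cb := c.W.sub 0 _ (Nat.zero_le _) c.hl0 c.W.hi_mem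

/-- the slope of a pair lies in a finest window -/
lemma exists_winf {e : Edge} (he : e ∈ pairs c.P) : ∃ J ∈ wins c.Cf, J.1 < esl e ∧ esl e < J.2 :=
  exists_win c.lo_mem_f c.hi_mem_f (c.W.lo_lt_slope e he) (c.W.slope_lt_hi e he)
    (fun h => c.nonsf _ h e he rfl)

lemma exists_winb {e : Edge} (he : e ∈ pairs c.P) : ∃ J ∈ wins c.Cb, J.1 < esl e ∧ esl e < J.2 :=
  exists_win c.lo_mem_b c.hi_mem_b (c.W.lo_lt_slope e he) (c.W.slope_lt_hi e he)
    (fun h => c.nonsb _ h e he rfl)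

lemma winOf_f {e : Edge} (he : e ∈ pairs c.P) :
    winOf c.Cf (esl e) ∈ wins c.Cf ∧ (winOf c.Cf (esl e)).1 < esl e ∧
      esl e < (winOf c.Cf (esl e)).2 := winOf_spec (c.exists_winf he)

lemma winOf_b {e : Edge} (he : e ∈ pairs c.P) :
    winOf c.Cb (esl e) ∈ wins c.Cb ∧ (winOf c.Cb (esl e)).1 < esl e ∧
      esl e < (winOf c.Cb (esl e)).2 := winOf_spec (c.exists_winb he)

/-- a `V_b`-window meeting a finest window is contained in it -/
lemma winb_sub {J j : ℝ × ℝ} (hJ : J ∈ wins c.Cf) (hj : j ∈ wins c.Cb) {θ : ℝ} (h1 : J.1 < θ)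
    (h2 : θ < J.2) (h3 : j.1 < θ) (h4 : θ < j.2) : J.1 ≤ j.1 ∧ j.2 ≤ J.2 := by
  rw [mem_wins] at hJ hj
  refine ⟨?_, ?_⟩
  · by_contra h
    exact hj.2.2.2 _ (c.Cf_sub_Cb hJ.1) ⟨not_le.1 h, h1.trans h4⟩
  · by_contra h
    exact hj.2.2.2 _ (c.Cf_sub_Cb hJ.2.1) ⟨h3.trans h2, not_le.1 h⟩

/-- alive -/
def Al (v : Pt) (J : ℝ × ℝ) : Prop := Alive c.V c.Cf c.ε1 c.D' c.H v J

lemma Vpos : (0 : ℝ) < c.V := by
  have := c.hV1
  exact_mod_cast this

lemma βpos : (0 : ℝ) < c.β := by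
  have := c.hβ
  have h : 0 < c.β := by omega
  exact_mod_cast h

lemma alive_nonempty {v : Pt} {J : ℝ × ℝ} (h : c.Al v J) : (inWin (c.H v) J).Nonempty := by
  rw [← Finset.card_pos]
  have h1 : (0 : ℝ) < c.ε1 * c.D' ^ 2 / c.V := by
    have := c.hε1
    have := c.hD'
    have := c.Vpos
    positivity
  have h2 := h1.trans_le h.2
  exact_mod_cast h2

lemma alive_mem {v : Pt} {J : ℝ × ℝ} (h : c.Al v J) : v ∈ c.P := by
  obtain ⟨e, he⟩ := c.alive_nonempty h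
  exact (c.hH.mem v e (mem_inWin.1 he).1).1

/-- the `V_b` windows hit by `H_v ∩ J` -/
def hit (v : Pt) (J : ℝ × ℝ) : Finset (ℝ × ℝ) :=
  (inWin (c.H v) J).image (fun e => winOf c.Cb (esl e))

lemma hit_card {v : Pt} {J : ℝ × ℝ} (h : c.Al v J) :
    c.ε1 * c.β / (c.lam1 * c.lam2) ≤ ((c.hit v J).card : ℝ) := by
  have hb := card_le_image_mul (inWin (c.H v) J) (fun e => winOf c.Cb (esl e))
    (c.lam1 * c.lam2 * c.D' ^ 2 / (c.β * c.V)) (by
      intro j hj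
      obtain ⟨e0, he0, rfl⟩ := Finset.mem_image.1 hj
      have hp0 := (c.hH.mem v e0 (mem_inWin.1 he0).1).2
      refine le_trans ?_ (c.hH.winb_le v _ (c.winOf_b hp0).1)
      have : ((inWin (c.H v) J).filter (fun e => winOf c.Cb (esl e) = winOf c.Cb (esl e0))) ⊆
          inWin (c.H v) (winOf c.Cb (esl e0)) := by
        intro e he
        rw [Finset.mem_filter] at he
        obtain ⟨he1, he2⟩ := he
        have hmem := (mem_inWin.1 he1).1
        have hp := (c.hH.mem v e hmem).2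
        rw [mem_inWin]
        have := c.winOf_b hp
        rw [he2] at this
        exact ⟨hmem, this.2.1, this.2.2⟩
      exact_mod_cast Finset.card_le_card this)
  have hlow := h.2
  have hV := c.Vpos
  have hβ := c.βpos
  have hD := c.hD'
  have h12 : 0 < c.lam1 * c.lam2 := by
    have := c.h1
    have := c.h2
    positivity
  have hh : c.ε1 * c.D' ^ 2 / c.V ≤ ((c.hit v J).card : ℝ) *
      (c.lam1 * c.lam2 * c.D' ^ 2 / (c.β * c.V)) := hlow.trans hb
  rw [div_le_iff₀ h12]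
  have h3 : c.ε1 * c.D' ^ 2 / c.V * (c.β * c.V / c.D' ^ 2) ≤ ((c.hit v J).card : ℝ) *
      (c.lam1 * c.lam2 * c.D' ^ 2 / (c.β * c.V)) * (c.β * c.V / c.D' ^ 2) :=
    mul_le_mul_of_nonneg_right hh (by positivity)
  have e1 : c.ε1 * c.D' ^ 2 / c.V * (c.β * c.V / c.D' ^ 2) = c.ε1 * c.β := by
    field_simp
  have e2 : ((c.hit v J).card : ℝ) *
      (c.lam1 * c.lam2 * c.D' ^ 2 / (c.β * c.V)) * (c.β * c.V / c.D' ^ 2) =
      ((c.hit v J).card : ℝ) * (c.lam1 * c.lam2) := by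
    field_simp
  rw [e1, e2] at h3
  exact h3

/-- number of near-`b_{V_b}` partners of `v` in `J` -/
def X (v : Pt) (J : ℝ × ℝ) : ℕ := Lp c.P c.k c.bB J.1 J.2 v + Rp c.P c.k c.bB J.1 J.2 v

lemma two_kb : 2 * c.kb ≤ c.bB := by
  have h : (c.kb : ℝ) ≤ c.κ * (c.bB : ℝ) := Nat.floor_le (by
    have := c.hκ
    positivity)
  have h2 : (2 * c.kb : ℝ) ≤ (c.bB : ℝ) := by
    have := c.hκ2
    have h3 : (0 : ℝ) ≤ (c.bB : ℝ) := Nat.cast_nonneg _
    nlinarith
  exact_mod_cast h2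

/-- **6.1** -/
theorem X_ge {v : Pt} {J : ℝ × ℝ} (h : c.Al v J) :
    c.ε1 * c.β / (c.lam1 * c.lam2) * c.kb ≤ (c.X v J : ℝ) := by
  have hvP := c.alive_mem h
  have key : (c.hit v J).card * c.kb ≤ c.X v J := by
    unfold X
    rw [← card_partners]
    have hdisj : ∀ j ∈ c.hit v J, ∀ j' ∈ c.hit v J, j ≠ j' →
        Disjoint ((nearE c.P c.k c.bB j.1 j.2).filter (fun e => e.1 = v ∨ e.2 = v))
          ((nearE c.P c.k c.bB j'.1 j'.2).filter (fun e => e.1 = v ∨ e.2 = v)) := by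
      intro j hj j' hj' hne
      rw [Finset.disjoint_left]
      intro e he he'
      rw [Finset.mem_filter, mem_nearE] at he he'
      obtain ⟨e0, he0, rfl⟩ := Finset.mem_image.1 hj
      obtain ⟨e1, he1, rfl⟩ := Finset.mem_image.1 hj'
      have hp0 := (c.hH.mem v e0 (mem_inWin.1 he0).1).2
      have hp1 := (c.hH.mem v e1 (mem_inWin.1 he1).1).2
      exact hne (win_unique (c.winOf_b hp0).1 (c.winOf_b hp1).1 he.1.2.1 he.1.2.2.1 he'.1.2.1
        he'.1.2.2.1)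
    have hsub : (c.hit v J).biUnion (fun j =>
        (nearE c.P c.k c.bB j.1 j.2).filter (fun e => e.1 = v ∨ e.2 = v)) ⊆
        (nearE c.P c.k c.bB J.1 J.2).filter (fun e => e.1 = v ∨ e.2 = v) := by
      intro e he
      rw [Finset.mem_biUnion] at he
      obtain ⟨j, hj, he⟩ := he
      rw [Finset.mem_filter, mem_nearE] at he
      obtain ⟨e0, he0, rfl⟩ := Finset.mem_image.1 hj
      have hm0 := mem_inWin.1 he0
      have hp0 := (c.hH.mem v e0 hm0.1).2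
      have hw := c.winOf_b hp0
      have hs := c.winb_sub h.1 hw.1 hm0.2.1 hm0.2.2 hw.2.1 hw.2.2
      rw [Finset.mem_filter, mem_nearE]
      exact ⟨⟨he.1.1, hs.1.trans_lt he.1.2.1, he.1.2.2.1.trans_le hs.2, he.1.2.2.2⟩, he.2⟩
    refine le_trans ?_ (Finset.card_le_card hsub)
    rw [Finset.card_biUnion hdisj, ← smul_eq_mul, ← Finset.sum_const]
    apply Finset.sum_le_sum
    intro j hj
    obtain ⟨e0, he0, rfl⟩ := Finset.mem_image.1 hj
    have hm0 := mem_inWin.1 he0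
    have hp0 := (c.hH.mem v e0 hm0.1).2
    have hw := c.winOf_b hp0
    have hns := c.winb_nonslope hw.1
    have hcent := c.hH.cent v e0 hm0.1
    have hdl := c.hH.dl v e0 hm0.1 _ hw.1 hw.2.1 hw.2.2
    have hfl : (c.kb : ℝ) ≤ c.κ * (bb c.P.card (c.β * c.V) : ℝ) := Nat.floor_le (by
      have := c.hκ
      positivity)
    have h5 : 5 * c.kb < Dl c.P c.k (winOf c.Cb (esl e0)).1 (winOf c.Cb (esl e0)).2 := by
      have : (5 * c.kb : ℝ) < (Dl c.P c.k (winOf c.Cb (esl e0)).1 (winOf c.Cb (esl e0)).2 : ℝ) := by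
        refine lt_of_le_of_lt ?_ hdl
        have h6 : (0 : ℝ) ≤ c.κ * (bb c.P.card (c.β * c.V) : ℝ) := by
          have := c.hκ
          positivity
        nlinarith
      exact_mod_cast this
    have hg6 := near_partners_of_Dl c.hP hvP (hw.2.1.trans hw.2.2).le hns.1 hns.2 hw.2.1.le
      hw.2.2.le hcent h5
    rw [← card_partners] at hg6
    refine hg6.trans (Finset.card_le_card ?_)
    intro e he
    rw [Finset.mem_filter, mem_nearE] at he ⊢
    exact ⟨⟨he.1.1, he.1.2.1, he.1.2.2.1, he.1.2.2.2.mono c.two_kb⟩, he.2⟩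
  have hc := c.hit_card h
  have key' : ((c.hit v J).card : ℝ) * c.kb ≤ (c.X v J : ℝ) := by exact_mod_cast key
  refine le_trans ?_ key'
  exact mul_le_mul_of_nonneg_right hc (Nat.cast_nonneg _)

end BCtx

end Crest.Agent.R51.Quad
end
end

-- ▼ part R51/Quad2
section

/-!
# Row 51, section B6: 6.2 and the good part `H^g_v` (helper422)
-/

set_option autoImplicit false

noncomputable section

open Classical Finset

namespace Crest.Agent.R51.Quad

open Crest.Agent.R51 Crest.Agent.R51.Active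

lemma card_wins_le (C : Finset ℝ) : (wins C).card ≤ C.card := by
  apply Finset.card_le_card_of_injOn (fun J => J.1)
  · intro J hJ
    exact (mem_wins.1 hJ).1
  · intro J hJ J' hJ' h
    have hJ := Finset.mem_coe.1 hJ
    have hJ' := Finset.mem_coe.1 hJ'
    have h1 := (mem_wins.1 hJ).2.2.1
    have h2 := (mem_wins.1 hJ').2.2.1
    have h : J.1 = J'.1 := h
    obtain ⟨θ, h3, h4⟩ := exists_between (lt_min h1 (h ▸ h2 : J.1 < J'.2))
    exact win_unique hJ hJ' h3 (h4.trans_le (min_le_left _ _)) (h ▸ h3)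
      (h4.trans_le (min_le_right _ _))

namespace BCtx

variable (c : BCtx)

/-- `𝒜_J` -/
def AL (J : ℝ × ℝ) : Finset Pt := c.P.filter (fun v => c.Al v J)

/-- alive left partners of `v` in `J` -/
def lft (J : ℝ × ℝ) (v : Pt) : Finset Pt :=
  (c.AL J).filter (fun p => p.1 < v.1 ∧ J.1 < sl p v ∧ sl p v < J.2)

/-- `Ex_J` -/
def Ex (J : ℝ × ℝ) : Finset Pt := (c.AL J).filter (fun v => (c.lft J v).card < c.bB)

lemma mem_AL {J : ℝ × ℝ} {v : Pt} : v ∈ c.AL J ↔ c.Al v J := by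
  unfold AL
  rw [Finset.mem_filter]
  exact ⟨fun h => h.2, fun h => ⟨c.alive_mem h, h⟩⟩

lemma AL_sub (J : ℝ × ℝ) : c.AL J ⊆ c.P := Finset.filter_subset _ _

/-- `ρ = ε₁ κ β / (λ₁ λ₂)` -/
def rho : ℝ := c.ε1 * c.κ * c.β / (c.lam1 * c.lam2)

lemma lam12_pos : 0 < c.lam1 * c.lam2 := by
  have := c.h1
  have := c.h2
  positivity

lemma rho_pos : 0 < c.rho := by
  have := c.hε1
  have := c.hκ
  have := c.βpos
  have := c.lam12_pos
  unfold rho
  positivity

lemma kb_ge (h : 2 ≤ c.κ * c.bB) : c.κ * c.bB / 2 ≤ (c.kb : ℝ) := by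
  have h1 : c.κ * c.bB < (c.kb : ℝ) + 1 := Nat.lt_floor_add_one _
  linarith

lemma X_ge_rho (h : 2 ≤ c.κ * c.bB) {v : Pt} {J : ℝ × ℝ} (hA : c.Al v J) :
    c.rho * c.bB / 2 ≤ (c.X v J : ℝ) := by
  refine le_trans ?_ (c.X_ge hA)
  have h1 := c.kb_ge h
  have h2 : 0 ≤ c.ε1 * c.β / (c.lam1 * c.lam2) := by
    have := c.hε1
    have := c.βpos
    have := c.lam12_pos
    positivity
  calc c.rho * c.bB / 2 = c.ε1 * c.β / (c.lam1 * c.lam2) * (c.κ * c.bB / 2) := by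
        unfold rho
        ring
    _ ≤ c.ε1 * c.β / (c.lam1 * c.lam2) * c.kb := mul_le_mul_of_nonneg_left h1 h2

lemma balance' (v : Pt) {J : ℝ × ℝ} (hJ : J ∈ wins c.Cf) :
    Lp c.P c.k c.bB J.1 J.2 v ≤ Rp c.P c.k c.bB J.1 J.2 v + (2 * c.bB + 1) ∧
    Rp c.P c.k c.bB J.1 J.2 v ≤ Lp c.P c.k c.bB J.1 J.2 v + (2 * c.bB + 1) := by
  have hn := c.win_nonslope hJ
  have hlt := (mem_wins.1 hJ).2.2.1
  exact balance c.hP hn.1 hn.2 hlt _ _ v

/-- both one-sided partner numbers are large -/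
lemma Lp_Rp_ge (h : 2 ≤ c.κ * c.bB) (hb : 1 ≤ c.bB) (hρ : 16 ≤ c.rho) {v : Pt} {J : ℝ × ℝ}
    (hA : c.Al v J) :
    c.rho * c.bB / 16 ≤ (Lp c.P c.k c.bB J.1 J.2 v : ℝ) ∧
    c.rho * c.bB / 16 ≤ (Rp c.P c.k c.bB J.1 J.2 v : ℝ) := by
  have hX := c.X_ge_rho h hA
  obtain ⟨h1, h2⟩ := c.balance' v hA.1
  have h1' : (Lp c.P c.k c.bB J.1 J.2 v : ℝ) ≤ Rp c.P c.k c.bB J.1 J.2 v + (2 * c.bB + 1) := by
    exact_mod_cast h1
  have h2' : (Rp c.P c.k c.bB J.1 J.2 v : ℝ) ≤ Lp c.P c.k c.bB J.1 J.2 v + (2 * c.bB + 1) := by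
    exact_mod_cast h2
  unfold X at hX
  push_cast at hX
  have hb' : (1 : ℝ) ≤ c.bB := by exact_mod_cast hb
  have h3 : 16 * (c.bB : ℝ) ≤ c.rho * c.bB := by nlinarith
  constructor <;> linarith

/-- the statement of G8 (AP) used in 6.2 -/
def APAt (s t : ℝ) : Prop :=
  ∀ (A : Finset Pt), A ⊆ c.P → ∀ d : ℕ,
    ((nearE c.P c.k c.bB s t).filter (fun e => e.2 ∈ A ∧
      (A.filter (fun p => p.1 < e.2.1 ∧ s < sl p e.2 ∧ sl p e.2 < t)).card < d)).card ≤
      (2 * c.bB + 1 + d) * (ActN c.P c.k c.bB s t).card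

/-- **6.2** -/
theorem ex_card (h : 2 ≤ c.κ * c.bB) (hb : 1 ≤ c.bB) (hbV : c.bB + 1 ≤ c.bV) (hρ : 16 ≤ c.rho)
    {J : ℝ × ℝ} (hJ : J ∈ wins c.Cf) (hap : c.APAt J.1 J.2) :
    ((c.Ex J).card : ℝ) * c.rho ≤ 448 * c.bV := by
  have hap' := hap (c.AL J) (c.AL_sub J) c.bB
  have hact : (ActN c.P c.k c.bB J.1 J.2).card ≤ 7 * c.bV := by
    have h1 : ActN c.P c.k c.bB J.1 J.2 ⊆ cen c.P c.k (bb c.P.card (c.Vs c.l0)) J.1 J.2 := by
      refine (ends_nearE_subset).trans (cen_mono ?_ le_rfl le_rfl)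
      rw [c.hVs]
      exact hbV
    have h2 := (Finset.card_le_card h1).trans (c.W.cen_le c.l0 c.hl0' J hJ)
    rwa [c.hVs] at h2
  have hlow : ((c.Ex J).card : ℝ) * (c.rho * c.bB / 16) ≤
      (((nearE c.P c.k c.bB J.1 J.2).filter (fun e => e.2 ∈ c.AL J ∧
      ((c.AL J).filter (fun p => p.1 < e.2.1 ∧ J.1 < sl p e.2 ∧ sl p e.2 < J.2)).card
        < c.bB)).card : ℝ) := by
    have hset : (nearE c.P c.k c.bB J.1 J.2).filter (fun e => e.2 ∈ c.AL J ∧
      ((c.AL J).filter (fun p => p.1 < e.2.1 ∧ J.1 < sl p e.2 ∧ sl p e.2 < J.2)).card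
        < c.bB) = (nearE c.P c.k c.bB J.1 J.2).filter (fun e => e.2 ∈ c.Ex J) := by
      apply Finset.filter_congr
      intro e _
      unfold Ex lft
      rw [Finset.mem_filter]
    rw [hset]
    have hsum : ((nearE c.P c.k c.bB J.1 J.2).filter (fun e => e.2 ∈ c.Ex J)).card =
        ∑ v ∈ c.Ex J, Lp c.P c.k c.bB J.1 J.2 v := by
      rw [Finset.card_eq_sum_card_fiberwise (f := Prod.snd) (t := c.Ex J)]
      · apply Finset.sum_congr rfl
        intro v hv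
        unfold Lp
        congr 1
        ext e
        rw [Finset.mem_filter, Finset.mem_filter, Finset.mem_filter]
        constructor
        · rintro ⟨⟨h1, _⟩, h2⟩
          exact ⟨h1, h2⟩
        · rintro ⟨h1, h2⟩
          exact ⟨⟨h1, h2 ▸ hv⟩, h2⟩
      · intro e he
        exact (Finset.mem_filter.1 (Finset.mem_coe.1 he)).2
    rw [hsum]
    push_cast
    rw [← nsmul_eq_mul, ← Finset.sum_const]
    apply Finset.sum_le_sum
    intro v hv
    have hA : c.Al v J := c.mem_AL.1 (Finset.mem_filter.1 hv).1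
    exact (c.Lp_Rp_ge h hb hρ hA).1
  have hb' : (1 : ℝ) ≤ c.bB := by exact_mod_cast hb
  have hup : (((nearE c.P c.k c.bB J.1 J.2).filter (fun e => e.2 ∈ c.AL J ∧
      ((c.AL J).filter (fun p => p.1 < e.2.1 ∧ J.1 < sl p e.2 ∧ sl p e.2 < J.2)).card
        < c.bB)).card : ℝ) ≤ (2 * c.bB + 1 + c.bB) * (7 * c.bV) := by
    have h3 : ((nearE c.P c.k c.bB J.1 J.2).filter (fun e => e.2 ∈ c.AL J ∧
      ((c.AL J).filter (fun p => p.1 < e.2.1 ∧ J.1 < sl p e.2 ∧ sl p e.2 < J.2)).card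
        < c.bB)).card ≤ (2 * c.bB + 1 + c.bB) * (7 * c.bV) :=
      hap'.trans (Nat.mul_le_mul_left _ hact)
    exact_mod_cast h3
  have h4 : ((c.Ex J).card : ℝ) * (c.rho * c.bB / 16) ≤ (2 * c.bB + 1 + c.bB) * (7 * c.bV) :=
    hlow.trans hup
  have h5 : (0 : ℝ) ≤ c.bV := Nat.cast_nonneg _
  have h6 : ((2 * c.bB + 1 + c.bB) * (7 * c.bV) : ℝ) ≤ 28 * c.bB * c.bV := by nlinarith
  have h7 : ((c.Ex J).card : ℝ) * c.rho * c.bB ≤ 448 * c.bV * c.bB := by nlinarith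
  exact le_of_mul_le_mul_right h7 (by linarith)

/-- the good windows of `v` -/
def GW (v : Pt) : Finset (ℝ × ℝ) := (wins c.Cf).filter (fun J => c.Al v J ∧ v ∉ c.Ex J)

/-- the good part of `H_v` -/
def Hg (v : Pt) : Finset Edge := (c.H v).filter (fun e => winOf c.Cf (esl e) ∈ c.GW v)

lemma Hg_sub (v : Pt) : c.Hg v ⊆ c.H v := Finset.filter_subset _ _

lemma fibre_win {v : Pt} {S : Finset Edge} (hS : S ⊆ c.H v) {J : ℝ × ℝ} :
    S.filter (fun e => winOf c.Cf (esl e) = J) ⊆ inWin (c.H v) J := by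
  intro e he
  rw [Finset.mem_filter] at he
  obtain ⟨he1, he2⟩ := he
  have hm := hS he1
  have hw := c.winOf_f (c.hH.mem v e hm).2
  rw [he2] at hw
  rw [mem_inWin]
  exact ⟨hm, hw.2.1, hw.2.2⟩

/-- the part of `H_v` in non-alive windows is small -/
lemma lost_nonalive (hkV : c.kb ≤ c.bV) (v : Pt) :
    (((c.H v).filter (fun e => ¬ c.Al v (winOf c.Cf (esl e)))).card : ℝ) ≤
      c.lam3 * c.ε1 * c.D' ^ 2 := by
  set E := (c.H v).filter (fun e => ¬ c.Al v (winOf c.Cf (esl e))) with hE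
  have hV := c.Vpos
  have hD := c.hD'
  have hε := c.hε1
  rcases (c.H v).eq_empty_or_nonempty with h0 | h0
  · rw [hE, h0]
    simp only [Finset.filter_empty, Finset.card_empty, Nat.cast_zero]
    have := c.h3
    positivity
  have hE1 : E ⊆ c.H v := Finset.filter_subset _ _
  have hb := card_le_image_mul E (fun e => winOf c.Cf (esl e)) (c.ε1 * c.D' ^ 2 / c.V) (by
    intro J hJ
    obtain ⟨e0, he0, rfl⟩ := Finset.mem_image.1 hJ
    rw [hE, Finset.mem_filter] at he0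
    have hw := c.winOf_f (c.hH.mem v e0 he0.1).2
    have hna : ¬ (c.ε1 * c.D' ^ 2 / c.V ≤
      ((inWin (c.H v) (winOf c.Cf (esl e0))).card : ℝ)) := fun h => he0.2 ⟨hw.1, h⟩
    rw [not_le] at hna
    refine le_trans ?_ hna.le
    exact_mod_cast Finset.card_le_card (c.fibre_win hE1))
  have himg : E.image (fun e => winOf c.Cf (esl e)) ⊆
      (wins c.Cf).filter (fun J => v ∈ cen c.P c.k (bb c.P.card c.V) J.1 J.2) := by
    intro J hJ
    obtain ⟨e0, he0, rfl⟩ := Finset.mem_image.1 hJ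
    have hm := hE1 he0
    have hmem := c.hH.mem v e0 hm
    have hw := c.winOf_f hmem.2
    rw [Finset.mem_filter, mem_cen]
    exact ⟨hw.1, hmem.1, esl e0, hw.2.1, hw.2.2, (c.hH.cent v e0 hm).mono hkV⟩
  have hcard : ((E.image (fun e => winOf c.Cf (esl e))).card : ℝ) ≤ c.lam3 * c.V :=
    le_trans (by exact_mod_cast Finset.card_le_card himg) (c.hH.few v h0)
  refine hb.trans ?_
  calc ((E.image (fun e => winOf c.Cf (esl e))).card : ℝ) * (c.ε1 * c.D' ^ 2 / c.V)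
      ≤ (c.lam3 * c.V) * (c.ε1 * c.D' ^ 2 / c.V) :=
        mul_le_mul_of_nonneg_right hcard (by positivity)
    _ = c.lam3 * c.ε1 * c.D' ^ 2 := by field_simp

/-- the part in exceptional windows is small on average -/
lemma lost_ex (B : ℝ) (hB : ∀ J ∈ wins c.Cf, ((c.Ex J).card : ℝ) ≤ B) (hB0 : 0 ≤ B) :
    ∑ v ∈ c.P, (((c.H v).filter (fun e => v ∈ c.Ex (winOf c.Cf (esl e)))).card : ℝ) ≤
      c.Cw * c.V ^ 4 * B * (c.lam1 * c.lam2 * c.D' ^ 2 / c.V) := by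
  have hV := c.Vpos
  have hD := c.hD'
  have h12 := c.lam12_pos
  have h1 : ∀ v ∈ c.P, (((c.H v).filter (fun e => v ∈ c.Ex (winOf c.Cf (esl e)))).card : ℝ) ≤
      ∑ J ∈ wins c.Cf, (if v ∈ c.Ex J then (c.lam1 * c.lam2 * c.D' ^ 2 / c.V) else 0) := by
    intro v _
    set E := (c.H v).filter (fun e => v ∈ c.Ex (winOf c.Cf (esl e))) with hE
    have hE1 : E ⊆ c.H v := Finset.filter_subset _ _
    have hb := card_le_image_mul E (fun e => winOf c.Cf (esl e))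
      (c.lam1 * c.lam2 * c.D' ^ 2 / c.V) (by
        intro J hJ
        obtain ⟨e0, he0, rfl⟩ := Finset.mem_image.1 hJ
        have hw := c.winOf_f (c.hH.mem v e0 (hE1 he0)).2
        refine le_trans ?_ (c.hH.win_le v _ hw.1)
        exact_mod_cast Finset.card_le_card (c.fibre_win hE1))
    refine hb.trans ?_
    rw [← Finset.sum_filter, Finset.sum_const, nsmul_eq_mul]
    apply mul_le_mul_of_nonneg_right _ (by positivity)
    have : E.image (fun e => winOf c.Cf (esl e)) ⊆ (wins c.Cf).filter (fun J => v ∈ c.Ex J) := by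
      intro J hJ
      obtain ⟨e0, he0, rfl⟩ := Finset.mem_image.1 hJ
      rw [hE, Finset.mem_filter] at he0
      rw [Finset.mem_filter]
      exact ⟨(c.winOf_f (c.hH.mem v e0 he0.1).2).1, he0.2⟩
    exact_mod_cast Finset.card_le_card this
  refine (Finset.sum_le_sum h1).trans ?_
  rw [Finset.sum_comm]
  have h2 : ∀ J ∈ wins c.Cf, ∑ v ∈ c.P, (if v ∈ c.Ex J then
      (c.lam1 * c.lam2 * c.D' ^ 2 / c.V) else 0) ≤ B * (c.lam1 * c.lam2 * c.D' ^ 2 / c.V) := by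
    intro J hJ
    rw [← Finset.sum_filter, Finset.sum_const, nsmul_eq_mul]
    apply mul_le_mul_of_nonneg_right _ (by positivity)
    refine le_trans ?_ (hB J hJ)
    have : c.P.filter (fun v => v ∈ c.Ex J) ⊆ c.Ex J := by
      intro v hv
      exact (Finset.mem_filter.1 hv).2
    exact_mod_cast Finset.card_le_card this
  refine (Finset.sum_le_sum h2).trans ?_
  rw [Finset.sum_const, nsmul_eq_mul]
  have hw : ((wins c.Cf).card : ℝ) ≤ c.Cw * c.V ^ 4 := by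
    have h3 := c.W.count_all c.l0 c.hl0'
    rw [c.hVs] at h3
    refine le_trans ?_ h3
    exact_mod_cast card_wins_le _
  calc ((wins c.Cf).card : ℝ) * (B * (c.lam1 * c.lam2 * c.D' ^ 2 / c.V))
      ≤ (c.Cw * c.V ^ 4) * (B * (c.lam1 * c.lam2 * c.D' ^ 2 / c.V)) :=
        mul_le_mul_of_nonneg_right hw (by positivity)
    _ = c.Cw * c.V ^ 4 * B * (c.lam1 * c.lam2 * c.D' ^ 2 / c.V) := by ring

/-- `H_v` splits -/
lemma H_split (v : Pt) : ((c.H v).card : ℝ) ≤ ((c.Hg v).card : ℝ) +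
    (((c.H v).filter (fun e => ¬ c.Al v (winOf c.Cf (esl e)))).card : ℝ) +
    (((c.H v).filter (fun e => v ∈ c.Ex (winOf c.Cf (esl e)))).card : ℝ) := by
  have : c.H v ⊆ c.Hg v ∪ (c.H v).filter (fun e => ¬ c.Al v (winOf c.Cf (esl e))) ∪
      (c.H v).filter (fun e => v ∈ c.Ex (winOf c.Cf (esl e))) := by
    intro e he
    rw [Finset.mem_union, Finset.mem_union, Finset.mem_filter, Finset.mem_filter]
    unfold Hg
    rw [Finset.mem_filter]
    unfold GW
    rw [Finset.mem_filter]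
    have hw := (c.winOf_f (c.hH.mem v e he).2).1
    tauto
  have h2 := (Finset.card_le_card this).trans ((Finset.card_union_le _ _).trans
    (Nat.add_le_add_right (Finset.card_union_le _ _) _))
  exact_mod_cast h2

/-- **6.3, first half**: the good part is large in total. -/
theorem sum_Hg (hkV : c.kb ≤ c.bV) (B : ℝ)
    (hB : ∀ J ∈ wins c.Cf, ((c.Ex J).card : ℝ) ≤ B * c.bV) (hB0 : 0 ≤ B)
    (h1 : c.lam3 * c.ε1 ≤ c.c2 / 16) (h2 : c.Cw * c.lam1 * c.lam2 * B ≤ c.c2 / 16) :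
    c.c2 / 8 * c.P.card * c.D' ^ 2 ≤ ∑ v ∈ c.P, ((c.Hg v).card : ℝ) := by
  have ht := c.hH.total
  have hV := c.Vpos
  have hD := c.hD'
  have hbV0 : (0 : ℝ) ≤ c.bV := Nat.cast_nonneg _
  have hsum : ∑ v ∈ c.P, ((c.H v).card : ℝ) ≤ ∑ v ∈ c.P, ((c.Hg v).card : ℝ) +
      ∑ v ∈ c.P, (((c.H v).filter (fun e => ¬ c.Al v (winOf c.Cf (esl e)))).card : ℝ) +
      ∑ v ∈ c.P, (((c.H v).filter (fun e => v ∈ c.Ex (winOf c.Cf (esl e)))).card : ℝ) := by
    rw [← Finset.sum_add_distrib, ← Finset.sum_add_distrib]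
    exact Finset.sum_le_sum (fun v _ => c.H_split v)
  have hna : ∑ v ∈ c.P, (((c.H v).filter (fun e => ¬ c.Al v (winOf c.Cf (esl e)))).card : ℝ) ≤
      c.c2 / 16 * c.P.card * c.D' ^ 2 := by
    calc _ ≤ ∑ _v ∈ c.P, c.lam3 * c.ε1 * c.D' ^ 2 :=
          Finset.sum_le_sum (fun v _ => c.lost_nonalive hkV v)
      _ = c.P.card * (c.lam3 * c.ε1 * c.D' ^ 2) := by rw [Finset.sum_const, nsmul_eq_mul]
      _ ≤ c.P.card * (c.c2 / 16 * c.D' ^ 2) := by
          apply mul_le_mul_of_nonneg_left _ (Nat.cast_nonneg _)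
          exact mul_le_mul_of_nonneg_right h1 (by positivity)
      _ = _ := by ring
  have hex : ∑ v ∈ c.P, (((c.H v).filter (fun e => v ∈ c.Ex (winOf c.Cf (esl e)))).card : ℝ) ≤
      c.c2 / 16 * c.P.card * c.D' ^ 2 := by
    refine (c.lost_ex (B * c.bV) hB (by positivity)).trans ?_
    have hbN : (c.bV : ℝ) * c.V ^ 3 ≤ c.P.card := by
      have : c.bV * c.V ^ 3 ≤ c.P.card := Nat.div_mul_le_self _ _
      exact_mod_cast this
    have h12 := c.lam12_pos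
    have hCw : 0 < c.Cw := lt_of_lt_of_le one_pos c.hCw
    calc c.Cw * c.V ^ 4 * (B * c.bV) * (c.lam1 * c.lam2 * c.D' ^ 2 / c.V)
        = (c.Cw * c.lam1 * c.lam2 * B) * (c.bV * c.V ^ 3) * c.D' ^ 2 := by
          field_simp
      _ ≤ (c.c2 / 16) * c.P.card * c.D' ^ 2 := by
          apply mul_le_mul_of_nonneg_right _ (by positivity)
          apply mul_le_mul h2 hbN (by positivity)
          have := c.hc2
          positivity
  linarith

end BCtx

end Crest.Agent.R51.Quad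
end
end

-- ▼ part R51/Quad3
section

/-!
# Row 51, B6.3: the abstract triple lemma (helper943)

`S` is a finite set of edges with window labels `J`, robust with respect to a relation `Rel` between
windows.  Then there are at least `c₁₀ V³` ordered triples of windows of `S` which are pairwise
related.
-/

set_option autoImplicit false

noncomputable section

open Classical

namespace Crest.Agent.R51.Quad3

/-- fibre bound: a set whose fibres have at most `F` elements has at least `#T / F` labels. -/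
theorem card_le_image_mul {α ι : Type*} [DecidableEq α] [DecidableEq ι] (T : Finset α) (J : α → ι) {F : ℝ}
    (hF : ∀ i, ((T.filter (fun e => J e = i)).card : ℝ) ≤ F) :
    (T.card : ℝ) ≤ (T.image J).card * F := by
  have h := Finset.card_eq_sum_card_fiberwise (s := T) (t := T.image J) (f := J)
    (fun e he => Finset.mem_coe.2 (Finset.mem_image_of_mem J (Finset.mem_coe.1 he)))
  rw [h]
  push_cast
  calc ∑ i ∈ T.image J, ((T.filter (fun e => J e = i)).card : ℝ) ≤ ∑ _i ∈ T.image J, F :=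
        Finset.sum_le_sum fun i _ => hF i
    _ = (T.image J).card * F := by rw [Finset.sum_const, nsmul_eq_mul]

/-- pairs of elements versus pairs of labels. -/
theorem card_pairs_le {α ι : Type*} [DecidableEq α] [DecidableEq ι] (T : Finset α) (J : α → ι) (Rel : ι → ι → Prop) {F : ℝ}
    (hF0 : 0 ≤ F) (hF : ∀ i, ((T.filter (fun e => J e = i)).card : ℝ) ≤ F) :
    (((T ×ˢ T).filter (fun x : α × α => Rel (J x.1) (J x.2))).card : ℝ) ≤
      (((T.image J) ×ˢ (T.image J)).filter (fun y : ι × ι => Rel y.1 y.2)).card * F ^ 2 := by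
  set A := (T ×ˢ T).filter (fun x : α × α => Rel (J x.1) (J x.2)) with hA
  set B := ((T.image J) ×ˢ (T.image J)).filter (fun y : ι × ι => Rel y.1 y.2) with hB
  have hmaps : ∀ x ∈ A, (J x.1, J x.2) ∈ B := by
    intro x hx
    rw [hA, Finset.mem_filter, Finset.mem_product] at hx
    rw [hB, Finset.mem_filter, Finset.mem_product]
    exact ⟨⟨Finset.mem_image_of_mem J hx.1.1, Finset.mem_image_of_mem J hx.1.2⟩, hx.2⟩
  have h := Finset.card_eq_sum_card_fiberwise (s := A) (t := B) (f := fun x => (J x.1, J x.2))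
    (fun x hx => Finset.mem_coe.2 (hmaps x (Finset.mem_coe.1 hx)))
  rw [h]
  push_cast
  calc ∑ y ∈ B, ((A.filter (fun x => (J x.1, J x.2) = y)).card : ℝ) ≤ ∑ _y ∈ B, F ^ 2 := by
        refine Finset.sum_le_sum fun y _ => ?_
        have hsub : A.filter (fun x => (J x.1, J x.2) = y) ⊆
            (T.filter (fun e => J e = y.1)) ×ˢ (T.filter (fun e => J e = y.2)) := by
          intro x hx
          rw [Finset.mem_filter, hA, Finset.mem_filter, Finset.mem_product] at hx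
          rw [Finset.mem_product, Finset.mem_filter, Finset.mem_filter]
          exact ⟨⟨hx.1.1.1, (Prod.ext_iff.1 hx.2).1⟩, ⟨hx.1.1.2, (Prod.ext_iff.1 hx.2).2⟩⟩
        have h1 := Finset.card_le_card hsub
        rw [Finset.card_product] at h1
        calc ((A.filter (fun x => (J x.1, J x.2) = y)).card : ℝ)
            ≤ ((T.filter (fun e => J e = y.1)).card : ℝ) *
                ((T.filter (fun e => J e = y.2)).card : ℝ) := by exact_mod_cast h1
          _ ≤ F * F := mul_le_mul (hF _) (hF _) (Nat.cast_nonneg _) hF0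
          _ = F ^ 2 := by ring
    _ = B.card * F ^ 2 := by rw [Finset.sum_const, nsmul_eq_mul]

/-- **Triple lemma (6.3).** -/
theorem triples {α ι : Type*} [DecidableEq α] [DecidableEq ι] (S : Finset α) (J : α → ι) (Rel : ι → ι → Prop)
    {X B s1 c8 δ1 V D2 : ℝ} (hX : 0 < X) (hB : 0 < B) (hs1 : 0 < s1) (hc8 : 0 < c8)
    (hV : 0 < V) (hD2 : 0 < D2) (hSX : (S.card : ℝ) ≤ X * D2)
    (hfib : ∀ i, ((S.filter (fun e => J e = i)).card : ℝ) ≤ B * D2 / V)
    (hrob : ∀ T ⊆ S, δ1 * D2 ≤ (T.card : ℝ) → c8 * (T.card : ℝ) ^ 3 / D2 ≤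
      (((T ×ˢ T).filter (fun x : α × α => Rel (J x.1) (J x.2))).card : ℝ))
    (hSs : s1 * D2 ≤ (S.card : ℝ)) (hδs : δ1 ≤ s1) (hδc : δ1 ≤ c8 * s1 ^ 3 / (2 * X)) :
    (c8 * s1 ^ 3 / (2 * X)) / B * (c8 * (c8 * s1 ^ 3 / (2 * X)) ^ 3 / B ^ 2) * V ^ 3 ≤
      (((S.image J) ×ˢ ((S.image J) ×ˢ (S.image J))).filter
        (fun t : ι × ι × ι => Rel t.1 t.2.1 ∧ Rel t.1 t.2.2 ∧ Rel t.2.1 t.2.2)).card := by
  set c9 : ℝ := c8 * s1 ^ 3 / (2 * X) with hc9
  have hc9pos : 0 < c9 := by rw [hc9]; positivity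
  have hs1X : s1 ≤ X := by
    have := hSs.trans hSX
    exact le_of_mul_le_mul_right this hD2
  have hc9le : c9 ≤ c8 * s1 ^ 2 / 2 := by
    rw [hc9, div_le_div_iff₀ (by positivity) (by norm_num)]
    have : c8 * s1 ^ 2 * s1 ≤ c8 * s1 ^ 2 * X := mul_le_mul_of_nonneg_left hs1X (by positivity)
    nlinarith
  -- the star of an element
  set st : ι → Finset α := fun i => S.filter (fun f => Rel i (J f)) with hst
  have hSpos : 0 < (S.card : ℝ) := lt_of_lt_of_le (by positivity) hSs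
  have hM := hrob S (Finset.Subset.refl _) (le_trans (mul_le_mul_of_nonneg_right hδs hD2.le) hSs)
  -- number of related pairs = sum of the stars
  have hsum : (((S ×ˢ S).filter (fun x : α × α => Rel (J x.1) (J x.2))).card : ℝ) =
      ∑ e ∈ S, ((st (J e)).card : ℝ) := by
    have : ((S ×ˢ S).filter (fun x : α × α => Rel (J x.1) (J x.2))).card =
        ∑ e ∈ S, (st (J e)).card := by
      rw [Finset.card_filter, Finset.sum_product]
      refine Finset.sum_congr rfl fun e _ => ?_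
      rw [hst, Finset.card_filter]
    rw [this]
    push_cast
    rfl
  set G := S.filter (fun e => c9 * D2 ≤ ((st (J e)).card : ℝ)) with hGdef
  have hGsum : ∑ e ∈ S, ((st (J e)).card : ℝ) ≤ G.card * S.card + S.card * (c9 * D2) := by
    rw [← Finset.sum_filter_add_sum_filter_not S (fun e => c9 * D2 ≤ ((st (J e)).card : ℝ))]
    apply add_le_add
    · calc ∑ e ∈ G, ((st (J e)).card : ℝ) ≤ ∑ _e ∈ G, (S.card : ℝ) := by
            refine Finset.sum_le_sum fun e _ => ?_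
            exact_mod_cast Finset.card_filter_le _ _
        _ = G.card * S.card := by rw [Finset.sum_const, nsmul_eq_mul]
    · calc ∑ e ∈ S.filter (fun e => ¬ c9 * D2 ≤ ((st (J e)).card : ℝ)), ((st (J e)).card : ℝ)
          ≤ ∑ _e ∈ S.filter (fun e => ¬ c9 * D2 ≤ ((st (J e)).card : ℝ)), (c9 * D2) := by
            refine Finset.sum_le_sum fun e he => ?_
            exact (not_le.1 (Finset.mem_filter.1 he).2).le
        _ = (S.filter (fun e => ¬ c9 * D2 ≤ ((st (J e)).card : ℝ))).card * (c9 * D2) := by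
            rw [Finset.sum_const, nsmul_eq_mul]
        _ ≤ S.card * (c9 * D2) := by
            apply mul_le_mul_of_nonneg_right _ (by positivity)
            exact_mod_cast Finset.card_filter_le _ _
  have hGcard : c9 * D2 ≤ (G.card : ℝ) := by
    rw [hsum] at hM
    have h1 := hM.trans hGsum
    -- divide by #S
    have h2 : c8 * (S.card : ℝ) ^ 2 / D2 ≤ G.card + c9 * D2 := by
      have h3 : (c8 * (S.card : ℝ) ^ 2 / D2) * S.card ≤ (G.card + c9 * D2) * S.card := by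
        calc (c8 * (S.card : ℝ) ^ 2 / D2) * S.card = c8 * (S.card : ℝ) ^ 3 / D2 := by ring
          _ ≤ _ := h1
          _ = _ := by ring
      exact le_of_mul_le_mul_right h3 hSpos
    have h4 : c8 * s1 ^ 2 * D2 ≤ c8 * (S.card : ℝ) ^ 2 / D2 := by
      rw [le_div_iff₀ hD2]
      have h5 : (s1 * D2) ^ 2 ≤ (S.card : ℝ) ^ 2 := by
        apply pow_le_pow_left₀ (by positivity) hSs
      calc c8 * s1 ^ 2 * D2 * D2 = c8 * (s1 * D2) ^ 2 := by ring
        _ ≤ c8 * (S.card : ℝ) ^ 2 := mul_le_mul_of_nonneg_left h5 hc8.le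
    have h6 : c9 * D2 ≤ c8 * s1 ^ 2 / 2 * D2 := mul_le_mul_of_nonneg_right hc9le hD2.le
    linarith
  -- windows of the good elements
  have hGimg : c9 / B * V ≤ ((G.image J).card : ℝ) := by
    have h1 := card_le_image_mul G J (F := B * D2 / V) (fun i => by
      refine le_trans ?_ (hfib i)
      exact_mod_cast Finset.card_le_card
        (Finset.filter_subset_filter _ (Finset.filter_subset _ _)))
    have h2 := hGcard.trans h1
    have h3 : (c9 / B * V) * (B * D2 / V) ≤ (G.image J).card * (B * D2 / V) := by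
      calc (c9 / B * V) * (B * D2 / V) = c9 * D2 := by field_simp
        _ ≤ _ := h2
    exact le_of_mul_le_mul_right h3 (by positivity)
  -- for every good window many pairs
  have hpairs : ∀ a ∈ G.image J, c8 * c9 ^ 3 / B ^ 2 * V ^ 2 ≤
      ((((S.image J) ×ˢ (S.image J)).filter
        (fun y : ι × ι => Rel a y.1 ∧ Rel a y.2 ∧ Rel y.1 y.2)).card : ℝ) := by
    intro a ha
    rw [Finset.mem_image] at ha
    obtain ⟨e, he, rfl⟩ := ha
    have hcard : c9 * D2 ≤ ((st (J e)).card : ℝ) := (Finset.mem_filter.1 he).2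
    have hT := hrob (st (J e)) (Finset.filter_subset _ _)
      (le_trans (mul_le_mul_of_nonneg_right hδc hD2.le) hcard)
    have h1 := card_pairs_le (st (J e)) J Rel (F := B * D2 / V) (by positivity) (fun i => by
      refine le_trans ?_ (hfib i)
      exact_mod_cast Finset.card_le_card
        (Finset.filter_subset_filter _ (Finset.filter_subset _ _)))
    have h2 : (((((st (J e)).image J) ×ˢ ((st (J e)).image J)).filter
        (fun y : ι × ι => Rel y.1 y.2)).card : ℝ) ≤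
        ((((S.image J) ×ˢ (S.image J)).filter
        (fun y : ι × ι => Rel (J e) y.1 ∧ Rel (J e) y.2 ∧ Rel y.1 y.2)).card : ℝ) := by
      have : (((st (J e)).image J) ×ˢ ((st (J e)).image J)).filter
          (fun y : ι × ι => Rel y.1 y.2) ⊆ ((S.image J) ×ˢ (S.image J)).filter
          (fun y : ι × ι => Rel (J e) y.1 ∧ Rel (J e) y.2 ∧ Rel y.1 y.2) := by
        intro y hy
        rw [Finset.mem_filter, Finset.mem_product, Finset.mem_image, Finset.mem_image] at hy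
        obtain ⟨⟨⟨f, hf, hf1⟩, ⟨g, hg, hg1⟩⟩, hr⟩ := hy
        rw [hst, Finset.mem_filter] at hf hg
        rw [Finset.mem_filter, Finset.mem_product]
        refine ⟨⟨?_, ?_⟩, ?_, ?_, hr⟩
        · rw [← hf1]; exact Finset.mem_image_of_mem J hf.1
        · rw [← hg1]; exact Finset.mem_image_of_mem J hg.1
        · rw [← hf1]; exact hf.2
        · rw [← hg1]; exact hg.2
      exact_mod_cast Finset.card_le_card this
    have h3 : c8 * c9 ^ 3 * D2 ^ 2 ≤ c8 * ((st (J e)).card : ℝ) ^ 3 / D2 := by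
      rw [le_div_iff₀ hD2]
      have h4 : (c9 * D2) ^ 3 ≤ ((st (J e)).card : ℝ) ^ 3 :=
        pow_le_pow_left₀ (by positivity) hcard 3
      calc c8 * c9 ^ 3 * D2 ^ 2 * D2 = c8 * (c9 * D2) ^ 3 := by ring
        _ ≤ _ := mul_le_mul_of_nonneg_left h4 hc8.le
    have h5 : c8 * c9 ^ 3 * D2 ^ 2 ≤ ((((S.image J) ×ˢ (S.image J)).filter
        (fun y : ι × ι => Rel (J e) y.1 ∧ Rel (J e) y.2 ∧ Rel y.1 y.2)).card : ℝ) *
          (B * D2 / V) ^ 2 :=
      (h3.trans hT).trans (h1.trans (mul_le_mul_of_nonneg_right h2 (by positivity)))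
    have h6 : (c8 * c9 ^ 3 / B ^ 2 * V ^ 2) * (B * D2 / V) ^ 2 ≤
        ((((S.image J) ×ˢ (S.image J)).filter
        (fun y : ι × ι => Rel (J e) y.1 ∧ Rel (J e) y.2 ∧ Rel y.1 y.2)).card : ℝ) *
          (B * D2 / V) ^ 2 := by
      calc (c8 * c9 ^ 3 / B ^ 2 * V ^ 2) * (B * D2 / V) ^ 2 = c8 * c9 ^ 3 * D2 ^ 2 := by
            field_simp
        _ ≤ _ := h5
    exact le_of_mul_le_mul_right h6 (by positivity)
  -- final count
  set R3 := ((S.image J) ×ˢ ((S.image J) ×ˢ (S.image J))).filter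
        (fun t : ι × ι × ι => Rel t.1 t.2.1 ∧ Rel t.1 t.2.2 ∧ Rel t.2.1 t.2.2) with hR3
  have hGS : G.image J ⊆ S.image J := Finset.image_subset_image (Finset.filter_subset _ _)
  have hcount : ∑ a ∈ G.image J, (((S.image J) ×ˢ (S.image J)).filter
        (fun y : ι × ι => Rel a y.1 ∧ Rel a y.2 ∧ Rel y.1 y.2)).card ≤ R3.card := by
    rw [hR3, Finset.card_filter, Finset.sum_product]
    refine le_trans ?_ (Finset.sum_le_sum_of_subset hGS)
    refine Finset.sum_le_sum fun a _ => ?_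
    rw [Finset.card_filter]
  calc c9 / B * (c8 * c9 ^ 3 / B ^ 2) * V ^ 3
      = (c9 / B * V) * (c8 * c9 ^ 3 / B ^ 2 * V ^ 2) := by ring
    _ ≤ (G.image J).card * (c8 * c9 ^ 3 / B ^ 2 * V ^ 2) :=
        mul_le_mul_of_nonneg_right hGimg (by positivity)
    _ = ∑ _a ∈ G.image J, (c8 * c9 ^ 3 / B ^ 2 * V ^ 2) := by
        rw [Finset.sum_const, nsmul_eq_mul]
    _ ≤ ∑ a ∈ G.image J, ((((S.image J) ×ˢ (S.image J)).filter
        (fun y : ι × ι => Rel a y.1 ∧ Rel a y.2 ∧ Rel y.1 y.2)).card : ℝ) :=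
        Finset.sum_le_sum hpairs
    _ ≤ R3.card := by exact_mod_cast hcount

end Crest.Agent.R51.Quad3
end
end

-- ▼ part R51/Final
section

/-!
# Row 51, B6, section 6.4: from stars to the final configuration (helper57)

Pure counting: `G` a set of pairs of a generic `P`, every good `v` has many triples
`(p₁,p₂,p₃)` of left neighbours and many right neighbours `q`.  Then some triple
`(p₁,p₂,p₃)` belongs to `≥ c₅ D` of the `v`.
-/

set_option autoImplicit false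

noncomputable section

open Classical

namespace Crest.Agent.R51.Final

/-- counting by a map with an injection of each fibre into a small set -/
lemma count_gen {α β γ : Type*} (T : Finset α) (φ : α → β) (E : Finset β)
    (ψ : α → γ) (Γ : β → Finset γ) (n : ℝ) (hn : 0 ≤ n)
    (h1 : ∀ z ∈ T, φ z ∈ E) (h2 : ∀ z ∈ T, ψ z ∈ Γ (φ z))
    (h3 : ∀ z ∈ T, ((Γ (φ z)).card : ℝ) ≤ n)
    (hinj : ∀ z ∈ T, ∀ z' ∈ T, φ z = φ z' → ψ z = ψ z' → z = z') :
    (T.card : ℝ) ≤ n * E.card := by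
  rw [Finset.card_eq_sum_card_fiberwise (f := φ) (t := E) (fun z hz => h1 z (Finset.mem_coe.1 hz))]
  push_cast
  calc ∑ b ∈ E, ((T.filter (fun z => φ z = b)).card : ℝ) ≤ ∑ _b ∈ E, n := by
        refine Finset.sum_le_sum (fun b _ => ?_)
        by_cases hne : (T.filter (fun z => φ z = b)).Nonempty
        · obtain ⟨z0, hz0⟩ := hne
          rw [Finset.mem_filter] at hz0
          have hc : (T.filter (fun z => φ z = b)).card ≤ (Γ b).card := by
            refine Finset.card_le_card_of_injOn ψ ?_ ?_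
            · intro z hz
              have hz' := Finset.mem_filter.1 (Finset.mem_coe.1 hz)
              have := h2 z hz'.1
              rw [hz'.2] at this
              exact Finset.mem_coe.2 this
            · intro z hz z' hz' he
              have hz1 := Finset.mem_filter.1 (Finset.mem_coe.1 hz)
              have hz2 := Finset.mem_filter.1 (Finset.mem_coe.1 hz')
              exact hinj z hz1.1 z' hz2.1 (hz1.2.trans hz2.2.symm) he
          have h4 := h3 z0 hz0.1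
          rw [hz0.2] at h4
          exact le_trans (by exact_mod_cast hc) h4
        · rw [Finset.not_nonempty_iff_eq_empty] at hne
          rw [hne]; simpa using hn
    _ = n * E.card := by rw [Finset.sum_const, nsmul_eq_mul, mul_comm]

/-- degree -/
def deg (G : Finset Edge) (w : Pt) : ℕ := (G.filter (fun e => e.1 = w ∨ e.2 = w)).card

/-- left neighbours -/
def ln (P : Finset Pt) (G : Finset Edge) (v : Pt) : Finset Pt := P.filter (fun p => (p, v) ∈ G)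

/-- right neighbours -/
def rn (P : Finset Pt) (G : Finset Edge) (v : Pt) : Finset Pt := P.filter (fun q => (v, q) ∈ G)

variable {P : Finset Pt} {G : Finset Edge}

lemma card_ln_le (v : Pt) : (ln P G v).card ≤ deg G v := by
  refine Finset.card_le_card_of_injOn (fun p => (p, v)) ?_ ?_
  · intro p hp
    have := (Finset.mem_filter.1 (Finset.mem_coe.1 hp)).2
    exact Finset.mem_coe.2 (Finset.mem_filter.2 ⟨this, Or.inr rfl⟩)
  · intro p _ q _ h
    exact (Prod.ext_iff.1 h).1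

lemma card_rn_le (v : Pt) : (rn P G v).card ≤ deg G v := by
  refine Finset.card_le_card_of_injOn (fun q => (v, q)) ?_ ?_
  · intro p hp
    have := (Finset.mem_filter.1 (Finset.mem_coe.1 hp)).2
    exact Finset.mem_coe.2 (Finset.mem_filter.2 ⟨this, Or.inl rfl⟩)
  · intro p _ q _ h
    exact (Prod.ext_iff.1 h).2

lemma sum_fib_le (Z : Finset Pt) (f : Edge → Pt) :
    ∑ p ∈ Z, (G.filter (fun e => f e = p)).card ≤ G.card := by
  rw [← Finset.card_biUnion]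
  · exact Finset.card_le_card (by
      intro e he
      obtain ⟨p, _, hp⟩ := Finset.mem_biUnion.1 he
      exact (Finset.mem_filter.1 hp).1)
  · intro p _ q _ hpq
    refine Finset.disjoint_left.2 (fun e h1 h2 => hpq ?_)
    rw [← (Finset.mem_filter.1 h1).2, ← (Finset.mem_filter.1 h2).2]

lemma sum_deg_le (Z : Finset Pt) : ∑ p ∈ Z, deg G p ≤ 2 * G.card := by
  have h1 := sum_fib_le (G := G) Z Prod.fst
  have h2 := sum_fib_le (G := G) Z Prod.snd
  calc ∑ p ∈ Z, deg G p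
      ≤ ∑ p ∈ Z, ((G.filter (fun e => e.1 = p)).card + (G.filter (fun e => e.2 = p)).card) := by
        refine Finset.sum_le_sum (fun p _ => ?_)
        unfold deg
        rw [Finset.filter_or]
        exact Finset.card_union_le _ _
    _ ≤ 2 * G.card := by rw [Finset.sum_add_distrib]; omega

/-- Markov for degrees -/
lemma card_high_le (Z : Finset Pt) (lam : ℝ) (_hlam : 0 ≤ lam) :
    ((Z.filter (fun p => ⌊lam⌋₊ < deg G p)).card : ℝ) * lam ≤ 2 * G.card := by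
  have h1 := sum_deg_le (G := G) (Z.filter (fun p => ⌊lam⌋₊ < deg G p))
  have h2 : ∑ _p ∈ Z.filter (fun p => ⌊lam⌋₊ < deg G p), lam
      ≤ ∑ p ∈ Z.filter (fun p => ⌊lam⌋₊ < deg G p), (deg G p : ℝ) := by
    refine Finset.sum_le_sum (fun p hp => ?_)
    have := (Finset.mem_filter.1 hp).2
    exact (Nat.lt_of_floor_lt this).le
  rw [Finset.sum_const, nsmul_eq_mul] at h2
  refine h2.trans ?_
  rw [← Nat.cast_sum]
  exact_mod_cast h1

lemma crs_mono {E E' : Finset Edge} (h : E ⊆ E') : crs E E ≤ crs E' E' := by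
  unfold crs
  exact Finset.card_le_card (Finset.filter_subset_filter _ (Finset.product_subset_product h h))

/-- 5-tuples `(v; p₁,p₂,p₃; q)` -/
def Tup (P : Finset Pt) (G : Finset Edge) (V : Finset Pt) (S : Pt → Finset (Pt × Pt × Pt)) :
    Finset (Pt × (Pt × Pt × Pt) × Pt) :=
  (V ×ˢ ((P ×ˢ (P ×ˢ P)) ×ˢ P)).filter (fun z => z.2.1 ∈ S z.1 ∧ (z.1, z.2.2) ∈ G)

variable {V : Finset Pt} {S : Pt → Finset (Pt × Pt × Pt)}

lemma mem_Tup (hG : G ⊆ pairs P)
    (hS : ∀ v ∈ V, ∀ t ∈ S v, (t.1, v) ∈ G ∧ (t.2.1, v) ∈ G ∧ (t.2.2, v) ∈ G)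
    {z : Pt × (Pt × Pt × Pt) × Pt} :
    z ∈ Tup P G V S ↔ z.1 ∈ V ∧ z.2.1 ∈ S z.1 ∧ (z.1, z.2.2) ∈ G := by
  unfold Tup
  simp only [Finset.mem_filter, Finset.mem_product]
  constructor
  · rintro ⟨⟨h1, _⟩, h2, h3⟩
    exact ⟨h1, h2, h3⟩
  · rintro ⟨h1, h2, h3⟩
    obtain ⟨a, b, c⟩ := hS _ h1 _ h2
    exact ⟨⟨h1, ⟨(mem_pairs.1 (hG a)).1, (mem_pairs.1 (hG b)).1, (mem_pairs.1 (hG c)).1⟩,
      (mem_pairs.1 (hG h3)).2.1⟩, h2, h3⟩

lemma tup_lower (hG : G ⊆ pairs P)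
    (hS : ∀ v ∈ V, ∀ t ∈ S v, (t.1, v) ∈ G ∧ (t.2.1, v) ∈ G ∧ (t.2.2, v) ∈ G)
    {s r : ℝ} (_hs0 : 0 ≤ s) (hr0 : 0 ≤ r) (hs : ∀ v ∈ V, s ≤ (S v).card)
    (hr : ∀ v ∈ V, r ≤ (G.filter (fun e => e.1 = v)).card) :
    V.card * (s * r) ≤ ((Tup P G V S).card : ℝ) := by
  have h1 : (Tup P G V S).card
      = ∑ v ∈ V, ((Tup P G V S).filter (fun z => z.1 = v)).card :=
    Finset.card_eq_sum_card_fiberwise
      (fun z hz => ((mem_Tup hG hS).1 (Finset.mem_coe.1 hz)).1)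
  rw [h1]
  push_cast
  have h0 : (V.card : ℝ) * (s * r) = ∑ _v ∈ V, s * r := by
    rw [Finset.sum_const, nsmul_eq_mul]
  rw [h0]
  refine Finset.sum_le_sum (fun v hv => ?_)
  have h2 : ((S v) ×ˢ (G.filter (fun e => e.1 = v))).card
      ≤ ((Tup P G V S).filter (fun z => z.1 = v)).card := by
    refine Finset.card_le_card_of_injOn (fun y => (v, y.1, y.2.2)) ?_ ?_
    · intro y hy
      have hy' := Finset.mem_product.1 (Finset.mem_coe.1 hy)
      have hy2 := Finset.mem_filter.1 hy'.2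
      refine Finset.mem_coe.2 (Finset.mem_filter.2 ⟨(mem_Tup hG hS).2 ⟨hv, hy'.1, ?_⟩, rfl⟩)
      have : (v, y.2.2) = y.2 := Prod.ext hy2.2.symm rfl
      show (v, y.2.2) ∈ G
      rw [this]; exact hy2.1
    · intro y hy y' hy' he
      have a := (Finset.mem_filter.1 (Finset.mem_product.1 (Finset.mem_coe.1 hy)).2).2
      have b := (Finset.mem_filter.1 (Finset.mem_product.1 (Finset.mem_coe.1 hy')).2).2
      have he' := Prod.ext_iff.1 he
      have he2 := Prod.ext_iff.1 he'.2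
      exact Prod.ext he2.1 (Prod.ext (a.trans b.symm) he2.2)
  rw [Finset.card_product] at h2
  calc s * r ≤ ((S v).card : ℝ) * ((G.filter (fun e => e.1 = v)).card : ℝ) :=
        mul_le_mul (hs v hv) (hr v hv) hr0 (by positivity)
    _ ≤ _ := by exact_mod_cast h2

/-- tuples with one of the four edges in `E` -/
lemma bad_edge (hG : G ⊆ pairs P)
    (hS : ∀ v ∈ V, ∀ t ∈ S v, (t.1, v) ∈ G ∧ (t.2.1, v) ∈ G ∧ (t.2.2, v) ∈ G)
    (La : ℕ) (hlow : ∀ v ∈ V, deg G v ≤ La) (E : Finset Edge) :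
    (((Tup P G V S).filter (fun z => (z.2.1.1, z.1) ∈ E)).card : ℝ) ≤ (La : ℝ) ^ 3 * E.card ∧
    (((Tup P G V S).filter (fun z => (z.2.1.2.1, z.1) ∈ E)).card : ℝ) ≤ (La : ℝ) ^ 3 * E.card ∧
    (((Tup P G V S).filter (fun z => (z.2.1.2.2, z.1) ∈ E)).card : ℝ) ≤ (La : ℝ) ^ 3 * E.card ∧
    (((Tup P G V S).filter (fun z => (z.1, z.2.2) ∈ E)).card : ℝ) ≤ (La : ℝ) ^ 3 * E.card := by
  have hl : ∀ v ∈ V, (ln P G v).card ≤ La := fun v hv => (card_ln_le v).trans (hlow v hv)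
  have hr : ∀ v ∈ V, (rn P G v).card ≤ La := fun v hv => (card_rn_le v).trans (hlow v hv)
  have key : ∀ z ∈ Tup P G V S, z.1 ∈ V ∧ z.2.1.1 ∈ ln P G z.1 ∧ z.2.1.2.1 ∈ ln P G z.1 ∧
      z.2.1.2.2 ∈ ln P G z.1 ∧ z.2.2 ∈ rn P G z.1 := by
    intro z hz
    obtain ⟨h1, h2, h3⟩ := (mem_Tup hG hS).1 hz
    obtain ⟨a, b, c⟩ := hS _ h1 _ h2
    exact ⟨h1, Finset.mem_filter.2 ⟨(mem_pairs.1 (hG a)).1, a⟩,
      Finset.mem_filter.2 ⟨(mem_pairs.1 (hG b)).1, b⟩,
      Finset.mem_filter.2 ⟨(mem_pairs.1 (hG c)).1, c⟩,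
      Finset.mem_filter.2 ⟨(mem_pairs.1 (hG h3)).2.1, h3⟩⟩
  refine ⟨?_, ?_, ?_, ?_⟩
  · refine count_gen _ (fun z => (z.2.1.1, z.1)) E (fun z => (z.2.1.2.1, z.2.1.2.2, z.2.2))
      (fun e => (ln P G e.2) ×ˢ ((ln P G e.2) ×ˢ (rn P G e.2))) _ (by positivity) ?_ ?_ ?_ ?_
    · intro z hz; exact (Finset.mem_filter.1 hz).2
    · intro z hz
      obtain ⟨_, _, a2, a3, a4⟩ := key z (Finset.mem_filter.1 hz).1
      exact Finset.mem_product.2 ⟨a2, Finset.mem_product.2 ⟨a3, a4⟩⟩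
    · intro z hz
      obtain ⟨a0, _⟩ := key z (Finset.mem_filter.1 hz).1
      rw [Finset.card_product, Finset.card_product]
      have h1 := hl _ a0
      have h2 := hr _ a0
      have : (ln P G z.1).card * ((ln P G z.1).card * (rn P G z.1).card) ≤ La * (La * La) :=
        Nat.mul_le_mul h1 (Nat.mul_le_mul h1 h2)
      calc (((ln P G z.1).card * ((ln P G z.1).card * (rn P G z.1).card) : ℕ) : ℝ)
          ≤ ((La * (La * La) : ℕ) : ℝ) := by exact_mod_cast this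
        _ = (La : ℝ) ^ 3 := by push_cast; ring
    · rintro ⟨v, ⟨p1, p2, p3⟩, q⟩ _ ⟨v', ⟨p1', p2', p3'⟩, q'⟩ _ h1 h2
      simp only [Prod.mk.injEq] at h1 h2
      obtain ⟨rfl, rfl⟩ := h1
      obtain ⟨rfl, rfl, rfl⟩ := h2
      rfl
  · refine count_gen _ (fun z => (z.2.1.2.1, z.1)) E (fun z => (z.2.1.1, z.2.1.2.2, z.2.2))
      (fun e => (ln P G e.2) ×ˢ ((ln P G e.2) ×ˢ (rn P G e.2))) _ (by positivity) ?_ ?_ ?_ ?_
    · intro z hz; exact (Finset.mem_filter.1 hz).2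
    · intro z hz
      obtain ⟨_, a1, _, a3, a4⟩ := key z (Finset.mem_filter.1 hz).1
      exact Finset.mem_product.2 ⟨a1, Finset.mem_product.2 ⟨a3, a4⟩⟩
    · intro z hz
      obtain ⟨a0, _⟩ := key z (Finset.mem_filter.1 hz).1
      rw [Finset.card_product, Finset.card_product]
      have h1 := hl _ a0
      have h2 := hr _ a0
      have : (ln P G z.1).card * ((ln P G z.1).card * (rn P G z.1).card) ≤ La * (La * La) :=
        Nat.mul_le_mul h1 (Nat.mul_le_mul h1 h2)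
      calc (((ln P G z.1).card * ((ln P G z.1).card * (rn P G z.1).card) : ℕ) : ℝ)
          ≤ ((La * (La * La) : ℕ) : ℝ) := by exact_mod_cast this
        _ = (La : ℝ) ^ 3 := by push_cast; ring
    · rintro ⟨v, ⟨p1, p2, p3⟩, q⟩ _ ⟨v', ⟨p1', p2', p3'⟩, q'⟩ _ h1 h2
      simp only [Prod.mk.injEq] at h1 h2
      obtain ⟨rfl, rfl⟩ := h1
      obtain ⟨rfl, rfl, rfl⟩ := h2
      rfl
  · refine count_gen _ (fun z => (z.2.1.2.2, z.1)) E (fun z => (z.2.1.1, z.2.1.2.1, z.2.2))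
      (fun e => (ln P G e.2) ×ˢ ((ln P G e.2) ×ˢ (rn P G e.2))) _ (by positivity) ?_ ?_ ?_ ?_
    · intro z hz; exact (Finset.mem_filter.1 hz).2
    · intro z hz
      obtain ⟨_, a1, a2, _, a4⟩ := key z (Finset.mem_filter.1 hz).1
      exact Finset.mem_product.2 ⟨a1, Finset.mem_product.2 ⟨a2, a4⟩⟩
    · intro z hz
      obtain ⟨a0, _⟩ := key z (Finset.mem_filter.1 hz).1
      rw [Finset.card_product, Finset.card_product]
      have h1 := hl _ a0
      have h2 := hr _ a0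
      have : (ln P G z.1).card * ((ln P G z.1).card * (rn P G z.1).card) ≤ La * (La * La) :=
        Nat.mul_le_mul h1 (Nat.mul_le_mul h1 h2)
      calc (((ln P G z.1).card * ((ln P G z.1).card * (rn P G z.1).card) : ℕ) : ℝ)
          ≤ ((La * (La * La) : ℕ) : ℝ) := by exact_mod_cast this
        _ = (La : ℝ) ^ 3 := by push_cast; ring
    · rintro ⟨v, ⟨p1, p2, p3⟩, q⟩ _ ⟨v', ⟨p1', p2', p3'⟩, q'⟩ _ h1 h2
      simp only [Prod.mk.injEq] at h1 h2
      obtain ⟨rfl, rfl⟩ := h1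
      obtain ⟨rfl, rfl, rfl⟩ := h2
      rfl
  · refine count_gen _ (fun z => (z.1, z.2.2)) E (fun z => z.2.1)
      (fun e => (ln P G e.1) ×ˢ ((ln P G e.1) ×ˢ (ln P G e.1))) _ (by positivity) ?_ ?_ ?_ ?_
    · intro z hz; exact (Finset.mem_filter.1 hz).2
    · intro z hz
      obtain ⟨_, a1, a2, a3, _⟩ := key z (Finset.mem_filter.1 hz).1
      exact Finset.mem_product.2 ⟨a1, Finset.mem_product.2 ⟨a2, a3⟩⟩
    · intro z hz
      obtain ⟨a0, _⟩ := key z (Finset.mem_filter.1 hz).1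
      rw [Finset.card_product, Finset.card_product]
      have h1 := hl _ a0
      have : (ln P G z.1).card * ((ln P G z.1).card * (ln P G z.1).card) ≤ La * (La * La) :=
        Nat.mul_le_mul h1 (Nat.mul_le_mul h1 h1)
      calc (((ln P G z.1).card * ((ln P G z.1).card * (ln P G z.1).card) : ℕ) : ℝ)
          ≤ ((La * (La * La) : ℕ) : ℝ) := by exact_mod_cast this
        _ = (La : ℝ) ^ 3 := by push_cast; ring
    · rintro ⟨v, t, q⟩ _ ⟨v', t', q'⟩ _ h1 h2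
      simp only [Prod.mk.injEq] at h1 h2
      obtain ⟨rfl, rfl⟩ := h1
      subst h2
      rfl

/-- tuples with one of the three 2-paths in `Hb` -/
lemma bad_path (hG : G ⊆ pairs P)
    (hS : ∀ v ∈ V, ∀ t ∈ S v, (t.1, v) ∈ G ∧ (t.2.1, v) ∈ G ∧ (t.2.2, v) ∈ G)
    (La : ℕ) (hlow : ∀ v ∈ V, deg G v ≤ La) (Hb : Finset (Pt × Pt × Pt)) :
    (((Tup P G V S).filter (fun z => (z.2.1.1, z.1, z.2.2) ∈ Hb)).card : ℝ)
      ≤ (La : ℝ) ^ 2 * Hb.card ∧
    (((Tup P G V S).filter (fun z => (z.2.1.2.1, z.1, z.2.2) ∈ Hb)).card : ℝ)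
      ≤ (La : ℝ) ^ 2 * Hb.card ∧
    (((Tup P G V S).filter (fun z => (z.2.1.2.2, z.1, z.2.2) ∈ Hb)).card : ℝ)
      ≤ (La : ℝ) ^ 2 * Hb.card := by
  have hl : ∀ v ∈ V, (ln P G v).card ≤ La := fun v hv => (card_ln_le v).trans (hlow v hv)
  have key : ∀ z ∈ Tup P G V S, z.1 ∈ V ∧ z.2.1.1 ∈ ln P G z.1 ∧ z.2.1.2.1 ∈ ln P G z.1 ∧
      z.2.1.2.2 ∈ ln P G z.1 := by
    intro z hz
    obtain ⟨h1, h2, h3⟩ := (mem_Tup hG hS).1 hz
    obtain ⟨a, b, c⟩ := hS _ h1 _ h2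
    exact ⟨h1, Finset.mem_filter.2 ⟨(mem_pairs.1 (hG a)).1, a⟩,
      Finset.mem_filter.2 ⟨(mem_pairs.1 (hG b)).1, b⟩,
      Finset.mem_filter.2 ⟨(mem_pairs.1 (hG c)).1, c⟩⟩
  have hcard : ∀ z ∈ Tup P G V S, (((ln P G z.1) ×ˢ (ln P G z.1)).card : ℝ) ≤ (La : ℝ) ^ 2 := by
    intro z hz
    obtain ⟨a0, _⟩ := key z hz
    rw [Finset.card_product]
    have h1 := hl _ a0
    calc (((ln P G z.1).card * (ln P G z.1).card : ℕ) : ℝ)
        ≤ ((La * La : ℕ) : ℝ) := by exact_mod_cast Nat.mul_le_mul h1 h1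
      _ = (La : ℝ) ^ 2 := by push_cast; ring
  refine ⟨?_, ?_, ?_⟩
  · refine count_gen _ (fun z => (z.2.1.1, z.1, z.2.2)) Hb (fun z => (z.2.1.2.1, z.2.1.2.2))
      (fun e => (ln P G e.2.1) ×ˢ (ln P G e.2.1)) _ (by positivity) ?_ ?_ ?_ ?_
    · intro z hz; exact (Finset.mem_filter.1 hz).2
    · intro z hz
      obtain ⟨_, _, a2, a3⟩ := key z (Finset.mem_filter.1 hz).1
      exact Finset.mem_product.2 ⟨a2, a3⟩
    · intro z hz
      exact hcard z (Finset.mem_filter.1 hz).1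
    · rintro ⟨v, ⟨p1, p2, p3⟩, q⟩ _ ⟨v', ⟨p1', p2', p3'⟩, q'⟩ _ h1 h2
      simp only [Prod.mk.injEq] at h1 h2
      obtain ⟨rfl, rfl, rfl⟩ := h1
      obtain ⟨rfl, rfl⟩ := h2
      rfl
  · refine count_gen _ (fun z => (z.2.1.2.1, z.1, z.2.2)) Hb (fun z => (z.2.1.1, z.2.1.2.2))
      (fun e => (ln P G e.2.1) ×ˢ (ln P G e.2.1)) _ (by positivity) ?_ ?_ ?_ ?_
    · intro z hz; exact (Finset.mem_filter.1 hz).2
    · intro z hz
      obtain ⟨_, a1, _, a3⟩ := key z (Finset.mem_filter.1 hz).1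
      exact Finset.mem_product.2 ⟨a1, a3⟩
    · intro z hz
      exact hcard z (Finset.mem_filter.1 hz).1
    · rintro ⟨v, ⟨p1, p2, p3⟩, q⟩ _ ⟨v', ⟨p1', p2', p3'⟩, q'⟩ _ h1 h2
      simp only [Prod.mk.injEq] at h1 h2
      obtain ⟨rfl, rfl, rfl⟩ := h1
      obtain ⟨rfl, rfl⟩ := h2
      rfl
  · refine count_gen _ (fun z => (z.2.1.2.2, z.1, z.2.2)) Hb (fun z => (z.2.1.1, z.2.1.2.1))
      (fun e => (ln P G e.2.1) ×ˢ (ln P G e.2.1)) _ (by positivity) ?_ ?_ ?_ ?_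
    · intro z hz; exact (Finset.mem_filter.1 hz).2
    · intro z hz
      obtain ⟨_, a1, a2, _⟩ := key z (Finset.mem_filter.1 hz).1
      exact Finset.mem_product.2 ⟨a1, a2⟩
    · intro z hz
      exact hcard z (Finset.mem_filter.1 hz).1
    · rintro ⟨v, ⟨p1, p2, p3⟩, q⟩ _ ⟨v', ⟨p1', p2', p3'⟩, q'⟩ _ h1 h2
      simp only [Prod.mk.injEq] at h1 h2
      obtain ⟨rfl, rfl, rfl⟩ := h1
      obtain ⟨rfl, rfl⟩ := h2
      rfl

/-- the low part of `G` -/
def Glow (G : Finset Edge) (L : ℕ) : Finset Edge :=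
  G.filter (fun e => deg G e.1 ≤ L ∧ deg G e.2 ≤ L)

/-- the edges with a high end -/
def Ghigh (G : Finset Edge) (L : ℕ) : Finset Edge :=
  G.filter (fun e => L < deg G e.1 ∨ L < deg G e.2)

lemma deg_Glow_le (L : ℕ) (p : Pt) : deg (Glow G L) p ≤ L := by
  by_cases hne : ((Glow G L).filter (fun e => e.1 = p ∨ e.2 = p)).Nonempty
  · obtain ⟨e, he⟩ := hne
    rw [Finset.mem_filter] at he
    have h1 : deg G p ≤ L := by
      have := (Finset.mem_filter.1 he.1).2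
      rcases he.2 with h | h
      · rw [← h]; exact this.1
      · rw [← h]; exact this.2
    refine le_trans ?_ h1
    exact Finset.card_le_card (Finset.filter_subset_filter _ (Finset.filter_subset _ _))
  · rw [Finset.not_nonempty_iff_eq_empty] at hne
    unfold deg
    rw [hne]; simp

lemma high_or_low (L : ℕ) {e : Edge} (he : e ∈ G) (h : e ∉ Ghigh G L) : e ∈ Glow G L := by
  unfold Ghigh at h
  unfold Glow
  rw [Finset.mem_filter] at h ⊢
  refine ⟨he, ?_⟩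
  by_contra h'
  apply h
  refine ⟨he, ?_⟩
  rw [not_and_or, not_le, not_le] at h'
  exact h'

/-- 2-paths -/
def pth (P : Finset Pt) (G : Finset Edge) : Finset (Pt × Pt × Pt) :=
  (P ×ˢ (P ×ˢ P)).filter (fun h => (h.1, h.2.1) ∈ G ∧ (h.2.1, h.2.2) ∈ G)

lemma mem_pth (hG : G ⊆ pairs P) {h : Pt × Pt × Pt} :
    h ∈ pth P G ↔ (h.1, h.2.1) ∈ G ∧ (h.2.1, h.2.2) ∈ G := by
  unfold pth
  simp only [Finset.mem_filter, Finset.mem_product]
  constructor
  · rintro ⟨_, h⟩; exact h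
  · rintro ⟨h1, h2⟩
    have a := mem_pairs.1 (hG h1)
    have b := mem_pairs.1 (hG h2)
    exact ⟨⟨a.1, a.2.1, b.2.1⟩, h1, h2⟩

/-- number of middle points -/
def codeg (P : Finset Pt) (G : Finset Edge) (x y : Pt) : ℕ :=
  ((pth P G).filter (fun h => h.1 = x ∧ h.2.2 = y)).card

/-- 2-paths of small codegree -/
def Hbad (P : Finset Pt) (G : Finset Edge) (m : ℕ) : Finset (Pt × Pt × Pt) :=
  (pth P G).filter (fun h => codeg P G h.1 h.2.2 ≤ m)

lemma Hbad_end (m : ℕ) (x y : Pt) :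
    ((Hbad P G m).filter (fun h => h.1 = x ∧ h.2.2 = y)).card ≤ m := by
  by_cases hne : ((Hbad P G m).filter (fun h => h.1 = x ∧ h.2.2 = y)).Nonempty
  · obtain ⟨h, hh⟩ := hne
    rw [Finset.mem_filter] at hh
    have h1 := (Finset.mem_filter.1 hh.1).2
    rw [hh.2.1, hh.2.2] at h1
    refine le_trans ?_ h1
    exact Finset.card_le_card (Finset.filter_subset_filter _ (Finset.filter_subset _ _))
  · rw [Finset.not_nonempty_iff_eq_empty] at hne
    rw [hne]; simp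

/-- points of large codegree with `q` -/
def Tq (P : Finset Pt) (G : Finset Edge) (m : ℕ) (q : Pt) : Finset Pt :=
  P.filter (fun p => m < codeg P G p q)

lemma card_Tq_le (hG : G ⊆ pairs P) (L m : ℕ) (hL : ∀ p, deg G p ≤ L) (q : Pt) :
    ((Tq P G m q).card : ℝ) * (m + 1) ≤ (L : ℝ) ^ 2 := by
  have h1 : ((Tq P G m q).card) * (m + 1)
      ≤ ((pth P G).filter (fun h => h.2.2 = q)).card := by
    have h2 : ∑ p ∈ Tq P G m q, codeg P G p q
        ≤ ((pth P G).filter (fun h => h.2.2 = q)).card := by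
      unfold codeg
      rw [← Finset.card_biUnion]
      · refine Finset.card_le_card (fun h hh => ?_)
        obtain ⟨p, _, hp⟩ := Finset.mem_biUnion.1 hh
        rw [Finset.mem_filter] at hp ⊢
        exact ⟨hp.1, hp.2.2⟩
      · intro p _ p' _ hpp
        refine Finset.disjoint_left.2 (fun h h1 h2 => hpp ?_)
        rw [← (Finset.mem_filter.1 h1).2.1, ← (Finset.mem_filter.1 h2).2.1]
    refine le_trans ?_ h2
    rw [← smul_eq_mul, ← Finset.sum_const]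
    refine Finset.sum_le_sum (fun p hp => ?_)
    exact (Finset.mem_filter.1 hp).2
  have h3 : (((pth P G).filter (fun h => h.2.2 = q)).card : ℝ) ≤ (L : ℝ) * (ln P G q).card := by
    refine count_gen _ (fun h => h.2.1) (ln P G q) (fun h => h.1) (fun v => ln P G v) _
      (by positivity) ?_ ?_ ?_ ?_
    · intro h hh
      rw [Finset.mem_filter, mem_pth hG] at hh
      rw [hh.2] at hh
      exact Finset.mem_filter.2 ⟨(mem_pairs.1 (hG hh.1.1)).2.1, hh.1.2⟩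
    · intro h hh
      rw [Finset.mem_filter, mem_pth hG] at hh
      exact Finset.mem_filter.2 ⟨(mem_pairs.1 (hG hh.1.1)).1, hh.1.1⟩
    · intro h _
      exact_mod_cast (card_ln_le _).trans (hL _)
    · rintro ⟨p, v, q1⟩ h1 ⟨p', v', q2⟩ h2 e1 e2
      rw [Finset.mem_filter] at h1 h2
      have a := h1.2
      have b := h2.2
      simp only at a b e1 e2
      subst a b e1 e2
      rfl
  have h4 : ((ln P G q).card : ℝ) ≤ L := by exact_mod_cast (card_ln_le _).trans (hL _)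
  calc ((Tq P G m q).card : ℝ) * (m + 1)
      = (((Tq P G m q).card * (m + 1) : ℕ) : ℝ) := by push_cast; ring
    _ ≤ (((pth P G).filter (fun h => h.2.2 = q)).card : ℝ) := by exact_mod_cast h1
    _ ≤ (L : ℝ) * (ln P G q).card := h3
    _ ≤ (L : ℝ) * L := mul_le_mul_of_nonneg_left h4 (by positivity)
    _ = (L : ℝ) ^ 2 := by ring

/-- the good tuples -/
def Tgood (P : Finset Pt) (G : Finset Edge) (V : Finset Pt) (S : Pt → Finset (Pt × Pt × Pt))
    (L m : ℕ) : Finset (Pt × (Pt × Pt × Pt) × Pt) :=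
  (Tup P G V S).filter (fun z => z.2.1.1 ∈ Tq P (Glow G L) m z.2.2 ∧
    z.2.1.2.1 ∈ Tq P (Glow G L) m z.2.2 ∧ z.2.1.2.2 ∈ Tq P (Glow G L) m z.2.2)

lemma Tup_le (hG : G ⊆ pairs P)
    (hS : ∀ v ∈ V, ∀ t ∈ S v, (t.1, v) ∈ G ∧ (t.2.1, v) ∈ G ∧ (t.2.2, v) ∈ G)
    (La L m : ℕ) (hlow : ∀ v ∈ V, deg G v ≤ La) :
    ((Tup P G V S).card : ℝ) ≤ 4 * ((La : ℝ) ^ 3 * (Ghigh G L).card)
      + 3 * ((La : ℝ) ^ 2 * (Hbad P (Glow G L) m).card) + (Tgood P G V S L m).card := by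
  have hGl : Glow G L ⊆ pairs P := (Finset.filter_subset _ _).trans hG
  obtain ⟨a1, a2, a3, a4⟩ := bad_edge hG hS La hlow (Ghigh G L)
  obtain ⟨b1, b2, b3⟩ := bad_path hG hS La hlow (Hbad P (Glow G L) m)
  set A1 := (Tup P G V S).filter (fun z => (z.2.1.1, z.1) ∈ Ghigh G L)
  set A2 := (Tup P G V S).filter (fun z => (z.2.1.2.1, z.1) ∈ Ghigh G L)
  set A3 := (Tup P G V S).filter (fun z => (z.2.1.2.2, z.1) ∈ Ghigh G L)
  set A4 := (Tup P G V S).filter (fun z => (z.1, z.2.2) ∈ Ghigh G L)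
  set B1 := (Tup P G V S).filter (fun z => (z.2.1.1, z.1, z.2.2) ∈ Hbad P (Glow G L) m)
  set B2 := (Tup P G V S).filter (fun z => (z.2.1.2.1, z.1, z.2.2) ∈ Hbad P (Glow G L) m)
  set B3 := (Tup P G V S).filter (fun z => (z.2.1.2.2, z.1, z.2.2) ∈ Hbad P (Glow G L) m)
  have hsub : Tup P G V S ⊆ A1 ∪ (A2 ∪ (A3 ∪ (A4 ∪ (B1 ∪ (B2 ∪ (B3 ∪ Tgood P G V S L m)))))) := by
    intro z hz
    by_cases c1 : z ∈ A1
    · exact Finset.mem_union_left _ c1
    refine Finset.mem_union_right _ ?_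
    by_cases c2 : z ∈ A2
    · exact Finset.mem_union_left _ c2
    refine Finset.mem_union_right _ ?_
    by_cases c3 : z ∈ A3
    · exact Finset.mem_union_left _ c3
    refine Finset.mem_union_right _ ?_
    by_cases c4 : z ∈ A4
    · exact Finset.mem_union_left _ c4
    refine Finset.mem_union_right _ ?_
    by_cases d1 : z ∈ B1
    · exact Finset.mem_union_left _ d1
    refine Finset.mem_union_right _ ?_
    by_cases d2 : z ∈ B2
    · exact Finset.mem_union_left _ d2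
    refine Finset.mem_union_right _ ?_
    by_cases d3 : z ∈ B3
    · exact Finset.mem_union_left _ d3
    refine Finset.mem_union_right _ ?_
    obtain ⟨h1, h2, h3⟩ := (mem_Tup hG hS).1 hz
    obtain ⟨e1, e2, e3⟩ := hS _ h1 _ h2
    have f1 : (z.2.1.1, z.1) ∈ Glow G L :=
      high_or_low L e1 (fun h => c1 (Finset.mem_filter.2 ⟨hz, h⟩))
    have f2 : (z.2.1.2.1, z.1) ∈ Glow G L :=
      high_or_low L e2 (fun h => c2 (Finset.mem_filter.2 ⟨hz, h⟩))
    have f3 : (z.2.1.2.2, z.1) ∈ Glow G L :=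
      high_or_low L e3 (fun h => c3 (Finset.mem_filter.2 ⟨hz, h⟩))
    have f4 : (z.1, z.2.2) ∈ Glow G L :=
      high_or_low L h3 (fun h => c4 (Finset.mem_filter.2 ⟨hz, h⟩))
    have aux : ∀ p : Pt, (p, z.1) ∈ Glow G L → (p, z.1, z.2.2) ∉ Hbad P (Glow G L) m →
        p ∈ Tq P (Glow G L) m z.2.2 := by
      intro p hp hnb
      refine Finset.mem_filter.2 ⟨(mem_pairs.1 (hGl hp)).1, ?_⟩
      by_contra hc
      apply hnb
      exact Finset.mem_filter.2 ⟨(mem_pth hGl).2 ⟨hp, f4⟩, not_lt.1 hc⟩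
    exact Finset.mem_filter.2 ⟨hz,
      aux _ f1 (fun h => d1 (Finset.mem_filter.2 ⟨hz, h⟩)),
      aux _ f2 (fun h => d2 (Finset.mem_filter.2 ⟨hz, h⟩)),
      aux _ f3 (fun h => d3 (Finset.mem_filter.2 ⟨hz, h⟩))⟩
  have hcard : (Tup P G V S).card ≤ A1.card + (A2.card + (A3.card + (A4.card + (B1.card
      + (B2.card + (B3.card + (Tgood P G V S L m).card)))))) := by
    refine (Finset.card_le_card hsub).trans ?_
    refine (Finset.card_union_le _ _).trans (Nat.add_le_add_left ?_ _)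
    refine (Finset.card_union_le _ _).trans (Nat.add_le_add_left ?_ _)
    refine (Finset.card_union_le _ _).trans (Nat.add_le_add_left ?_ _)
    refine (Finset.card_union_le _ _).trans (Nat.add_le_add_left ?_ _)
    refine (Finset.card_union_le _ _).trans (Nat.add_le_add_left ?_ _)
    refine (Finset.card_union_le _ _).trans (Nat.add_le_add_left ?_ _)
    exact Finset.card_union_le _ _
  have hcard' : ((Tup P G V S).card : ℝ) ≤ A1.card + (A2.card + (A3.card + (A4.card + (B1.card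
      + (B2.card + (B3.card + (Tgood P G V S L m).card)))))) := by exact_mod_cast hcard
  linarith

lemma Tgood_le (hG : G ⊆ pairs P)
    (hS : ∀ v ∈ V, ∀ t ∈ S v, (t.1, v) ∈ G ∧ (t.2.1, v) ∈ G ∧ (t.2.2, v) ∈ G)
    (L m : ℕ) (K : ℝ) (hK0 : 0 ≤ K)
    (hK : ∀ t : Pt × Pt × Pt, ((V.filter (fun v => t ∈ S v)).card : ℝ) ≤ K) :
    ((Tgood P G V S L m).card : ℝ) ≤ K * (P.card * ((L : ℝ) ^ 2 / (m + 1)) ^ 3) := by
  have hGl : Glow G L ⊆ pairs P := (Finset.filter_subset _ _).trans hG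
  set T := fun q => Tq P (Glow G L) m q
  set Pr : Finset ((Pt × Pt × Pt) × Pt) := ((P ×ˢ (P ×ˢ P)) ×ˢ P).filter
    (fun y => y.1.1 ∈ T y.2 ∧ y.1.2.1 ∈ T y.2 ∧ y.1.2.2 ∈ T y.2) with hPr
  have h1 : ((Tgood P G V S L m).card : ℝ) ≤ K * Pr.card := by
    refine count_gen _ (fun z => (z.2.1, z.2.2)) Pr (fun z => z.1)
      (fun y => V.filter (fun v => y.1 ∈ S v)) _ hK0 ?_ ?_ ?_ ?_
    · intro z hz
      have hz' := Finset.mem_filter.1 hz
      have hz2 := (Finset.mem_filter.1 hz'.1).1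
      exact Finset.mem_filter.2 ⟨(Finset.mem_product.1 hz2).2, hz'.2⟩
    · intro z hz
      have hz' := Finset.mem_filter.1 hz
      obtain ⟨h1, h2, h3⟩ := (mem_Tup hG hS).1 hz'.1
      exact Finset.mem_filter.2 ⟨h1, h2⟩
    · intro z _
      exact hK _
    · rintro ⟨v, t, q⟩ _ ⟨v', t', q'⟩ _ h1 h2
      simp only [Prod.mk.injEq] at h1 h2
      obtain ⟨rfl, rfl⟩ := h1
      subst h2
      rfl
  have h2 : (Pr.card : ℝ) ≤ P.card * ((L : ℝ) ^ 2 / (m + 1)) ^ 3 := by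
    have := count_gen Pr (fun y => y.2) P (fun y => y.1)
      (fun q => (T q) ×ˢ ((T q) ×ˢ (T q))) (((L : ℝ) ^ 2 / (m + 1)) ^ 3) (by positivity)
      (fun y hy => (Finset.mem_product.1 (Finset.mem_filter.1 hy).1).2)
      (fun y hy => by
        have := (Finset.mem_filter.1 hy).2
        exact Finset.mem_product.2 ⟨this.1, Finset.mem_product.2 ⟨this.2.1, this.2.2⟩⟩)
      (fun y _ => by
        have hT : ((T y.2).card : ℝ) ≤ (L : ℝ) ^ 2 / (m + 1) := by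
          rw [le_div_iff₀ (by positivity)]
          exact card_Tq_le hGl L m (deg_Glow_le L) y.2
        rw [Finset.card_product, Finset.card_product]
        push_cast
        have h0 : (0 : ℝ) ≤ (T y.2).card := by positivity
        calc ((T y.2).card : ℝ) * ((T y.2).card * (T y.2).card) = ((T y.2).card : ℝ) ^ 3 := by ring
          _ ≤ _ := pow_le_pow_left₀ h0 hT 3)
      (fun y _ y' _ h1 h2 => Prod.ext h2 h1)
    linarith
  exact h1.trans (mul_le_mul_of_nonneg_left h2 hK0)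

lemma card_Ghigh (hP : Generic P) (hG : G ⊆ pairs P) (lam D CE CX : ℝ) (hlam : 0 < lam)
    (hD : 0 < D)
    (hCE : (G.card : ℝ) ≤ CE * P.card * D) (hCX : (crs G G : ℝ) ≤ CX * P.card * D ^ 3) :
    ((Ghigh G ⌊lam * D⌋₊).card : ℝ) ≤ 72 * P.card ∨
    ((Ghigh G ⌊lam * D⌋₊).card : ℝ) ^ 3 ≤ 41472 * (CE * CX / lam) * (P.card * D) ^ 3 := by
  set L := ⌊lam * D⌋₊ with hL
  set Z := P.filter (fun p => L < deg G p) with hZ
  have hc := card_high_le (G := G) P (lam * D) (by positivity)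
  have hZc : (Z.card : ℝ) ≤ 2 * CE / lam * P.card := by
    have h1 : (Z.card : ℝ) * (lam * D) ≤ 2 * (CE * P.card * D) := by
      have : (Z.card : ℝ) * (lam * D) ≤ 2 * G.card := hc
      linarith
    have h2 : (Z.card : ℝ) * (lam * D) ≤ (2 * CE / lam * P.card) * (lam * D) := by
      have : (2 * CE / lam * P.card) * (lam * D) = 2 * (CE * P.card * D) := by
        field_simp
      rw [this]; exact h1
    exact le_of_mul_le_mul_right h2 (by positivity)
  have hsub : Ghigh G L ⊆ G := Finset.filter_subset _ _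
  have h3 := crossing_lemma_unbalanced hP (A := P) (Z := Z) (Finset.Subset.refl _)
    (Finset.filter_subset _ _) (E := Ghigh G L) (hsub.trans hG) (by
      intro e he
      have he' := Finset.mem_filter.1 he
      have hp := mem_pairs.1 (hG he'.1)
      rcases he'.2 with h | h
      · exact Or.inl (Finset.mem_filter.2 ⟨hp.1, h⟩)
      · exact Or.inr (Finset.mem_filter.2 ⟨hp.2.1, h⟩))
  rcases h3 with h3 | h3
  · exact Or.inl h3
  · right
    refine h3.trans ?_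
    have h4 : (crs (Ghigh G L) (Ghigh G L) : ℝ) ≤ CX * P.card * D ^ 3 := by
      refine le_trans ?_ hCX
      exact_mod_cast crs_mono hsub
    have h5 : (0 : ℝ) ≤ crs (Ghigh G L) (Ghigh G L) := by positivity
    have h6 : (0 : ℝ) ≤ 2 * CE / lam * P.card := le_trans (by positivity) hZc
    calc 20736 * (P.card : ℝ) * (Z.card : ℝ) * (crs (Ghigh G L) (Ghigh G L) : ℝ)
        ≤ 20736 * (P.card : ℝ) * (2 * CE / lam * P.card) * (CX * P.card * D ^ 3) := by
          refine mul_le_mul (mul_le_mul_of_nonneg_left hZc (by positivity)) h4 h5 (by positivity)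
      _ = 41472 * (CE * CX / lam) * (P.card * D) ^ 3 := by
          field_simp
          ring

lemma card_Hbad (hP : Generic P) (hG : G ⊆ pairs P) (lam c6 D CX : ℝ) (hlam : 0 < lam)
    (hc6 : 0 < c6) (hD : 1 ≤ D) (hcD : 1 ≤ c6 * D) (hCX0 : 0 < CX)
    (hCX : (crs G G : ℝ) ≤ CX * P.card * D ^ 3) :
    ((Hbad P (Glow G ⌊lam * D⌋₊) ⌊c6 * D⌋₊).card : ℝ) ≤ 288 * c6 * (P.card * D ^ 2) ∨
    ((Hbad P (Glow G ⌊lam * D⌋₊) ⌊c6 * D⌋₊).card : ℝ) ^ 3
      ≤ 331776 * c6 * (lam ^ 2 * CX + lam ^ 4) * (P.card * D ^ 2) ^ 3 := by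
  set L := ⌊lam * D⌋₊ with hL
  set m := ⌊c6 * D⌋₊ with hm
  have hGl : Glow G L ⊆ pairs P := (Finset.filter_subset _ _).trans hG
  have hm1 : 1 ≤ m := by
    rw [hm, Nat.one_le_floor_iff]; exact hcD
  have hmle : (m : ℝ) ≤ c6 * D := Nat.floor_le (by positivity)
  have hLle : (L : ℝ) ≤ lam * D := Nat.floor_le (by positivity)
  have h := lemmaH hP hGl (Λ := L) (fun p _ => deg_Glow_le L p) (H := Hbad P (Glow G L) m)
    (fun h hh => (mem_pth hGl).1 (Finset.mem_filter.1 hh).1) hm1 (Hbad_end m)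
  have hN : (0 : ℝ) ≤ P.card := by positivity
  rcases h with h | h
  · left
    refine h.trans ?_
    calc 288 * (m : ℝ) * P.card ≤ 288 * (c6 * D) * P.card := by gcongr
      _ ≤ 288 * c6 * (P.card * D ^ 2) := by
        have : D ≤ D ^ 2 := by nlinarith
        have h2 : 288 * (c6 * D) * P.card = 288 * c6 * (P.card * D) := by ring
        rw [h2]
        gcongr
  · right
    refine h.trans ?_
    have h4 : (crs (Glow G L) (Glow G L) : ℝ) ≤ CX * P.card * D ^ 3 := by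
      refine le_trans ?_ hCX
      exact_mod_cast crs_mono (Finset.filter_subset _ _)
    have h5 : (0 : ℝ) ≤ crs (Glow G L) (Glow G L) := by positivity
    have hL0 : (0 : ℝ) ≤ L := by positivity
    calc 331776 * (m : ℝ) * (P.card : ℝ) ^ 2 *
          ((L : ℝ) ^ 2 * crs (Glow G L) (Glow G L) + P.card * (L : ℝ) ^ 4)
        ≤ 331776 * (c6 * D) * (P.card : ℝ) ^ 2 *
          ((lam * D) ^ 2 * (CX * P.card * D ^ 3) + P.card * (lam * D) ^ 4) := by
          gcongr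
      _ ≤ 331776 * (c6 * D) * (P.card : ℝ) ^ 2 *
          ((lam * D) ^ 2 * (CX * P.card * D ^ 3) + P.card * (lam * D) ^ 4 * D) := by
          have h6 : (P.card : ℝ) * (lam * D) ^ 4 ≤ P.card * (lam * D) ^ 4 * D :=
            le_mul_of_one_le_right (by positivity) hD
          exact mul_le_mul_of_nonneg_left (by linarith) (by positivity)
      _ = 331776 * c6 * (lam ^ 2 * CX + lam ^ 4) * (P.card * D ^ 2) ^ 3 := by ring

/-- cube comparison -/
lemma le_of_cube {x a : ℝ} (ha : 0 ≤ a) (h : x ^ 3 ≤ a ^ 3) : x ≤ a := by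
  by_contra hc
  push Not at hc
  have : a ^ 3 < x ^ 3 := pow_lt_pow_left₀ hc ha (by norm_num)
  linarith

/-- the counting argument with explicit constants -/
lemma final_aux (c1 c2 c3 CE CX la c7 eH eB l4 c6 c5 : ℝ) (h1 : 0 < c1) (h2 : 0 < c2)
    (h3 : 0 < c3) (hCX : 0 < CX) (hla0 : 0 < la) (hc70 : 0 < c7) (heH0 : 0 < eH)
    (heB0 : 0 < eB) (hl40 : 0 < l4) (hc60 : 0 < c6) (hc50 : 0 < c5)
    (hla : 4 * CE = c1 * la) (hc7 : c7 = c1 * c2 * c3 / 2) (heH : 16 * la ^ 3 * eH = c7)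
    (heB : 12 * la ^ 2 * eB = c7) (hl4 : 41472 * (CE * CX) = l4 * eH ^ 3)
    (hc6a : 288 * c6 ≤ eB) (hc6b : 331776 * c6 * (l4 ^ 2 * CX + l4 ^ 4) ≤ eB ^ 3)
    (hc5 : 4 * l4 ^ 6 * c5 = c7 * c6 ^ 3)
    (P : Finset Pt) (G : Finset Edge) (D : ℝ) (hP : Generic P) (hG : G ⊆ pairs P)
    (hPc : 0 < P.card) (hD1 : 1 ≤ D) (hD2 : 72 ≤ eH * D) (hcD : 1 ≤ c6 * D)
    (hGE : (G.card : ℝ) ≤ CE * P.card * D) (hGX : (crs G G : ℝ) ≤ CX * P.card * D ^ 3)
    (Vs : Finset Pt) (hVc : c1 * P.card ≤ Vs.card) (S : Pt → Finset (Pt × Pt × Pt))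
    (hS : ∀ v ∈ Vs, ∀ t ∈ S v, (t.1, v) ∈ G ∧ (t.2.1, v) ∈ G ∧ (t.2.2, v) ∈ G)
    (hSc : ∀ v ∈ Vs, c2 * D ^ 3 ≤ (S v).card)
    (hRc : ∀ v ∈ Vs, c3 * D ≤ (G.filter (fun e => e.1 = v)).card) :
    ∃ p : Pt × Pt × Pt, c5 * D ≤ (Vs.filter (fun v => p ∈ S v)).card := by
  have hDpos : 0 < D := by linarith
  have hN : (0 : ℝ) < P.card := by exact_mod_cast hPc
  by_contra hcon
  push Not at hcon
  -- low-degree good vertices
  obtain ⟨La, hLa⟩ : ∃ La : ℕ, La = ⌊la * D⌋₊ := ⟨_, rfl⟩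
  obtain ⟨V, hV⟩ : ∃ V : Finset Pt, V = Vs.filter (fun v => deg G v ≤ La) := ⟨_, rfl⟩
  have hLale : (La : ℝ) ≤ la * D := by rw [hLa]; exact Nat.floor_le (by positivity)
  have hVcard : c1 / 2 * P.card ≤ V.card := by
    have hsplit : V.card + (Vs.filter (fun v => La < deg G v)).card = Vs.card := by
      have := Finset.card_filter_add_card_filter_not (s := Vs) (fun v => deg G v ≤ La)
      rw [hV]
      simpa [not_le] using this
    have hhigh := card_high_le (G := G) Vs (la * D) (by positivity)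
    rw [← hLa] at hhigh
    have h6 : ((Vs.filter (fun v => La < deg G v)).card : ℝ) ≤ c1 / 2 * P.card := by
      have h7 : ((Vs.filter (fun v => La < deg G v)).card : ℝ) * (la * D)
          ≤ (c1 / 2 * P.card) * (la * D) := by
        have h8 : (c1 / 2 * P.card) * (la * D) = 2 * (CE * P.card * D) := by
          linear_combination (-(P.card : ℝ) * D / 2) * hla
        rw [h8]
        linarith
      exact le_of_mul_le_mul_right h7 (by positivity)
    have h9 : (V.card : ℝ) + ((Vs.filter (fun v => La < deg G v)).card : ℝ) = Vs.card := by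
      exact_mod_cast hsplit
    linarith
  have hVsub : V ⊆ Vs := by rw [hV]; exact Finset.filter_subset _ _
  have hS' : ∀ v ∈ V, ∀ t ∈ S v, (t.1, v) ∈ G ∧ (t.2.1, v) ∈ G ∧ (t.2.2, v) ∈ G :=
    fun v hv => hS v (hVsub hv)
  have hlow : ∀ v ∈ V, deg G v ≤ La := fun v hv => by
    rw [hV] at hv
    exact (Finset.mem_filter.1 hv).2
  -- lower bound
  have hlower := tup_lower (V := V) (S := S) hG hS' (s := c2 * D ^ 3) (r := c3 * D)
    (by positivity) (by positivity) (fun v hv => hSc v (hVsub hv)) (fun v hv => hRc v (hVsub hv))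
  have hlower' : c7 * (P.card * D ^ 4) ≤ ((Tup P G V S).card : ℝ) := by
    refine le_trans ?_ hlower
    have : c7 * (P.card * D ^ 4) = (c1 / 2 * P.card) * (c2 * D ^ 3 * (c3 * D)) := by
      rw [hc7]; ring
    rw [this]
    exact mul_le_mul_of_nonneg_right hVcard (by positivity)
  -- upper bound
  have hGh := card_Ghigh hP hG l4 D CE CX hl40 hDpos hGE hGX
  have hHb := card_Hbad hP hG l4 c6 D CX hl40 hc60 hD1 hcD hCX hGX
  obtain ⟨L, hL⟩ : ∃ L : ℕ, L = ⌊l4 * D⌋₊ := ⟨_, rfl⟩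
  obtain ⟨m, hm⟩ : ∃ m : ℕ, m = ⌊c6 * D⌋₊ := ⟨_, rfl⟩
  rw [← hL] at hGh hHb
  rw [← hm] at hHb
  have hLle : (L : ℝ) ≤ l4 * D := by rw [hL]; exact Nat.floor_le (by positivity)
  have hmlt : c6 * D ≤ (m : ℝ) + 1 := by rw [hm]; exact (Nat.lt_floor_add_one _).le
  have hupper := Tup_le (V := V) (S := S) hG hS' La L m hlow
  -- high edges
  have hH : ((Ghigh G L).card : ℝ) ≤ eH * (P.card * D) := by
    rcases hGh with h | h
    · refine h.trans ?_
      calc 72 * (P.card : ℝ) ≤ (eH * D) * P.card := mul_le_mul_of_nonneg_right hD2 hN.le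
        _ = eH * (P.card * D) := by ring
    · refine le_of_cube (by positivity) (h.trans (le_of_eq ?_))
      have h8 : 41472 * (CE * CX / l4) = eH ^ 3 := by
        rw [← mul_div_assoc, hl4, mul_comm l4, mul_div_assoc, div_self hl40.ne', mul_one]
      rw [h8]; ring
  have hB : ((Hbad P (Glow G L) m).card : ℝ) ≤ eB * (P.card * D ^ 2) := by
    rcases hHb with h | h
    · exact h.trans (mul_le_mul_of_nonneg_right hc6a (by positivity))
    · refine le_of_cube (by positivity) (h.trans ?_)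
      have h8 : (eB * (P.card * D ^ 2)) ^ 3 = eB ^ 3 * ((P.card : ℝ) * D ^ 2) ^ 3 := by ring
      rw [h8]
      exact mul_le_mul_of_nonneg_right hc6b (by positivity)
  have hK : ∀ t : Pt × Pt × Pt, ((V.filter (fun v => t ∈ S v)).card : ℝ) ≤ c5 * D := by
    intro t
    refine le_trans ?_ (hcon t).le
    exact_mod_cast Finset.card_le_card (Finset.filter_subset_filter _ hVsub)
  have hgood := Tgood_le (V := V) (S := S) hG hS' L m _ (by positivity) hK
  have hgood' : ((Tgood P G V S L m).card : ℝ) ≤ c7 / 4 * (P.card * D ^ 4) := by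
    refine hgood.trans ?_
    have h10 : (L : ℝ) ^ 2 / (m + 1) ≤ l4 ^ 2 * D / c6 := by
      rw [div_le_div_iff₀ (by positivity) hc60]
      have h11 : (L : ℝ) ^ 2 ≤ (l4 * D) ^ 2 := pow_le_pow_left₀ (by positivity) hLle 2
      calc (L : ℝ) ^ 2 * c6 ≤ (l4 * D) ^ 2 * c6 := mul_le_mul_of_nonneg_right h11 hc60.le
        _ = l4 ^ 2 * D * (c6 * D) := by ring
        _ ≤ l4 ^ 2 * D * (m + 1) := mul_le_mul_of_nonneg_left hmlt (by positivity)
    have h12 : ((L : ℝ) ^ 2 / (m + 1)) ^ 3 ≤ (l4 ^ 2 * D / c6) ^ 3 :=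
      pow_le_pow_left₀ (by positivity) h10 3
    have h13 : c5 * D * (P.card * (l4 ^ 2 * D / c6) ^ 3) = c7 / 4 * (P.card * D ^ 4) := by
      have h14 : (l4 ^ 2 * D / c6) ^ 3 = l4 ^ 6 * D ^ 3 / c6 ^ 3 := by
        rw [div_pow]; ring
      have h15 : c5 * l4 ^ 6 = c7 / 4 * c6 ^ 3 := by linarith
      rw [h14, ← mul_div_assoc, ← mul_div_assoc, div_eq_iff (by positivity)]
      linear_combination (P.card : ℝ) * D ^ 4 * h15
    calc c5 * D * (P.card * ((L : ℝ) ^ 2 / (m + 1)) ^ 3)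
        ≤ c5 * D * (P.card * (l4 ^ 2 * D / c6) ^ 3) :=
          mul_le_mul_of_nonneg_left (mul_le_mul_of_nonneg_left h12 hN.le) (by positivity)
      _ = c7 / 4 * (P.card * D ^ 4) := h13
  have hA : 4 * ((La : ℝ) ^ 3 * (Ghigh G L).card) ≤ c7 / 4 * (P.card * D ^ 4) := by
    have h13 : (La : ℝ) ^ 3 ≤ (la * D) ^ 3 := pow_le_pow_left₀ (by positivity) hLale 3
    have h14 : (La : ℝ) ^ 3 * (Ghigh G L).card ≤ (la * D) ^ 3 * (eH * (P.card * D)) :=
      mul_le_mul h13 hH (by positivity) (by positivity)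
    have h15 : 4 * ((la * D) ^ 3 * (eH * (P.card * D))) = c7 / 4 * (P.card * D ^ 4) := by
      rw [← heH]; ring
    linarith
  have hBB : 3 * ((La : ℝ) ^ 2 * (Hbad P (Glow G L) m).card) ≤ c7 / 4 * (P.card * D ^ 4) := by
    have h13 : (La : ℝ) ^ 2 ≤ (la * D) ^ 2 := pow_le_pow_left₀ (by positivity) hLale 2
    have h14 : (La : ℝ) ^ 2 * (Hbad P (Glow G L) m).card ≤ (la * D) ^ 2 * (eB * (P.card * D ^ 2)) :=
      mul_le_mul h13 hB (by positivity) (by positivity)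
    have h15 : 3 * ((la * D) ^ 2 * (eB * (P.card * D ^ 2))) = c7 / 4 * (P.card * D ^ 4) := by
      rw [← heB]; ring
    linarith
  have hpos : 0 < c7 * (P.card * D ^ 4) := by positivity
  linarith

/-- **6.4**: the final configuration. -/
theorem final_config (c1 c2 c3 CE CX : ℝ) (h1 : 0 < c1) (h2 : 0 < c2) (h3 : 0 < c3)
    (hCE : 0 < CE) (hCX : 0 < CX) :
    ∃ c5 : ℝ, 0 < c5 ∧ ∃ D0 : ℝ, ∀ (P : Finset Pt) (G : Finset Edge) (D : ℝ),
      Generic P → G ⊆ pairs P → 0 < P.card → D0 ≤ D →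
      (G.card : ℝ) ≤ CE * P.card * D → (crs G G : ℝ) ≤ CX * P.card * D ^ 3 →
      ∀ (Vs : Finset Pt), Vs ⊆ P → c1 * P.card ≤ Vs.card →
      ∀ (S : Pt → Finset (Pt × Pt × Pt)),
        (∀ v ∈ Vs, ∀ t ∈ S v, (t.1, v) ∈ G ∧ (t.2.1, v) ∈ G ∧ (t.2.2, v) ∈ G) →
        (∀ v ∈ Vs, c2 * D ^ 3 ≤ (S v).card) →
        (∀ v ∈ Vs, c3 * D ≤ (G.filter (fun e => e.1 = v)).card) →
        ∃ p : Pt × Pt × Pt, c5 * D ≤ (Vs.filter (fun v => p ∈ S v)).card := by
  obtain ⟨la, hla⟩ : ∃ la : ℝ, la = 4 * CE / c1 := ⟨_, rfl⟩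
  have hla0 : 0 < la := by rw [hla]; positivity
  obtain ⟨c7, hc7⟩ : ∃ c7 : ℝ, c7 = c1 * c2 * c3 / 2 := ⟨_, rfl⟩
  have hc70 : 0 < c7 := by rw [hc7]; positivity
  obtain ⟨eH, heH⟩ : ∃ eH : ℝ, eH = c7 / (16 * la ^ 3) := ⟨_, rfl⟩
  have heH0 : 0 < eH := by rw [heH]; positivity
  obtain ⟨eB, heB⟩ : ∃ eB : ℝ, eB = c7 / (12 * la ^ 2) := ⟨_, rfl⟩
  have heB0 : 0 < eB := by rw [heB]; positivity
  obtain ⟨l4, hl4⟩ : ∃ l4 : ℝ, l4 = 41472 * (CE * CX) / eH ^ 3 := ⟨_, rfl⟩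
  have hl40 : 0 < l4 := by rw [hl4]; positivity
  obtain ⟨c6, hc6⟩ : ∃ c6 : ℝ, c6 = min (eB / 288) (eB ^ 3 / (331776 * (l4 ^ 2 * CX + l4 ^ 4))) :=
    ⟨_, rfl⟩
  have hc60 : 0 < c6 := by rw [hc6]; exact lt_min (by positivity) (by positivity)
  have hc6a : 288 * c6 ≤ eB := by
    have := min_le_left (eB / 288) (eB ^ 3 / (331776 * (l4 ^ 2 * CX + l4 ^ 4)))
    rw [← hc6, le_div_iff₀ (by norm_num)] at this
    linarith
  have hc6b : 331776 * c6 * (l4 ^ 2 * CX + l4 ^ 4) ≤ eB ^ 3 := by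
    have := min_le_right (eB / 288) (eB ^ 3 / (331776 * (l4 ^ 2 * CX + l4 ^ 4)))
    rw [← hc6, le_div_iff₀ (by positivity)] at this
    linarith
  obtain ⟨c5, hc5⟩ : ∃ c5 : ℝ, c5 = c7 * c6 ^ 3 / (4 * l4 ^ 6) := ⟨_, rfl⟩
  have hc50 : 0 < c5 := by rw [hc5]; positivity
  refine ⟨c5, hc50, max 1 (max (72 / eH) (1 / c6)), ?_⟩
  intro P G D hP hG hPc hD0 hGE hGX Vs _ hVc S hS hSc hRc
  have hD1 : 1 ≤ D := (le_max_left _ _).trans hD0
  have hD2 : 72 / eH ≤ D := ((le_max_left _ _).trans (le_max_right _ _)).trans hD0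
  have hD3 : 1 / c6 ≤ D := ((le_max_right _ _).trans (le_max_right _ _)).trans hD0
  rw [div_le_iff₀ heH0] at hD2
  rw [div_le_iff₀ hc60] at hD3
  refine final_aux c1 c2 c3 CE CX la c7 eH eB l4 c6 c5 h1 h2 h3 hCX hla0 hc70 heH0 heB0 hl40
    hc60 hc50 ?_ hc7 ?_ ?_ ?_ hc6a hc6b ?_ P G D hP hG hPc hD1 (by linarith) (by linarith)
    hGE hGX Vs hVc S hS hSc hRc
  · rw [hla]; field_simp
  · rw [heH]; field_simp
  · rw [heB]; field_simp
  · rw [hl4]; field_simp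
  · rw [hc5]; field_simp

end Crest.Agent.R51.Final
end
end

-- ▼ part R51/Quad4
section

/-!
# Row 51, section B6: good points, stars, assembly (helper422)
-/

set_option autoImplicit false

noncomputable section

open Classical Finset

namespace Crest.Agent.R51.Quad

open Crest.Agent.R51 Crest.Agent.R51.Active

namespace BCtx

variable (c : BCtx)

/-- the good points -/
def GV : Finset Pt := c.P.filter (fun v => c.c2 / 16 * c.D' ^ 2 ≤ ((c.Hg v).card : ℝ))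

lemma GV_card (hs : c.c2 / 8 * c.P.card * c.D' ^ 2 ≤ ∑ v ∈ c.P, ((c.Hg v).card : ℝ)) :
    c.c2 / (16 * c.lam1 ^ 2) * c.P.card ≤ (c.GV.card : ℝ) := by
  have hD := c.hD'
  have h1 := c.h1
  have h2 : ∑ v ∈ c.P, ((c.Hg v).card : ℝ) ≤
      c.GV.card * (c.lam1 ^ 2 * c.D' ^ 2) + c.P.card * (c.c2 / 16 * c.D' ^ 2) := by
    rw [← Finset.sum_filter_add_sum_filter_not c.P
      (fun v => c.c2 / 16 * c.D' ^ 2 ≤ ((c.Hg v).card : ℝ))]
    apply add_le_add
    · calc _ ≤ ∑ _v ∈ c.GV, c.lam1 ^ 2 * c.D' ^ 2 := by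
            refine Finset.sum_le_sum fun v _ => ?_
            refine le_trans ?_ (c.hH.card_le v)
            exact_mod_cast Finset.card_le_card (c.Hg_sub v)
        _ = _ := by rw [Finset.sum_const, nsmul_eq_mul]
    · calc _ ≤ ∑ _v ∈ c.P.filter (fun v => ¬ c.c2 / 16 * c.D' ^ 2 ≤ ((c.Hg v).card : ℝ)),
            (c.c2 / 16 * c.D' ^ 2) := by
            refine Finset.sum_le_sum fun v hv => ?_
            exact (not_le.1 (Finset.mem_filter.1 hv).2).le
        _ = (c.P.filter (fun v => ¬ c.c2 / 16 * c.D' ^ 2 ≤ ((c.Hg v).card : ℝ))).card *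
            (c.c2 / 16 * c.D' ^ 2) := by rw [Finset.sum_const, nsmul_eq_mul]
        _ ≤ _ := by
            apply mul_le_mul_of_nonneg_right
            · exact_mod_cast Finset.card_filter_le _ _
            · have := c.hc2
              positivity
  have h3 : c.c2 / 16 * c.P.card * c.D' ^ 2 ≤ c.GV.card * (c.lam1 ^ 2 * c.D' ^ 2) := by
    have := hs.trans h2
    linarith
  have h4 : c.c2 / (16 * c.lam1 ^ 2) * c.P.card * (c.lam1 ^ 2 * c.D' ^ 2) ≤
      c.GV.card * (c.lam1 ^ 2 * c.D' ^ 2) := by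
    calc c.c2 / (16 * c.lam1 ^ 2) * c.P.card * (c.lam1 ^ 2 * c.D' ^ 2)
        = c.c2 / 16 * c.P.card * c.D' ^ 2 := by field_simp
      _ ≤ _ := h3
  exact le_of_mul_le_mul_right h4 (by positivity)

/-- windows of the good part -/
def WG (v : Pt) : Finset (ℝ × ℝ) := (c.Hg v).image (fun e => winOf c.Cf (esl e))

lemma WG_sub (v : Pt) : c.WG v ⊆ c.GW v := by
  intro J hJ
  obtain ⟨e, he, rfl⟩ := Finset.mem_image.1 hJ
  exact (Finset.mem_filter.1 he).2

lemma fib_Hg (v : Pt) (J : ℝ × ℝ) :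
    (((c.Hg v).filter (fun e => winOf c.Cf (esl e) = J)).card : ℝ) ≤
      c.lam1 * c.lam2 * c.D' ^ 2 / c.V := by
  rcases ((c.Hg v).filter (fun e => winOf c.Cf (esl e) = J)).eq_empty_or_nonempty with h0 | ⟨e, he⟩
  · rw [h0]
    have := c.lam12_pos
    have := c.hD'
    have := c.Vpos
    simp only [Finset.card_empty, Nat.cast_zero]
    positivity
  · rw [Finset.mem_filter] at he
    have hw := (c.winOf_f (c.hH.mem v e (c.Hg_sub v he.1)).2).1
    rw [he.2] at hw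
    refine le_trans ?_ (c.hH.win_le v J hw)
    exact_mod_cast Finset.card_le_card (c.fibre_win (c.Hg_sub v))

lemma WG_card {v : Pt} (hv : v ∈ c.GV) :
    c.c2 / (16 * (c.lam1 * c.lam2)) * c.V ≤ ((c.WG v).card : ℝ) := by
  have hD := c.hD'
  have hV := c.Vpos
  have h12 := c.lam12_pos
  have h1 := (Finset.mem_filter.1 hv).2
  have h2 := card_le_image_mul (c.Hg v) (fun e => winOf c.Cf (esl e))
    (c.lam1 * c.lam2 * c.D' ^ 2 / c.V) (fun J _ => c.fib_Hg v J)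
  have h3 : (c.c2 / (16 * (c.lam1 * c.lam2)) * c.V) * (c.lam1 * c.lam2 * c.D' ^ 2 / c.V) ≤
      ((c.WG v).card : ℝ) * (c.lam1 * c.lam2 * c.D' ^ 2 / c.V) := by
    have hl1 : c.lam1 ≠ 0 := by
      have := c.h1
      positivity
    have hl2 : c.lam2 ≠ 0 := by
      have := c.h2
      positivity
    calc (c.c2 / (16 * (c.lam1 * c.lam2)) * c.V) * (c.lam1 * c.lam2 * c.D' ^ 2 / c.V)
        = c.c2 / 16 * c.D' ^ 2 := by field_simp
      _ ≤ _ := h1.trans h2
  exact le_of_mul_le_mul_right h3 (by positivity)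

/-- the triples of windows -/
def WT (v : Pt) : Finset ((ℝ × ℝ) × (ℝ × ℝ) × (ℝ × ℝ)) :=
  ((c.WG v) ×ˢ ((c.WG v) ×ˢ (c.WG v))).filter
    (fun t => c.Rel t.1 t.2.1 ∧ c.Rel t.1 t.2.2 ∧ c.Rel t.2.1 t.2.2)

/-- the constant `c₉` -/
def c9 : ℝ := c.c8 * (c.c2 / 16) ^ 3 / (2 * c.lam1 ^ 2)

/-- the constant `c₁₀` -/
def c10 : ℝ := c.c9 / (c.lam1 * c.lam2) * (c.c8 * c.c9 ^ 3 / (c.lam1 * c.lam2) ^ 2)

lemma WT_card (hδs : c.δ1 ≤ c.c2 / 16) (hδc : c.δ1 ≤ c.c9) {v : Pt} (hv : v ∈ c.GV) :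
    c.c10 * c.V ^ 3 ≤ ((c.WT v).card : ℝ) := by
  have hD := c.hD'
  have hV := c.Vpos
  have h12 := c.lam12_pos
  have h1 := c.h1
  have hc2 := c.hc2
  have := Quad3.triples (c.Hg v) (fun e => winOf c.Cf (esl e)) c.Rel
    (X := c.lam1 ^ 2) (B := c.lam1 * c.lam2) (s1 := c.c2 / 16) (c8 := c.c8) (δ1 := c.δ1)
    (V := c.V) (D2 := c.D' ^ 2) (by positivity) h12 (by positivity) c.hc8 hV (by positivity)
    (le_trans (by exact_mod_cast Finset.card_le_card (c.Hg_sub v)) (c.hH.card_le v))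
    (fun J => c.fib_Hg v J)
    (fun T hT hδ => c.hH.robust v T (hT.trans (c.Hg_sub v)) hδ)
    (Finset.mem_filter.1 hv).2 hδs hδc
  exact this

/-- the width of the graph `G₂` -/
def m2 : ℕ := 2 * c.L * c.bV

/-- the graph `G₂` -/
def G2 : Finset Edge := nearAll c.P c.k c.m2

lemma G2_sub : c.G2 ⊆ pairs c.P := Finset.filter_subset _ _

/-- edges from alive left partners are in `G₂` -/
lemma left_edge (hbV : 1 ≤ c.bV) {v : Pt} (hv : v ∈ c.P) {J : ℝ × ℝ} (hJ : J ∈ wins c.Cf)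
    {p : Pt} (hp : p ∈ c.lft J v) : (p, v) ∈ c.G2 := by
  unfold lft at hp
  rw [Finset.mem_filter] at hp
  obtain ⟨hpA, hx, hs1, hs2⟩ := hp
  have hal := c.mem_AL.1 hpA
  obtain ⟨e, he⟩ := c.alive_nonempty hal
  rw [mem_inWin] at he
  have hcen := c.hH.centL p e he.1 J hJ he.2.1 he.2.2 (sl p v) hs1 hs2
  have hL := c.hL
  unfold G2
  rw [mem_nearAll, mem_pairs]
  refine ⟨⟨c.alive_mem hal, hv, hx⟩, ?_⟩
  unfold Near lv
  obtain ⟨h1, h2⟩ := hcen
  have h3 : 1 + c.L * bb c.P.card c.V ≤ c.m2 := by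
    unfold m2
    have : 1 ≤ c.L * bb c.P.card c.V := Nat.one_le_iff_ne_zero.2
      (Nat.mul_ne_zero (by omega) (by unfold bV at hbV; omega))
    have e1 : 2 * c.L * c.bV = c.L * bb c.P.card c.V + c.L * bb c.P.card c.V := by
      unfold bV
      ring
    omega
  have e2 : esl (p, v) = sl p v := rfl
  rw [e2]
  constructor
  · show 1 + rk c.P (sl p v) p ≤ c.k + c.m2
    omega
  · show c.k ≤ 1 + rk c.P (sl p v) p + c.m2
    omega

/-- right degree of good points -/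
lemma right_deg (h : 2 ≤ c.κ * c.bB) (hb : 1 ≤ c.bB) (hbV : c.bB + 1 ≤ c.bV)
    (hρ : 16 ≤ c.rho) {v : Pt} (hv : v ∈ c.GV) :
    c.c2 / (16 * (c.lam1 * c.lam2)) * c.V * (c.rho * c.bB / 16) ≤
      ((c.G2.filter (fun e => e.1 = v)).card : ℝ) := by
  have hW := c.WG_card hv
  have hsum : (c.WG v).sum (fun J => Rp c.P c.k c.bB J.1 J.2 v) ≤
      (c.G2.filter (fun e => e.1 = v)).card := by
    have hdisj : ∀ J ∈ c.WG v, ∀ J' ∈ c.WG v, J ≠ J' →
        Disjoint ((nearE c.P c.k c.bB J.1 J.2).filter (fun e => e.1 = v))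
          ((nearE c.P c.k c.bB J'.1 J'.2).filter (fun e => e.1 = v)) := by
      intro J hJ J' hJ' hne
      rw [Finset.disjoint_left]
      intro e he he'
      rw [Finset.mem_filter, mem_nearE] at he he'
      exact hne (win_unique (Finset.mem_filter.1 (c.WG_sub v hJ)).1
        (Finset.mem_filter.1 (c.WG_sub v hJ')).1 he.1.2.1 he.1.2.2.1 he'.1.2.1 he'.1.2.2.1)
    have hsub : (c.WG v).biUnion (fun J =>
        (nearE c.P c.k c.bB J.1 J.2).filter (fun e => e.1 = v)) ⊆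
        c.G2.filter (fun e => e.1 = v) := by
      intro e he
      rw [Finset.mem_biUnion] at he
      obtain ⟨J, hJ, he⟩ := he
      rw [Finset.mem_filter, mem_nearE] at he
      rw [Finset.mem_filter]
      refine ⟨?_, he.2⟩
      unfold G2
      rw [mem_nearAll]
      refine ⟨he.1.1, he.1.2.2.2.mono ?_⟩
      have hL := c.hL
      have h1 : c.bV ≤ c.m2 := by
        unfold m2
        exact Nat.le_mul_of_pos_left _ (by omega)
      omega
    have h2 := Finset.card_le_card hsub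
    rw [Finset.card_biUnion hdisj] at h2
    exact h2
  have hsum' : (((c.WG v).sum (fun J => Rp c.P c.k c.bB J.1 J.2 v) : ℕ) : ℝ) ≤
      ((c.G2.filter (fun e => e.1 = v)).card : ℝ) := by exact_mod_cast hsum
  refine le_trans ?_ hsum'
  push_cast
  have hρ0 := c.rho_pos
  calc c.c2 / (16 * (c.lam1 * c.lam2)) * c.V * (c.rho * c.bB / 16)
      ≤ (c.WG v).card * (c.rho * c.bB / 16) :=
        mul_le_mul_of_nonneg_right hW (by positivity)
    _ = ∑ _J ∈ c.WG v, (c.rho * c.bB / 16) := by rw [Finset.sum_const, nsmul_eq_mul]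
    _ ≤ ∑ J ∈ c.WG v, (Rp c.P c.k c.bB J.1 J.2 v : ℝ) := by
        apply Finset.sum_le_sum
        intro J hJ
        exact (c.Lp_Rp_ge h hb hρ (Finset.mem_filter.1 (c.WG_sub v hJ)).2.1).2

/-- the window of the pair `(p, v)` -/
def wn (v p : Pt) : ℝ × ℝ := winOf c.Cf (sl p v)

/-- the stars at `v` -/
def St (v : Pt) : Finset (Pt × Pt × Pt) :=
  (c.P ×ˢ (c.P ×ˢ c.P)).filter (fun t =>
    ((c.wn v t.1, c.wn v t.2.1, c.wn v t.2.2) ∈ c.WT v) ∧
    t.1 ∈ c.lft (c.wn v t.1) v ∧ t.2.1 ∈ c.lft (c.wn v t.2.1) v ∧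
    t.2.2 ∈ c.lft (c.wn v t.2.2) v)

lemma wn_eq {v : Pt} {J : ℝ × ℝ} (hJ : J ∈ wins c.Cf) {p : Pt} (hp : p ∈ c.lft J v) :
    c.wn v p = J := by
  unfold lft at hp
  rw [Finset.mem_filter] at hp
  exact winOf_eq hJ hp.2.2.1 hp.2.2.2

lemma lft_card {v : Pt} {J : ℝ × ℝ} (hJ : J ∈ c.GW v) : c.bB ≤ (c.lft J v).card := by
  unfold GW at hJ
  rw [Finset.mem_filter] at hJ
  by_contra h
  rw [not_le] at h
  exact hJ.2.2 (Finset.mem_filter.2 ⟨c.mem_AL.2 hJ.2.1, h⟩)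

lemma St_card (v : Pt) : (c.WT v).card * c.bB ^ 3 ≤ (c.St v).card := by
  have hmaps : ∀ t ∈ c.St v, (c.wn v t.1, c.wn v t.2.1, c.wn v t.2.2) ∈ c.WT v := by
    intro t ht
    exact (Finset.mem_filter.1 ht).2.1
  have h := Finset.card_eq_sum_card_fiberwise (s := c.St v) (t := c.WT v)
    (f := fun t => (c.wn v t.1, c.wn v t.2.1, c.wn v t.2.2))
    (fun t ht => Finset.mem_coe.2 (hmaps t (Finset.mem_coe.1 ht)))
  rw [h, ← smul_eq_mul, ← Finset.sum_const]
  apply Finset.sum_le_sum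
  rintro ⟨J1, J2, J3⟩ hJ
  have hJ' := Finset.mem_filter.1 hJ
  simp only [Finset.mem_product] at hJ'
  obtain ⟨⟨hJ1, hJ2, hJ3⟩, _⟩ := hJ'
  have g1 := c.WG_sub v hJ1
  have g2 := c.WG_sub v hJ2
  have g3 := c.WG_sub v hJ3
  have w1 := (Finset.mem_filter.1 g1).1
  have w2 := (Finset.mem_filter.1 g2).1
  have w3 := (Finset.mem_filter.1 g3).1
  have hsub : (c.lft J1 v) ×ˢ ((c.lft J2 v) ×ˢ (c.lft J3 v)) ⊆
      (c.St v).filter (fun t => (c.wn v t.1, c.wn v t.2.1, c.wn v t.2.2) = (J1, J2, J3)) := by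
    rintro ⟨p1, p2, p3⟩ hp
    simp only [Finset.mem_product] at hp
    obtain ⟨hp1, hp2, hp3⟩ := hp
    have e1 := c.wn_eq w1 hp1
    have e2 := c.wn_eq w2 hp2
    have e3 := c.wn_eq w3 hp3
    have m1 : p1 ∈ c.P := c.AL_sub _ (Finset.mem_filter.1 hp1).1
    have m2 : p2 ∈ c.P := c.AL_sub _ (Finset.mem_filter.1 hp2).1
    have m3 : p3 ∈ c.P := c.AL_sub _ (Finset.mem_filter.1 hp3).1
    rw [Finset.mem_filter]
    unfold St
    rw [Finset.mem_filter]
    simp only [Finset.mem_product, e1, e2, e3]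
    exact ⟨⟨⟨m1, m2, m3⟩, hJ, hp1, hp2, hp3⟩, trivial⟩
  refine le_trans ?_ (Finset.card_le_card hsub)
  rw [Finset.card_product, Finset.card_product]
  have k1 := c.lft_card g1
  have k2 := c.lft_card g2
  have k3 := c.lft_card g3
  calc c.bB ^ 3 = c.bB * (c.bB * c.bB) := by ring
    _ ≤ (c.lft J1 v).card * ((c.lft J2 v).card * (c.lft J3 v).card) :=
      Nat.mul_le_mul k1 (Nat.mul_le_mul k2 k3)

lemma mem_GV_P {v : Pt} (hv : v ∈ c.GV) : v ∈ c.P := (Finset.mem_filter.1 hv).1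

lemma St_edges (hbV : 1 ≤ c.bV) {v : Pt} (hv : v ∈ c.GV) {t : Pt × Pt × Pt}
    (ht : t ∈ c.St v) : (t.1, v) ∈ c.G2 ∧ (t.2.1, v) ∈ c.G2 ∧ (t.2.2, v) ∈ c.G2 := by
  unfold St at ht
  rw [Finset.mem_filter] at ht
  obtain ⟨_, hW, h1, h2, h3⟩ := ht
  unfold WT at hW
  simp only [Finset.mem_filter, Finset.mem_product] at hW
  have g1 := (Finset.mem_filter.1 (c.WG_sub v hW.1.1)).1
  have g2 := (Finset.mem_filter.1 (c.WG_sub v hW.1.2.1)).1
  have g3 := (Finset.mem_filter.1 (c.WG_sub v hW.1.2.2)).1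
  exact ⟨c.left_edge hbV (c.mem_GV_P hv) g1 h1, c.left_edge hbV (c.mem_GV_P hv) g2 h2,
    c.left_edge hbV (c.mem_GV_P hv) g3 h3⟩

/-- crossings of `G₂` -/
lemma crs_G2 (hbV : 1 ≤ c.bV) : (crs c.G2 c.G2 : ℝ) ≤
    72 * c.L ^ 2 * c.P.card * ((c.P.card : ℝ) / c.V ^ 2) ^ 3 := by
  have hL := c.hL
  have hm : 1 ≤ c.m2 := by
    unfold m2
    exact Nat.one_le_iff_ne_zero.2 (Nat.mul_ne_zero (by omega) (by omega))
  have h := dey_all c.hP c.k c.m2 c.k c.m2 hm hm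
  have h' : (crs c.G2 c.G2 : ℝ) ≤ 18 * c.m2 * c.m2 * c.P.card * c.P.card := by
    exact_mod_cast h
  have hV := c.Vpos
  have hbVN : (c.bV : ℝ) ≤ c.P.card / c.V ^ 3 := by
    have := Nat.cast_div_le (α := ℝ) (m := c.P.card) (n := c.V ^ 3)
    push_cast at this
    exact this
  have hm2 : (c.m2 : ℝ) ≤ 2 * c.L * (c.P.card / c.V ^ 3) := by
    unfold m2
    push_cast
    exact mul_le_mul_of_nonneg_left hbVN (by positivity)
  refine h'.trans ?_
  calc (18 * c.m2 * c.m2 * c.P.card * c.P.card : ℝ)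
      = 18 * ((c.m2 : ℝ) * c.m2) * c.P.card * c.P.card := by ring
    _ ≤ 18 * ((2 * c.L * (c.P.card / c.V ^ 3)) * (2 * c.L * (c.P.card / c.V ^ 3))) *
        c.P.card * c.P.card := by
        gcongr
    _ = 72 * c.L ^ 2 * c.P.card * ((c.P.card : ℝ) / c.V ^ 2) ^ 3 := by
        field_simp
        ring

/-- size of `G₂` -/
lemma card_G2 (hbV : 1 ≤ c.bV) (hD : 1 ≤ (c.P.card : ℝ) / c.V ^ 2) : (c.G2.card : ℝ) ≤
    36 * c.L * c.P.card * ((c.P.card : ℝ) / c.V ^ 2) := by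
  have hL : (1 : ℝ) ≤ c.L := by exact_mod_cast c.hL
  have hc := c.crs_G2 hbV
  set D : ℝ := (c.P.card : ℝ) / c.V ^ 2 with hDdef
  have hD0 : 0 < D := by linarith
  have hN : (0 : ℝ) ≤ c.P.card := Nat.cast_nonneg _
  rcases crossing_lemma c.hP (subset_refl c.P) c.G2_sub with h | h
  · refine h.trans ?_
    have : (18 : ℝ) ≤ 36 * c.L * D := by nlinarith
    calc (18 : ℝ) * c.P.card ≤ (36 * c.L * D) * c.P.card := mul_le_mul_of_nonneg_right this hN
      _ = 36 * c.L * c.P.card * D := by ring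
  · have h3 : (c.G2.card : ℝ) ^ 3 ≤ (36 * c.L * c.P.card * D) ^ 3 := by
      calc (c.G2.card : ℝ) ^ 3 ≤ 648 * (c.P.card : ℝ) ^ 2 * (crs c.G2 c.G2 : ℝ) := h
        _ ≤ 648 * (c.P.card : ℝ) ^ 2 * (72 * c.L ^ 2 * c.P.card * D ^ 3) :=
            mul_le_mul_of_nonneg_left hc (by positivity)
        _ = 46656 * (c.L : ℝ) ^ 2 * c.P.card ^ 3 * D ^ 3 := by ring
        _ ≤ 46656 * (c.L : ℝ) ^ 3 * c.P.card ^ 3 * D ^ 3 := by
            have : (c.L : ℝ) ^ 2 ≤ (c.L : ℝ) ^ 3 := pow_le_pow_right₀ hL (by norm_num)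
            gcongr
        _ = (36 * c.L * c.P.card * D) ^ 3 := by ring
    exact le_of_pow_le_pow_left₀ (by norm_num) (by positivity) h3

end BCtx

end Crest.Agent.R51.Quad
end
end

-- ▼ part R51/Quad5

/-!
# Row 51, section B6: assembly (helper422)
-/

set_option autoImplicit false

noncomputable section

open Classical Finset

namespace Crest.Agent.R51.Quad

open Crest.Agent.R51 Crest.Agent.R51.Active

namespace BCtx

variable (c : BCtx)

/-- what we know about a triple of a star -/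
lemma St_spec {v : Pt} {t : Pt × Pt × Pt} (ht : t ∈ c.St v) :
    (c.Al t.1 (c.wn v t.1) ∧ c.Al t.2.1 (c.wn v t.2.1) ∧ c.Al t.2.2 (c.wn v t.2.2)) ∧
    (c.Al v (c.wn v t.1) ∧ c.Al v (c.wn v t.2.1) ∧ c.Al v (c.wn v t.2.2)) ∧
    (t.1.1 < v.1 ∧ t.2.1.1 < v.1 ∧ t.2.2.1 < v.1) ∧
    (c.Rel (c.wn v t.1) (c.wn v t.2.1) ∧ c.Rel (c.wn v t.1) (c.wn v t.2.2) ∧
      c.Rel (c.wn v t.2.1) (c.wn v t.2.2)) := by
  unfold St at ht
  rw [Finset.mem_filter] at ht
  obtain ⟨_, hW, h1, h2, h3⟩ := ht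
  unfold WT at hW
  simp only [Finset.mem_filter, Finset.mem_product] at hW
  have g1 := (Finset.mem_filter.1 (c.WG_sub v hW.1.1)).2.1
  have g2 := (Finset.mem_filter.1 (c.WG_sub v hW.1.2.1)).2.1
  have g3 := (Finset.mem_filter.1 (c.WG_sub v hW.1.2.2)).2.1
  have l1 := Finset.mem_filter.1 h1
  have l2 := Finset.mem_filter.1 h2
  have l3 := Finset.mem_filter.1 h3
  exact ⟨⟨c.mem_AL.1 l1.1, c.mem_AL.1 l2.1, c.mem_AL.1 l3.1⟩, ⟨g1, g2, g3⟩,
    ⟨l1.2.1, l2.2.1, l3.2.1⟩, hW.2⟩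

/-- from a popular triple to the final configuration -/
lemma final_of_triple (c5 : ℝ) (hpos : 0 < c5 * ((c.P.card : ℝ) / (c.V : ℝ) ^ 2))
    (t : Pt × Pt × Pt)
    (ht : c5 * ((c.P.card : ℝ) / (c.V : ℝ) ^ 2) ≤
      ((c.GV.filter (fun v => t ∈ c.St v)).card : ℝ)) :
    FinalConf c.P c.V c.Cf c.ε1 c5 c.D' c.Rel c.H ![t.1, t.2.1, t.2.2]
      (c.GV.filter (fun v => t ∈ c.St v)) := by
  obtain ⟨v0, hv0⟩ : (c.GV.filter (fun v => t ∈ c.St v)).Nonempty := by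
    rw [← Finset.card_pos]
    have := hpos.trans_le ht
    exact_mod_cast this
  have hs0 := c.St_spec (Finset.mem_filter.1 hv0).2
  have hne12 : t.1 ≠ t.2.1 := by
    intro h
    have := hs0.2.2.2.1
    rw [h] at this
    exact c.hH.rel_irr _ this
  have hne13 : t.1 ≠ t.2.2 := by
    intro h
    have := hs0.2.2.2.2.1
    rw [h] at this
    exact c.hH.rel_irr _ this
  have hne23 : t.2.1 ≠ t.2.2 := by
    intro h
    have := hs0.2.2.2.2.2
    rw [h] at this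
    exact c.hH.rel_irr _ this
  refine ⟨?_, ?_, ?_, ht, ?_, ?_, ?_, ?_⟩
  · intro i j hij
    fin_cases i <;> fin_cases j <;> first | rfl | (exfalso; simp at hij; first | exact hne12 hij | exact hne13 hij | exact hne23 hij | exact hne12 hij.symm | exact hne13 hij.symm | exact hne23 hij.symm)
  · intro i
    fin_cases i
    · exact c.alive_mem hs0.1.1
    · exact c.alive_mem hs0.1.2.1
    · exact c.alive_mem hs0.1.2.2
  · intro v hv
    exact c.mem_GV_P (Finset.mem_filter.1 hv).1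
  · intro v hv i
    have hs := c.St_spec (Finset.mem_filter.1 hv).2
    fin_cases i
    · exact hs.2.2.1.1
    · exact hs.2.2.1.2.1
    · exact hs.2.2.1.2.2
  · intro v hv i
    have hs := c.St_spec (Finset.mem_filter.1 hv).2
    fin_cases i
    · exact hs.1.1
    · exact hs.1.2.1
    · exact hs.1.2.2
  · intro v hv i
    have hs := c.St_spec (Finset.mem_filter.1 hv).2
    fin_cases i
    · exact hs.2.1.1
    · exact hs.2.1.2.1
    · exact hs.2.1.2.2
  · intro v hv i j hij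
    have hs := (c.St_spec (Finset.mem_filter.1 hv).2).2.2.2
    fin_cases i <;> fin_cases j
    · exact absurd rfl hij
    · exact hs.1
    · exact hs.2.1
    · exact c.hH.rel_symm _ _ hs.1
    · exact absurd rfl hij
    · exact hs.2.2
    · exact c.hH.rel_symm _ _ hs.2.1
    · exact c.hH.rel_symm _ _ hs.2.2
    · exact absurd rfl hij

end BCtx

theorem b6 : B6 := by
  intro Cw lam1 lam2 lam3 κ c2 c8 L hCw h1 h2 h3 hκ hκ2 hc2 hc21 hc8 hc81 hL
  have hl1 : 0 < lam1 := by linarith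
  have hl2 : 0 < lam2 := by linarith
  have hl3 : 0 < lam3 := by linarith
  have hCw0 : 0 < Cw := by linarith
  obtain ⟨ε1, hε1⟩ : ∃ ε1 : ℝ, ε1 = c2 / (16 * lam3) := ⟨_, rfl⟩
  have hε10 : 0 < ε1 := by rw [hε1]; positivity
  obtain ⟨c9, hc9⟩ : ∃ c9 : ℝ, c9 = c8 * (c2 / 16) ^ 3 / (2 * lam1 ^ 2) := ⟨_, rfl⟩
  have hc90 : 0 < c9 := by rw [hc9]; positivity
  obtain ⟨K, hK⟩ : ∃ K : ℝ, K = (lam1 * lam2) / (ε1 * κ) *
    max 16 (16 * 448 * (Cw * lam1 * lam2) / c2) := ⟨_, rfl⟩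
  obtain ⟨β, hβ⟩ : ∃ β : ℕ, β = max 2 ⌈K⌉₊ := ⟨_, rfl⟩
  have hβ2 : 2 ≤ β := by rw [hβ]; exact le_max_left _ _
  have hβK : K ≤ (β : ℝ) := by
    refine (Nat.le_ceil K).trans ?_
    rw [hβ]
    exact_mod_cast le_max_right _ _
  have hβ0 : (0 : ℝ) < β := by
    have : 0 < β := by omega
    exact_mod_cast this
  obtain ⟨ρ, hρ⟩ : ∃ ρ : ℝ, ρ = ε1 * κ * β / (lam1 * lam2) := ⟨_, rfl⟩
  have hρ0 : 0 < ρ := by rw [hρ]; positivity
  have hρmax : max 16 (16 * 448 * (Cw * lam1 * lam2) / c2) ≤ ρ := by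
    rw [hρ, le_div_iff₀ (by positivity)]
    calc max 16 (16 * 448 * (Cw * lam1 * lam2) / c2) * (lam1 * lam2)
        = ε1 * κ * K := by
          rw [hK]
          field_simp
      _ ≤ ε1 * κ * β := mul_le_mul_of_nonneg_left hβK (by positivity)
  have hρ16 : 16 ≤ ρ := (le_max_left _ _).trans hρmax
  have hρB : Cw * lam1 * lam2 * (448 / ρ) ≤ c2 / 16 := by
    have h4 : 16 * 448 * (Cw * lam1 * lam2) / c2 ≤ ρ := (le_max_right _ _).trans hρmax
    rw [div_le_iff₀ hc2] at h4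
    rw [mul_div_assoc', div_le_div_iff₀ hρ0 (by norm_num)]
    nlinarith
  obtain ⟨c10, hc10⟩ : ∃ c10 : ℝ, c10 = c9 / (lam1 * lam2) *
    (c8 * c9 ^ 3 / (lam1 * lam2) ^ 2) := ⟨_, rfl⟩
  have hc100 : 0 < c10 := by rw [hc10]; positivity
  obtain ⟨b1, hb1⟩ : ∃ b1 : ℝ, b1 = 1 / (2 * (β : ℝ) ^ 3) := ⟨_, rfl⟩
  have hb10 : 0 < b1 := by rw [hb1]; positivity
  have hLr : (1 : ℝ) ≤ L := by exact_mod_cast hL
  obtain ⟨c5, hc5, D0, hfin⟩ := Final.final_config (c2 / (16 * lam1 ^ 2)) (c10 * b1 ^ 3)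
    (c2 / (16 * (lam1 * lam2)) * (ρ / 16) * b1) (36 * L) (72 * (L : ℝ) ^ 2)
    (by positivity) (by positivity) (by positivity) (by positivity) (by positivity)
  refine ⟨min (c2 / 16) c9, lt_min (by positivity) hc90, ε1, hε10, c5, hc5, β, hβ2, ?_⟩
  intro V hV
  refine ⟨(β * V) ^ 3 * ⌈2 / κ⌉₊ + V ^ 2 * (⌈D0⌉₊ + 1), ?_⟩
  intro P hP hN k Vs Lw W l0 hl0 hVs hVb D' hD' Rel H hH
  have hV0 : (0 : ℝ) < V := by
    have : 0 < V := hV
    exact_mod_cast this
  let c : BCtx :=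
    { P := P, hP := hP, k := k, V := V, β := β, L := L, Vs := Vs, Lw := Lw, Cw := Cw,
      lam1 := lam1, lam2 := lam2, lam3 := lam3, κ := κ, c2 := c2, c8 := c8,
      δ1 := min (c2 / 16) c9, ε1 := ε1, D' := D', W := W, l0 := l0, hl0 := hl0, hVs := hVs,
      hVb := hVb, Rel := Rel, H := H, hH := hH, hCw := hCw, h1 := h1, h2 := h2, h3 := h3,
      hκ := hκ, hκ2 := hκ2, hc2 := hc2, hc8 := hc8, hδ1 := lt_min (by positivity) hc90,
      hε1 := hε10, hD' := hD', hV1 := hV, hβ := hβ2, hL := hL }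
  have hcN : c.P = P := rfl
  have hrho : c.rho = ρ := by rw [hρ]; rfl
  -- sizes
  have hVpos : 0 < V ^ 3 := Nat.pow_pos hV
  have hβVpos : 0 < (β * V) ^ 3 := Nat.pow_pos (Nat.mul_pos (by omega) hV)
  have hbBc : ⌈2 / κ⌉₊ ≤ c.bB := by
    show ⌈2 / κ⌉₊ ≤ P.card / (β * V) ^ 3
    rw [Nat.le_div_iff_mul_le hβVpos, mul_comm]
    omega
  have hκbB : 2 ≤ c.κ * c.bB := by
    have h5 : 2 / κ ≤ (c.bB : ℝ) := (Nat.le_ceil _).trans (by exact_mod_cast hbBc)
    rw [div_le_iff₀ hκ] at h5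
    show 2 ≤ κ * (c.bB : ℝ)
    linarith
  have hbB1 : 1 ≤ c.bB := by
    by_contra h
    have h6 : c.bB = 0 := by omega
    rw [h6] at hκbB
    simp at hκbB
    linarith
  have hbBmul : c.bB * (β * V) ^ 3 ≤ P.card := Nat.div_mul_le_self _ _
  have hbVge : c.bB * β ^ 3 ≤ c.bV := by
    show c.bB * β ^ 3 ≤ P.card / V ^ 3
    rw [Nat.le_div_iff_mul_le hVpos]
    calc c.bB * β ^ 3 * V ^ 3 = c.bB * (β * V) ^ 3 := by ring
      _ ≤ P.card := hbBmul
  have hβ8 : 8 ≤ β ^ 3 := by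
    calc 8 = 2 ^ 3 := by norm_num
      _ ≤ β ^ 3 := Nat.pow_le_pow_left hβ2 3
  have hbV : c.bB + 1 ≤ c.bV := by nlinarith
  have hbV1 : 1 ≤ c.bV := by omega
  have hkV : c.kb ≤ c.bV := by
    have := c.two_kb
    omega
  have hcard_pos : 0 < P.card := by
    have : 0 < c.bB * (β * V) ^ 3 := Nat.mul_pos hbB1 hβVpos
    omega
  obtain ⟨D, hD⟩ : ∃ D : ℝ, D = (P.card : ℝ) / (V : ℝ) ^ 2 := ⟨_, rfl⟩
  have hDge : (⌈D0⌉₊ : ℝ) + 1 ≤ D := by
    rw [hD, le_div_iff₀ (by positivity)]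
    have h7 : V ^ 2 * (⌈D0⌉₊ + 1) ≤ P.card := by omega
    have h8 : (V : ℝ) ^ 2 * ((⌈D0⌉₊ : ℝ) + 1) ≤ P.card := by exact_mod_cast h7
    linarith
  have hD0 : D0 ≤ D := by
    have := Nat.le_ceil D0
    linarith
  have hD1 : 1 ≤ D := by
    have : (0 : ℝ) ≤ (⌈D0⌉₊ : ℝ) := Nat.cast_nonneg _
    linarith
  have hVbB : b1 * D ≤ (V : ℝ) * c.bB := by
    have h9 : P.card < (c.bB + 1) * (β * V) ^ 3 := by
      have h10 := Nat.div_add_mod P.card ((β * V) ^ 3)
      have h11 := Nat.mod_lt P.card hβVpos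
      have h11' : c.bB = P.card / (β * V) ^ 3 := rfl
      rw [h11', Nat.add_mul, one_mul, Nat.mul_comm]
      omega
    have h12 : (P.card : ℝ) ≤ (2 * c.bB) * (β * V) ^ 3 := by
      have h13 : P.card ≤ (2 * c.bB) * (β * V) ^ 3 :=
        h9.le.trans (Nat.mul_le_mul_right _ (by omega))
      exact_mod_cast h13
    rw [hb1, hD, one_div, inv_mul_eq_div, div_div, div_le_iff₀ (by positivity)]
    calc (P.card : ℝ) ≤ (2 * c.bB) * (β * V) ^ 3 := h12
      _ = (V : ℝ) * c.bB * ((V : ℝ) ^ 2 * (2 * (β : ℝ) ^ 3)) := by ring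
  -- exceptional sets
  have hap : ∀ J ∈ wins c.Cf, ((c.Ex J).card : ℝ) ≤ 448 / ρ * c.bV := by
    intro J hJ
    have h14 := c.ex_card hκbB hbB1 hbV (by rw [hrho]; exact hρ16) hJ
      (fun A _ d => ap c.hP J.1 J.2 d)
    rw [hrho] at h14
    rw [div_mul_eq_mul_div, le_div_iff₀ hρ0]
    exact h14
  have hsum := c.sum_Hg hkV (448 / ρ) hap (by positivity)
    (by
      show lam3 * ε1 ≤ c2 / 16
      rw [hε1]
      apply le_of_eq
      field_simp)
    (by
      show Cw * lam1 * lam2 * (448 / ρ) ≤ c2 / 16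
      exact hρB)
  have hGV := c.GV_card hsum
  have hc9e : c.c9 = c9 := by rw [hc9]; rfl
  have hc10e : c.c10 = c10 := by
    rw [hc10]
    unfold BCtx.c10
    rw [hc9e]
  obtain ⟨t, ht⟩ := hfin P c.G2 D hP c.G2_sub hcard_pos hD0
    (by
      have := c.card_G2 hbV1 (by rw [hcN, ← hD]; exact hD1)
      rw [hD]
      exact this)
    (by
      have := c.crs_G2 hbV1
      rw [hD]
      exact this)
    c.GV (fun v hv => c.mem_GV_P hv) hGV c.St
    (fun v hv t ht => c.St_edges hbV1 hv ht)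
    (by
      intro v hv
      have h15 := c.WT_card (min_le_left _ _) (by rw [hc9e]; exact min_le_right _ _) hv
      rw [hc10e] at h15
      have h16 : ((c.WT v).card : ℝ) * (c.bB : ℝ) ^ 3 ≤ ((c.St v).card : ℝ) := by
        exact_mod_cast c.St_card v
      refine le_trans ?_ h16
      calc c10 * b1 ^ 3 * D ^ 3 = c10 * (b1 * D) ^ 3 := by ring
        _ ≤ c10 * ((V : ℝ) * c.bB) ^ 3 := by
            apply mul_le_mul_of_nonneg_left _ hc100.le
            exact pow_le_pow_left₀ (by positivity) hVbB 3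
        _ = (c10 * (V : ℝ) ^ 3) * (c.bB : ℝ) ^ 3 := by ring
        _ ≤ ((c.WT v).card : ℝ) * (c.bB : ℝ) ^ 3 :=
            mul_le_mul_of_nonneg_right h15 (by positivity))
    (by
      intro v hv
      have h17 := c.right_deg hκbB hbB1 hbV (by rw [hrho]; exact hρ16) hv
      rw [hrho] at h17
      refine le_trans ?_ h17
      show c2 / (16 * (lam1 * lam2)) * (ρ / 16) * b1 * D ≤
        c2 / (16 * (lam1 * lam2)) * (V : ℝ) * (ρ * (c.bB : ℝ) / 16)
      calc c2 / (16 * (lam1 * lam2)) * (ρ / 16) * b1 * D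
          = (c2 / (16 * (lam1 * lam2)) * (ρ / 16)) * (b1 * D) := by ring
        _ ≤ (c2 / (16 * (lam1 * lam2)) * (ρ / 16)) * ((V : ℝ) * c.bB) :=
            mul_le_mul_of_nonneg_left hVbB (by positivity)
        _ = _ := by ring)
  rw [hD] at ht
  refine ⟨_, _, c.final_of_triple c5 ?_ t ht⟩
  show 0 < c5 * ((P.card : ℝ) / (V : ℝ) ^ 2)
  rw [← hD]
  have : 0 < D := by linarith
  positivity

end Crest.Agent.R51.Quad
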