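import Crest.Agent.R51.WalkH
import Crest.Agent.R51.WalkMid
import Crest.Agent.R51.WinIrr
import Crest.Agent.R51.Level2
import Crest.Agent.R51.CrossStr
import Crest.Agent.R51.Dey

-- ▼ part R51/WalkAss
section

/-!
# Row 51, B5: assembly of `HExists` (helper7)
-/

set_option autoImplicit false
set_option maxHeartbeats 400000

noncomputable section

open Classical

namespace Crest.Agent.R51

theorem i1 : I1 := by
  intro lam1 ε hlam hε
  obtain ⟨c3, hc3, h⟩ := few_mids hε hlam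
  exact ⟨c3, hc3, h⟩

namespace WAss

/-- `A` holds on `T` outside a set of at most `x` elements -/
def Up {α : Type*} (T : Finset α) (A : α → Prop) (x : ℝ) : Prop :=
  ∃ F : Finset α, (F.card : ℝ) ≤ x ∧ ∀ z ∈ T, z ∉ F → A z

lemma Up.and {α : Type*} {T : Finset α} {A B : α → Prop} {x y : ℝ} (hA : Up T A x)
    (hB : Up T B y) : Up T (fun z => A z ∧ B z) (x + y) := by
  obtain ⟨F, hF, hF'⟩ := hA
  obtain ⟨G, hG, hG'⟩ := hB
  refine ⟨F ∪ G, ?_, ?_⟩
  · have : ((F ∪ G).card : ℝ) ≤ (F.card : ℝ) + (G.card : ℝ) := by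
      exact_mod_cast Finset.card_union_le F G
    linarith
  · intro z hz hzF
    rw [Finset.mem_union, not_or] at hzF
    exact ⟨hF' z hz hzF.1, hG' z hz hzF.2⟩

lemma Up.imp {α : Type*} {T : Finset α} {A B : α → Prop} {x : ℝ} (hA : Up T A x)
    (h : ∀ z ∈ T, A z → B z) : Up T B x := by
  obtain ⟨F, hF, hF'⟩ := hA
  exact ⟨F, hF, fun z hz hzF => h z hz (hF' z hz hzF)⟩

lemma up_of_filter {α : Type*} {T : Finset α} {A B : α → Prop} [DecidablePred B] {x : ℝ}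
    (hB : ((T.filter B).card : ℝ) ≤ x) (h : ∀ z ∈ T, ¬ B z → A z) : Up T A x :=
  ⟨T.filter B, hB, fun z hz hzF => h z hz (fun hb => hzF (Finset.mem_filter.2 ⟨hz, hb⟩))⟩

/-- averaging over the levels -/
lemma avg_levels {α : Type*} {T : Finset α} {m : ℕ} {B : ℕ → α → Prop}
    [∀ z, DecidablePred (fun l => B l z)] {x : ℝ} (hx : 0 ≤ x)
    (h : ∀ l ∈ Finset.Icc 1 m, Up T (fun z => ¬ B l z) x) :
    Up T (fun z => 200 * ((Finset.Icc 1 m).filter (fun l => B l z)).card ≤ m) (200 * x) := by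
  rcases Nat.eq_zero_or_pos m with rfl | hm
  · refine ⟨∅, ?_, fun z _ _ => ?_⟩
    · simp only [Finset.card_empty, Nat.cast_zero]
      positivity
    · simp
  · choose! F hF hF' using h
    set S := T.filter (fun z => m < 200 * ((Finset.Icc 1 m).filter (fun l => B l z)).card)
      with hS
    refine ⟨S, ?_, fun z hz hzS => ?_⟩
    · have h1 : (m : ℝ) * (S.card : ℝ) ≤
          200 * ∑ z ∈ S, (((Finset.Icc 1 m).filter (fun l => B l z)).card : ℝ) := by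
        rw [Finset.mul_sum, mul_comm (m : ℝ), ← nsmul_eq_mul, ← Finset.sum_const]
        refine Finset.sum_le_sum (fun z hz => ?_)
        have h2 := (Finset.mem_filter.1 hz).2
        have h3 : (m : ℝ) ≤ ((200 * ((Finset.Icc 1 m).filter (fun l => B l z)).card : ℕ) : ℝ) := by
          exact_mod_cast h2.le
        push_cast at h3
        exact h3
      have h2 : ∑ z ∈ S, (((Finset.Icc 1 m).filter (fun l => B l z)).card : ℝ) =
          ∑ l ∈ Finset.Icc 1 m, ((S.filter (fun z => B l z)).card : ℝ) := by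
        have h3 : ∑ z ∈ S, (((Finset.Icc 1 m).filter (fun l => B l z)).card) =
            ∑ l ∈ Finset.Icc 1 m, ((S.filter (fun z => B l z)).card) := by
          have h4 := Finset.sum_card_bipartiteAbove_eq_sum_card_bipartiteBelow
            (s := S) (t := Finset.Icc 1 m) (fun z l => B l z)
          unfold Finset.bipartiteAbove Finset.bipartiteBelow at h4
          convert h4 using 2
        exact_mod_cast h3
      have h4 : ∑ l ∈ Finset.Icc 1 m, ((S.filter (fun z => B l z)).card : ℝ) ≤ (m : ℝ) * x := by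
        have h5 : ∑ l ∈ Finset.Icc 1 m, ((S.filter (fun z => B l z)).card : ℝ) ≤
            ∑ _l ∈ Finset.Icc 1 m, x := by
          refine Finset.sum_le_sum (fun l hl => le_trans ?_ (hF l hl))
          have h6 : S.filter (fun z => B l z) ⊆ F l := by
            intro z hz
            rw [Finset.mem_filter] at hz
            by_contra hcon
            exact hF' l hl z (Finset.mem_filter.1 hz.1).1 hcon hz.2
          exact_mod_cast Finset.card_le_card h6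
        rw [Finset.sum_const, Nat.card_Icc, nsmul_eq_mul] at h5
        simpa using h5
      have hm' : (0 : ℝ) < m := by exact_mod_cast hm
      have h7 : (m : ℝ) * (S.card : ℝ) ≤ (m : ℝ) * (200 * x) := by
        calc (m : ℝ) * (S.card : ℝ) ≤ 200 * ((m : ℝ) * x) := by
              rw [h2] at h1; linarith
          _ = (m : ℝ) * (200 * x) := by ring
      exact le_of_mul_le_mul_left h7 hm'
    · by_contra hcon
      rw [not_le] at hcon
      exact hzS (Finset.mem_filter.2 ⟨hz, hcon⟩)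

variable {P : Finset Pt} {k : ℕ} {V : ℕ → ℕ} {L : ℕ} {Cw : ℝ}

lemma DD_nonneg (P : Finset Pt) (Vp : ℕ) : 0 ≤ DD P Vp := by unfold DD; positivity

lemma DD_pos {P : Finset Pt} {Vp : ℕ} (h : 0 < P.card) (hV : 1 ≤ Vp) : 0 < DD P Vp := by
  unfold DD
  have : (0 : ℝ) < P.card := by exact_mod_cast h
  have : (0 : ℝ) < Vp := by exact_mod_cast hV
  positivity

/-- field `fib_le` -/
lemma fib_card_le {Vp : ℕ} {lam1 : ℝ} (hl : 0 ≤ lam1) {H : Finset Walk}
    (hH : H ⊆ TT P k Vp lam1) (v : Pt) :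
    ((fib H v).card : ℝ) ≤ lam1 ^ 2 * DD P Vp ^ 2 := by
  have h1 := card_fib_le (P := P) (k := k) (b := bb P.card Vp)
    (Λ := lam1 * DD P Vp) (mul_nonneg hl (DD_nonneg _ _)) v
  have h2 : ((fib H v).card : ℝ) ≤ ((fib (TT P k Vp lam1) v).card : ℝ) := by
    exact_mod_cast Finset.card_le_card (fib_mono hH v)
  rw [mul_pow] at h1
  exact h2.trans h1

/-- the walks starting in a set `B` -/
lemma card_start_le {Vp : ℕ} {lam1 : ℝ} (hl : 0 ≤ lam1) {H : Finset Walk}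
    (hH : H ⊆ TT P k Vp lam1) (B : Finset Pt) :
    ((H.filter (fun z => z.1 ∈ B)).card : ℝ) ≤ (B.card : ℝ) * (lam1 ^ 2 * DD P Vp ^ 2) := by
  have h1 : (H.filter (fun z => z.1 ∈ B)).card =
      ∑ v ∈ B, (fib (H.filter (fun z => z.1 ∈ B)) v).card :=
    card_eq_sum_fib (fun z hz => (Finset.mem_filter.1 hz).2)
  have h2 : ((H.filter (fun z => z.1 ∈ B)).card : ℝ) =
      ∑ v ∈ B, ((fib (H.filter (fun z => z.1 ∈ B)) v).card : ℝ) := by exact_mod_cast h1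
  rw [h2]
  calc ∑ v ∈ B, ((fib (H.filter (fun z => z.1 ∈ B)) v).card : ℝ)
      ≤ ∑ _v ∈ B, (lam1 ^ 2 * DD P Vp ^ 2) := by
        refine Finset.sum_le_sum (fun v _ => ?_)
        exact fib_card_le hl ((Finset.filter_subset _ _).trans hH) v
    _ = (B.card : ℝ) * (lam1 ^ 2 * DD P Vp ^ 2) := by
        rw [Finset.sum_const, nsmul_eq_mul]

/-- field `t3` -/
lemma fib_win_le {Vp : ℕ} {lam1 lam2 : ℝ} (hl1 : 0 ≤ lam1) (hl2 : 0 ≤ lam2)
    (W : WSys P k V L Cw) {l : ℕ} (hl : l ≤ L) {H : Finset Walk}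
    (hH : H ⊆ TT P k Vp lam1) (h3 : ∀ z ∈ H, G3 W Vp lam2 l z) (v : Pt) (J : ℝ × ℝ) :
    (((fib H v).filter (fun e => W.J l (esl e) = J)).card : ℝ) ≤
      lam1 * lam2 * DD P Vp ^ 2 / (V l : ℝ) := by
  set F := (fib H v).filter (fun e => W.J l (esl e) = J) with hF
  have h1 : F.card = ∑ w ∈ F.image Prod.fst, (F.filter (fun e => e.1 = w)).card :=
    Finset.card_eq_sum_card_fiberwise (fun e he => Finset.mem_coe.2
      (Finset.mem_image_of_mem _ (Finset.mem_coe.1 he)))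
  have h2 : ∀ w ∈ F.image Prod.fst, ((F.filter (fun e => e.1 = w)).card : ℝ) ≤
      lam2 * DD P Vp / (V l : ℝ) := by
    intro w hw
    obtain ⟨e0, he0, rfl⟩ := Finset.mem_image.1 hw
    have he0' := Finset.mem_filter.1 he0
    have hz0 := mem_fib.1 he0'.1
    have hg := h3 _ hz0
    refine le_trans ?_ hg
    have hinj : (F.filter (fun e => e.1 = e0.1)).card =
        ((F.filter (fun e => e.1 = e0.1)).image Prod.snd).card := by
      rw [Finset.card_image_of_injOn]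
      intro e he e' he' hee
      have a := (Finset.mem_filter.1 (Finset.mem_coe.1 he)).2
      have b := (Finset.mem_filter.1 (Finset.mem_coe.1 he')).2
      exact Prod.ext (a.trans b.symm) hee
    have hsub : (F.filter (fun e => e.1 = e0.1)).image Prod.snd ⊆
        nbW P k (bb P.card Vp) J.1 J.2 e0.1 := by
      intro x hx
      obtain ⟨e, he, rfl⟩ := Finset.mem_image.1 hx
      rw [Finset.mem_filter] at he
      obtain ⟨heF, hew⟩ := he
      rw [hF, Finset.mem_filter] at heF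
      obtain ⟨hef, heJ⟩ := heF
      have hz := mem_fib.1 hef
      have hzT := mem_T0' (hH hz)
      have hlast := (mem_T0.1 (hH hz)).2
      have hmem := mem_nearAll.1 ((mem_lowG.1 hlast).1)
      have hxx : e.1.1 < e.2.1 := hzT.2.2.2.2.1
      have hwin : J.1 < esl e ∧ esl e < J.2 := by
        rw [← heJ]
        exact (W.winOf_pair hl hmem.1).2
      rw [mem_nbW, ← hew, mk_of_lt hxx]
      refine mem_nearE.2 ⟨hmem.1, hwin.1, hwin.2, hmem.2⟩
    rw [hinj]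
    have hJ0 : W.J l (esl (lastE (v, e0.1, e0.2))) = J := he0'.2
    rw [hJ0]
    exact_mod_cast Finset.card_le_card hsub
  have h4 : ((F.image Prod.fst).card : ℝ) ≤ lam1 * DD P Vp := by
    refine le_trans ?_ (card_image_fst_fib_le (P := P) (k := k) (b := bb P.card Vp)
      (Λ := lam1 * DD P Vp) (mul_nonneg hl1 (DD_nonneg _ _)) v)
    have : F.image Prod.fst ⊆ (fib (T0 P k (bb P.card Vp) (lam1 * DD P Vp)) v).image Prod.fst :=
      Finset.image_subset_image ((Finset.filter_subset _ _).trans (fib_mono hH v))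
    exact_mod_cast Finset.card_le_card this
  have h5 : (F.card : ℝ) ≤ ((F.image Prod.fst).card : ℝ) * (lam2 * DD P Vp / (V l : ℝ)) := by
    rw [h1]
    push_cast
    calc ∑ w ∈ F.image Prod.fst, ((F.filter (fun e => e.1 = w)).card : ℝ)
        ≤ ∑ _w ∈ F.image Prod.fst, lam2 * DD P Vp / (V l : ℝ) := Finset.sum_le_sum h2
      _ = _ := by rw [Finset.sum_const, nsmul_eq_mul]
  have h6 : 0 ≤ lam2 * DD P Vp / (V l : ℝ) :=
    div_nonneg (mul_nonneg hl2 (DD_nonneg _ _)) (Nat.cast_nonneg _)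
  calc (F.card : ℝ) ≤ ((F.image Prod.fst).card : ℝ) * (lam2 * DD P Vp / (V l : ℝ)) := h5
    _ ≤ (lam1 * DD P Vp) * (lam2 * DD P Vp / (V l : ℝ)) := mul_le_mul_of_nonneg_right h4 h6
    _ = lam1 * lam2 * DD P Vp ^ 2 / (V l : ℝ) := by ring

/-- the set `H₀` with all its pointwise conditions -/
structure PreH {P : Finset Pt} {k : ℕ} (mu n2 n0 be Vp : ℕ) (a : Cst) (c3 : ℝ)
    (W : WSys P k (lev mu n0 be) (n0 + 1) a.Cw) (H : Finset Walk) : Prop where
  sub : H ⊆ TT P k Vp a.lam1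
  big : a.c2 / 2 * (P.card : ℝ) * DD P Vp ^ 2 ≤ (H.card : ℝ)
  t1 : ∀ z ∈ H, c3 * DD P Vp ≤ ((mids (TT P k Vp a.lam1) z.1 z.2.2).card : ℝ)
  t2 : ∀ z ∈ H, Central P k ⌊a.kap * (bb P.card (be * mu ^ (10 * n0)) : ℝ)⌋₊ (esl (lastE z)) z.1
  g3 : ∀ l, l = 1 ∨ l = n2 ∨ l = n0 ∨ l = n0 + 1 → ∀ z ∈ H, G3 W Vp a.lam2 l z
  t4 : ∀ z ∈ H, G4 W a.kap (n0 + 1) z
  t5 : ∀ z ∈ H, G5 W a.LL n0 z
  t6 : ∀ z ∈ H, ¬ W.T6 a.lam3 n0 z.1
  t6' : ∀ z ∈ H, ¬ W.T6 a.lam3 n2 z.1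
  t7 : ∀ z ∈ H, ¬ W.T7 a.lam3 n0 1 z.1 (esl (lastE z))
  t67 : ∀ z ∈ H, 200 * ((Finset.Icc 1 (2 * n2)).filter (fun l =>
    W.T6 a.lam3 l z.1 ∨ W.T7 a.lam3 n0 l z.1 (esl (lastE z)))).card ≤ 2 * n2
  t8 : ∀ z ∈ H, 200 * ((Finset.Icc 1 (2 * n2)).filter (fun l => F8 W mu l z)).card ≤ 2 * n2

lemma pos_lev {mu n0 be l : ℕ} (hmu : 1 ≤ mu) (hbe : 1 ≤ be) : 1 ≤ lev mu n0 be l := by
  unfold lev
  split_ifs
  · exact Nat.one_le_pow _ _ hmu
  · exact Nat.one_le_iff_ne_zero.2 (by positivity)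

lemma lev_le {mu n0 be l : ℕ} (hmu : 1 ≤ mu) (hbe : 1 ≤ be) :
    lev mu n0 be l ≤ be * mu ^ (10 * n0) := by
  unfold lev
  split_ifs with h
  · calc mu ^ (10 * l) ≤ mu ^ (10 * n0) := Nat.pow_le_pow_right hmu (by omega)
      _ = 1 * mu ^ (10 * n0) := (one_mul _).symm
      _ ≤ be * mu ^ (10 * n0) := Nat.mul_le_mul_right _ hbe
  · exact le_rfl

lemma lev_succ {mu n0 be : ℕ} : lev mu n0 be (n0 + 1) = be * mu ^ (10 * n0) := by
  unfold lev
  rw [if_neg (by omega)]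

lemma lev_of_le {mu n0 be l : ℕ} (h : l ≤ n0) : lev mu n0 be l = mu ^ (10 * l) := by
  unfold lev
  rw [if_pos h]

/-- existence of `H₀` from the counts -/
lemma preH_exists {P : Finset Pt} {k : ℕ} {mu n2 n0 be Vp : ℕ} {a : Cst} {c3 : ℝ}
    (W : WSys P k (lev mu n0 be) (n0 + 1) a.Cw) (hn : 2 * n2 ≤ n0) (hn2 : 1 ≤ n2)
    {y : ℝ} (hy0 : 0 ≤ y) (hy : 20000 * y ≤ a.c2 * (P.card : ℝ) * DD P Vp ^ 2)
    (h0 : a.c2 * (P.card : ℝ) * DD P Vp ^ 2 ≤ ((TT P k Vp a.lam1).card : ℝ))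
    (h1 : Up (TT P k Vp a.lam1)
      (fun z => c3 * DD P Vp ≤ ((mids (TT P k Vp a.lam1) z.1 z.2.2).card : ℝ)) y)
    (h2 : Up (TT P k Vp a.lam1) (fun z =>
      Central P k ⌊a.kap * (bb P.card (be * mu ^ (10 * n0)) : ℝ)⌋₊ (esl (lastE z)) z.1) y)
    (h3 : ∀ l ≤ n0 + 1, Up (TT P k Vp a.lam1) (fun z => G3 W Vp a.lam2 l z) y)
    (h4 : Up (TT P k Vp a.lam1) (fun z => G4 W a.kap (n0 + 1) z) y)
    (h5 : Up (TT P k Vp a.lam1) (fun z => G3 W Vp a.lam2 n0 z →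
        Central P k ⌊a.kap * (bb P.card (be * mu ^ (10 * n0)) : ℝ)⌋₊ (esl (lastE z)) z.1 →
          G5 W a.LL n0 z) y)
    (h6 : ∀ l ≤ n0, Up (TT P k Vp a.lam1) (fun z => ¬ W.T6 a.lam3 l z.1) y)
    (h7 : ∀ l ≤ n0, Up (TT P k Vp a.lam1) (fun z => G3 W Vp a.lam2 l z →
        ¬ W.T7 a.lam3 n0 l z.1 (esl (lastE z))) y)
    (h8 : ∀ l, 1 ≤ l → l ≤ n0 → Up (TT P k Vp a.lam1) (fun z => ¬ F8 W mu l z) y) :
    ∃ H : Finset Walk, PreH mu n2 n0 be Vp a c3 W H := by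
  have b67 : ∀ l ∈ Finset.Icc 1 (2 * n2), Up (TT P k Vp a.lam1)
      (fun z => ¬ (W.T6 a.lam3 l z.1 ∨ W.T7 a.lam3 n0 l z.1 (esl (lastE z)))) (3 * y) := by
    intro l hl
    rw [Finset.mem_Icc] at hl
    have e1 := ((h3 l (by omega)).and (h6 l (by omega))).and (h7 l (by omega))
    have e2 : y + y + y = 3 * y := by ring
    rw [e2] at e1
    exact e1.imp (fun z _ h hor => hor.elim h.1.2 (h.2 h.1.1))
  have b8 : ∀ l ∈ Finset.Icc 1 (2 * n2), Up (TT P k Vp a.lam1)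
      (fun z => ¬ F8 W mu l z) y := by
    intro l hl
    rw [Finset.mem_Icc] at hl
    exact h8 l hl.1 (by omega)
  have a67 := avg_levels (by positivity) b67
  have a8 := avg_levels hy0 b8
  obtain ⟨F1, c1, d1⟩ := h1
  obtain ⟨F2, c2, d2⟩ := h2
  obtain ⟨F3, c3', d3⟩ := h3 1 (by omega)
  obtain ⟨F4, c4, d4⟩ := h3 n2 (by omega)
  obtain ⟨F5, c5, d5⟩ := h3 n0 (by omega)
  obtain ⟨F6, c6, d6⟩ := h3 (n0 + 1) le_rfl
  obtain ⟨F7, c7, d7⟩ := h4
  obtain ⟨F8', c8, d8⟩ := h5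
  obtain ⟨F9, c9, d9⟩ := h6 n0 le_rfl
  obtain ⟨F10, c10, d10⟩ := h6 n2 (by omega)
  obtain ⟨F11, c11, d11⟩ := h7 1 (by omega)
  obtain ⟨F12, c12, d12⟩ := a67
  obtain ⟨F13, c13, d13⟩ := a8
  set U : Finset Walk := F1 ∪ (F2 ∪ (F3 ∪ (F4 ∪ (F5 ∪ (F6 ∪ (F7 ∪ (F8' ∪ (F9 ∪ (F10 ∪ (F11 ∪
    (F12 ∪ F13))))))))))) with hU
  have hUc : (U.card : ℝ) ≤ (F1.card : ℝ) + (F2.card + (F3.card + (F4.card + (F5.card +
      (F6.card + (F7.card + (F8'.card + (F9.card + (F10.card + (F11.card +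
      (F12.card + F13.card))))))))))) := by
    have h : U.card ≤ F1.card + (F2.card + (F3.card + (F4.card + (F5.card +
      (F6.card + (F7.card + (F8'.card + (F9.card + (F10.card + (F11.card +
      (F12.card + F13.card))))))))))) := by
      rw [hU]
      iterate 11 refine (Finset.card_union_le _ _).trans (Nat.add_le_add_left ?_ _)
      exact Finset.card_union_le _ _
    exact_mod_cast h
  have hmem : ∀ z ∈ TT P k Vp a.lam1 \ U, z ∈ TT P k Vp a.lam1 ∧ z ∉ F1 ∧ z ∉ F2 ∧ z ∉ F3 ∧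
      z ∉ F4 ∧ z ∉ F5 ∧ z ∉ F6 ∧ z ∉ F7 ∧ z ∉ F8' ∧ z ∉ F9 ∧ z ∉ F10 ∧ z ∉ F11 ∧ z ∉ F12 ∧
      z ∉ F13 := by
    intro z hz
    rw [Finset.mem_sdiff] at hz
    refine ⟨hz.1, ?_⟩
    have h := hz.2
    rw [hU] at h
    simp only [Finset.mem_union, not_or] at h
    exact h
  have hcard : ((TT P k Vp a.lam1).card : ℝ) ≤
      ((TT P k Vp a.lam1 \ U).card : ℝ) + (U.card : ℝ) := by
    have h : TT P k Vp a.lam1 ⊆ (TT P k Vp a.lam1 \ U) ∪ U := by
      intro z hz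
      by_cases hzU : z ∈ U
      · exact Finset.mem_union_right _ hzU
      · exact Finset.mem_union_left _ (Finset.mem_sdiff.2 ⟨hz, hzU⟩)
    exact_mod_cast (Finset.card_le_card h).trans (Finset.card_union_le _ _)
  refine ⟨TT P k Vp a.lam1 \ U, ?_⟩
  constructor
  · exact Finset.sdiff_subset
  · have e2 : a.c2 / 2 * (P.card : ℝ) * DD P Vp ^ 2 = (a.c2 * (P.card : ℝ) * DD P Vp ^ 2) / 2 := by
      ring
    rw [e2]
    linarith
  · intro z hz
    obtain ⟨m, m1, m2, m3, m4, m5, m6, m7, m8, m9, m10, m11, m12, m13⟩ := hmem z hz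
    exact d1 z m m1
  · intro z hz
    obtain ⟨m, m1, m2, m3, m4, m5, m6, m7, m8, m9, m10, m11, m12, m13⟩ := hmem z hz
    exact d2 z m m2
  · intro l hl z hz
    obtain ⟨m, m1, m2, m3, m4, m5, m6, m7, m8, m9, m10, m11, m12, m13⟩ := hmem z hz
    rcases hl with rfl | rfl | rfl | rfl
    · exact d3 z m m3
    · exact d4 z m m4
    · exact d5 z m m5
    · exact d6 z m m6
  · intro z hz
    obtain ⟨m, m1, m2, m3, m4, m5, m6, m7, m8, m9, m10, m11, m12, m13⟩ := hmem z hz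
    exact d7 z m m7
  · intro z hz
    obtain ⟨m, m1, m2, m3, m4, m5, m6, m7, m8, m9, m10, m11, m12, m13⟩ := hmem z hz
    exact d8 z m m8 (d5 z m m5) (d2 z m m2)
  · intro z hz
    obtain ⟨m, m1, m2, m3, m4, m5, m6, m7, m8, m9, m10, m11, m12, m13⟩ := hmem z hz
    exact d9 z m m9
  · intro z hz
    obtain ⟨m, m1, m2, m3, m4, m5, m6, m7, m8, m9, m10, m11, m12, m13⟩ := hmem z hz
    exact d10 z m m10
  · intro z hz
    obtain ⟨m, m1, m2, m3, m4, m5, m6, m7, m8, m9, m10, m11, m12, m13⟩ := hmem z hz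
    exact d11 z m m11 (d3 z m m3)
  · intro z hz
    obtain ⟨m, m1, m2, m3, m4, m5, m6, m7, m8, m9, m10, m11, m12, m13⟩ := hmem z hz
    exact d12 z m m12
  · intro z hz
    obtain ⟨m, m1, m2, m3, m4, m5, m6, m7, m8, m9, m10, m11, m12, m13⟩ := hmem z hz
    exact d13 z m m13

/-- Markov -/
lemma card_bad_le (P : Finset Pt) {f : Pt → ℝ} (hf : ∀ v, 0 ≤ f v) {t S : ℝ}
    (h : ∑ v ∈ P, f v ≤ S) : ((P.filter (fun v => t < f v)).card : ℝ) * t ≤ S := by
  calc ((P.filter (fun v => t < f v)).card : ℝ) * t = ∑ _v ∈ P.filter (fun v => t < f v), t := by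
        rw [Finset.sum_const, nsmul_eq_mul]
    _ ≤ ∑ v ∈ P.filter (fun v => t < f v), f v :=
        Finset.sum_le_sum (fun v hv => (Finset.mem_filter.1 hv).2.le)
    _ ≤ ∑ v ∈ P, f v := Finset.sum_le_sum_of_subset_of_nonneg (Finset.filter_subset _ _)
        (fun v _ _ => hf v)
    _ ≤ S := h

/-- the non-robust points are few -/
lemma card_nonrob {P : Finset Pt} {k : ℕ} {V : ℕ → ℕ} {L : ℕ} {Cw : ℝ} (W : WSys P k V L Cw)
    {lam1 lam3 K c8 d ε' : ℝ} {l Vp : ℕ} {H : Finset Walk} (hD : 0 < DD P Vp)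
    (hc8 : 0 < c8) (hd : 0 < d) (hl1 : 0 < lam1) (hl3 : 1 ≤ lam3) (hε' : 0 < ε')
    (hK : K = 2 * (882 * lam1 / (c8 * d ^ 3)) * lam3 ^ 2 / ε')
    (hV : 2 * (882 * lam1 / (c8 * d ^ 3)) * Cw / ε' ≤ (V l : ℝ) ^ 2) (hVpos : 0 < (V l : ℝ))
    (h : (∑ v ∈ P, ((badX W lam3 K l H v).card : ℝ)) ≤
        882 * lam1 * (lam3 ^ 2 / K + Cw / (V l : ℝ) ^ 2) * ((P.card : ℝ) * DD P Vp ^ 4)) :
    ((P.filter (fun v => c8 * d ^ 3 * DD P Vp ^ 4 < ((badX W lam3 K l H v).card : ℝ))).card : ℝ)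
      ≤ ε' * (P.card : ℝ) := by
  have h1 := card_bad_le P (f := fun v => ((badX W lam3 K l H v).card : ℝ))
    (fun v => Nat.cast_nonneg _) (t := c8 * d ^ 3 * DD P Vp ^ 4) h
  set n := ((P.filter (fun v => c8 * d ^ 3 * DD P Vp ^ 4 <
    ((badX W lam3 K l H v).card : ℝ))).card : ℝ) with hn
  set X := 882 * lam1 / (c8 * d ^ 3) with hX
  have hcd : 0 < c8 * d ^ 3 := by positivity
  have hXpos : 0 < X := by positivity
  have hXe : 882 * lam1 = X * (c8 * d ^ 3) := by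
    rw [hX]; field_simp
  have hD4 : 0 < DD P Vp ^ 4 := by positivity
  have hl3' : 0 < lam3 := by linarith
  have e1 : X * (lam3 ^ 2 / K) = ε' / 2 := by
    rw [hK]
    field_simp
  have e2 : X * (Cw / (V l : ℝ) ^ 2) ≤ ε' / 2 := by
    rw [← mul_div_assoc, div_le_iff₀ (by positivity)]
    rw [div_le_iff₀ hε'] at hV
    nlinarith
  have h2 : n * (c8 * d ^ 3 * DD P Vp ^ 4) ≤ (ε' * (P.card : ℝ)) * (c8 * d ^ 3 * DD P Vp ^ 4) := by
    refine h1.trans ?_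
    rw [hXe]
    have e3 : X * (lam3 ^ 2 / K + Cw / (V l : ℝ) ^ 2) ≤ ε' := by
      rw [mul_add]; linarith
    have hN : (0 : ℝ) ≤ P.card := Nat.cast_nonneg _
    calc X * (c8 * d ^ 3) * (lam3 ^ 2 / K + Cw / (V l : ℝ) ^ 2) * ((P.card : ℝ) * DD P Vp ^ 4)
        = (X * (lam3 ^ 2 / K + Cw / (V l : ℝ) ^ 2)) * ((c8 * d ^ 3) *
            ((P.card : ℝ) * DD P Vp ^ 4)) := by ring
      _ ≤ ε' * ((c8 * d ^ 3) * ((P.card : ℝ) * DD P Vp ^ 4)) :=
          mul_le_mul_of_nonneg_right e3 (mul_nonneg hcd.le (mul_nonneg hN hD4.le))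
      _ = _ := by ring
  exact le_of_mul_le_mul_right h2 (mul_pos hcd hD4)

/-- from `H₀` to `H` -/
lemma hsys_of_preH {P : Finset Pt} {k : ℕ} {mu n2 n0 be Vp : ℕ} {a : Cst} {c3 K1 d1 d8 y : ℝ}
    (ha : a.Good) {W : WSys P k (lev mu n0 be) (n0 + 1) a.Cw} {H0 : Finset Walk}
    (hH0 : PreH mu n2 n0 be Vp a c3 W H0) (hD : 0 < DD P Vp) (hd1 : 0 < d1) (hd8 : 0 < d8)
    (hn : n2 ≤ n0) (hy : 12 * y ≤ a.c2 * (P.card : ℝ) * DD P Vp ^ 2)
    {R1 R2 LP : Finset Pt}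
    (hR1 : (R1.card : ℝ) * (a.lam1 ^ 2 * DD P Vp ^ 2) ≤ y)
    (hR2 : (R2.card : ℝ) * (a.lam1 ^ 2 * DD P Vp ^ 2) ≤ y)
    (hLP : (LP.card : ℝ) * (a.lam1 ^ 2 * DD P Vp ^ 2) ≤ y)
    (hR1' : ∀ v ∈ P, v ∉ R1 → ∀ S ⊆ fib H0 v, d1 * DD P Vp ^ 2 ≤ (S.card : ℝ) →
        a.c8 * (S.card : ℝ) ^ 3 / DD P Vp ^ 2 ≤
          (((S ×ˢ S).filter (fun x =>
            W.NK a.lam3 K1 n0 (W.J n0 (esl x.1)) (W.J n0 (esl x.2)))).card : ℝ))
    (hLP' : ∀ v ∈ P, v ∉ R2 → v ∉ LP → ∀ c : ℝ, ∀ two : Bool,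
      (((fib H0 v).filter (fun e => Lac W mu n2 c two (esl e))).card : ℝ) < d8 * DD P Vp ^ 2) :
    ∃ H : Finset Walk, HSystem mu n2 n0 be Vp a K1 d1 d8 W H := by
  have hl1 : 0 ≤ a.lam1 := by linarith [ha.lam1]
  have hl2 : 0 ≤ a.lam2 := by linarith [ha.lam2]
  have hU : Up H0 (fun z => (z.1 ∉ R1 ∧ z.1 ∉ R2) ∧ z.1 ∉ LP) (y + y + y) := by
    refine (Up.and (Up.and ?_ ?_) ?_)
    · exact ⟨H0.filter (fun z => z.1 ∈ R1), (card_start_le hl1 hH0.sub R1).trans hR1,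
        fun z hz hzF h => hzF (Finset.mem_filter.2 ⟨hz, h⟩)⟩
    · exact ⟨H0.filter (fun z => z.1 ∈ R2), (card_start_le hl1 hH0.sub R2).trans hR2,
        fun z hz hzF h => hzF (Finset.mem_filter.2 ⟨hz, h⟩)⟩
    · exact ⟨H0.filter (fun z => z.1 ∈ LP), (card_start_le hl1 hH0.sub LP).trans hLP,
        fun z hz hzF h => hzF (Finset.mem_filter.2 ⟨hz, h⟩)⟩
  obtain ⟨F, hF, hF'⟩ := hU
  set H := H0 \ F with hH
  have hsub : H ⊆ H0 := Finset.sdiff_subset
  have hgood : ∀ z ∈ H, (z.1 ∉ R1 ∧ z.1 ∉ R2) ∧ z.1 ∉ LP := by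
    intro z hz
    rw [hH, Finset.mem_sdiff] at hz
    exact hF' z hz.1 hz.2
  have hmemP : ∀ z ∈ H, z.1 ∈ P := fun z hz => (mem_T0' (hH0.sub (hsub hz))).1
  have hcard : (H0.card : ℝ) ≤ (H.card : ℝ) + (F.card : ℝ) := by
    have h : H0 ⊆ H ∪ F := by
      intro z hz
      by_cases hzF : z ∈ F
      · exact Finset.mem_union_right _ hzF
      · exact Finset.mem_union_left _ (Finset.mem_sdiff.2 ⟨hz, hzF⟩)
    exact_mod_cast (Finset.card_le_card h).trans (Finset.card_union_le _ _)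
  refine ⟨H, ?_⟩
  constructor
  · exact hsub.trans hH0.sub
  · have h1 := hH0.big
    have e1 : a.c2 / 4 * (P.card : ℝ) * ((P.card : ℝ) / (Vp : ℝ) ^ 2) ^ 2 =
        (a.c2 * (P.card : ℝ) * DD P Vp ^ 2) / 4 := by unfold DD; ring
    have e2 : a.c2 / 2 * (P.card : ℝ) * DD P Vp ^ 2 =
        (a.c2 * (P.card : ℝ) * DD P Vp ^ 2) / 2 := by ring
    rw [e1]
    rw [e2] at h1
    linarith
  · exact fun v => fib_card_le hl1 (hsub.trans hH0.sub) v
  · intro z hz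
    have := hH0.t2 z (hsub hz)
    rw [← lev_succ] at this
    exact this
  · intro l hl v J _
    have hlL : l ≤ n0 + 1 := by omega
    exact fib_win_le hl1 hl2 W hlL (hsub.trans hH0.sub) (fun z hz => hH0.g3 l hl z (hsub hz)) v J
  · intro z hz
    exact hH0.t4 z (hsub hz)
  · intro z hz
    exact hH0.t5 z (hsub hz)
  · intro z hz
    exact hH0.t6 z (hsub hz)
  · intro z hz
    exact hH0.t7 z (hsub hz)
  · intro z hz
    exact hH0.t67 z (hsub hz)
  · intro z hz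
    exact hH0.t8 z (hsub hz)
  · intro v S hS hSc
    by_cases hne : (fib H v).Nonempty
    · obtain ⟨e, he⟩ := hne
      have hz := mem_fib.1 he
      exact hR1' v (hmemP _ hz) (hgood _ hz).1.1 S (hS.trans (fib_mono hsub v)) hSc
    · rw [Finset.not_nonempty_iff_eq_empty] at hne
      rw [hne, Finset.subset_empty] at hS
      rw [hS, Finset.card_empty, Nat.cast_zero] at hSc
      have : 0 < d1 * DD P Vp ^ 2 := by positivity
      unfold DD at this
      linarith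
  · intro v c two
    by_cases hne : (fib H v).Nonempty
    · obtain ⟨e, he⟩ := hne
      have hz := mem_fib.1 he
      refine lt_of_le_of_lt ?_ (hLP' v (hmemP _ hz) (hgood _ hz).1.2 (hgood _ hz).2 c two)
      exact_mod_cast Finset.card_le_card (Finset.filter_subset_filter _ (fib_mono hsub v))
    · rw [Finset.not_nonempty_iff_eq_empty] at hne
      rw [hne, Finset.filter_empty, Finset.card_empty, Nat.cast_zero]
      have : 0 < d8 * DD P Vp ^ 2 := by positivity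
      exact this

end WAss

open WAss in
/-- **block B5 + 7.4** from the counts -/
theorem hExists_of {Cw : ℝ} (hCw : 1 ≤ Cw) (hW : IW1 Cw) (h51 : I51) (h2 : I2) (h3 : I3)
    (h4 : I4) (h5 : I5) (h6 : I6) (h7 : I7) (h8 : I8) (h53 : I53) (h54 : I54) (h74 : I74) :
    HExists := by
  intro c0 hc0
  obtain ⟨lam1, hl1, c2, hc2, hc2', Vp51, h51⟩ := h51 c0 hc0
  obtain ⟨ε, hε⟩ : ∃ ε : ℝ, ε = c2 / 20000 := ⟨_, rfl⟩
  have hε0 : 0 < ε := by rw [hε]; positivity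
  have hl1' : 0 < lam1 := by linarith
  obtain ⟨c3, hc3, h1⟩ := i1 lam1 ε hl1 hε0
  obtain ⟨lam2, hl2, h3⟩ := h3 Cw lam1 ε hCw hl1 hε0
  obtain ⟨kap, hk, hk2, h4⟩ := h4 Cw lam1 ε hCw hl1 hε0
  have h2' := h2 lam1 ε kap hl1 hε0 hk (by linarith)
  obtain ⟨LL, hLL, h5⟩ := h5 Cw lam1 lam2 kap ε hCw hl1 hl2 hk hk2 hε0
  obtain ⟨lam3, hlam3⟩ : ∃ lam3 : ℝ, lam3 = 1 + 7 * Cw ^ 2 * lam1 ^ 2 * lam2 / ε := ⟨_, rfl⟩
  have hl2' : 0 < lam2 := by linarith
  have hCw' : 0 < Cw := by linarith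
  have hl3 : 1 ≤ lam3 := by
    rw [hlam3]
    have : 0 ≤ 7 * Cw ^ 2 * lam1 ^ 2 * lam2 / ε := by positivity
    linarith
  have hl3' : 0 < lam3 := by linarith
  have hlam3' : 7 * Cw ^ 2 * lam1 ^ 2 * lam2 ≤ ε * lam3 := by
    rw [hlam3, mul_add, mul_div_cancel₀ _ hε0.ne']
    linarith
  have h6c : 7 * Cw / lam3 * lam1 ^ 2 ≤ ε := by
    rw [div_mul_eq_mul_div, div_le_iff₀ hl3']
    refine le_trans ?_ hlam3'
    have e1 : Cw ≤ Cw ^ 2 := by nlinarith
    have e2 : Cw ≤ Cw ^ 2 * lam2 := by nlinarith [mul_nonneg (sq_nonneg Cw) (by linarith : 0 ≤ lam2 - 1)]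
    nlinarith [mul_le_mul_of_nonneg_right e2 (sq_nonneg lam1)]
  have h7c : 7 * Cw ^ 2 / lam3 * lam1 * lam2 ≤ ε := by
    have e0 : 7 * Cw ^ 2 / lam3 * lam1 * lam2 = (7 * Cw ^ 2 * lam1 * lam2) / lam3 := by ring
    rw [e0, div_le_iff₀ hl3']
    refine le_trans ?_ hlam3'
    have e1 : lam1 ≤ lam1 ^ 2 := by nlinarith
    have e2 : 0 ≤ 7 * Cw ^ 2 * lam2 := by positivity
    nlinarith [mul_le_mul_of_nonneg_left e1 e2]
  have h6' := h6 Cw lam1 lam3 hCw hl1 hl3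
  have h7' := h7 Cw lam1 lam2 lam3 hCw hl1 hl2 hl3
  obtain ⟨c8, hc8, hc8', h54⟩ := h54 lam1 c3 hl1 hc3
  obtain ⟨ε', hε'⟩ : ∃ ε' : ℝ, ε' = ε / lam1 ^ 2 := ⟨_, rfl⟩
  have hε'0 : 0 < ε' := by rw [hε']; positivity
  have hε'l : ε' * lam1 ^ 2 = ε := by rw [hε']; field_simp
  refine ⟨⟨Cw, lam1, lam2, lam3, kap, LL, c2, c8⟩,
    ⟨hCw, hl1, hl2, hl3, hk, hk2, hLL, hc2, hc2', hc8, hc8'⟩, ?_⟩
  intro d1 hd1 be hbe
  obtain ⟨K1, hK1⟩ : ∃ K1 : ℝ, K1 = 2 * (882 * lam1 / (c8 * d1 ^ 3)) * lam3 ^ 2 / ε' := ⟨_, rfl⟩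
  have hK1' : 0 < K1 := by rw [hK1]; positivity
  refine ⟨K1, hK1', ?_⟩
  intro d8 hd8
  obtain ⟨K2, hK2⟩ : ∃ K2 : ℝ, K2 = 2 * (882 * lam1 / (c8 * d8 ^ 3)) * lam3 ^ 2 / ε' := ⟨_, rfl⟩
  have hK2' : 0 < K2 := by rw [hK2]; positivity
  obtain ⟨m8, h8⟩ := h8 Cw lam1 ε hCw hl1 hε0
  obtain ⟨m74, h74⟩ := h74 Cw lam1 lam2 lam3 c8 K2 d8 ε' hCw hl1 hl2 hl3 hc8 hK2' hd8 hε'0
  obtain ⟨mX, hmX⟩ := exists_nat_ge (2 * (882 * lam1 / (c8 * d1 ^ 3)) * Cw / ε' +
    2 * (882 * lam1 / (c8 * d8 ^ 3)) * Cw / ε')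
  refine ⟨m8 + m74 + mX + 2, ?_⟩
  intro mu hmu
  obtain ⟨n20, h74⟩ := h74 mu (by omega)
  refine ⟨n20 + 1, ?_⟩
  intro n2 hn2
  have h74 := h74 n2 (by omega)
  refine ⟨2 * n2 + 1, ?_⟩
  intro n0 hn0
  have hmu1 : 1 ≤ mu := by omega
  have hbe1 : 1 ≤ be := by omega
  have hvb : 1 ≤ be * mu ^ (10 * n0) := by
    rw [← lev_succ]; exact pos_lev hmu1 hbe1
  have hv : 1 ≤ mu ^ (10 * n0) := Nat.one_le_pow _ _ hmu1
  have hvvb : mu ^ (10 * n0) ≤ be * mu ^ (10 * n0) := Nat.le_mul_of_pos_left _ (by omega)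
  obtain ⟨vp2, h2'⟩ := h2' (be * mu ^ (10 * n0)) hvb
  obtain ⟨vp3, h3⟩ := h3 (be * mu ^ (10 * n0)) hvb
  obtain ⟨vp4, h4⟩ := h4 (be * mu ^ (10 * n0)) hvb
  obtain ⟨vp5, h5⟩ := h5 (mu ^ (10 * n0)) (be * mu ^ (10 * n0)) hv hvvb
  obtain ⟨vp8, h8⟩ := h8 mu (by omega) n0 be hbe
  refine ⟨Vp51 + vp2 + vp3 + vp4 + vp5 + vp8 + 2 * (be * mu ^ (10 * n0)) + 1, ?_⟩
  intro Vp hVp
  have hVp1 : 1 ≤ Vp := by omega
  obtain ⟨N51, h51⟩ := h51 Vp (by omega)
  obtain ⟨N1, h1⟩ := h1 Vp hVp1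
  obtain ⟨N2, h2'⟩ := h2' Vp (by omega)
  obtain ⟨N3, h3⟩ := h3 Vp (by omega)
  obtain ⟨N4, h4⟩ := h4 Vp (by omega)
  obtain ⟨N5, h5⟩ := h5 Vp (by omega)
  obtain ⟨N8, h8⟩ := h8 Vp (by omega)
  obtain ⟨NW, hW⟩ := hW (lev mu n0 be) (n0 + 1) (pos_lev hmu1 hbe1) (by
    intro l hl
    rcases Nat.lt_or_ge l n0 with h | h
    · rw [lev_of_le h.le, lev_of_le (by omega : l + 1 ≤ n0)]
      have e : mu ^ (10 * (l + 1)) = mu ^ 10 * mu ^ (10 * l) := by rw [← pow_add]; congr 1; omega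
      rw [e]
      refine Nat.mul_le_mul_right _ ?_
      calc 2 ≤ mu := by omega
        _ = mu ^ 1 := (pow_one _).symm
        _ ≤ mu ^ 10 := Nat.pow_le_pow_right hmu1 (by norm_num)
    · have : l = n0 := by omega
      subst this
      rw [lev_succ, lev_of_le le_rfl]
      exact Nat.mul_le_mul_right _ hbe)
  obtain ⟨N53, h53a⟩ := h53 Cw lam1 lam3 K1 hCw hl1 hl3 hK1' Vp hVp1
  obtain ⟨N53', h53b⟩ := h53 Cw lam1 lam3 K2 hCw hl1 hl3 hK2' Vp hVp1
  obtain ⟨N54, h54a⟩ := h54 d1 hd1 Vp hVp1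
  obtain ⟨N54', h54b⟩ := h54 d8 hd8 Vp hVp1
  obtain ⟨N74, h74⟩ := h74 n0 be (by omega) hbe Vp hVp1
  refine ⟨N51 + N1 + N2 + N3 + N4 + N5 + N8 + NW + N53 + N53' + N54 + N54' + N74 + 1, ?_⟩
  intro P hP hN k hT
  obtain ⟨W⟩ := hW P hP (by omega) k
  have hPc : 0 < P.card := by omega
  have hD : 0 < DD P Vp := DD_pos hPc hVp1
  have hlev : ∀ l ≤ n0 + 1, 1 ≤ lev mu n0 be l ∧ lev mu n0 be l ≤ be * mu ^ (10 * n0) :=
    fun l _ => ⟨pos_lev hmu1 hbe1, lev_le hmu1 hbe1⟩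
  have hX : 0 ≤ (P.card : ℝ) * DD P Vp ^ 2 := by positivity
  have hyX : ε * (P.card : ℝ) * DD P Vp ^ 2 = ε * ((P.card : ℝ) * DD P Vp ^ 2) := by ring
  have hcX : c2 * (P.card : ℝ) * DD P Vp ^ 2 = c2 * ((P.card : ℝ) * DD P Vp ^ 2) := by ring
  have hy20 : 20000 * (ε * (P.card : ℝ) * DD P Vp ^ 2) ≤ c2 * (P.card : ℝ) * DD P Vp ^ 2 := by
    rw [hyX, hcX, hε]; linarith
  obtain ⟨H0, hH0⟩ := preH_exists (c3 := c3) (a := ⟨Cw, lam1, lam2, lam3, kap, LL, c2, c8⟩)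
    (k := k) (mu := mu) (n2 := n2) (n0 := n0) (be := be) (Vp := Vp) W (by omega) (by omega)
    (y := ε * (P.card : ℝ) * DD P Vp ^ 2) (by positivity) hy20
    (h51 P hP (by omega) k hT)
    (up_of_filter (h1 P hP (by omega) k) (fun z _ h => not_lt.1 h))
    (up_of_filter (h2' P hP (by omega) k) (fun z _ h => not_not.1 h))
    (fun l hl => up_of_filter (h3 P hP (by omega) k _ _ W l hl (hlev l hl).1 (hlev l hl).2)
      (fun z _ h => not_not.1 h))
    (up_of_filter (h4 P hP (by omega) k _ _ W (n0 + 1) le_rfl lev_succ)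
      (fun z _ h => not_not.1 h))
    (up_of_filter (h5 P hP (by omega) k _ _ W n0 (by omega) (lev_of_le le_rfl))
      (fun z _ h hg hc => by
        by_contra hcon
        exact h ⟨hg, hc, hcon⟩))
    (fun l hl => up_of_filter ((h6' P hP k Vp hVp1 _ _ W l (by omega) (hlev l (by omega)).1).trans
      (by rw [hyX]; exact mul_le_mul_of_nonneg_right h6c hX)) (fun z _ h => h))
    (fun l hl => up_of_filter ((h7' P hP k Vp hVp1 _ _ W l n0 hl (by omega)
        (hlev l (by omega)).1 (hlev n0 (by omega)).1).trans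
      (by rw [hyX]; exact mul_le_mul_of_nonneg_right h7c hX)) (fun z _ h hg ht => h ⟨hg, ht⟩))
    (fun l hl hl' => up_of_filter (h8 P hP (by omega) k W l hl hl') (fun z _ h => h))
  have hmuR : (1 : ℝ) ≤ mu := by exact_mod_cast hmu1
  have hmXmu : (mX : ℝ) ≤ mu := by exact_mod_cast (by omega : mX ≤ mu)
  have hVsq : ∀ l, 1 ≤ l → l ≤ n0 → (mu : ℝ) ≤ ((lev mu n0 be l : ℕ) : ℝ) ^ 2 := by
    intro l hl1 hl2
    rw [lev_of_le hl2]
    push_cast
    rw [← pow_mul]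
    calc (mu : ℝ) = (mu : ℝ) ^ 1 := (pow_one _).symm
      _ ≤ (mu : ℝ) ^ (10 * l * 2) := pow_le_pow_right₀ hmuR (by omega)
  have hX1 : 0 ≤ 2 * (882 * lam1 / (c8 * d1 ^ 3)) * Cw / ε' := by positivity
  have hX2 : 0 ≤ 2 * (882 * lam1 / (c8 * d8 ^ 3)) * Cw / ε' := by positivity
  have hVpos : ∀ l, (0 : ℝ) < ((lev mu n0 be l : ℕ) : ℝ) := fun l => by
    have : 1 ≤ lev mu n0 be l := pos_lev hmu1 hbe1
    exact_mod_cast this
  have hlV : ∀ l ≤ n0 + 1, 2 * lev mu n0 be l ≤ Vp := fun l hl => by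
    have := (hlev l hl).2
    omega
  have r1 := card_nonrob W (H := H0) (l := n0) (Vp := Vp) hD hc8 hd1 hl1' hl3 hε'0 hK1
    (by linarith [hVsq n0 (by omega) le_rfl]) (hVpos n0)
    (h53a P hP (by omega) k _ _ W n0 (by omega) (hlev n0 (by omega)).1 (hlV n0 (by omega)) H0
      hH0.sub)
  have r2 := card_nonrob W (H := H0) (l := n2) (Vp := Vp) hD hc8 hd8 hl1' hl3 hε'0 hK2
    (by linarith [hVsq n2 (by omega) (by omega)]) (hVpos n2)
    (h53b P hP (by omega) k _ _ W n2 (by omega) (hlev n2 (by omega)).1 (hlV n2 (by omega)) H0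
      hH0.sub)
  set R1 := P.filter (fun v => c8 * d1 ^ 3 * DD P Vp ^ 4 <
    ((badX W lam3 K1 n0 H0 v).card : ℝ)) with hR1
  set R2 := P.filter (fun v => c8 * d8 ^ 3 * DD P Vp ^ 4 <
    ((badX W lam3 K2 n2 H0 v).card : ℝ)) with hR2
  set LP := P.filter (fun v => v ∉ R2 ∧ ∃ c : ℝ, ∃ two : Bool,
    d8 * DD P Vp ^ 2 ≤ (((fib H0 v).filter (fun e => Lac W mu n2 c two (esl e))).card : ℝ))
    with hLP
  have r3 : (LP.card : ℝ) ≤ ε' * (P.card : ℝ) := by
    refine h74 P hP (by omega) k W H0 hH0.sub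
      (fun z hz => hH0.g3 n2 (Or.inr (Or.inl rfl)) z hz) (fun z hz => hH0.t6' z hz) ?_ LP
      (Finset.filter_subset _ _) ?_ ?_
    · intro z hz
      have hzT := mem_T0' (hH0.sub hz)
      have hlast := (mem_T0.1 (hH0.sub hz)).2
      have hpair := (mem_nearAll.1 ((mem_lowG.1 hlast).1)).1
      have hwin := (W.winOf_pair (l := n2) (by omega) hpair).2
      have hcen := hH0.t2 z hz
      refine mem_cen.2 ⟨hzT.1, esl (lastE z), hwin.1, hwin.2, hcen.mono ?_⟩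
      have hbb : bb P.card (be * mu ^ (10 * n0)) ≤ bb P.card (lev mu n0 be n2) := by
        unfold bb
        refine Nat.div_le_div_left (Nat.pow_le_pow_left (hlev n2 (by omega)).2 3) ?_
        exact Nat.pow_pos (hlev n2 (by omega)).1
      refine le_trans ?_ hbb
      refine Nat.floor_le_of_le ?_
      have h0 : (0 : ℝ) ≤ (bb P.card (be * mu ^ (10 * n0)) : ℝ) := Nat.cast_nonneg _
      nlinarith
    · intro v hv S hS hSc
      have hv' := (Finset.mem_filter.1 hv)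
      have hvR : ((badX W lam3 K2 n2 H0 v).card : ℝ) ≤ c8 * d8 ^ 3 * DD P Vp ^ 4 := by
        by_contra hcon
        exact hv'.2.1 (Finset.mem_filter.2 ⟨hv'.1, not_le.1 hcon⟩)
      exact h54b P hP (by omega) k H0 hH0.sub hH0.t1 _ _ _ W lam3 K2 n2 v hvR S hS hSc
    · intro v hv
      exact (Finset.mem_filter.1 hv).2.2
  have hfin : ∀ R : Finset Pt, (R.card : ℝ) ≤ ε' * (P.card : ℝ) →
      (R.card : ℝ) * (lam1 ^ 2 * DD P Vp ^ 2) ≤ ε * (P.card : ℝ) * DD P Vp ^ 2 := by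
    intro R hR
    calc (R.card : ℝ) * (lam1 ^ 2 * DD P Vp ^ 2)
        ≤ (ε' * (P.card : ℝ)) * (lam1 ^ 2 * DD P Vp ^ 2) :=
          mul_le_mul_of_nonneg_right hR (by positivity)
      _ = (ε' * lam1 ^ 2) * (P.card : ℝ) * DD P Vp ^ 2 := by ring
      _ = ε * (P.card : ℝ) * DD P Vp ^ 2 := by rw [hε'l]
  have hy12 : 12 * (ε * (P.card : ℝ) * DD P Vp ^ 2) ≤ c2 * (P.card : ℝ) * DD P Vp ^ 2 := by
    have : 0 ≤ ε * (P.card : ℝ) * DD P Vp ^ 2 := by positivity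
    linarith
  obtain ⟨H, hH⟩ := hsys_of_preH (a := ⟨Cw, lam1, lam2, lam3, kap, LL, c2, c8⟩) (K1 := K1)
    (d1 := d1) (d8 := d8) ⟨hCw, hl1, hl2, hl3, hk, hk2, hLL, hc2, hc2', hc8, hc8'⟩
    hH0 hD hd1 hd8 (by omega) hy12 (R1 := R1) (R2 := R2) (LP := LP)
    (hfin R1 r1) (hfin R2 r2) (hfin LP r3)
    (by
      intro v hv hvR S hS hSc
      have hvR' : ((badX W lam3 K1 n0 H0 v).card : ℝ) ≤ c8 * d1 ^ 3 * DD P Vp ^ 4 := by
        by_contra hcon
        exact hvR (Finset.mem_filter.2 ⟨hv, not_le.1 hcon⟩)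
      exact h54a P hP (by omega) k H0 hH0.sub hH0.t1 _ _ _ W lam3 K1 n0 v hvR' S hS hSc)
    (by
      intro v hv hvR hvL c two
      by_contra hcon
      exact hvL (Finset.mem_filter.2 ⟨hv, hvR, c, two, not_lt.1 hcon⟩))
  exact ⟨W, H, hH⟩

end Crest.Agent.R51
end
end

-- ▼ part R51/Walk51

/-!
# Row 51, B5, section 5.1: lower bound for the number of monotone 2-walks (helper774)
-/

set_option autoImplicit false

noncomputable section

open Classical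

namespace Crest.Agent.R51

namespace W51

lemma crs_mono {E E' F F' : Finset Edge} (h : E ⊆ E') (h' : F ⊆ F') : crs E F ≤ crs E' F' := by
  unfold crs
  exact Finset.card_le_card (Finset.filter_subset_filter _ (Finset.product_subset_product h h'))

/-- A window containing all slopes. -/
lemma exists_wide (P : Finset Pt) : ∃ s t : ℝ, s < t ∧ NonSlope P s ∧ NonSlope P t ∧
    ∀ e ∈ pairs P, s < esl e ∧ esl e < t := by
  obtain ⟨s, hs⟩ : ∃ s, ∀ e ∈ pairs P, s < esl e := by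
    rcases (pairs P).eq_empty_or_nonempty with h | h
    · exact ⟨0, by simp [h]⟩
    · obtain ⟨m, _, hm2⟩ := Finset.exists_min_image (pairs P) esl h
      exact ⟨esl m - 1, fun e he => by have := hm2 e he; linarith⟩
  obtain ⟨t, ht⟩ : ∃ t, ∀ e ∈ pairs P, esl e < t := by
    rcases (pairs P).eq_empty_or_nonempty with h | h
    · exact ⟨0, by simp [h]⟩
    · obtain ⟨m, _, hm2⟩ := Finset.exists_max_image (pairs P) esl h
      exact ⟨esl m + 1, fun e he => by have := hm2 e he; linarith⟩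
  refine ⟨min s (t - 1), t, ?_, ?_, ?_, ?_⟩
  · have := min_le_right s (t - 1)
    linarith
  · intro e he h
    have := min_le_left s (t - 1)
    have := hs e he
    linarith
  · intro e he h
    exact absurd (ht e he) (by rw [h]; exact lt_irrefl _)
  · intro e he
    exact ⟨lt_of_le_of_lt (min_le_left _ _) (hs e he), ht e he⟩

/-- left degree -/
def dL (E : Finset Edge) (w : Pt) : ℕ := (E.filter (fun e => e.2 = w)).card
/-- right degree -/
def dR (E : Finset Edge) (w : Pt) : ℕ := (E.filter (fun e => e.1 = w)).card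

lemma nearE_wide {P : Finset Pt} {k b : ℕ} {s t : ℝ}
    (h : ∀ e ∈ pairs P, s < esl e ∧ esl e < t) : nearE P k b s t = nearAll P k b := by
  ext e
  rw [mem_nearE, mem_nearAll]
  constructor
  · exact fun h' => ⟨h'.1, h'.2.2.2⟩
  · exact fun h' => ⟨h'.1, (h e h'.1).1, (h e h'.1).2, h'.2⟩

lemma deg_eq {P : Finset Pt} {E : Finset Edge} (hE : E ⊆ pairs P) (w : Pt) :
    dg E w = dL E w + dR E w := by
  unfold dg dL dR
  rw [Finset.filter_or, add_comm, Finset.card_union_of_disjoint]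
  rw [Finset.disjoint_left]
  intro e he he'
  have h1 := Finset.mem_filter.1 he
  have h2 := (Finset.mem_filter.1 he').2
  have h3 := (mem_pairs.1 (hE h1.1)).2.2
  rw [h1.2, h2] at h3
  exact lt_irrefl _ h3

lemma deg_balance {P : Finset Pt} (hG : Generic P) (k b : ℕ) (w : Pt) :
    dL (nearAll P k b) w ≤ dR (nearAll P k b) w + (2 * b + 1) ∧
      dR (nearAll P k b) w ≤ dL (nearAll P k b) w + (2 * b + 1) := by
  obtain ⟨s, t, hst, hs, ht, h⟩ := exists_wide P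
  have := balance hG hs ht hst k b w
  unfold Lp Rp at this
  rw [nearE_wide h] at this
  exact this

/-- Handshake inequality/equality for the edge sets in `pairs P`. -/
lemma sum_dg {P : Finset Pt} {E : Finset Edge} (hE : E ⊆ pairs P) :
    ∑ w ∈ P, dg E w = 2 * E.card := by
  have hL : ∑ w ∈ P, dL E w = E.card := by
    unfold dL
    rw [← Finset.card_eq_sum_card_fiberwise]
    intro e he
    exact (mem_pairs.1 (hE (Finset.mem_coe.1 he))).2.1
  have hR : ∑ w ∈ P, dR E w = E.card := by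
    unfold dR
    rw [← Finset.card_eq_sum_card_fiberwise]
    intro e he
    exact (mem_pairs.1 (hE (Finset.mem_coe.1 he))).1
  calc ∑ w ∈ P, dg E w = ∑ w ∈ P, (dL E w + dR E w) :=
        Finset.sum_congr rfl (fun w _ => deg_eq hE w)
    _ = 2 * E.card := by rw [Finset.sum_add_distrib, hL, hR]; ring

/-- W0 (Dey): upper bound for the number of near-`b` pairs. -/
lemma dey_upper {P : Finset Pt} (hG : Generic P) (k b : ℕ) (hb : 1 ≤ b) {D : ℝ} (hD1 : 1 ≤ D)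
    (hD : (P.card : ℝ) * (b : ℝ) ^ 2 ≤ D ^ 3) : ((nearAll P k b).card : ℝ) ≤ 23 * P.card * D := by
  have hN : (0 : ℝ) ≤ P.card := Nat.cast_nonneg _
  rcases crossing_lemma hG (Finset.Subset.refl P) (nearAll_subset (k := k) (b := b)) with h | h
  · nlinarith
  · have h2 : (crs (nearAll P k b) (nearAll P k b) : ℝ) ≤ 18 * b * b * P.card * P.card := by
      exact_mod_cast dey_all hG k b k b hb hb
    have h3 : ((nearAll P k b).card : ℝ) ^ 3 ≤ (23 * P.card * D) ^ 3 := by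
      calc ((nearAll P k b).card : ℝ) ^ 3
          ≤ 648 * (P.card : ℝ) ^ 2 * (18 * b * b * P.card * P.card) :=
            h.trans (mul_le_mul_of_nonneg_left h2 (by positivity))
        _ = 11664 * (P.card : ℝ) ^ 3 * (P.card * (b : ℝ) ^ 2) := by ring
        _ ≤ 11664 * (P.card : ℝ) ^ 3 * D ^ 3 := mul_le_mul_of_nonneg_left hD (by positivity)
        _ ≤ 12167 * (P.card : ℝ) ^ 3 * D ^ 3 := by
            have : (0 : ℝ) ≤ (P.card : ℝ) ^ 3 * D ^ 3 := by positivity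
            nlinarith
        _ = (23 * P.card * D) ^ 3 := by ring
    exact le_of_pow_le_pow_left₀ (by norm_num) (by positivity) h3

/-- points of degree `> Λ` -/
def High (P : Finset Pt) (E : Finset Edge) (Λ : ℝ) : Finset Pt := P.filter (fun p => Λ < (dg E p : ℝ))

/-- edges with an end of degree `> Λ` -/
def EH (P : Finset Pt) (E : Finset Edge) (Λ : ℝ) : Finset Edge :=
  E.filter (fun e => e.1 ∈ High P E Λ ∨ e.2 ∈ High P E Λ)

lemma EH_subset {P : Finset Pt} {E : Finset Edge} {Λ : ℝ} : EH P E Λ ⊆ E := Finset.filter_subset _ _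

lemma mem_lowG_or_EH {P : Finset Pt} {E : Finset Edge} (hE : E ⊆ pairs P) {Λ : ℝ} {e : Edge}
    (he : e ∈ E) : e ∈ lowG E Λ ∨ e ∈ EH P E Λ := by
  by_cases h : (dg E e.1 : ℝ) ≤ Λ ∧ (dg E e.2 : ℝ) ≤ Λ
  · exact Or.inl (mem_lowG.2 ⟨he, h⟩)
  · right
    have h1 := mem_pairs.1 (hE he)
    unfold EH High
    rw [Finset.mem_filter, Finset.mem_filter, Finset.mem_filter]
    rw [not_and_or, not_le, not_le] at h
    exact ⟨he, h.imp (fun h => ⟨h1.1, h⟩) (fun h => ⟨h1.2.1, h⟩)⟩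

/-- the number of edges meeting high points is small -/
lemma card_EH {P : Finset Pt} (hG : Generic P) (k b : ℕ) (hb : 1 ≤ b) {c0 D lam1 : ℝ}
    (hc0 : 0 < c0) (hlam : 3 * 10 ^ 11 ≤ lam1 * c0 ^ 3) (hlam0 : 0 < lam1) (hD1 : 1 ≤ D)
    (hD : (P.card : ℝ) * (b : ℝ) ^ 2 ≤ D ^ 3) (hD2 : 1728 ≤ c0 * D) :
    ((EH P (nearAll P k b) (lam1 * D)).card : ℝ) ≤ c0 / 24 * P.card * D := by
  have hN : (0 : ℝ) ≤ P.card := Nat.cast_nonneg _
  have hsub : EH P (nearAll P k b) (lam1 * D) ⊆ pairs P := EH_subset.trans nearAll_subset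
  have hHP : High P (nearAll P k b) (lam1 * D) ⊆ P := Finset.filter_subset _ _
  have hcardH : ((High P (nearAll P k b) (lam1 * D)).card : ℝ) * (lam1 * D) ≤ 46 * P.card * D := by
    have h1 : ((High P (nearAll P k b) (lam1 * D)).card : ℝ) * (lam1 * D)
        ≤ ∑ w ∈ P, (dg (nearAll P k b) w : ℝ) := by
      calc ((High P (nearAll P k b) (lam1 * D)).card : ℝ) * (lam1 * D)
          = ∑ _w ∈ High P (nearAll P k b) (lam1 * D), lam1 * D := by
            rw [Finset.sum_const, nsmul_eq_mul]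
        _ ≤ ∑ w ∈ High P (nearAll P k b) (lam1 * D), (dg (nearAll P k b) w : ℝ) :=
            Finset.sum_le_sum (fun w hw => (Finset.mem_filter.1 hw).2.le)
        _ ≤ ∑ w ∈ P, (dg (nearAll P k b) w : ℝ) :=
            Finset.sum_le_sum_of_subset_of_nonneg hHP (fun _ _ _ => Nat.cast_nonneg _)
    have h2 : (∑ w ∈ P, (dg (nearAll P k b) w : ℝ)) = 2 * ((nearAll P k b).card : ℝ) := by
      exact_mod_cast sum_dg (P := P) (E := nearAll P k b) nearAll_subset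
    have h3 := dey_upper hG k b hb hD1 hD
    rw [h2] at h1
    linarith
  rcases crossing_lemma_unbalanced hG (Finset.Subset.refl P) hHP hsub
    (fun e he => (Finset.mem_filter.1 he).2) with h | h
  · have : (72 : ℝ) * P.card ≤ c0 / 24 * P.card * D := by nlinarith
    linarith
  · have h2 : (crs (EH P (nearAll P k b) (lam1 * D)) (EH P (nearAll P k b) (lam1 * D)) : ℝ)
        ≤ 18 * b * b * P.card * P.card := by
      have h3 := dey_all hG k b k b hb hb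
      have h4 := crs_mono (EH_subset (P := P) (E := nearAll P k b) (Λ := lam1 * D))
        (EH_subset (P := P) (E := nearAll P k b) (Λ := lam1 * D))
      exact_mod_cast h4.trans h3
    have hD0 : 0 < D := by linarith
    have hcardH' : ((High P (nearAll P k b) (lam1 * D)).card : ℝ) ≤ 46 * P.card / lam1 := by
      rw [le_div_iff₀ hlam0]
      have : ((High P (nearAll P k b) (lam1 * D)).card : ℝ) * lam1 * D ≤ 46 * P.card * D := by
        linarith
      exact le_of_mul_le_mul_right this hD0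
    have h3 : ((EH P (nearAll P k b) (lam1 * D)).card : ℝ) ^ 3 ≤ (c0 / 24 * P.card * D) ^ 3 := by
      have hX : (20736 : ℝ) * 18 * 46 / lam1 ≤ (c0 / 24) ^ 3 := by
        rw [div_le_iff₀ hlam0]
        have : (c0 / 24) ^ 3 * lam1 = (lam1 * c0 ^ 3) / 13824 := by ring
        rw [this, le_div_iff₀ (by norm_num)]
        linarith
      calc ((EH P (nearAll P k b) (lam1 * D)).card : ℝ) ^ 3
          ≤ 20736 * (P.card : ℝ) * ((High P (nearAll P k b) (lam1 * D)).card : ℝ)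
              * (crs (EH P (nearAll P k b) (lam1 * D)) (EH P (nearAll P k b) (lam1 * D)) : ℝ) := h
        _ ≤ 20736 * (P.card : ℝ) * (46 * P.card / lam1) * (18 * b * b * P.card * P.card) := by
            gcongr
        _ = (20736 * 18 * 46 / lam1) * ((P.card : ℝ) ^ 3 * (P.card * (b : ℝ) ^ 2)) := by
            ring
        _ ≤ (20736 * 18 * 46 / lam1) * ((P.card : ℝ) ^ 3 * D ^ 3) := by
            gcongr
        _ ≤ (c0 / 24) ^ 3 * ((P.card : ℝ) ^ 3 * D ^ 3) :=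
            mul_le_mul_of_nonneg_right hX (by positivity)
        _ = (c0 / 24 * P.card * D) ^ 3 := by ring
    exact le_of_pow_le_pow_left₀ (by norm_num) (by positivity) h3

/-- number of walks through the middle point `w` -/
lemma card_walks_ge {P : Finset Pt} {G : Finset Edge} (hG : G ⊆ pairs P) (S : Finset Pt)
    (hS : S ⊆ P) : ∑ w ∈ S, dL G w * dR G w ≤ (walks P G).card := by
  have h1 : ∑ w ∈ S, dL G w * dR G w
      ≤ ∑ w ∈ P, ((walks P G).filter (fun z => z.2.1 = w)).card := by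
    refine le_trans (Finset.sum_le_sum (fun w _ => ?_))
      (Finset.sum_le_sum_of_subset hS)
    unfold dL dR
    rw [← Finset.card_product]
    refine Finset.card_le_card_of_injOn (fun x => (x.1.1, (w, x.2.2))) ?_ ?_
    · rintro ⟨e, f⟩ hx
      rw [Finset.mem_coe, Finset.mem_product, Finset.mem_filter, Finset.mem_filter] at hx
      obtain ⟨⟨he, he2⟩, hf, hf1⟩ := hx
      rw [Finset.mem_coe, Finset.mem_filter, mem_walks hG]
      refine ⟨⟨?_, ?_⟩, rfl⟩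
      · show (e.1, w) ∈ G
        rw [← he2]; exact he
      · show (w, f.2) ∈ G
        rw [← hf1]; exact hf
    · rintro ⟨e, f⟩ hx ⟨e', f'⟩ hx' hh
      rw [Finset.mem_coe, Finset.mem_product, Finset.mem_filter, Finset.mem_filter] at hx hx'
      simp only [Prod.mk.injEq, true_and] at hh
      obtain ⟨h1, h2⟩ := hh
      exact Prod.ext (Prod.ext h1 (hx.1.2.trans hx'.1.2.symm))
        (Prod.ext (hx.2.2.trans hx'.2.2.symm) h2)
  refine h1.trans (le_of_eq ?_)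
  rw [← Finset.card_eq_sum_card_fiberwise]
  intro z hz
  have := (mem_walks hG).1 (Finset.mem_coe.1 hz)
  exact (mem_pairs.1 (hG this.1)).2.1

/-- **5.1**, b-form. -/
theorem T0_lower {P : Finset Pt} (hG : Generic P) (k b : ℕ) (hb : 1 ≤ b) {c0 D lam1 : ℝ}
    (hc0 : 0 < c0) (hlam : 3 * 10 ^ 11 ≤ lam1 * c0 ^ 3) (hlam0 : 0 < lam1) (hD1 : 1 ≤ D)
    (hD : (P.card : ℝ) * (b : ℝ) ^ 2 ≤ D ^ 3) (hD2 : 1728 ≤ c0 * D)
    (hb2 : (b : ℝ) + 1 ≤ c0 / 32 * D)
    (hE : c0 * P.card * D ≤ ((nearAll P k b).card : ℝ)) :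
    c0 ^ 2 / 64 * P.card * D ^ 2 ≤ ((T0 P k b (lam1 * D)).card : ℝ) := by
  have hN : (0 : ℝ) ≤ P.card := Nat.cast_nonneg _
  have hD0 : 0 < D := by linarith
  set E := nearAll P k b with hEdef
  have hEP : E ⊆ pairs P := nearAll_subset
  set Λ := lam1 * D with hΛ
  set G := lowG E Λ with hGdef
  have hGP : G ⊆ pairs P := (lowG_subset _ _).trans hEP
  set S := P.filter (fun w => c0 / 4 * D ≤ (dg E w : ℝ) ∧ 8 * dg (EH P E Λ) w ≤ dg E w) with hS
  have hSP : S ⊆ P := Finset.filter_subset _ _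
  -- degrees of good points in `G`
  have hdeg : ∀ w ∈ S, (dg E w : ℝ) / 4 ≤ dL G w ∧ (dg E w : ℝ) / 4 ≤ dR G w := by
    intro w hw
    obtain ⟨hwP, hw1, hw2⟩ := Finset.mem_filter.1 hw
    obtain ⟨hb1, hb3⟩ := deg_balance hG k b w
    have hde := deg_eq hEP w
    have hL : dL E w ≤ dL G w + dg (EH P E Λ) w := by
      unfold dL dg
      refine (Finset.card_le_card ?_).trans (Finset.card_union_le _ _)
      intro e he
      rw [Finset.mem_filter] at he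
      rw [Finset.mem_union, Finset.mem_filter, Finset.mem_filter]
      rcases mem_lowG_or_EH hEP (Λ := Λ) he.1 with h | h
      · exact Or.inl ⟨h, he.2⟩
      · exact Or.inr ⟨h, Or.inr he.2⟩
    have hR : dR E w ≤ dR G w + dg (EH P E Λ) w := by
      unfold dR dg
      refine (Finset.card_le_card ?_).trans (Finset.card_union_le _ _)
      intro e he
      rw [Finset.mem_filter] at he
      rw [Finset.mem_union, Finset.mem_filter, Finset.mem_filter]
      rcases mem_lowG_or_EH hEP (Λ := Λ) he.1 with h | h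
      · exact Or.inl ⟨h, he.2⟩
      · exact Or.inr ⟨h, Or.inl he.2⟩
    have hb1' : (dL E w : ℝ) ≤ dR E w + (2 * b + 1) := by exact_mod_cast hb1
    have hb3' : (dR E w : ℝ) ≤ dL E w + (2 * b + 1) := by exact_mod_cast hb3
    have hde' : (dg E w : ℝ) = dL E w + dR E w := by exact_mod_cast hde
    have hL' : (dL E w : ℝ) ≤ dL G w + dg (EH P E Λ) w := by exact_mod_cast hL
    have hR' : (dR E w : ℝ) ≤ dR G w + dg (EH P E Λ) w := by exact_mod_cast hR
    have hw2' : 8 * (dg (EH P E Λ) w : ℝ) ≤ dg E w := by exact_mod_cast hw2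
    have h8 : (b : ℝ) + 1 ≤ (dg E w : ℝ) / 8 := by
      have : c0 / 32 * D = (c0 / 4 * D) / 8 := by ring
      rw [this] at hb2
      linarith
    constructor <;> linarith
  -- the degree mass of good points
  have hmass : c0 * P.card * D ≤ ∑ w ∈ S, (dg E w : ℝ) := by
    have h1 : (∑ w ∈ P, (dg E w : ℝ)) = 2 * (E.card : ℝ) := by
      exact_mod_cast sum_dg (P := P) hEP
    have h2 : (∑ w ∈ P, (dg (EH P E Λ) w : ℝ)) = 2 * ((EH P E Λ).card : ℝ) := by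
      exact_mod_cast sum_dg (P := P) (EH_subset.trans hEP)
    have h3 : ((EH P E Λ).card : ℝ) ≤ c0 / 24 * P.card * D :=
      card_EH hG k b hb hc0 hlam hlam0 hD1 hD hD2
    have h4 : ∑ w ∈ P, (dg E w : ℝ) ≤ (∑ w ∈ S, (dg E w : ℝ))
        + ∑ w ∈ P, (c0 / 4 * D + 8 * (dg (EH P E Λ) w : ℝ)) := by
      rw [hS, Finset.sum_filter, ← Finset.sum_add_distrib]
      refine Finset.sum_le_sum (fun w _ => ?_)
      have hn : (0 : ℝ) ≤ dg (EH P E Λ) w := Nat.cast_nonneg _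
      have hn' : (0 : ℝ) ≤ c0 / 4 * D := by positivity
      split_ifs with hc
      · linarith
      · rw [not_and_or, not_le, not_le] at hc
        rcases hc with hc | hc
        · linarith
        · have : (dg E w : ℝ) < 8 * dg (EH P E Λ) w := by exact_mod_cast hc
          linarith
    have h6 : ∑ w ∈ P, (c0 / 4 * D + 8 * (dg (EH P E Λ) w : ℝ))
        = P.card * (c0 / 4 * D) + 8 * (2 * ((EH P E Λ).card : ℝ)) := by
      rw [Finset.sum_add_distrib, Finset.sum_const, nsmul_eq_mul, ← h2, Finset.mul_sum]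
    rw [h6, h1] at h4
    have h5 : c0 * P.card * D ≤ (E.card : ℝ) := hE
    linarith
  -- conclusion
  have hw : ((∑ w ∈ S, dL G w * dR G w : ℕ) : ℝ) ≤ ((T0 P k b Λ).card : ℝ) := by
    exact_mod_cast card_walks_ge hGP S hSP
  have hlow : (c0 / 4 * D) / 16 * ∑ w ∈ S, (dg E w : ℝ) ≤ ((∑ w ∈ S, dL G w * dR G w : ℕ) : ℝ) := by
    push_cast
    rw [Finset.mul_sum]
    refine Finset.sum_le_sum (fun w hw => ?_)
    obtain ⟨h1, h2⟩ := hdeg w hw
    have h3 := (Finset.mem_filter.1 hw).2.1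
    have h0 : (0 : ℝ) ≤ dg E w := Nat.cast_nonneg _
    calc (c0 / 4 * D) / 16 * (dg E w : ℝ) ≤ (dg E w : ℝ) / 16 * dg E w := by gcongr
      _ = (dg E w : ℝ) / 4 * ((dg E w : ℝ) / 4) := by ring
      _ ≤ (dL G w : ℝ) * (dR G w : ℝ) := by gcongr
  calc c0 ^ 2 / 64 * P.card * D ^ 2 = (c0 / 4 * D) / 16 * (c0 * P.card * D) := by ring
    _ ≤ (c0 / 4 * D) / 16 * ∑ w ∈ S, (dg E w : ℝ) := by gcongr
    _ ≤ _ := hlow.trans hw

end W51

/-- **5.1** in the frozen form. -/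
theorem i51 : I51 := by
  intro c0 hc0
  refine ⟨3 * 10 ^ 11 / c0 ^ 3 + 1, ?_, min 1 (c0 ^ 2 / 64), lt_min one_pos (by positivity),
    min_le_left _ _, ⌈64 / c0⌉₊ + 1, ?_⟩
  · have : 0 < 3 * 10 ^ 11 / c0 ^ 3 := by positivity
    linarith
  intro Vp hVp
  refine ⟨Vp ^ 3 + ⌈(1728 / c0 + 64 / c0 + 1) * (Vp : ℝ) ^ 2⌉₊, ?_⟩
  intro P hG hN k hT
  have hVp0 : (0 : ℝ) < Vp := by
    have : 1 ≤ Vp := by omega
    exact_mod_cast this
  have hVpc : 64 / c0 ≤ (Vp : ℝ) := by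
    have h1 := Nat.le_ceil (64 / c0)
    have h2 : ((⌈64 / c0⌉₊ + 1 : ℕ) : ℝ) ≤ Vp := by exact_mod_cast hVp
    push_cast at h2
    linarith
  set D := DD P Vp with hDdef
  have hDval : D = (P.card : ℝ) / (Vp : ℝ) ^ 2 := rfl
  have hDlow : 1728 / c0 + 64 / c0 + 1 ≤ D := by
    rw [hDval, le_div_iff₀ (by positivity)]
    have h1 := Nat.le_ceil ((1728 / c0 + 64 / c0 + 1) * (Vp : ℝ) ^ 2)
    have h2 : ((⌈(1728 / c0 + 64 / c0 + 1) * (Vp : ℝ) ^ 2⌉₊ : ℕ) : ℝ) ≤ P.card := by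
      exact_mod_cast (Nat.le_add_left _ _).trans hN
    linarith
  have hq1 : 0 < 1728 / c0 := by positivity
  have hq2 : 0 < 64 / c0 := by positivity
  have hD1 : 1 ≤ D := by linarith
  have hb : 1 ≤ bb P.card Vp := by
    unfold bb
    have hVpN : 0 < Vp := by omega
    rw [Nat.one_le_div_iff (by positivity)]
    exact (Nat.le_add_right _ _).trans hN
  have hbR : (bb P.card Vp : ℝ) ≤ (P.card : ℝ) / (Vp : ℝ) ^ 3 := by
    have : ((bb P.card Vp : ℕ) : ℝ) ≤ ((P.card : ℕ) : ℝ) / ((Vp ^ 3 : ℕ) : ℝ) := Nat.cast_div_le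
    push_cast at this
    exact this
  have hbD : (bb P.card Vp : ℝ) ≤ D / Vp := by
    refine hbR.trans (le_of_eq ?_)
    rw [hDval]
    field_simp
  have hN0 : (0 : ℝ) ≤ P.card := Nat.cast_nonneg _
  have key := W51.T0_lower hG k (bb P.card Vp) hb (c0 := c0) (D := D)
    (lam1 := 3 * 10 ^ 11 / c0 ^ 3 + 1) hc0 ?_ (by positivity) hD1 ?_ ?_ ?_ ?_
  · refine le_trans ?_ key
    have hp : (0 : ℝ) ≤ (P.card : ℝ) * D ^ 2 := by positivity
    have := mul_le_mul_of_nonneg_right (min_le_right 1 (c0 ^ 2 / 64)) hp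
    calc min 1 (c0 ^ 2 / 64) * (P.card : ℝ) * D ^ 2
        = min 1 (c0 ^ 2 / 64) * ((P.card : ℝ) * D ^ 2) := by ring
      _ ≤ c0 ^ 2 / 64 * ((P.card : ℝ) * D ^ 2) := this
      _ = c0 ^ 2 / 64 * P.card * D ^ 2 := by ring
  · have : (3 * 10 ^ 11 / c0 ^ 3 + 1) * c0 ^ 3 = 3 * 10 ^ 11 + c0 ^ 3 := by
      field_simp
    rw [this]
    have : 0 < c0 ^ 3 := by positivity
    linarith
  · have h1 : (bb P.card Vp : ℝ) ^ 2 ≤ ((P.card : ℝ) / (Vp : ℝ) ^ 3) ^ 2 := by gcongr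
    calc (P.card : ℝ) * (bb P.card Vp : ℝ) ^ 2
        ≤ (P.card : ℝ) * ((P.card : ℝ) / (Vp : ℝ) ^ 3) ^ 2 := by gcongr
      _ = D ^ 3 := by
          rw [hDval]
          field_simp
  · have h1 : 1728 / c0 ≤ D := by linarith
    rw [div_le_iff₀ hc0] at h1
    linarith
  · have h1 : D / Vp ≤ c0 / 64 * D := by
      rw [div_le_iff₀ hVp0]
      have : 64 ≤ Vp * c0 := by
        rw [div_le_iff₀ hc0] at hVpc
        exact hVpc
      have hD0 : 0 < D := by linarith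
      nlinarith
    have h2 : 64 / c0 ≤ D := by linarith
    rw [div_le_iff₀ hc0] at h2
    have h3 : 1 ≤ c0 / 64 * D := by linarith
    have h4 : c0 / 32 * D = c0 / 64 * D + c0 / 64 * D := by ring
    rw [h4]
    linarith
  · have := tight_iff.1 hT
    calc c0 * P.card * D = c0 * (P.card : ℝ) ^ 2 / (Vp : ℝ) ^ 2 := by
          rw [hDval]; field_simp
      _ ≤ _ := this

end Crest.Agent.R51
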