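import Crest.Agent.R51.Loc2
import Crest.Agent.R51.WinDefs
import Crest.Agent.R51.FluxNb
import Crest.Agent.R51.Loc5
import Crest.Agent.R51.WinDey
import Crest.Agent.R51.WinMany
import Crest.Agent.R51.WalkH
import Crest.Agent.R51.WalkA
import Crest.Agent.R51.WinIrr
import Crest.Agent.R51.WinBad
import Crest.Agent.R51.WinSysB
import Crest.Agent.R51.WalkDis
import Crest.Agent.R51.LacWt
import Crest.Agent.R51.HSys
import Crest.Agent.R51.Active
import Crest.Agent.R51.CrossStr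
import Crest.Agent.R51.Dey
import Crest.Agent.R51.WalkMid

-- ▼ part R51/Loc3
section

/-!
# Row 51, B4 (locality lemma): the windows of one level of a window system; the flux constants
(helper795)
-/

set_option autoImplicit false

noncomputable section

open Classical

namespace Crest.Agent.R51.Loc

variable {P : Finset Pt}

/-- The windows of one level of a window system form a `Wins` family. -/
theorem wins_of_WSys {k : ℕ} {V : ℕ → ℕ} {L : ℕ} {Cw : ℝ} (S : WSys P k V L Cw) {l : ℕ}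
    (hl : l ≤ L) : Wins P (wins (S.cuts l)) where
  ns J hJ := ⟨S.nons l hl _ (mem_wins.1 hJ).1, S.nons l hl _ (mem_wins.1 hJ).2.1⟩
  lt J hJ := (mem_wins.1 hJ).2.2.1
  disj J hJ J' hJ' hne := by
    by_contra hc
    rw [not_or, not_le, not_le] at hc
    have h1 : max J.1 J'.1 < min J.2 J'.2 :=
      max_lt (lt_min (mem_wins.1 hJ).2.2.1 hc.2) (lt_min hc.1 (mem_wins.1 hJ').2.2.1)
    obtain ⟨θ, h2, h3⟩ := exists_between h1
    exact hne (win_unique hJ hJ' ((le_max_left _ _).trans_lt h2) (h3.trans_le (min_le_left _ _))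
      ((le_max_right _ _).trans_lt h2) (h3.trans_le (min_le_right _ _)))
  cover e he := exists_win (S.sub 0 l (Nat.zero_le _) hl S.lo_mem)
    (S.sub 0 l (Nat.zero_le _) hl S.hi_mem) (S.lo_lt_slope e he) (S.slope_lt_hi e he)
    (fun h => S.nons l hl _ h e he rfl)


/-- the windows of level `l` form a `Wins` family. -/
theorem wins_wins {k : ℕ} {V : ℕ → ℕ} {L : ℕ} {Cw : ℝ} (S : WSys P k V L Cw) {l : ℕ}
    (hl : l ≤ L) : Wins P (wins (S.cuts l)) := wins_of_WSys S hl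

/-- `FluxHyp` from G7. -/
theorem fluxHyp_of_flux {W : Finset (ℝ × ℝ)} (hG : Generic P) (hW : Wins P W) {k bf X χ : ℕ}
    (h2 : 2 ≤ bf) (hX : 100 * bf ≤ X) (hχ : 16 * χ ≤ bf * X) :
    FluxHyp P W k bf X χ := by
  intro v hv w hw J hJ hne hsl hfar hc hXn
  have hvw : v ≠ w := by
    rintro rfl
    exact hne rfl
  have h3 := flux_nbW' hG (hW.ns J hJ).1 (hW.ns J hJ).2 (by omega : 1 ≤ bf) hv hw hvw hsl hfar hc
  set Y := (nbW P k bf J.1 J.2 w).card
  set Z := ((nearE P k (2 * bf) J.1 J.2).filter (fun e => Cross e (mk v w))).card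
  obtain ⟨c, rfl⟩ : ∃ c, bf = c + 2 := ⟨bf - 2, by omega⟩
  obtain ⟨y, hy⟩ : ∃ y, Y = 16 * (c + 2) + 8 + y := ⟨Y - (16 * (c + 2) + 8), by omega⟩
  have h4 : Y - (16 * (c + 2) + 8) = y := by omega
  have h5 : c + 2 - 1 = c + 1 := by omega
  rw [h4, h5] at h3
  have h6 : 5 * y ≥ 4 * X := by omega
  have h7 : 5 * ((c + 1) * y) ≥ (c + 1) * (4 * X) := by
    calc 5 * ((c + 1) * y) = (c + 1) * (5 * y) := by ring
      _ ≥ (c + 1) * (4 * X) := Nat.mul_le_mul_left _ h6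
  have h8 : 2 * ((c + 1) * (4 * X)) ≥ (c + 2) * (4 * X) := by
    calc 2 * ((c + 1) * (4 * X)) = (2 * (c + 1)) * (4 * X) := by ring
      _ ≥ (c + 2) * (4 * X) := Nat.mul_le_mul_right _ (by omega)
  have h9 : (c + 2) * (4 * X) = 4 * ((c + 2) * X) := by ring
  omega

/-- `FluxHyp` in the form used in `Loc4`. -/
theorem flux_hyp {W : Finset (ℝ × ℝ)} (hG : Generic P) (hW : Wins P W) {k bf X : ℕ}
    (hbf : 4 ≤ bf) (hX : 100 * bf ≤ X) : FluxHyp P W k bf X (bf * X / 16) :=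
  fluxHyp_of_flux hG hW (by omega) hX (Nat.mul_div_le _ _)

end Crest.Agent.R51.Loc
end
end

-- ▼ part R51/Loc6
section

/-!
# Row 51, B4 (locality lemma): assembly (helper476)

`b4_of_W15` : B4 from W1 and W5.
-/

set_option autoImplicit false

noncomputable section

open Classical

namespace Crest.Agent.R51.Loc

theorem fluxAll : FluxAll := fun _ _ hG hW _ _ _ hbf hX => flux_hyp hG hW hbf hX

theorem w1Two_of {Cw : ℝ} (h : IW1 Cw) : W1Two Cw := by
  intro V0 V1 h0 h01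
  obtain ⟨N0, hN0⟩ := h (fun l => if l = 0 then V0 else V1) 1 h0 (by
    intro l hl
    interval_cases l
    simpa using h01)
  exact ⟨N0, fun P hG hN k => hN0 P hG hN k⟩

theorem w6Two_of {Cw C5 : ℝ} (hCw : 0 ≤ Cw) (hC5 : 0 ≤ C5) (h5 : W5V C5) : W6Two Cw := by
  intro ε hε
  obtain ⟨c, hc, M, hM, h⟩ := W6 (C := 504) (by norm_num) hC5 w3V h5 hCw hε
  refine ⟨c, hc, M, hM, fun V0 V1 h0 h01 V' hV' => ⟨M * V' ^ 3, fun P hG hN k S => ?_⟩⟩
  have h1 := h P hG k _ 1 S 0 1 (by norm_num) (by norm_num) (by simpa using h0)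
    (by simpa using h01) V' (by simpa using hV') hN
  refine le_trans (le_of_eq ?_) h1
  congr 2
  ext z
  simp only [Finset.mem_filter]
  refine and_congr_right fun _ => and_congr_right fun _ => ?_
  have e1 : c * (P.card : ℝ) / ((V0 : ℝ) * (V1 : ℝ) ^ 2) =
      c * ((P.card : ℝ) / ((V0 : ℝ) * (V1 : ℝ) ^ 2)) := by ring
  rw [e1]
  exact Iff.rfl

/-- **B4** from W1 and W5. -/
theorem b4_of_W15 {Cw C5 : ℝ} (hCw : 1 ≤ Cw) (hW1 : IW1 Cw) (hC5 : 0 ≤ C5) (h5 : W5V C5) :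
    B4Prop :=
  b4_of (C0 := 23) (C := 504) (by linarith : (0 : ℝ) ≤ Cw) (by norm_num) (by norm_num)
    (fun P hG k V hV hVN => w0V P hG k V hV hVN) (w1Two_of hW1)
    (by
      intro P hG k V V' h1 h2 h3 s t h4
      refine (w2V P hG k V V' h1 h2 h3 s t h4).trans ?_
      exact mul_le_mul_of_nonneg_right (by norm_num) (by positivity))
    w3V (w6Two_of (by linarith) hC5 h5) (fun _ _ _ _ S _ hl => wins_wins S hl) fluxAll

end Crest.Agent.R51.Loc
end
end

-- ▼ part R51/Trim24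
section

/-!
# Row 51, B5.2: the removals (t2) (from B4) and (t4) (from W5)  (helper943)
-/

set_option autoImplicit false

noncomputable section

open Classical

namespace Crest.Agent.R51.Trim24

variable {P : Finset Pt}

/-- A monotone walk of `T0` violating centrality of `v` at the last edge is a bad walk of B4. -/
theorem t2_subset (P : Finset Pt) (k b' K : ℕ) (Λ : ℝ) :
    (T0 P k b' Λ).filter (fun z => ¬ Central P k K (esl (lastE z)) z.1) ⊆
      Loc.Bad P k b' K Λ := by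
  intro z hz
  rw [Finset.mem_filter] at hz
  obtain ⟨hz, hc⟩ := hz
  obtain ⟨h1, h2, h3, h4, h5, h6, h7, h8, h9, -⟩ := mem_T0' hz
  rw [Loc.mem_Bad]
  rw [dg_nearAll] at h8 h9
  have e1 : mk z.1 z.2.1 = firstE z := mk_of_lt h4
  have e2 : mk z.2.1 z.2.2 = lastE z := mk_of_lt h5
  refine ⟨?_, ?_, ?_, h8, h9, hc⟩
  · intro h
    rw [h] at h4
    exact lt_irrefl _ (h4.trans h5)
  · unfold NP
    rw [e1, mem_nearAll]
    exact ⟨mem_pairs.2 ⟨h1, h2, h4⟩, h6⟩
  · unfold NP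
    rw [e2, mem_nearAll]
    exact ⟨mem_pairs.2 ⟨h2, h3, h5⟩, h7⟩

theorem t2_card_le (P : Finset Pt) (k b' K : ℕ) (Λ : ℝ) :
    ((T0 P k b' Λ).filter (fun z => ¬ Central P k K (esl (lastE z)) z.1)).card ≤
      (Loc.Bad P k b' K Λ).card := Finset.card_le_card (t2_subset P k b' K Λ)

/-- Number of walks of `T0` whose last edge lies in a given set. -/
theorem last_mem_card_le (P : Finset Pt) (k b' : ℕ) {Λ : ℝ} (hΛ : 0 ≤ Λ) (S : Finset Edge) :
    (((T0 P k b' Λ).filter (fun z => lastE z ∈ S)).card : ℝ) ≤ Λ * S.card := by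
  have h := card_walks_le_of_last (H := (T0 P k b' Λ).filter (fun z => lastE z ∈ S))
    (G := nearAll P k b') (S := S) (Λ := ⌊Λ⌋₊)
    (fun z hz => lowG_subset _ _ (mem_T0.1 (Finset.mem_filter.1 hz).1).1)
    (fun z hz => (Finset.mem_filter.1 hz).2)
    (fun z hz => Nat.le_floor (mem_T0' (Finset.mem_filter.1 hz).1).2.2.2.2.2.2.2.2.1)
  calc (((T0 P k b' Λ).filter (fun z => lastE z ∈ S)).card : ℝ) ≤ ((⌊Λ⌋₊ * S.card : ℕ) : ℝ) := by
        exact_mod_cast h
    _ = (⌊Λ⌋₊ : ℝ) * S.card := by push_cast; ring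
    _ ≤ Λ * S.card := by
        apply mul_le_mul_of_nonneg_right (Nat.floor_le hΛ) (Nat.cast_nonneg _)

/-- The same with a predicate on the last edge. -/
theorem last_pred_card_le (P : Finset Pt) (k b' : ℕ) {Λ : ℝ} (hΛ : 0 ≤ Λ) (Q : Edge → Prop) :
    (((T0 P k b' Λ).filter (fun z => Q (lastE z))).card : ℝ) ≤
      Λ * ((nearAll P k b').filter Q).card := by
  refine le_trans ?_ (last_mem_card_le P k b' hΛ ((nearAll P k b').filter Q))
  have : (T0 P k b' Λ).filter (fun z => Q (lastE z)) ⊆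
      (T0 P k b' Λ).filter (fun z => lastE z ∈ (nearAll P k b').filter Q) := by
    intro z hz
    rw [Finset.mem_filter] at hz ⊢
    exact ⟨hz.1, Finset.mem_filter.2 ⟨lowG_subset _ _ (mem_T0.1 hz.1).2, hz.2⟩⟩
  exact_mod_cast Finset.card_le_card this

/-- Near-`b'` pairs in windows of level `l` with a property `Q` (of the window). -/
theorem card_nearAll_winOf_le {k : ℕ} {V : ℕ → ℕ} {L : ℕ} {Cw : ℝ} (S : WSys P k V L Cw) {l : ℕ}
    (hl : l ≤ L) (b' : ℕ) (Q : ℝ × ℝ → Prop) {B : ℝ} (hB0 : 0 ≤ B)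
    (hB : ∀ J ∈ wins (S.cuts l), Q J → ((nearE P k b' J.1 J.2).card : ℝ) ≤ B) :
    (((nearAll P k b').filter (fun e => Q (winOf (S.cuts l) (esl e)))).card : ℝ) ≤
      Cw * (V l : ℝ) ^ 4 * B := by
  have hsub : (nearAll P k b').filter (fun e => Q (winOf (S.cuts l) (esl e))) ⊆
      ((wins (S.cuts l)).filter Q).biUnion (fun J => nearE P k b' J.1 J.2) := by
    intro e he
    rw [Finset.mem_filter, mem_nearAll] at he
    obtain ⟨h1, h2, h3⟩ := S.winOf_pair hl he.1.1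
    rw [Finset.mem_biUnion]
    refine ⟨_, Finset.mem_filter.2 ⟨h1, he.2⟩, ?_⟩
    rw [mem_nearE]
    exact ⟨he.1.1, h2, h3, he.1.2⟩
  have h1 := (Finset.card_le_card hsub).trans Finset.card_biUnion_le
  calc (((nearAll P k b').filter (fun e => Q (winOf (S.cuts l) (esl e)))).card : ℝ)
      ≤ ∑ J ∈ (wins (S.cuts l)).filter Q, ((nearE P k b' J.1 J.2).card : ℝ) := by
        exact_mod_cast h1
    _ ≤ ∑ _J ∈ (wins (S.cuts l)).filter Q, B :=
        Finset.sum_le_sum fun J hJ => hB J (Finset.mem_filter.1 hJ).1 (Finset.mem_filter.1 hJ).2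
    _ = ((wins (S.cuts l)).filter Q).card * B := by rw [Finset.sum_const, nsmul_eq_mul]
    _ ≤ Cw * (V l : ℝ) ^ 4 * B := by
        apply mul_le_mul_of_nonneg_right _ hB0
        refine le_trans ?_ (S.card_wins hl)
        exact_mod_cast Finset.card_filter_le _ _

/-- Walks of `T0` whose last edge lies in a window of level `l` with the property `Q`. -/
theorem card_walks_winOf_le {k : ℕ} {V : ℕ → ℕ} {L : ℕ} {Cw : ℝ} (S : WSys P k V L Cw) {l : ℕ}
    (hl : l ≤ L) (b' : ℕ) {Λ : ℝ} (hΛ : 0 ≤ Λ) (Q : ℝ × ℝ → Prop) {B : ℝ} (hB0 : 0 ≤ B)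
    (hB : ∀ J ∈ wins (S.cuts l), Q J → ((nearE P k b' J.1 J.2).card : ℝ) ≤ B) :
    (((T0 P k b' Λ).filter (fun z => Q (winOf (S.cuts l) (esl (lastE z))))).card : ℝ) ≤
      Λ * (Cw * (V l : ℝ) ^ 4 * B) :=
  (last_pred_card_le P k b' hΛ (fun e => Q (winOf (S.cuts l) (esl e)))).trans
    (mul_le_mul_of_nonneg_left (card_nearAll_winOf_le S hl b' Q hB0 hB) hΛ)



end Crest.Agent.R51.Trim24
end
end

-- ▼ part R51/WalkT24
section

/-!
# Row 51, B5.2: `I2` (from the locality lemma B4) and `I4` (from W5)  (helper943)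
-/

set_option autoImplicit false

noncomputable section

open Classical

namespace Crest.Agent.R51

/-- The locality lemma in the form used for (t2). -/
def B4F : Prop :=
  ∀ κ ε lam1 : ℝ, 0 < κ → κ ≤ 1 → 0 < ε → 1 ≤ lam1 → ∀ V : ℕ, 1 ≤ V →
    ∃ V3 : ℕ, ∀ V' : ℕ, V3 ≤ V' → ∃ N0 : ℕ, ∀ P : Finset Pt, Generic P → N0 ≤ P.card → ∀ k : ℕ,
      ((Loc.Bad P k (P.card / V' ^ 3) ⌊κ * ((P.card / V ^ 3 : ℕ) : ℝ)⌋₊
        (lam1 * ((P.card : ℝ) / (V' : ℝ) ^ 2))).card : ℝ) ≤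
        ε * (P.card * ((P.card : ℝ) / (V' : ℝ) ^ 2) ^ 2)

theorem i2_of (h : B4F) : I2 := by
  intro lam1 ε kap hlam1 hε hk hk1 v hv
  obtain ⟨V3, h3⟩ := h kap ε lam1 hk hk1 hε hlam1 v hv
  refine ⟨V3, fun Vp hVp => ?_⟩
  obtain ⟨N0, h0⟩ := h3 Vp hVp
  refine ⟨N0, fun P hP hN k => ?_⟩
  have h1 := h0 P hP hN k
  have h2 := Trim24.t2_card_le P k (bb P.card Vp) ⌊kap * (bb P.card v : ℝ)⌋₊
    (lam1 * DD P Vp)
  calc (((TT P k Vp lam1).filter (fun z =>
        ¬ Central P k ⌊kap * (bb P.card v : ℝ)⌋₊ (esl (lastE z)) z.1)).card : ℝ)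
      ≤ ((Loc.Bad P k (bb P.card Vp) ⌊kap * (bb P.card v : ℝ)⌋₊ (lam1 * DD P Vp)).card : ℝ) := by
        exact_mod_cast h2
    _ ≤ ε * (P.card * ((P.card : ℝ) / (Vp : ℝ) ^ 2) ^ 2) := h1
    _ = ε * (P.card : ℝ) * DD P Vp ^ 2 := by rw [DD]; ring

/-- W5 in the form used for (t4): windows with few edges of level `k` carry few near-`b'` pairs. -/
def W5F (Cw C : ℝ) : Prop :=
  ∀ q : ℕ, 1 ≤ q → ∀ v : ℕ, 1 ≤ v → ∃ Vp0 : ℕ, ∀ Vp : ℕ, Vp0 ≤ Vp → ∃ N0 : ℕ,
    ∀ P : Finset Pt, Generic P → N0 ≤ P.card → ∀ (k : ℕ) (V : ℕ → ℕ) (L : ℕ)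
      (W : WSys P k V L Cw) (l : ℕ), l ≤ L → V l = v → ∀ J ∈ wins (W.cuts l),
      (Dl P k J.1 J.2 : ℝ) ≤ (bb P.card v : ℝ) / (q : ℝ) ^ 3 →
      ((nearE P k (bb P.card Vp) J.1 J.2).card : ℝ) ≤
        C / q * ((P.card : ℝ) ^ 2 / ((v : ℝ) ^ 4 * (Vp : ℝ) ^ 2))

theorem i4_of (h : ∀ Cw : ℝ, 1 ≤ Cw → ∃ C : ℝ, 0 ≤ C ∧ W5F Cw C) : I4 := by
  intro Cw lam1 ε hCw hlam1 hε
  obtain ⟨C, hC, hW⟩ := h Cw hCw
  obtain ⟨q, hq⟩ := exists_nat_ge (lam1 * Cw * C / ε + 1)
  have hq1 : (1 : ℝ) ≤ q := by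
    have : 0 ≤ lam1 * Cw * C / ε := by positivity
    linarith
  have hq1' : 1 ≤ q := by exact_mod_cast hq1
  have hq0 : (0 : ℝ) < q := by linarith
  have hq3 : (1 : ℝ) ≤ (q : ℝ) ^ 3 := one_le_pow₀ hq1
  refine ⟨1 / (12 * (q : ℝ) ^ 3), by positivity, ?_, ?_⟩
  · rw [div_le_div_iff₀ (by positivity) (by norm_num)]
    linarith
  intro v hv
  obtain ⟨Vp0, hVp0⟩ := hW q hq1' v hv
  refine ⟨max Vp0 1, fun Vp hVp => ?_⟩
  obtain ⟨N0, hN0⟩ := hVp0 Vp (le_trans (le_max_left _ _) hVp)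
  refine ⟨N0, fun P hP hN k V L W l hl hVl => ?_⟩
  have hVp1 : 1 ≤ Vp := le_trans (le_max_right _ _) hVp
  have hVpr : (1 : ℝ) ≤ Vp := by exact_mod_cast hVp1
  have hvr : (1 : ℝ) ≤ v := by exact_mod_cast hv
  have hD : 0 ≤ DD P Vp := by unfold DD; positivity
  have key := Trim24.card_walks_winOf_le W hl (bb P.card Vp) (Λ := lam1 * DD P Vp)
    (by positivity)
    (fun J => (Dl P k J.1 J.2 : ℝ) ≤ (bb P.card v : ℝ) / (q : ℝ) ^ 3)
    (B := C / q * ((P.card : ℝ) ^ 2 / ((v : ℝ) ^ 4 * (Vp : ℝ) ^ 2))) (by positivity)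
    (fun J hJ hQ => hN0 P hP hN k V L W l hl hVl J hJ hQ)
  have hsub : (TT P k Vp lam1).filter (fun z => ¬ G4 W (1 / (12 * (q : ℝ) ^ 3)) l z) ⊆
      (T0 P k (bb P.card Vp) (lam1 * DD P Vp)).filter (fun z =>
        (Dl P k (winOf (W.cuts l) (esl (lastE z))).1 (winOf (W.cuts l) (esl (lastE z))).2 : ℝ) ≤
          (bb P.card v : ℝ) / (q : ℝ) ^ 3) := by
    intro z hz
    rw [Finset.mem_filter] at hz ⊢
    refine ⟨hz.1, ?_⟩
    have h1 := hz.2
    unfold G4 WSys.J at h1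
    rw [not_lt, hVl] at h1
    refine h1.trans (le_of_eq ?_)
    field_simp
  have h1 : (((TT P k Vp lam1).filter (fun z => ¬ G4 W (1 / (12 * (q : ℝ) ^ 3)) l z)).card : ℝ) ≤
      lam1 * DD P Vp * (Cw * (V l : ℝ) ^ 4 *
        (C / q * ((P.card : ℝ) ^ 2 / ((v : ℝ) ^ 4 * (Vp : ℝ) ^ 2)))) := by
    refine le_trans ?_ key
    exact_mod_cast Finset.card_le_card hsub
  refine h1.trans ?_
  rw [hVl]
  have e1 : lam1 * DD P Vp * (Cw * (v : ℝ) ^ 4 *
        (C / q * ((P.card : ℝ) ^ 2 / ((v : ℝ) ^ 4 * (Vp : ℝ) ^ 2)))) =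
      (lam1 * Cw * C / q) * ((P.card : ℝ) * DD P Vp ^ 2) := by
    unfold DD
    field_simp
  rw [e1]
  have h2 : lam1 * Cw * C / q ≤ ε := by
    rw [div_le_iff₀ hq0]
    have h3 : lam1 * Cw * C / ε ≤ q := by linarith
    rw [div_le_iff₀ hε] at h3
    linarith
  calc (lam1 * Cw * C / q) * ((P.card : ℝ) * DD P Vp ^ 2)
      ≤ ε * ((P.card : ℝ) * DD P Vp ^ 2) := mul_le_mul_of_nonneg_right h2 (by positivity)
    _ = ε * (P.card : ℝ) * DD P Vp ^ 2 := by ring

end Crest.Agent.R51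
end
end

-- ▼ part R51/WinFin
section

/-!
# Row 51, section B3: W5 and W6 in the forms used by B4 and B5 (unconditional)
-/

set_option autoImplicit false

noncomputable section

open Classical

namespace Crest.Agent.R51

/-- **W5**, unconditional -/
theorem w5V : W5V (1200 * 304) := W5 (by norm_num) w2V


/-- 943's form of W5 -/
theorem w5F (Cw : ℝ) : W5F Cw (1200 * 304) := by
  intro q hq v hv
  refine ⟨2 * (q * v), fun Vp hVp => ⟨Vp ^ 3, ?_⟩⟩
  intro P hP hN k V L W l hl hVl J hJ hD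
  obtain ⟨a1, a2, a3, -⟩ := mem_wins.1 hJ
  refine w5V P hP k v Vp q hv hq hVp hN J.1 J.2 a3 (W.nons l hl _ a1) (W.nons l hl _ a2) ?_ ?_
  · rw [← hVl]
    exact W.cen_le l hl J hJ
  · have hqv : 0 < (q * v) ^ 3 := by positivity
    rw [bb, Nat.le_div_iff_mul_le hqv]
    have hq0 : (0 : ℝ) < (q : ℝ) ^ 3 := by positivity
    rw [le_div_iff₀ hq0] at hD
    have h1 : Dl P k J.1 J.2 * q ^ 3 ≤ bb P.card v := by exact_mod_cast hD
    calc Dl P k J.1 J.2 * (q * v) ^ 3 = (Dl P k J.1 J.2 * q ^ 3) * v ^ 3 := by ring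
      _ ≤ bb P.card v * v ^ 3 := Nat.mul_le_mul_right _ h1
      _ ≤ P.card := Nat.div_mul_le_self _ _

theorem i4 : I4 := i4_of fun Cw _ => ⟨1200 * 304, by norm_num, w5F Cw⟩


end Crest.Agent.R51
end
end

-- ▼ part R51/Loc7
section

/-!
# Row 51, B4 (locality lemma) and (t2): final form (helper476)
-/

set_option autoImplicit false

noncomputable section

open Classical

namespace Crest.Agent.R51

/-- **B4** (locality lemma) -/
theorem Loc.b4 : Loc.B4Prop :=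
  Loc.b4_of_W15 (Cw := 2433) (by norm_num) iw1_of (by norm_num) w5V

/-- **(t2)** -/
theorem i2 : I2 := i2_of Loc.b4

end Crest.Agent.R51
end
end

-- ▼ part R51/WalkI38
section

/-!
# Row 51, section B5: the interface statements `I3` (`(t3)_l`) and `I8` (`(t8)`, one level)
(helper834)
-/

set_option autoImplicit false

noncomputable section

open Classical

namespace Crest.Agent.R51

/-- `I3` from W2 and W3 -/
theorem i3_of {C : ℝ} (hC : 0 ≤ C) (h2 : W2V C) (h3 : W3V C) : I3 := by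
  intro Cw lam1 ε hCw hlam1 hε
  obtain ⟨lam0, hlam0, H⟩ := t3_eps (Cw := Cw) (lam1 := lam1) (ε := ε) hC h2 h3
    (by linarith) (by linarith) hε
  refine ⟨lam0, hlam0, fun v hv => ⟨2 * v, fun Vp hVp => ?_⟩⟩
  obtain ⟨N0, hN0⟩ := H lam0 le_rfl v Vp (by omega)
  refine ⟨N0, fun P hG hN k V L W l hl hV1 hVv => ?_⟩
  have h := hN0 P hG hN k V L W l hl hV1 hVv (by omega)
  have e1 : (TT P k Vp lam1).filter (fun z => ¬ G3 W Vp lam0 l z)
      = (T0 P k (bb P.card Vp) (lam1 * ((P.card : ℝ) / (Vp : ℝ) ^ 2))).filter (fun z =>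
        lam0 * ((P.card : ℝ) / (Vp : ℝ) ^ 2) / (V l : ℝ)
          < (wdeg P k (bb P.card Vp) (W.cuts l) z : ℝ)) := by
    unfold TT DD G3 wdeg WSys.J DD
    refine Finset.filter_congr (fun z _ => ?_)
    exact not_le
  rw [e1]
  refine h.trans (le_of_eq ?_)
  unfold DD
  ring

/-! ### flagged windows -/

namespace WalkI

lemma cntL_unique {C : Finset ℝ} {B : ℕ} (hB : 1 ≤ B) {l l' v : ℝ} (hl : l ∈ C) (hl' : l' ∈ C)
    (h : Lac.cntL C l v = B) (h' : Lac.cntL C l' v = B) : l' = l := by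
  by_contra hne
  have key : ∀ a b : ℝ, a ∈ C → a < b → Lac.cntL C a v = B → Lac.cntL C b v = B → False := by
    intro a b ha hab h1 h2
    have h3 : 0 < Lac.cntL C b v := by omega
    unfold Lac.cntL at h3
    obtain ⟨x, hx⟩ := Finset.card_pos.1 h3
    rw [Finset.mem_filter] at hx
    have h4 : C.filter (fun x => b ≤ x ∧ x < v) ⊂ C.filter (fun x => a ≤ x ∧ x < v) := by
      rw [Finset.ssubset_iff_of_subset]
      · refine ⟨a, Finset.mem_filter.2 ⟨ha, le_rfl, by linarith [hx.2.1, hx.2.2]⟩, ?_⟩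
        intro h5
        exact absurd (Finset.mem_filter.1 h5).2.1 (not_le.2 hab)
      · intro y hy
        rw [Finset.mem_filter] at hy ⊢
        exact ⟨hy.1, hab.le.trans hy.2.1, hy.2.2⟩
    have h5 := Finset.card_lt_card h4
    have h6 : (C.filter (fun x => b ≤ x ∧ x < v)).card = B := h2
    have h7 : (C.filter (fun x => a ≤ x ∧ x < v)).card = B := h1
    omega
  rcases lt_or_gt_of_ne hne with h1 | h1
  · exact key l' l hl' h1 h' h
  · exact key l l' hl h1 h h'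

lemma cntR_unique {C : Finset ℝ} {B : ℕ} (hB : 1 ≤ B) {r r' v : ℝ} (hr : r ∈ C) (hr' : r' ∈ C)
    (h : Lac.cntR C v r = B) (h' : Lac.cntR C v r' = B) : r' = r := by
  have h1 : -r' = -r := by
    refine cntL_unique (C := Lac.neg C) hB (v := -v) (Lac.mem_neg.2 (by simpa using hr))
      (Lac.mem_neg.2 (by simpa using hr')) ?_ ?_
    · rw [Lac.cntL_neg]; exact h
    · rw [Lac.cntL_neg]; exact h'
  linarith

/-- flagged in the sense of `HSys` implies flagged in the sense of `LacDefs` -/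
lemma flag_of_flagged {C : Finset ℝ} {B : ℕ} {Lam : ℝ} {I J : ℝ × ℝ} (hB : 1 ≤ B)
    (h : Flagged C B Lam I J) : Lac.Flag C B (16 * Lam) I J := by
  rcases h with h | h
  · left
    intro hI
    obtain ⟨l, hl, h1, h2, h3⟩ := Lac.exists_left hB hI.1
    obtain ⟨r, hr, h4, h5, h6⟩ := Lac.exists_right hB hI.2
    exact h ⟨l, r, hl, hr, h2, h4, h1, h5, h3, h6⟩
  · right
    obtain ⟨l, r, ⟨hl, hr, h1, h2, h3, h4, h5, h6⟩, h7, h8⟩ := h
    have h5' : Lac.cntL C l J.1 = B := h5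
    have h6' : Lac.cntR C J.2 r = B := h6
    refine ⟨⟨?_, ?_⟩, ?_, ?_⟩
    · rw [← h5']
      refine Finset.card_le_card (fun x hx => ?_)
      rw [Finset.mem_filter] at hx ⊢
      exact ⟨hx.1, h3.trans hx.2.1, hx.2.2⟩
    · rw [← h6']
      refine Finset.card_le_card (fun x hx => ?_)
      rw [Finset.mem_filter] at hx ⊢
      exact ⟨hx.1, hx.2.1, hx.2.2.trans h4⟩
    · intro l' hl' hc
      have e : l' = l := cntL_unique hB hl hl' h5' hc
      subst e
      simpa using h7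
    · intro r' hr' hc
      have e : r' = r := cntR_unique hB hr hr' h6' hc
      subst e
      simpa using h8

end WalkI

/-- number of flagged windows of level `l` -/
theorem card_flagW_le {P : Finset Pt} {k mu n0 be : ℕ} {Cw : ℝ} (hCw : 1 ≤ Cw) (hmu : 1 ≤ mu)
    (W : WSys P k (lev mu n0 be) (n0 + 1) Cw) {l : ℕ} (hl1 : 1 ≤ l) (hl : l ≤ n0) :
    ((flagW W mu l).card : ℝ) ≤ 68 * Cw ^ 2 / mu * (lev mu n0 be l : ℝ) ^ 4 := by
  have hmu0 : (0 : ℝ) < (mu : ℝ) := by exact_mod_cast hmu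
  have hlev : ∀ j, j ≤ n0 → ((lev mu n0 be j : ℕ) : ℝ) = (mu : ℝ) ^ (10 * j) := by
    intro j hj
    unfold lev
    rw [if_pos hj]
    push_cast
    rfl
  have hsub : flagW W mu l ⊆ (wins (W.cuts l)).filter
      (fun J => Lac.FlagAt W.cuts (mu ^ 39) (16 * (mu : ℝ) ^ 11) l J) := by
    intro J hJ
    unfold flagW at hJ
    rw [Finset.mem_filter] at hJ ⊢
    obtain ⟨h1, I, hI, h2, h3, h4⟩ := hJ
    exact ⟨h1, I, hI, J, Lac.mem_kids.2 ⟨mem_wins.1 h1, h2, h3⟩, le_rfl, le_rfl,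
      WalkI.flag_of_flagged (Nat.one_le_pow _ _ hmu) h4⟩
  have h := Lac.flag_count (cuts := W.cuts) (Cw := Cw) (μ := mu) (j := l) hCw hmu hl1 ?_ ?_
  · have h1 : ((flagW W mu l).card : ℝ) ≤ (((wins (W.cuts l)).filter
      (fun J => Lac.FlagAt W.cuts (mu ^ 39) (16 * (mu : ℝ) ^ 11) l J)).card : ℝ) := by
      exact_mod_cast Finset.card_le_card hsub
    have h2 : ((flagW W mu l).card : ℝ) * mu ≤ 68 * Cw ^ 2 * (mu : ℝ) ^ (40 * l) :=
      (mul_le_mul_of_nonneg_right h1 hmu0.le).trans h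
    rw [hlev l hl, div_mul_eq_mul_div, le_div_iff₀ hmu0]
    refine h2.trans (le_of_eq ?_)
    rw [← pow_mul]
    congr 2
    ring
  · intro K hK
    have h3 := W.count_in (l - 1) l (by omega) (by omega) K hK
    rw [hlev l hl, hlev (l - 1) (by omega)] at h3
    have e : Lac.kids (W.cuts l) K
        = (wins (W.cuts l)).filter (fun J' => K.1 ≤ J'.1 ∧ J'.2 ≤ K.2) := rfl
    rw [e]
    refine h3.trans (le_of_eq ?_)
    congr 1
    have e2 : (mu : ℝ) ^ (10 * l) = (mu : ℝ) ^ (10 * (l - 1)) * (mu : ℝ) ^ 10 := by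
      rw [← pow_add]
      congr 1
      omega
    rw [e2, mul_div_cancel_left₀ _ (by positivity), ← pow_mul]
  · have h3 := W.count_all (l - 1) (by omega)
    rw [hlev (l - 1) (by omega)] at h3
    refine h3.trans (le_of_eq ?_)
    rw [← pow_mul]
    congr 2
    ring

/-- `I8` from W2 -/
theorem i8_of {C : ℝ} (hC : 0 ≤ C) (h2 : W2V C) : I8 := by
  intro Cw lam1 ε hCw hlam1 hε
  obtain ⟨mu1, hmu1⟩ := exists_nat_ge (lam1 * (68 * Cw ^ 2) * C / ε)
  refine ⟨max 1 mu1, fun mu hmu n0 be _ => ⟨2 * mu ^ (10 * n0), fun Vp hVp =>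
    ⟨Vp ^ 3, fun P hG hN k W l hl1 hl => ?_⟩⟩⟩
  have hmu2 : 1 ≤ mu := (le_max_left _ _).trans hmu
  have hmu0 : (0 : ℝ) < (mu : ℝ) := by exact_mod_cast hmu2
  have hmu3 : (mu1 : ℝ) ≤ (mu : ℝ) := by exact_mod_cast (le_max_right _ _).trans hmu
  have hlL : l ≤ n0 + 1 := by omega
  have hlev : lev mu n0 be l = mu ^ (10 * l) := by
    unfold lev; rw [if_pos hl]
  have hV1 : 1 ≤ lev mu n0 be l := by rw [hlev]; exact Nat.one_le_pow _ _ hmu2
  have hV' : 2 * lev mu n0 be l ≤ Vp := by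
    rw [hlev]
    refine le_trans ?_ hVp
    exact Nat.mul_le_mul_left _ (Nat.pow_le_pow_right hmu2 (by omega))
  have hVpos : (0 : ℝ) < (lev mu n0 be l : ℝ) := by exact_mod_cast hV1
  have hVp0 : (0 : ℝ) < (Vp : ℝ) := by
    have : 0 < Vp := by omega
    exact_mod_cast this
  set N : ℝ := (P.card : ℝ) with hNd
  have hN0 : 0 ≤ N := Nat.cast_nonneg _
  have e1 : (((TT P k Vp lam1).filter (fun z => F8 W mu l z)).card : ℝ)
      ≤ (((T0 P k (bb P.card Vp) (lam1 * (N / (Vp : ℝ) ^ 2))).filter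
        (fun z => winOf (W.cuts l) (esl (lastE z)) ∈ flagW W mu l)).card : ℝ) := by
    refine Nat.cast_le.2 (Finset.card_le_card ?_)
    intro z hz
    rw [Finset.mem_filter] at hz ⊢
    refine ⟨hz.1, ?_⟩
    have h4 : lastE z ∈ pairs P :=
      nearAll_subset (lowG_subset _ _ (mem_T0.1 hz.1).2)
    have h5 := W.winOf_pair hlL h4
    have h6 := W.winOf_pair (l := l - 1) (by omega) h4
    have h7 := W.winOf_nested (l := l - 1) (l' := l) (by omega) hlL h4
    exact Finset.mem_filter.2 ⟨h5.1, _, h6.1, h7.1, h7.2, hz.2⟩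
  refine e1.trans ?_
  have e2 := t8_level (b' := bb P.card Vp) W hlL (Λ := lam1 * (N / (Vp : ℝ) ^ 2))
    (by positivity) (flagW W mu l)
    (y := C * (N ^ 2 / ((lev mu n0 be l : ℝ) ^ 4 * (Vp : ℝ) ^ 2)))
    (fun J hJ => h2 P hG k _ Vp hV1 hV' hN J.1 J.2
      (W.cen_le l hlL J (Finset.mem_filter.1 hJ).1))
  refine e2.trans ?_
  have e3 := card_flagW_le hCw hmu2 W hl1 hl
  have e4 : lam1 * (N / (Vp : ℝ) ^ 2) * (((flagW W mu l).card : ℝ)
      * (C * (N ^ 2 / ((lev mu n0 be l : ℝ) ^ 4 * (Vp : ℝ) ^ 2))))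
      ≤ lam1 * (N / (Vp : ℝ) ^ 2) * ((68 * Cw ^ 2 / mu * (lev mu n0 be l : ℝ) ^ 4)
        * (C * (N ^ 2 / ((lev mu n0 be l : ℝ) ^ 4 * (Vp : ℝ) ^ 2)))) := by
    gcongr
  refine e4.trans ?_
  have e5 : lam1 * (N / (Vp : ℝ) ^ 2) * ((68 * Cw ^ 2 / mu * (lev mu n0 be l : ℝ) ^ 4)
        * (C * (N ^ 2 / ((lev mu n0 be l : ℝ) ^ 4 * (Vp : ℝ) ^ 2))))
      = (lam1 * (68 * Cw ^ 2) * C / mu) * (N * DD P Vp ^ 2) := by
    unfold DD
    rw [← hNd]
    field_simp
  have e6 : ε * N * DD P Vp ^ 2 = ε * (N * DD P Vp ^ 2) := by ring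
  have e7 : 0 ≤ N * DD P Vp ^ 2 := by positivity
  rw [e5, e6]
  refine mul_le_mul_of_nonneg_right ?_ e7
  rw [div_le_iff₀ hmu0]
  have h6 := hmu1.trans hmu3
  rw [div_le_iff₀ hε] at h6
  linarith

lemma W2V.mono {C C' : ℝ} (h : W2V C) (hC : C ≤ C') : W2V C' := by
  intro P hG k V V' hV hV' hN s t hc
  exact (h P hG k V V' hV hV' hN s t hc).trans (mul_le_mul_of_nonneg_right hC (by positivity))

/-- `(t3)_l` -/
theorem i3 : I3 := i3_of (C := 504) (by norm_num) (w2V.mono (by norm_num)) w3V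

/-- `(t8)`, one level -/
theorem i8 : I8 := i8_of (C := 304) (by norm_num) w2V

end Crest.Agent.R51
end
end

-- ▼ part R51/TrimWin
section

/-!
# Row 51, section 5.2: the window-count removals (t5), (t6)_l, (t7)_l  (helper209)

`S : WSys P k V L Cw`, `J z = winOf (S.cuts l) (esl (lastE z))` the level-`l` window of the last
edge of the walk `z`.
-/

set_option autoImplicit false

noncomputable section

open Classical

namespace Crest.Agent.R51.TrimWin

variable {P : Finset Pt} {k : ℕ}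

/-- number of middle points over a fixed start point -/
theorem card_mid_le {b' : ℕ} {Λ : ℝ} {F : Finset Walk} (hF : F ⊆ T0 P k b' Λ) {v : Pt}
    (hv : ∀ z ∈ F, z.1 = v) (hne : F.Nonempty) :
    ((F.image (fun z => z.2.1)).card : ℝ) ≤ Λ := by
  obtain ⟨z0, hz0⟩ := hne
  have h0 := mem_T0' (hF hz0)
  have h1 : (dg (nearAll P k b') v : ℝ) ≤ Λ := by
    rw [← hv z0 hz0]; exact h0.2.2.2.2.2.2.2.1
  refine le_trans ?_ h1
  rw [dg_nearAll]
  exact_mod_cast Finset.card_le_card (by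
    intro w hw
    obtain ⟨z, hz, rfl⟩ := Finset.mem_image.1 hw
    have h2 := mem_T0' (hF hz)
    have h3 : z.1 = v := hv z hz
    rw [mem_nb]
    unfold NP
    rw [← h3, mk_of_lt h2.2.2.2.1, mem_nearAll, mem_pairs]
    exact ⟨⟨h2.1, h2.2.1, h2.2.2.2.1⟩, h2.2.2.2.2.2.1⟩)

/-- number of end points over fixed start and middle points, all of them -/
theorem card_last_le {b' : ℕ} {Λ : ℝ} {F : Finset Walk} (hF : F ⊆ T0 P k b' Λ) {v w : Pt}
    (hv : ∀ z ∈ F, z.1 = v) (hw : ∀ z ∈ F, z.2.1 = w) (hΛ : 0 ≤ Λ) : (F.card : ℝ) ≤ Λ := by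
  rcases F.eq_empty_or_nonempty with rfl | ⟨z0, hz0⟩
  · simpa using hΛ
  have h0 := mem_T0' (hF hz0)
  have h1 : (dg (nearAll P k b') w : ℝ) ≤ Λ := by
    rw [← hw z0 hz0]; exact h0.2.2.2.2.2.2.2.2.1
  refine le_trans ?_ h1
  rw [dg_nearAll]
  have : F.card ≤ (nb P k b' w).card := by
    refine Finset.card_le_card_of_injOn (fun z => z.2.2) ?_ ?_
    · intro z hz
      have hz := Finset.mem_coe.1 hz
      have h2 := mem_T0' (hF hz)
      have h3 : z.2.1 = w := hw z hz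
      apply Finset.mem_coe.2
      show z.2.2 ∈ nb P k b' w
      rw [mem_nb]
      unfold NP
      rw [← h3, mk_of_lt h2.2.2.2.2.1, mem_nearAll, mem_pairs]
      exact ⟨⟨h2.2.1, h2.2.2.1, h2.2.2.2.2.1⟩, h2.2.2.2.2.2.2.1⟩
    · intro z hz z' hz' he
      have hz := Finset.mem_coe.1 hz
      have hz' := Finset.mem_coe.1 hz'
      exact Prod.ext ((hv z hz).trans (hv z' hz').symm)
        (Prod.ext ((hw z hz).trans (hw z' hz').symm) he)
  exact_mod_cast this

/-- number of end points over fixed start and middle points with last slope in a window -/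
theorem card_last_win_le {b' : ℕ} {Λ Λl : ℝ} {F : Finset Walk} (hF : F ⊆ T0 P k b' Λ) {v w : Pt}
    {s t : ℝ} (hv : ∀ z ∈ F, z.1 = v) (hw : ∀ z ∈ F, z.2.1 = w)
    (hs : ∀ z ∈ F, s < esl (lastE z) ∧ esl (lastE z) < t)
    (h3 : ∀ z ∈ F, ((nbW P k b' s t z.2.1).card : ℝ) ≤ Λl) (hΛ : 0 ≤ Λl) :
    (F.card : ℝ) ≤ Λl := by
  rcases F.eq_empty_or_nonempty with rfl | ⟨z0, hz0⟩
  · simpa using hΛ
  have h1 := h3 z0 hz0
  rw [hw z0 hz0] at h1
  refine le_trans ?_ h1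
  have : F.card ≤ (nbW P k b' s t w).card := by
    refine Finset.card_le_card_of_injOn (fun z => z.2.2) ?_ ?_
    · intro z hz
      have hz := Finset.mem_coe.1 hz
      have h2 := mem_T0' (hF hz)
      have h3 : z.2.1 = w := hw z hz
      apply Finset.mem_coe.2
      show z.2.2 ∈ nbW P k b' s t w
      have h4 := hs z hz
      rw [mem_nbW, ← h3, mk_of_lt h2.2.2.2.2.1, mem_nearE, mem_pairs]
      exact ⟨⟨h2.2.1, h2.2.2.1, h2.2.2.2.2.1⟩, h4.1, h4.2, h2.2.2.2.2.2.2.1⟩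
    · intro z hz z' hz' he
      have hz := Finset.mem_coe.1 hz
      have hz' := Finset.mem_coe.1 hz'
      exact Prod.ext ((hv z hz).trans (hv z' hz').symm)
        (Prod.ext ((hw z hz).trans (hw z' hz').symm) he)
  exact_mod_cast this

/-- general two-step count -/
theorem card_two_step {F : Finset Walk} {Λ Λl : ℝ} (hΛl : 0 ≤ Λl)
    (h1 : ((F.image (fun z => z.2.1)).card : ℝ) ≤ Λ)
    (h2 : ∀ w ∈ F.image (fun z => z.2.1), ((F.filter (fun z => z.2.1 = w)).card : ℝ) ≤ Λl) :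
    (F.card : ℝ) ≤ Λ * Λl := by
  rw [Finset.card_eq_sum_card_fiberwise (f := fun z : Walk => z.2.1)
    (t := F.image (fun z => z.2.1)) (fun z hz => Finset.mem_coe.2 (Finset.mem_image_of_mem _
      (Finset.mem_coe.1 hz)))]
  push_cast
  calc ∑ w ∈ F.image (fun z => z.2.1), ((F.filter (fun z => z.2.1 = w)).card : ℝ)
      ≤ ∑ _w ∈ F.image (fun z => z.2.1), Λl := Finset.sum_le_sum h2
    _ = ((F.image (fun z => z.2.1)).card : ℝ) * Λl := by rw [Finset.sum_const, nsmul_eq_mul]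
    _ ≤ Λ * Λl := mul_le_mul_of_nonneg_right h1 hΛl

/-- number of walks with a fixed start point -/
theorem card_fixed_start {b' : ℕ} {Λ : ℝ} (hΛ : 0 ≤ Λ) {F : Finset Walk} (hF : F ⊆ T0 P k b' Λ)
    {v : Pt} (hv : ∀ z ∈ F, z.1 = v) : (F.card : ℝ) ≤ Λ ^ 2 := by
  rcases F.eq_empty_or_nonempty with rfl | hne
  · simp; positivity
  rw [sq]
  refine card_two_step hΛ (card_mid_le hF hv hne) fun w _ => ?_
  exact card_last_le ((Finset.filter_subset _ _).trans hF)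
    (fun z hz => hv z (Finset.mem_filter.1 hz).1) (fun z hz => (Finset.mem_filter.1 hz).2) hΛ

/-- number of walks with a fixed start point and last slope in a window -/
theorem card_fixed_start_win {b' : ℕ} {Λ Λl : ℝ} (hΛ : 0 ≤ Λ) (hΛl : 0 ≤ Λl) {F : Finset Walk}
    (hF : F ⊆ T0 P k b' Λ) {v : Pt} {s t : ℝ} (hv : ∀ z ∈ F, z.1 = v)
    (hs : ∀ z ∈ F, s < esl (lastE z) ∧ esl (lastE z) < t)
    (h3 : ∀ z ∈ F, ((nbW P k b' s t z.2.1).card : ℝ) ≤ Λl) :
    (F.card : ℝ) ≤ Λ * Λl := by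
  rcases F.eq_empty_or_nonempty with rfl | hne
  · simp; positivity
  refine card_two_step hΛl (card_mid_le hF hv hne) fun w _ => ?_
  exact card_last_win_le ((Finset.filter_subset _ _).trans hF)
    (fun z hz => hv z (Finset.mem_filter.1 hz).1) (fun z hz => (Finset.mem_filter.1 hz).2)
    (fun z hz => hs z (Finset.mem_filter.1 hz).1) (fun z hz => h3 z (Finset.mem_filter.1 hz).1) hΛl

/-- walks whose start point is bad -/
theorem card_bad_start {b' : ℕ} {Λ : ℝ} (hΛ : 0 ≤ Λ) (Bad : Pt → Prop) :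
    (((T0 P k b' Λ).filter (fun z => Bad z.1)).card : ℝ) ≤ ((P.filter Bad).card : ℝ) * Λ ^ 2 := by
  rw [Finset.card_eq_sum_card_fiberwise (f := fun z : Walk => z.1) (t := P.filter Bad)
    (fun z hz => by
      have hz := Finset.mem_filter.1 (Finset.mem_coe.1 hz)
      exact Finset.mem_coe.2 (Finset.mem_filter.2 ⟨(mem_T0' hz.1).1, hz.2⟩))]
  push_cast
  calc ∑ v ∈ P.filter Bad, ((((T0 P k b' Λ).filter (fun z => Bad z.1)).filter
        (fun z => z.1 = v)).card : ℝ)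
      ≤ ∑ _v ∈ P.filter Bad, Λ ^ 2 := by
        refine Finset.sum_le_sum fun v _ => card_fixed_start hΛ
          ((Finset.filter_subset _ _).trans (Finset.filter_subset _ _))
          (fun z hz => (Finset.mem_filter.1 hz).2)
    _ = _ := by rw [Finset.sum_const, nsmul_eq_mul]

variable {V : ℕ → ℕ} {L : ℕ} {Cw : ℝ}

/-- the window of a slope exists -/
theorem win_exists (S : WSys P k V L Cw) {l : ℕ} (hl : l ≤ L) {e : Edge} (he : e ∈ pairs P) :
    ∃ J ∈ wins (S.cuts l), J.1 < esl e ∧ esl e < J.2 := by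
  refine exists_win (S.sub 0 l (Nat.zero_le _) hl S.lo_mem) (S.sub 0 l (Nat.zero_le _) hl S.hi_mem)
    (S.lo_lt_slope e he) (S.slope_lt_hi e he) ?_
  intro h
  exact S.nons l hl _ h e he rfl

theorem win_spec (S : WSys P k V L Cw) {l : ℕ} (hl : l ≤ L) {e : Edge} (he : e ∈ pairs P) :
    winOf (S.cuts l) (esl e) ∈ wins (S.cuts l) ∧ (winOf (S.cuts l) (esl e)).1 < esl e ∧
      esl e < (winOf (S.cuts l) (esl e)).2 :=
  winOf_spec (win_exists S hl he)

theorem lastE_mem {b' : ℕ} {Λ : ℝ} {z : Walk} (hz : z ∈ T0 P k b' Λ) : lastE z ∈ pairs P := by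
  have h := mem_T0' hz
  exact mem_pairs.2 ⟨h.2.1, h.2.2.1, h.2.2.2.2.1⟩

/-- walks for which the pair (start point, window of the last edge) is bad -/
theorem card_bad_pair (S : WSys P k V L Cw) {l : ℕ} (hl : l ≤ L) {b' : ℕ} {Λ Λl : ℝ}
    (hΛ : 0 ≤ Λ) (hΛl : 0 ≤ Λl) {H : Finset Walk} (hH : H ⊆ T0 P k b' Λ)
    (h3 : ∀ z ∈ H, ((nbW P k b' (winOf (S.cuts l) (esl (lastE z))).1
      (winOf (S.cuts l) (esl (lastE z))).2 z.2.1).card : ℝ) ≤ Λl)
    (Bad : Pt → ℝ × ℝ → Prop) :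
    ((H.filter (fun z => Bad z.1 (winOf (S.cuts l) (esl (lastE z))))).card : ℝ) ≤
      Λ * Λl * (((P ×ˢ wins (S.cuts l)).filter (fun q => Bad q.1 q.2)).card : ℝ) := by
  set F := H.filter (fun z => Bad z.1 (winOf (S.cuts l) (esl (lastE z)))) with hF
  have hmap : ∀ z ∈ F, (z.1, winOf (S.cuts l) (esl (lastE z))) ∈
      (P ×ˢ wins (S.cuts l)).filter (fun q => Bad q.1 q.2) := by
    intro z hz
    obtain ⟨h1, h2⟩ := Finset.mem_filter.1 hz
    refine Finset.mem_filter.2 ⟨Finset.mem_product.2 ⟨(mem_T0' (hH h1)).1, ?_⟩, h2⟩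
    exact (win_spec S hl (lastE_mem (hH h1))).1
  rw [Finset.card_eq_sum_card_fiberwise
    (f := fun z : Walk => (z.1, winOf (S.cuts l) (esl (lastE z))))
    (t := (P ×ˢ wins (S.cuts l)).filter (fun q => Bad q.1 q.2))
    (fun z hz => Finset.mem_coe.2 (hmap z (Finset.mem_coe.1 hz)))]
  push_cast
  calc ∑ q ∈ (P ×ˢ wins (S.cuts l)).filter (fun q => Bad q.1 q.2),
        ((F.filter (fun z => (z.1, winOf (S.cuts l) (esl (lastE z))) = q)).card : ℝ)
      ≤ ∑ _q ∈ (P ×ˢ wins (S.cuts l)).filter (fun q => Bad q.1 q.2), Λ * Λl := by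
        refine Finset.sum_le_sum fun q _ => ?_
        refine card_fixed_start_win hΛ hΛl (v := q.1) (s := q.2.1) (t := q.2.2)
          ((Finset.filter_subset _ _).trans ((Finset.filter_subset _ _).trans hH)) ?_ ?_ ?_
        · intro z hz
          have h1 := (Finset.mem_filter.1 hz).2
          exact congrArg Prod.fst h1
        · intro z hz
          have h1 := (Finset.mem_filter.1 hz).2
          have h2 : winOf (S.cuts l) (esl (lastE z)) = q.2 := congrArg Prod.snd h1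
          have h4 := (Finset.mem_filter.1 (Finset.mem_filter.1 hz).1).1
          have h5 := (win_spec S hl (lastE_mem (hH h4))).2
          rw [h2] at h5
          exact h5
        · intro z hz
          have h1 := (Finset.mem_filter.1 hz).2
          have h2 : winOf (S.cuts l) (esl (lastE z)) = q.2 := congrArg Prod.snd h1
          have h4 := (Finset.mem_filter.1 (Finset.mem_filter.1 hz).1).1
          have h5 := h3 z h4
          rw [h2] at h5
          exact h5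
    _ = _ := by rw [Finset.sum_const, nsmul_eq_mul]; ring

/-! ### (t6) -/

/-- number of windows is at most the number of cuts -/
theorem card_wins_le (C : Finset ℝ) : (wins C).card ≤ C.card := by
  refine Finset.card_le_card_of_injOn (fun J => J.1) ?_ ?_
  · intro J hJ
    exact Finset.mem_coe.2 (mem_wins.1 (Finset.mem_coe.1 hJ)).1
  · intro J hJ J' hJ' he
    have hJ := Finset.mem_coe.1 hJ
    have hJ' := Finset.mem_coe.1 hJ'
    have a := mem_wins.1 hJ
    have a' := mem_wins.1 hJ'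
    obtain ⟨θ, h1, h2⟩ := exists_between (lt_min a.2.2.1 (by
      show J.1 < J'.2
      have : J.1 = J'.1 := he
      rw [this]; exact a'.2.2.1))
    exact win_unique hJ hJ' h1 (h2.trans_le (min_le_left _ _))
      (by have : J.1 = J'.1 := he
          rw [← this]; exact h1) (h2.trans_le (min_le_right _ _))

/-- double counting bound of points lying in many of the sets `A J` -/
theorem card_many {ι : Type*} [DecidableEq ι] (Q : Finset Pt) (W : Finset ι) (A : ι → Finset Pt)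
    {x m t : ℝ} (hW : (W.card : ℝ) ≤ x) (hA : ∀ J ∈ W, ((A J).card : ℝ) ≤ m) (hm : 0 ≤ m) :
    ((Q.filter (fun p => t < ((W.filter (fun J => p ∈ A J)).card : ℝ))).card : ℝ) * t ≤ x * m := by
  set B := Q.filter (fun p => t < ((W.filter (fun J => p ∈ A J)).card : ℝ)) with hB
  calc (B.card : ℝ) * t = ∑ _p ∈ B, t := by rw [Finset.sum_const, nsmul_eq_mul]
    _ ≤ ∑ p ∈ B, ((W.filter (fun J => p ∈ A J)).card : ℝ) :=
        Finset.sum_le_sum fun p hp => (Finset.mem_filter.1 hp).2.le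
    _ = ∑ p ∈ B, ∑ J ∈ W, (if p ∈ A J then (1 : ℝ) else 0) := by
        refine Finset.sum_congr rfl fun p _ => ?_
        rw [Finset.card_filter]; push_cast; rfl
    _ = ∑ J ∈ W, ∑ p ∈ B, (if p ∈ A J then (1 : ℝ) else 0) := Finset.sum_comm
    _ ≤ ∑ _J ∈ W, m := by
        refine Finset.sum_le_sum fun J hJ => le_trans ?_ (hA J hJ)
        rw [← Finset.sum_filter, Finset.sum_const, nsmul_eq_mul, mul_one]
        exact_mod_cast Finset.card_le_card (fun p hp => (Finset.mem_filter.1 hp).2)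
    _ = (W.card : ℝ) * m := by rw [Finset.sum_const, nsmul_eq_mul]
    _ ≤ x * m := mul_le_mul_of_nonneg_right hW hm

theorem bb_le (N V : ℕ) : (bb N V : ℝ) ≤ (N : ℝ) / (V : ℝ) ^ 3 := by
  unfold bb
  have := @Nat.cast_div_le ℝ _ _ _ N (V ^ 3)
  simpa using this

/-- **(t6)**: W4(ii) times `Λ²` -/
theorem t6 (S : WSys P k V L Cw) {l : ℕ} (hl : l ≤ L) (hV : 1 ≤ V l) {b' : ℕ} {Λ lam3 : ℝ}
    (hΛ : 0 ≤ Λ) (hlam : 0 < lam3) :
    (((T0 P k b' Λ).filter (fun z => lam3 * (V l : ℝ) <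
      (((wins (S.cuts l)).filter
        (fun J => z.1 ∈ cen P k (bb P.card (V l)) J.1 J.2)).card : ℝ))).card : ℝ) ≤
      7 * Cw / lam3 * P.card * Λ ^ 2 := by
  have h1 := card_bad_start (P := P) (k := k) (b' := b') hΛ (fun v => lam3 * (V l : ℝ) <
      (((wins (S.cuts l)).filter
        (fun J => v ∈ cen P k (bb P.card (V l)) J.1 J.2)).card : ℝ))
  refine h1.trans ?_
  have hVp : (0 : ℝ) < V l := by exact_mod_cast hV
  have hwc : ((wins (S.cuts l)).card : ℝ) ≤ Cw * (V l : ℝ) ^ 4 :=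
    le_trans (by exact_mod_cast card_wins_le _) (S.count_all l hl)
  have hm : (0 : ℝ) ≤ 7 * ((P.card : ℝ) / (V l : ℝ) ^ 3) := by positivity
  have h2 := card_many P (wins (S.cuts l)) (fun J => cen P k (bb P.card (V l)) J.1 J.2)
    (x := Cw * (V l : ℝ) ^ 4) (m := 7 * ((P.card : ℝ) / (V l : ℝ) ^ 3))
    (t := lam3 * (V l : ℝ)) hwc (by
      intro J hJ
      have h3 := S.cen_le l hl J hJ
      have h4 : ((cen P k (bb P.card (V l)) J.1 J.2).card : ℝ) ≤ 7 * (bb P.card (V l) : ℝ) := by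
        exact_mod_cast h3
      exact h4.trans (mul_le_mul_of_nonneg_left (bb_le _ _) (by norm_num))) hm
  have h5 : Cw * (V l : ℝ) ^ 4 * (7 * ((P.card : ℝ) / (V l : ℝ) ^ 3)) =
      7 * Cw / lam3 * P.card * (lam3 * (V l : ℝ)) := by
    field_simp
  rw [h5] at h2
  have h6 := le_of_mul_le_mul_right h2 (by positivity)
  exact mul_le_mul_of_nonneg_right h6 (by positivity)

/-! ### (t7) -/

/-- **(t7)**: W4(iv) -/
theorem t7 (S : WSys P k V L Cw) {l l' : ℕ} (hll : l ≤ l') (hl' : l' ≤ L) (hV : 1 ≤ V l)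
    (hV' : 1 ≤ V l') {b' : ℕ} {Λ Λl lam3 : ℝ} (hΛ : 0 ≤ Λ) (hΛl : 0 ≤ Λl) (hlam : 0 < lam3)
    {H : Finset Walk} (hH : H ⊆ T0 P k b' Λ)
    (h3 : ∀ z ∈ H, ((nbW P k b' (winOf (S.cuts l) (esl (lastE z))).1
      (winOf (S.cuts l) (esl (lastE z))).2 z.2.1).card : ℝ) ≤ Λl) :
    ((H.filter (fun z => lam3 * ((V l' : ℝ) / V l) <
      (((wins (S.cuts l')).filter (fun J' =>
        (winOf (S.cuts l) (esl (lastE z))).1 ≤ J'.1 ∧ J'.2 ≤ (winOf (S.cuts l) (esl (lastE z))).2 ∧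
        z.1 ∈ cen P k (bb P.card (V l')) J'.1 J'.2)).card : ℝ))).card : ℝ) ≤
      7 * Cw ^ 2 / lam3 * P.card * Λ * (Λl * V l) := by
  have h1 := card_bad_pair S (hll.trans hl') hΛ hΛl hH h3 (fun v J => lam3 * ((V l' : ℝ) / V l) <
      (((wins (S.cuts l')).filter (fun J' => J.1 ≤ J'.1 ∧ J'.2 ≤ J.2 ∧
        v ∈ cen P k (bb P.card (V l')) J'.1 J'.2)).card : ℝ))
  refine h1.trans ?_
  have hVp : (0 : ℝ) < V l := by exact_mod_cast hV
  have hVp' : (0 : ℝ) < V l' := by exact_mod_cast hV'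
  have hwc : ((wins (S.cuts l)).card : ℝ) ≤ Cw * (V l : ℝ) ^ 4 :=
    le_trans (by exact_mod_cast card_wins_le _) (S.count_all l (hll.trans hl'))
  -- for each level-`l` window, the number of bad points
  have key : ∀ J ∈ wins (S.cuts l), ((P.filter (fun v => lam3 * ((V l' : ℝ) / V l) <
      (((wins (S.cuts l')).filter (fun J' => J.1 ≤ J'.1 ∧ J'.2 ≤ J.2 ∧
        v ∈ cen P k (bb P.card (V l')) J'.1 J'.2)).card : ℝ))).card : ℝ) ≤
      7 * Cw / lam3 * (P.card / (V l : ℝ) ^ 3) := by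
    intro J hJ
    have hm : (0 : ℝ) ≤ 7 * ((P.card : ℝ) / (V l' : ℝ) ^ 3) := by positivity
    have h2 := card_many P ((wins (S.cuts l')).filter (fun J' => J.1 ≤ J'.1 ∧ J'.2 ≤ J.2))
      (fun J' => cen P k (bb P.card (V l')) J'.1 J'.2)
      (x := Cw * ((V l' : ℝ) / V l) ^ 4) (m := 7 * ((P.card : ℝ) / (V l' : ℝ) ^ 3))
      (t := lam3 * ((V l' : ℝ) / V l)) (S.count_in l l' hll hl' J hJ) (by
        intro J' hJ'
        have h3 := S.cen_le l' hl' J' (Finset.mem_filter.1 hJ').1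
        have h4 : ((cen P k (bb P.card (V l')) J'.1 J'.2).card : ℝ) ≤
            7 * (bb P.card (V l') : ℝ) := by exact_mod_cast h3
        exact h4.trans (mul_le_mul_of_nonneg_left (bb_le _ _) (by norm_num))) hm
    have e1 : ∀ v : Pt, ((wins (S.cuts l')).filter (fun J' => J.1 ≤ J'.1 ∧ J'.2 ≤ J.2)).filter
        (fun J' => v ∈ cen P k (bb P.card (V l')) J'.1 J'.2) =
        (wins (S.cuts l')).filter (fun J' => J.1 ≤ J'.1 ∧ J'.2 ≤ J.2 ∧
        v ∈ cen P k (bb P.card (V l')) J'.1 J'.2) := by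
      intro v
      rw [Finset.filter_filter]
      refine Finset.filter_congr fun J' _ => ?_
      rw [and_assoc]
    simp only [e1] at h2
    have h5 : Cw * ((V l' : ℝ) / V l) ^ 4 * (7 * ((P.card : ℝ) / (V l' : ℝ) ^ 3)) =
        7 * Cw / lam3 * (P.card / (V l : ℝ) ^ 3) * (lam3 * ((V l' : ℝ) / V l)) := by
      field_simp
    rw [h5] at h2
    exact le_of_mul_le_mul_right h2 (by positivity)
  have h6 : (((P ×ˢ wins (S.cuts l)).filter (fun q => lam3 * ((V l' : ℝ) / V l) <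
      (((wins (S.cuts l')).filter (fun J' => q.2.1 ≤ J'.1 ∧ J'.2 ≤ q.2.2 ∧
        q.1 ∈ cen P k (bb P.card (V l')) J'.1 J'.2)).card : ℝ))).card : ℝ) ≤
      7 * Cw / lam3 * (P.card / (V l : ℝ) ^ 3) * (wins (S.cuts l)).card := by
    rw [Finset.card_eq_sum_card_fiberwise (f := fun q : Pt × (ℝ × ℝ) => q.2)
      (t := wins (S.cuts l)) (fun q hq => by
        have hq := (Finset.mem_filter.1 (Finset.mem_coe.1 hq)).1
        exact Finset.mem_coe.2 (Finset.mem_product.1 hq).2)]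
    push_cast
    rw [mul_comm _ ((wins (S.cuts l)).card : ℝ), ← nsmul_eq_mul, ← Finset.sum_const]
    refine Finset.sum_le_sum fun J hJ => le_trans ?_ (key J hJ)
    have : ((((P ×ˢ wins (S.cuts l)).filter (fun q => lam3 * ((V l' : ℝ) / V l) <
      (((wins (S.cuts l')).filter (fun J' => q.2.1 ≤ J'.1 ∧ J'.2 ≤ q.2.2 ∧
        q.1 ∈ cen P k (bb P.card (V l')) J'.1 J'.2)).card : ℝ))).filter
        (fun q => q.2 = J)).card) ≤ (P.filter (fun v => lam3 * ((V l' : ℝ) / V l) <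
      (((wins (S.cuts l')).filter (fun J' => J.1 ≤ J'.1 ∧ J'.2 ≤ J.2 ∧
        v ∈ cen P k (bb P.card (V l')) J'.1 J'.2)).card : ℝ))).card := by
      refine Finset.card_le_card_of_injOn (fun q => q.1) ?_ ?_
      · intro q hq
        have hq := Finset.mem_coe.1 hq
        obtain ⟨a1, a2⟩ := Finset.mem_filter.1 hq
        obtain ⟨a3, a4⟩ := Finset.mem_filter.1 a1
        rw [a2] at a4
        exact Finset.mem_coe.2 (Finset.mem_filter.2 ⟨(Finset.mem_product.1 a3).1, a4⟩)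
      · intro q hq q' hq' he
        have a := (Finset.mem_filter.1 (Finset.mem_coe.1 hq)).2
        have a' := (Finset.mem_filter.1 (Finset.mem_coe.1 hq')).2
        exact Prod.ext he (a.trans a'.symm)
    exact_mod_cast this
  have hCw : 0 ≤ Cw := by
    have h7 : (0 : ℝ) ≤ Cw * (V l : ℝ) ^ 4 := le_trans (by positivity) hwc
    by_contra hneg
    rw [not_le] at hneg
    have : Cw * (V l : ℝ) ^ 4 < 0 := mul_neg_of_neg_of_pos hneg (by positivity)
    linarith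
  calc Λ * Λl * _ ≤ Λ * Λl * (7 * Cw / lam3 * (P.card / (V l : ℝ) ^ 3) *
        (wins (S.cuts l)).card) := mul_le_mul_of_nonneg_left h6 (by positivity)
    _ ≤ Λ * Λl * (7 * Cw / lam3 * (P.card / (V l : ℝ) ^ 3) * (Cw * (V l : ℝ) ^ 4)) := by
        refine mul_le_mul_of_nonneg_left (mul_le_mul_of_nonneg_left hwc (by positivity))
          (by positivity)
    _ = 7 * Cw ^ 2 / lam3 * P.card * Λ * (Λl * V l) := by
        field_simp

/-! ### (t5) -/

/-- disjoint windows: the sum of the window degrees is at most the degree -/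
theorem sum_nbW_le (C : Finset ℝ) (b : ℕ) (v : Pt) :
    ∑ J ∈ wins C, (nbW P k b J.1 J.2 v).card ≤ (nb P k b v).card := by
  rw [← Finset.card_biUnion]
  · apply Finset.card_le_card
    intro w hw
    obtain ⟨J, _, h⟩ := Finset.mem_biUnion.1 hw
    exact nbW_subset h
  · intro J hJ J' hJ' hne
    rw [Function.onFun, Finset.disjoint_left]
    intro w hw hw'
    rw [mem_nbW_iff] at hw hw'
    exact hne (win_unique hJ hJ' hw.2.1 hw.2.2 hw'.2.1 hw'.2.2)

/-- **(t5)**, general form -/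
theorem t5 (hG : Generic P) (S : WSys P k V L Cw) {l : ℕ} (hl : l ≤ L) {b' a B : ℕ}
    (haB : 2 * a ≤ B) {Λ Λl : ℝ} (hΛ : 0 ≤ Λ) (hΛl : 0 ≤ Λl)
    {H : Finset Walk} (hH : H ⊆ T0 P k b' Λ)
    (h3 : ∀ z ∈ H, ((nbW P k b' (winOf (S.cuts l) (esl (lastE z))).1
      (winOf (S.cuts l) (esl (lastE z))).2 z.2.1).card : ℝ) ≤ Λl)
    (hc : ∀ z ∈ H, Central P k a (esl (lastE z)) z.1) :
    ((H.filter (fun z => ¬ ∀ θ, (winOf (S.cuts l) (esl (lastE z))).1 < θ →
      θ < (winOf (S.cuts l) (esl (lastE z))).2 → Central P k B θ z.1)).card : ℝ) * B ≤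
      4 * (nearAll P k B).card * (Λ * Λl) := by
  -- restrict to walks that are bad, so that we may keep the centrality information
  set Bad : Pt → ℝ × ℝ → Prop := fun v J => (B : ℝ) / 2 ≤ ((nbW P k B J.1 J.2 v).card : ℝ)
    with hBad
  have hsub : H.filter (fun z => ¬ ∀ θ, (winOf (S.cuts l) (esl (lastE z))).1 < θ →
      θ < (winOf (S.cuts l) (esl (lastE z))).2 → Central P k B θ z.1) ⊆
      H.filter (fun z => Bad z.1 (winOf (S.cuts l) (esl (lastE z)))) := by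
    intro z hz
    obtain ⟨h1, h2⟩ := Finset.mem_filter.1 hz
    refine Finset.mem_filter.2 ⟨h1, ?_⟩
    push Not at h2
    obtain ⟨θ, h4, h5, h6⟩ := h2
    have hsp := win_spec S hl (lastE_mem (hH h1))
    set J := winOf (S.cuts l) (esl (lastE z)) with hJ
    have hJ1 : NonSlope P J.1 := S.nons l hl _ (mem_wins.1 hsp.1).1
    have hJ2 : NonSlope P J.2 := S.nons l hl _ (mem_wins.1 hsp.1).2.1
    have h7 := Active.fast_partners hG (mem_T0' (hH h1)).1 hJ1 hJ2 (k := k) (a := a) (B := B)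
      hsp.2.1.le hsp.2.2.le h4.le h5.le (hc z h1) (by
        unfold Central at h6
        rw [not_and_or, not_le, not_le] at h6
        rcases h6 with h6 | h6
        · left; exact h6.le
        · right; exact h6.le)
    rw [← card_nbW] at h7
    show (B : ℝ) / 2 ≤ ((nbW P k B J.1 J.2 z.1).card : ℝ)
    have h8 : (B : ℝ) ≤ ((nbW P k B J.1 J.2 z.1).card : ℝ) + a := by exact_mod_cast h7
    have h9 : 2 * (a : ℝ) ≤ B := by exact_mod_cast haB
    linarith
  have h1 := card_bad_pair S hl hΛ hΛl hH h3 Bad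
  -- number of bad pairs (v, J)
  have h2 : (((P ×ˢ wins (S.cuts l)).filter (fun q => Bad q.1 q.2)).card : ℝ) * (B / 2) ≤
      2 * (nearAll P k B).card := by
    calc (((P ×ˢ wins (S.cuts l)).filter (fun q => Bad q.1 q.2)).card : ℝ) * (B / 2)
        = ∑ _q ∈ (P ×ˢ wins (S.cuts l)).filter (fun q => Bad q.1 q.2), ((B : ℝ) / 2) := by
          rw [Finset.sum_const, nsmul_eq_mul]
      _ ≤ ∑ q ∈ (P ×ˢ wins (S.cuts l)).filter (fun q => Bad q.1 q.2),
          ((nbW P k B q.2.1 q.2.2 q.1).card : ℝ) :=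
          Finset.sum_le_sum fun q hq => (Finset.mem_filter.1 hq).2
      _ ≤ ∑ q ∈ P ×ˢ wins (S.cuts l), ((nbW P k B q.2.1 q.2.2 q.1).card : ℝ) :=
          Finset.sum_le_sum_of_subset_of_nonneg (Finset.filter_subset _ _)
            fun _ _ _ => Nat.cast_nonneg _
      _ = ∑ v ∈ P, ∑ J ∈ wins (S.cuts l), ((nbW P k B J.1 J.2 v).card : ℝ) :=
          Finset.sum_product _ _ _
      _ ≤ ∑ v ∈ P, ((nb P k B v).card : ℝ) := by
          refine Finset.sum_le_sum fun v _ => ?_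
          exact_mod_cast sum_nbW_le (S.cuts l) B v
      _ = 2 * (nearAll P k B).card := by
          exact_mod_cast sum_card_nb
  calc ((H.filter (fun z => ¬ ∀ θ, (winOf (S.cuts l) (esl (lastE z))).1 < θ →
      θ < (winOf (S.cuts l) (esl (lastE z))).2 → Central P k B θ z.1)).card : ℝ) * B
      ≤ ((H.filter (fun z => Bad z.1 (winOf (S.cuts l) (esl (lastE z))))).card : ℝ) * B := by
        refine mul_le_mul_of_nonneg_right ?_ (Nat.cast_nonneg _)
        exact_mod_cast Finset.card_le_card hsub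
    _ ≤ Λ * Λl * (((P ×ˢ wins (S.cuts l)).filter (fun q => Bad q.1 q.2)).card : ℝ) * B :=
        mul_le_mul_of_nonneg_right h1 (Nat.cast_nonneg _)
    _ = 2 * (Λ * Λl) *
          ((((P ×ˢ wins (S.cuts l)).filter (fun q => Bad q.1 q.2)).card : ℝ) * (B / 2)) := by ring
    _ ≤ 2 * (Λ * Λl) * (2 * (nearAll P k B).card) :=
        mul_le_mul_of_nonneg_left h2 (by positivity)
    _ = 4 * (nearAll P k B).card * (Λ * Λl) := by ring


/-! ### the same in the notation of `HSys.lean` -/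

/-- **(t6)** -/
theorem t6_W (W : WSys P k V L Cw) {l : ℕ} (hl : l ≤ L) (hV : 1 ≤ V l) {b' : ℕ} {Λ lam3 : ℝ}
    (hΛ : 0 ≤ Λ) (hlam : 0 < lam3) :
    (((T0 P k b' Λ).filter (fun z => W.T6 lam3 l z.1)).card : ℝ) ≤
      7 * Cw / lam3 * P.card * Λ ^ 2 :=
  t6 W hl hV hΛ hlam

/-- **(t7)** -/
theorem t7_W (W : WSys P k V L Cw) {l l' : ℕ} (hll : l ≤ l') (hl' : l' ≤ L) (hV : 1 ≤ V l)
    (hV' : 1 ≤ V l') {b' : ℕ} {Λ Λl lam3 : ℝ} (hΛ : 0 ≤ Λ) (hΛl : 0 ≤ Λl) (hlam : 0 < lam3)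
    {H : Finset Walk} (hH : H ⊆ T0 P k b' Λ)
    (h3 : ∀ z ∈ H, ((nbW P k b' (W.J l (esl (lastE z))).1 (W.J l (esl (lastE z))).2
      z.2.1).card : ℝ) ≤ Λl) :
    ((H.filter (fun z => W.T7 lam3 l' l z.1 (esl (lastE z)))).card : ℝ) ≤
      7 * Cw ^ 2 / lam3 * P.card * Λ * (Λl * V l) := by
  have h := t7 W hll hl' hV hV' hΛ hΛl hlam hH h3
  refine le_trans (le_of_eq ?_) h
  congr 2
  refine Finset.filter_congr fun z _ => ?_
  unfold WSys.T7 WSys.actIn WSys.act WSys.A WSys.J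
  rw [Finset.filter_filter]
  have : (wins (W.cuts l')).filter (fun J => z.1 ∈ cen P k (bb P.card (V l')) J.1 J.2 ∧
      ((winOf (W.cuts l) (esl (lastE z))).1 ≤ J.1 ∧ J.2 ≤ (winOf (W.cuts l) (esl (lastE z))).2)) =
      (wins (W.cuts l')).filter (fun J' =>
        (winOf (W.cuts l) (esl (lastE z))).1 ≤ J'.1 ∧ J'.2 ≤ (winOf (W.cuts l) (esl (lastE z))).2 ∧
        z.1 ∈ cen P k (bb P.card (V l')) J'.1 J'.2) := by
    refine Finset.filter_congr fun J _ => ?_
    tauto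
  rw [this]




end Crest.Agent.R51.TrimWin
end
end

-- ▼ part R51/TrimI
section

/-!
# Row 51: `I5`, `I6`, `I7` of WalkH.lean  (helper209)
-/

set_option autoImplicit false

noncomputable section

open Classical

namespace Crest.Agent.R51.TrimI

/-- Dey's bound, cube form (W0) -/
theorem nearAll_cube {P : Finset Pt} (hP : Generic P) (k : ℕ) {b : ℕ} (hb : 1 ≤ b) :
    ((nearAll P k b).card : ℝ) ≤ 18 * P.card ∨
      ((nearAll P k b).card : ℝ) ^ 3 ≤ 11664 * (b : ℝ) ^ 2 * (P.card : ℝ) ^ 4 := by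
  rcases crossing_lemma hP (A := P) (E := nearAll P k b) (Finset.Subset.refl _)
    nearAll_subset with h | h
  · exact Or.inl h
  · right
    refine h.trans ?_
    have h1 := dey_all hP k b k b hb hb
    have h2 : ((crs (nearAll P k b) (nearAll P k b) : ℕ) : ℝ) ≤
        18 * b * b * P.card * P.card := by exact_mod_cast h1
    calc 648 * (P.card : ℝ) ^ 2 * (crs (nearAll P k b) (nearAll P k b) : ℝ)
        ≤ 648 * (P.card : ℝ) ^ 2 * (18 * b * b * P.card * P.card) :=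
          mul_le_mul_of_nonneg_left h2 (by positivity)
      _ = _ := by ring

end Crest.Agent.R51.TrimI

namespace Crest.Agent.R51

open TrimI TrimWin

/-- **(t6)_l** -/
theorem i6 : I6 := by
  intro Cw lam1 lam3 _ hlam1 hlam3 P _ k Vp _ V L W l hl hV
  have hD : 0 ≤ DD P Vp := by unfold DD; positivity
  have h := t6_W W hl hV (b' := bb P.card Vp) (Λ := lam1 * DD P Vp)
    (mul_nonneg (by linarith) hD) (lam3 := lam3) (by linarith)
  refine h.trans (le_of_eq ?_)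
  ring

/-- **(t7)_l** -/
theorem i7 : I7 := by
  intro Cw lam1 lam2 lam3 _ hlam1 hlam2 hlam3 P _ k Vp _ V L W l n0 hl hn0 hV hV0
  have hD : 0 ≤ DD P Vp := by unfold DD; positivity
  have hVp : (0 : ℝ) < V l := by exact_mod_cast hV
  have h := t7_W W hl hn0 hV hV0 (b' := bb P.card Vp) (Λ := lam1 * DD P Vp)
    (Λl := lam2 * DD P Vp / (V l : ℝ)) (lam3 := lam3)
    (mul_nonneg (by linarith) hD) (div_nonneg (mul_nonneg (by linarith) hD) hVp.le) (by linarith)
    (H := (TT P k Vp lam1).filter (fun z => G3 W Vp lam2 l z))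
    (Finset.filter_subset _ _) (fun z hz => (Finset.mem_filter.1 hz).2)
  rw [Finset.filter_filter] at h
  refine h.trans (le_of_eq ?_)
  field_simp

/-- **(t5)** -/
theorem i5 : I5 := by
  intro Cw lam1 lam2 kap ε _ hlam1 hlam2 hkap hkap2 hε
  set Q : ℝ := 1492992 * lam1 ^ 3 * lam2 ^ 3 / ε ^ 3 with hQ
  have hl1 : 0 < lam1 := by linarith
  have hl2 : 0 < lam2 := by linarith
  have hQ0 : 0 < Q := by rw [hQ]; positivity
  refine ⟨⌈Q⌉₊ + 1, by omega, ?_⟩
  intro v vb hv hvb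
  refine ⟨0, fun Vp _ => ⟨max (2 * v ^ 3) ⌈144 * lam1 * lam2 * (v : ℝ) ^ 2 / ε⌉₊, ?_⟩⟩
  intro P hP hN k V L W l hl hVl
  set LL : ℕ := ⌈Q⌉₊ + 1 with hLL
  set B : ℕ := LL * bb P.card (V l) with hB
  have hD : 0 ≤ DD P Vp := by unfold DD; positivity
  have hN1 : 2 * v ^ 3 ≤ P.card := le_trans (le_max_left _ _) hN
  have hN2 : 144 * lam1 * lam2 * (v : ℝ) ^ 2 / ε ≤ (P.card : ℝ) := by
    refine (Nat.le_ceil _).trans ?_
    exact_mod_cast le_trans (le_max_right _ _) hN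
  have hvr : (1 : ℝ) ≤ v := by exact_mod_cast hv
  have hv0 : (0 : ℝ) < v := by linarith
  have hv3 : 1 ≤ v ^ 3 := Nat.one_le_pow _ _ hv
  -- size of the level width
  have hbb : (P.card : ℝ) / (2 * (v : ℝ) ^ 3) ≤ (bb P.card v : ℝ) := by
    unfold bb
    have h1 : P.card < (P.card / v ^ 3 + 1) * v ^ 3 := by
      have := Nat.lt_div_mul_add (a := P.card) (b := v ^ 3) (by omega)
      calc P.card < P.card / v ^ 3 * v ^ 3 + v ^ 3 := this
        _ = _ := by ring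
    have h2 : 2 ≤ P.card / v ^ 3 := (Nat.le_div_iff_mul_le (by omega)).2 hN1
    have h3 : P.card ≤ 2 * v ^ 3 * (P.card / v ^ 3) := by nlinarith
    rw [div_le_iff₀ (by positivity)]
    have h4 : (P.card : ℝ) ≤ 2 * (v : ℝ) ^ 3 * ((P.card / v ^ 3 : ℕ) : ℝ) := by exact_mod_cast h3
    linarith
  have hbb1 : 1 ≤ bb P.card v := by
    unfold bb
    exact (Nat.le_div_iff_mul_le (by omega)).2 (by omega)
  have hB1 : 1 ≤ B := by
    rw [hB, hVl]
    exact Nat.mul_pos (by omega) (by omega)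
  have hLLQ : Q ≤ (LL : ℝ) := by
    rw [hLL]
    push_cast
    have := Nat.le_ceil Q
    linarith
  have hLL1 : (1 : ℝ) ≤ LL := by rw [hLL]; push_cast; have := Nat.cast_nonneg (α := ℝ) ⌈Q⌉₊; linarith
  have hBr : (LL : ℝ) * ((P.card : ℝ) / (2 * (v : ℝ) ^ 3)) ≤ (B : ℝ) := by
    rw [hB, hVl]
    push_cast
    exact mul_le_mul_of_nonneg_left hbb (by linarith)
  have hBpos : (0 : ℝ) < B := by exact_mod_cast hB1
  have hNpos : (0 : ℝ) < P.card := by
    have : 1 ≤ P.card := by omega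
    exact_mod_cast this
  -- the centrality parameter
  have ha : 2 * ⌊kap * (bb P.card vb : ℝ)⌋₊ ≤ B := by
    have h1 : (⌊kap * (bb P.card vb : ℝ)⌋₊ : ℝ) ≤ kap * (bb P.card vb : ℝ) :=
      Nat.floor_le (by positivity)
    have h2 : bb P.card vb ≤ bb P.card v := by
      unfold bb
      exact Nat.div_le_div_left (Nat.pow_le_pow_left hvb 3) (by omega)
    have h3 : (bb P.card vb : ℝ) ≤ (bb P.card v : ℝ) := by exact_mod_cast h2
    have h4 : (2 : ℝ) * (⌊kap * (bb P.card vb : ℝ)⌋₊ : ℝ) ≤ (bb P.card v : ℝ) := by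
      have h5 : kap * (bb P.card vb : ℝ) ≤ 1 / 2 * (bb P.card v : ℝ) := by
        apply mul_le_mul hkap2 h3 (Nat.cast_nonneg _) (by norm_num)
      linarith
    have h5 : 2 * ⌊kap * (bb P.card vb : ℝ)⌋₊ ≤ bb P.card v := by exact_mod_cast h4
    refine h5.trans ?_
    rw [hB, hVl]
    exact Nat.le_mul_of_pos_left _ (by omega)
  -- the edge bound
  have hE : ((nearAll P k B).card : ℝ) ≤ ε * P.card * B * v / (4 * lam1 * lam2) := by
    rcases nearAll_cube hP k hB1 with h | h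
    · refine h.trans ?_
      rw [le_div_iff₀ (by positivity)]
      have h6 : 72 * lam1 * lam2 ≤ ε * B * v := by
        have h7 : (P.card : ℝ) / (2 * (v : ℝ) ^ 3) ≤ (B : ℝ) := by
          refine le_trans ?_ hBr
          have h8 : (0 : ℝ) ≤ (P.card : ℝ) / (2 * (v : ℝ) ^ 3) := by positivity
          nlinarith
        have h9 : 72 * lam1 * lam2 / (ε * v) ≤ (P.card : ℝ) / (2 * (v : ℝ) ^ 3) := by
          rw [div_le_div_iff₀ (by positivity) (by positivity)]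
          rw [div_le_iff₀ hε] at hN2
          have h10 : 0 ≤ (v : ℝ) := hv0.le
          nlinarith [mul_le_mul_of_nonneg_right hN2 h10]
        have h11 := h9.trans h7
        rw [div_le_iff₀ (by positivity)] at h11
        linarith
      have h12 : (0 : ℝ) ≤ P.card := Nat.cast_nonneg _
      nlinarith [mul_le_mul_of_nonneg_left h6 h12]
    · have hpos : (0 : ℝ) ≤ ε * P.card * B * v / (4 * lam1 * lam2) := by positivity
      refine le_of_pow_le_pow_left₀ (n := 3) (by norm_num) hpos (h.trans ?_)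
      have e1 : (ε * P.card * B * v / (4 * lam1 * lam2)) ^ 3 =
          (B : ℝ) ^ 2 * (P.card : ℝ) ^ 3 * (ε ^ 3 * (B * (v : ℝ) ^ 3) /
            (64 * lam1 ^ 3 * lam2 ^ 3)) := by
        field_simp
        ring
      have e2 : 11664 * (B : ℝ) ^ 2 * (P.card : ℝ) ^ 4 =
          (B : ℝ) ^ 2 * (P.card : ℝ) ^ 3 * (11664 * P.card) := by ring
      rw [e1, e2]
      refine mul_le_mul_of_nonneg_left ?_ (by positivity)
      rw [le_div_iff₀ (by positivity)]
      have h13 : Q * (P.card : ℝ) ≤ 2 * (B * (v : ℝ) ^ 3) := by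
        have h14 : (LL : ℝ) * (P.card : ℝ) ≤ 2 * (B * (v : ℝ) ^ 3) := by
          have h15 := mul_le_mul_of_nonneg_right hBr (show (0 : ℝ) ≤ 2 * (v : ℝ) ^ 3 by positivity)
          have e3 : (LL : ℝ) * ((P.card : ℝ) / (2 * (v : ℝ) ^ 3)) * (2 * (v : ℝ) ^ 3) =
              LL * P.card := by field_simp
          rw [e3] at h15
          linarith
        exact (mul_le_mul_of_nonneg_right hLLQ hNpos.le).trans h14
      have h16 : 11664 * (P.card : ℝ) * (64 * lam1 ^ 3 * lam2 ^ 3) =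
          ε ^ 3 * (Q * P.card) / 2 := by
        rw [hQ]
        field_simp
        ring
      rw [h16]
      have h17 := mul_le_mul_of_nonneg_left h13 (show (0 : ℝ) ≤ ε ^ 3 by positivity)
      linarith
  -- apply (t5)
  have hVl0 : (0 : ℝ) < V l := by rw [hVl]; exact hv0
  have h := t5 hP W hl (b' := bb P.card Vp) ha (Λ := lam1 * DD P Vp)
    (Λl := lam2 * DD P Vp / (V l : ℝ)) (mul_nonneg hl1.le hD)
    (div_nonneg (mul_nonneg hl2.le hD) hVl0.le)
    (H := (TT P k Vp lam1).filter (fun z => G3 W Vp lam2 l z ∧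
        Central P k ⌊kap * (bb P.card vb : ℝ)⌋₊ (esl (lastE z)) z.1))
    (Finset.filter_subset _ _) (fun z hz => (Finset.mem_filter.1 hz).2.1)
    (fun z hz => (Finset.mem_filter.1 hz).2.2)
  rw [Finset.filter_filter] at h
  have e4 : ((TT P k Vp lam1).filter (fun z => G3 W Vp lam2 l z ∧
        Central P k ⌊kap * (bb P.card vb : ℝ)⌋₊ (esl (lastE z)) z.1 ∧ ¬ G5 W LL l z)).card ≤
      ((TT P k Vp lam1).filter (fun z => (G3 W Vp lam2 l z ∧
        Central P k ⌊kap * (bb P.card vb : ℝ)⌋₊ (esl (lastE z)) z.1) ∧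
        ¬ ∀ θ, (winOf (W.cuts l) (esl (lastE z))).1 < θ →
          θ < (winOf (W.cuts l) (esl (lastE z))).2 → Central P k B θ z.1)).card := by
    refine Finset.card_le_card fun z hz => ?_
    rw [Finset.mem_filter] at hz ⊢
    exact ⟨hz.1, ⟨hz.2.1, hz.2.2.1⟩, hz.2.2.2⟩
  have e5 : (((TT P k Vp lam1).filter (fun z => G3 W Vp lam2 l z ∧
        Central P k ⌊kap * (bb P.card vb : ℝ)⌋₊ (esl (lastE z)) z.1 ∧ ¬ G5 W LL l z)).card : ℝ) * B ≤
      4 * ((nearAll P k B).card : ℝ) * (lam1 * DD P Vp * (lam2 * DD P Vp / (V l : ℝ))) := by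
    refine le_trans ?_ h
    refine mul_le_mul_of_nonneg_right ?_ hBpos.le
    exact_mod_cast e4
  refine le_of_mul_le_mul_right ?_ hBpos
  refine e5.trans ?_
  rw [hVl]
  have hq : (0 : ℝ) ≤ lam1 * DD P Vp * (lam2 * DD P Vp / (v : ℝ)) := by positivity
  calc 4 * ((nearAll P k B).card : ℝ) * (lam1 * DD P Vp * (lam2 * DD P Vp / (v : ℝ)))
      ≤ 4 * (ε * P.card * B * v / (4 * lam1 * lam2)) *
          (lam1 * DD P Vp * (lam2 * DD P Vp / (v : ℝ))) :=
        mul_le_mul_of_nonneg_right (mul_le_mul_of_nonneg_left hE (by norm_num)) hq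
    _ = ε * (P.card : ℝ) * DD P Vp ^ 2 * B := by
        field_simp

end Crest.Agent.R51
end
end

-- ▼ part R51/Robust
section

/-!
# Row 51, sections 5.3 and 5.4: non-concentration and robust points (helper238)

Auxiliary notions, in the namespace `Rob`:
`light P k b C m` : points lying in at most `m` of the sets `A(J) = cen P k b J`, `J ∈ wins C`.
`comm P k b C m I J` : number of light points in `A(I) ∩ A(J)`.
`NK P k b C m T I J` : `I ≠ J` and `comm ≤ T` (`= W.NK` for `T = K N / V^4`, `m = λ₃ V`, `NK_iff`).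
`badX … F` : crossing pairs of `F` whose pair of windows is not in `NK`.

Main results: `WSys.Robust`, `WSys.Robust.out`, `WSys.rob_trim`, `card_not_robust`,
`card_walks_not_robust`.
-/

set_option autoImplicit false

noncomputable section

open Classical

namespace Crest.Agent.R51

namespace Rob

/-- points lying in at most `m` sets `cen P k b J`, `J ∈ wins C`. -/
def light (P : Finset Pt) (k b : ℕ) (C : Finset ℝ) (m : ℝ) : Finset Pt :=
  P.filter (fun p => (((wins C).filter (fun J => p ∈ cen P k b J.1 J.2)).card : ℝ) ≤ m)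

/-- number of common light points of two windows. -/
def comm (P : Finset Pt) (k b : ℕ) (C : Finset ℝ) (m : ℝ) (I J : ℝ × ℝ) : ℕ :=
  ((light P k b C m).filter (fun p => p ∈ cen P k b I.1 I.2 ∧ p ∈ cen P k b J.1 J.2)).card

/-- the relation `N_l(K)`. -/
def NK (P : Finset Pt) (k b : ℕ) (C : Finset ℝ) (m T : ℝ) (I J : ℝ × ℝ) : Prop :=
  I ≠ J ∧ (comm P k b C m I J : ℝ) ≤ T

lemma mem_light {P : Finset Pt} {k b : ℕ} {C : Finset ℝ} {m : ℝ} {p : Pt} :
    p ∈ light P k b C m ↔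
      p ∈ P ∧ (((wins C).filter (fun J => p ∈ cen P k b J.1 J.2)).card : ℝ) ≤ m := by
  simp [light]

lemma comm_symm (P : Finset Pt) (k b : ℕ) (C : Finset ℝ) (m : ℝ) (I J : ℝ × ℝ) :
    comm P k b C m I J = comm P k b C m J I := by
  unfold comm
  congr 1
  ext p
  simp only [Finset.mem_filter]
  tauto

lemma NK.symm {P : Finset Pt} {k b : ℕ} {C : Finset ℝ} {m T : ℝ} {I J : ℝ × ℝ}
    (h : NK P k b C m T I J) : NK P k b C m T J I :=
  ⟨h.1.symm, by rw [comm_symm]; exact h.2⟩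

lemma NK.ne {P : Finset Pt} {k b : ℕ} {C : Finset ℝ} {m T : ℝ} {I J : ℝ × ℝ}
    (h : NK P k b C m T I J) : I ≠ J := h.1

/-- number of windows `≤` number of cuts. -/
lemma card_wins_le (C : Finset ℝ) : (wins C).card ≤ C.card := by
  refine Finset.card_le_card_of_injOn (fun J => J.1) ?_ ?_
  · intro J hJ
    exact Finset.mem_coe.2 (mem_wins.1 (Finset.mem_coe.1 hJ)).1
  · intro J hJ J' hJ' h
    have h0 : J.1 = J'.1 := h
    obtain ⟨a1, a2, a3, a4⟩ := mem_wins.1 (Finset.mem_coe.1 hJ)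
    obtain ⟨c1, c2, c3, c4⟩ := mem_wins.1 (Finset.mem_coe.1 hJ')
    refine Prod.ext h0 ?_
    rcases lt_trichotomy J.2 J'.2 with h | h | h
    · exact absurd ⟨h0 ▸ a3, h⟩ (c4 _ a2)
    · exact h
    · exact absurd ⟨h0 ▸ c3, h⟩ (a4 _ c2)

/-- `Σ_{I,J} comm ≤ N m²`. -/
lemma sum_comm_le (P : Finset Pt) (k b : ℕ) (C : Finset ℝ) (m : ℝ) :
    ∑ x ∈ wins C ×ˢ wins C, (comm P k b C m x.1 x.2 : ℝ) ≤ P.card * m ^ 2 := by
  have h1 : ∑ x ∈ wins C ×ˢ wins C, (comm P k b C m x.1 x.2 : ℝ) =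
      ∑ p ∈ light P k b C m,
        (((wins C).filter (fun J => p ∈ cen P k b J.1 J.2)).card : ℝ) ^ 2 := by
    have h2 : ∀ x : (ℝ × ℝ) × (ℝ × ℝ), (comm P k b C m x.1 x.2 : ℝ) =
        ∑ p ∈ light P k b C m,
          (if p ∈ cen P k b x.1.1 x.1.2 ∧ p ∈ cen P k b x.2.1 x.2.2 then (1 : ℝ) else 0) := by
      intro x
      unfold comm
      rw [Finset.card_filter]
      push_cast
      rfl
    simp only [h2]
    rw [Finset.sum_comm]
    refine Finset.sum_congr rfl (fun p _ => ?_)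
    rw [pow_two, Finset.card_filter]
    push_cast
    rw [Finset.sum_product, Finset.sum_mul_sum]
    refine Finset.sum_congr rfl (fun I _ => Finset.sum_congr rfl (fun J _ => ?_))
    by_cases hI : p ∈ cen P k b I.1 I.2 <;> by_cases hJ : p ∈ cen P k b J.1 J.2 <;>
      simp [hI, hJ]
  rw [h1]
  calc ∑ p ∈ light P k b C m,
        (((wins C).filter (fun J => p ∈ cen P k b J.1 J.2)).card : ℝ) ^ 2
      ≤ ∑ _p ∈ light P k b C m, m ^ 2 := by
        refine Finset.sum_le_sum (fun p hp => ?_)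
        exact pow_le_pow_left₀ (by positivity) (mem_light.1 hp).2 2
    _ = (light P k b C m).card * m ^ 2 := by rw [Finset.sum_const, nsmul_eq_mul]
    _ ≤ P.card * m ^ 2 := by
        refine mul_le_mul_of_nonneg_right ?_ (by positivity)
        exact_mod_cast Finset.card_le_card (Finset.filter_subset _ _)

/-- the number of window pairs outside `NK`. -/
lemma card_notNK_le (P : Finset Pt) (k b : ℕ) (C : Finset ℝ) {m T : ℝ} (hT : 0 < T) :
    ((((wins C ×ˢ wins C).filter (fun x => ¬ NK P k b C m T x.1 x.2)).card : ℕ) : ℝ) ≤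
      P.card * m ^ 2 / T + C.card := by
  have hsub : (wins C ×ˢ wins C).filter (fun x => ¬ NK P k b C m T x.1 x.2) ⊆
      (wins C ×ˢ wins C).filter (fun x => T < comm P k b C m x.1 x.2) ∪
        (wins C).image (fun J => (J, J)) := by
    intro x hx
    rw [Finset.mem_filter] at hx
    rw [Finset.mem_union]
    by_cases h : x.1 = x.2
    · right
      exact Finset.mem_image.2 ⟨x.1, (Finset.mem_product.1 hx.1).1, Prod.ext rfl h⟩
    · left
      refine Finset.mem_filter.2 ⟨hx.1, ?_⟩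
      by_contra hn
      exact hx.2 ⟨h, not_lt.1 hn⟩
  have h1 : ((((wins C ×ˢ wins C).filter (fun x => T < comm P k b C m x.1 x.2)).card : ℕ) : ℝ) ≤
      P.card * m ^ 2 / T := by
    rw [le_div_iff₀ hT]
    calc ((((wins C ×ˢ wins C).filter (fun x => T < comm P k b C m x.1 x.2)).card : ℕ) : ℝ) * T
        = ∑ _x ∈ (wins C ×ˢ wins C).filter (fun x => T < comm P k b C m x.1 x.2), T := by
          rw [Finset.sum_const, nsmul_eq_mul]
      _ ≤ ∑ x ∈ (wins C ×ˢ wins C).filter (fun x => T < comm P k b C m x.1 x.2),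
            (comm P k b C m x.1 x.2 : ℝ) :=
          Finset.sum_le_sum (fun x hx => (Finset.mem_filter.1 hx).2.le)
      _ ≤ ∑ x ∈ wins C ×ˢ wins C, (comm P k b C m x.1 x.2 : ℝ) :=
          Finset.sum_le_sum_of_subset_of_nonneg (Finset.filter_subset _ _)
            (fun _ _ _ => by positivity)
      _ ≤ P.card * m ^ 2 := sum_comm_le P k b C m
  have h2 : (((wins C).image (fun J => (J, J))).card : ℝ) ≤ C.card := by
    exact_mod_cast Finset.card_image_le.trans (card_wins_le C)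
  have h3 := (Finset.card_le_card hsub).trans (Finset.card_union_le _ _)
  have h4 : ((((wins C ×ˢ wins C).filter (fun x => ¬ NK P k b C m T x.1 x.2)).card : ℕ) : ℝ) ≤
      (((wins C ×ˢ wins C).filter (fun x => T < comm P k b C m x.1 x.2)).card : ℕ) +
        (((wins C).image (fun J => (J, J))).card : ℕ) := by exact_mod_cast h3
  linarith

/-- the crossing pairs of `F` whose windows are not in `NK`. -/
def badX (P : Finset Pt) (k b : ℕ) (C : Finset ℝ) (m T : ℝ) (F : Finset Edge) :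
    Finset (Edge × Edge) :=
  (F ×ˢ F).filter (fun x => Cross x.1 x.2 ∧
    ¬ NK P k b C m T (winOf C (esl x.1)) (winOf C (esl x.2)))

/-- the pairs of `F` whose windows are in `NK`. -/
def goodX (P : Finset Pt) (k b : ℕ) (C : Finset ℝ) (m T : ℝ) (F : Finset Edge) :
    Finset (Edge × Edge) :=
  (F ×ˢ F).filter (fun x => NK P k b C m T (winOf C (esl x.1)) (winOf C (esl x.2)))

/-- 5.3, abstract form. -/
theorem sum_badX_le {P : Finset Pt} {k b b' : ℕ} {C : Finset ℝ} {m T X : ℝ} {Λ : ℝ}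
    (hT : 0 < T) (hX0 : 0 ≤ X) (hΛ : 0 ≤ Λ) {F : Pt → Finset Edge}
    (hF : ∀ v ∈ P, ∀ e ∈ F v, winOf C (esl e) ∈ wins C ∧
      e ∈ nearE P k b' (winOf C (esl e)).1 (winOf C (esl e)).2)
    (hdeg : ∀ e, ((P.filter (fun v => e ∈ F v)).card : ℝ) ≤ Λ)
    (hX : ∀ I ∈ wins C, ∀ J ∈ wins C,
      (crs (nearE P k b' I.1 I.2) (nearE P k b' J.1 J.2) : ℝ) ≤ X) :
    ∑ v ∈ P, ((badX P k b C m T (F v)).card : ℝ) ≤
      (P.card * m ^ 2 / T + C.card) * X * Λ := by
  set W := (wins C ×ˢ wins C).filter (fun x => ¬ NK P k b C m T x.1 x.2) with hW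
  set B : Finset (Edge × Edge) := W.biUnion (fun x =>
    ((nearE P k b' x.1.1 x.1.2) ×ˢ (nearE P k b' x.2.1 x.2.2)).filter
      (fun y => Cross y.1 y.2)) with hB
  have hBcard : (B.card : ℝ) ≤ (P.card * m ^ 2 / T + C.card) * X := by
    have h1 : B.card ≤ ∑ x ∈ W, crs (nearE P k b' x.1.1 x.1.2) (nearE P k b' x.2.1 x.2.2) :=
      Finset.card_biUnion_le
    have h2 : (B.card : ℝ) ≤ ∑ x ∈ W,
        (crs (nearE P k b' x.1.1 x.1.2) (nearE P k b' x.2.1 x.2.2) : ℝ) := by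
      exact_mod_cast h1
    refine h2.trans ?_
    calc ∑ x ∈ W, (crs (nearE P k b' x.1.1 x.1.2) (nearE P k b' x.2.1 x.2.2) : ℝ)
        ≤ ∑ _x ∈ W, X := by
          refine Finset.sum_le_sum (fun x hx => ?_)
          have h3 := Finset.mem_product.1 (Finset.mem_filter.1 hx).1
          exact hX _ h3.1 _ h3.2
      _ = W.card * X := by rw [Finset.sum_const, nsmul_eq_mul]
      _ ≤ _ := mul_le_mul_of_nonneg_right (card_notNK_le P k b C hT) hX0
  have hsub : ∀ v ∈ P, badX P k b C m T (F v) ⊆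
      B.filter (fun y => y.1 ∈ F v) := by
    intro v hv y hy
    unfold badX at hy
    rw [Finset.mem_filter, Finset.mem_product] at hy
    obtain ⟨⟨h1, h2⟩, h3, h4⟩ := hy
    obtain ⟨a1, a2⟩ := hF v hv _ h1
    obtain ⟨c1, c2⟩ := hF v hv _ h2
    refine Finset.mem_filter.2 ⟨Finset.mem_biUnion.2
      ⟨(winOf C (esl y.1), winOf C (esl y.2)), ?_, ?_⟩, h1⟩
    · exact Finset.mem_filter.2 ⟨Finset.mem_product.2 ⟨a1, c1⟩, h4⟩
    · exact Finset.mem_filter.2 ⟨Finset.mem_product.2 ⟨a2, c2⟩, h3⟩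
  calc ∑ v ∈ P, ((badX P k b C m T (F v)).card : ℝ)
      ≤ ∑ v ∈ P, ((B.filter (fun y => y.1 ∈ F v)).card : ℝ) := by
        refine Finset.sum_le_sum (fun v hv => ?_)
        exact_mod_cast Finset.card_le_card (hsub v hv)
    _ = ∑ y ∈ B, ((P.filter (fun v => y.1 ∈ F v)).card : ℝ) := by
        simp only [Finset.card_filter]
        push_cast
        exact Finset.sum_comm
    _ ≤ ∑ _y ∈ B, Λ := Finset.sum_le_sum (fun y _ => hdeg y.1)
    _ = B.card * Λ := by rw [Finset.sum_const, nsmul_eq_mul]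
    _ ≤ _ := mul_le_mul_of_nonneg_right hBcard hΛ

/-- 5.4: crossing pairs of a dense subset of `H_v`. -/
theorem crs_ge {P : Finset Pt} (hP : Generic P) {S : Finset Edge} (hS : S ⊆ pairs P) {D C6 δ : ℝ}
    (hD : 0 < D) (hC6 : 0 < C6) (hA : ((ends S).card : ℝ) ≤ C6 * D)
    (hδD : 18 * C6 < δ * D) (hSc : δ * D ^ 2 ≤ S.card) :
    (S.card : ℝ) ^ 3 / (648 * C6 ^ 2 * D ^ 2) ≤ (crs S S : ℝ) := by
  have hE : S ⊆ pairs (ends S) := by
    intro e he
    have := mem_pairs.1 (hS he)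
    exact mem_pairs.2 ⟨mem_ends.2 ⟨e, he, Or.inl rfl⟩, mem_ends.2 ⟨e, he, Or.inr rfl⟩, this.2.2⟩
  have hAP : ends S ⊆ P := by
    intro p hp
    obtain ⟨e, he, h⟩ := mem_ends.1 hp
    have := mem_pairs.1 (hS he)
    rcases h with rfl | rfl
    · exact this.1
    · exact this.2.1
  rcases crossing_lemma hP hAP hE with h | h
  · exfalso
    have h1 : δ * D ^ 2 ≤ 18 * (C6 * D) := hSc.trans (h.trans (by linarith))
    have h2 : 18 * C6 * D < δ * D * D := mul_lt_mul_of_pos_right hδD hD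
    nlinarith
  · rw [div_le_iff₀ (by positivity)]
    refine h.trans ?_
    have h3 : ((ends S).card : ℝ) ^ 2 ≤ (C6 * D) ^ 2 := pow_le_pow_left₀ (by positivity) hA 2
    have h4 : (0 : ℝ) ≤ crs S S := by positivity
    calc 648 * ((ends S).card : ℝ) ^ 2 * (crs S S : ℝ)
        ≤ 648 * (C6 * D) ^ 2 * (crs S S : ℝ) := by gcongr
      _ = (crs S S : ℝ) * (648 * C6 ^ 2 * D ^ 2) := by ring

/-- 5.4: robust points.  If `F` has at most `δ³D⁴/(1296 C6²)` bad crossing pairs, every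
`S ⊆ F` with `#S ≥ δ D²` has at least `#S³/(1296 C6² D²)` pairs whose windows are in `NK`. -/
theorem goodX_ge {P : Finset Pt} (hP : Generic P) {k b : ℕ} {C : Finset ℝ} {m T : ℝ}
    {F S : Finset Edge} (hF : F ⊆ pairs P) (hSF : S ⊆ F) {D C6 δ : ℝ}
    (hD : 0 < D) (hC6 : 0 < C6) (hδ : 0 < δ) (hA : ((ends F).card : ℝ) ≤ C6 * D)
    (hδD : 18 * C6 < δ * D) (hSc : δ * D ^ 2 ≤ S.card)
    (hrob : ((badX P k b C m T F).card : ℝ) ≤ δ ^ 3 * D ^ 4 / (1296 * C6 ^ 2)) :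
    (S.card : ℝ) ^ 3 / (1296 * C6 ^ 2 * D ^ 2) ≤ ((goodX P k b C m T S).card : ℝ) := by
  have hends : ends S ⊆ ends F := ends_mono hSF
  have h1 := crs_ge hP (hSF.trans hF) hD hC6
    ((Nat.cast_le.2 (Finset.card_le_card hends)).trans hA) hδD hSc
  have hsub : (S ×ˢ S).filter (fun x => Cross x.1 x.2) ⊆
      goodX P k b C m T S ∪ badX P k b C m T F := by
    intro x hx
    rw [Finset.mem_filter, Finset.mem_product] at hx
    rw [Finset.mem_union]
    by_cases h : NK P k b C m T (winOf C (esl x.1)) (winOf C (esl x.2))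
    · exact Or.inl (Finset.mem_filter.2 ⟨Finset.mem_product.2 hx.1, h⟩)
    · exact Or.inr (Finset.mem_filter.2 ⟨Finset.mem_product.2 ⟨hSF hx.1.1, hSF hx.1.2⟩, hx.2, h⟩)
  have h2 : (crs S S : ℝ) ≤ (goodX P k b C m T S).card + (badX P k b C m T F).card := by
    have := (Finset.card_le_card hsub).trans (Finset.card_union_le _ _)
    exact_mod_cast this
  have h3 : δ ^ 3 * D ^ 4 / (1296 * C6 ^ 2) ≤ (S.card : ℝ) ^ 3 / (1296 * C6 ^ 2 * D ^ 2) := by
    rw [div_le_div_iff₀ (by positivity) (by positivity)]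
    have h4 : (δ * D ^ 2) ^ 3 ≤ (S.card : ℝ) ^ 3 := pow_le_pow_left₀ (by positivity) hSc 3
    calc δ ^ 3 * D ^ 4 * (1296 * C6 ^ 2 * D ^ 2) = (δ * D ^ 2) ^ 3 * (1296 * C6 ^ 2) := by ring
      _ ≤ (S.card : ℝ) ^ 3 * (1296 * C6 ^ 2) := by gcongr
  have h5 : (S.card : ℝ) ^ 3 / (648 * C6 ^ 2 * D ^ 2) =
      2 * ((S.card : ℝ) ^ 3 / (1296 * C6 ^ 2 * D ^ 2)) := by
    field_simp
    ring
  rw [h5] at h1
  linarith


/-- the window of a slope, in a window system -/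
lemma WSys_winOf_spec {P : Finset Pt} {k : ℕ} {V : ℕ → ℕ} {L : ℕ} {Cw : ℝ}
    (S : WSys P k V L Cw) {l : ℕ} (hl : l ≤ L) {e : Edge} (he : e ∈ pairs P) :
    winOf (S.cuts l) (esl e) ∈ wins (S.cuts l) ∧ (winOf (S.cuts l) (esl e)).1 < esl e ∧
      esl e < (winOf (S.cuts l) (esl e)).2 :=
  Crest.Agent.R51.winOf_spec (exists_win (S.sub 0 l (Nat.zero_le _) hl S.lo_mem)
    (S.sub 0 l (Nat.zero_le _) hl S.hi_mem) (S.lo_lt_slope e he) (S.slope_lt_hi e he)
    (fun h => S.nons l hl _ h e he rfl))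

/-- the walks of `H ⊆ T₀` through a given last edge -/
lemma card_start_le {P : Finset Pt} {k b' : ℕ} {Λ : ℝ} (hΛ : 0 ≤ Λ) {H : Finset Walk}
    (hH : H ⊆ T0 P k b' Λ) (e : Edge) : ((P.filter (fun v => e ∈ fib H v)).card : ℝ) ≤ Λ := by
  rcases (P.filter (fun v => e ∈ fib H v)).eq_empty_or_nonempty with h | ⟨v0, h0⟩
  · rw [h]; simpa using hΛ
  · have hz0 := hH (mem_fib.1 (Finset.mem_filter.1 h0).2)
    have hdeg : (dg (nearAll P k b') e.1 : ℝ) ≤ Λ := (mem_T0' hz0).2.2.2.2.2.2.2.2.1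
    refine le_trans ?_ hdeg
    have hsub : P.filter (fun v => e ∈ fib H v) ⊆ nbrs (nearAll P k b') e.1 := by
      intro v hv
      have hz := hH (mem_fib.1 (Finset.mem_filter.1 hv).2)
      have := (mem_T0.1 hz).1
      exact mem_nbrs.2 (Or.inr (lowG_subset _ _ this))
    exact_mod_cast (Finset.card_le_card hsub).trans (card_nbrs_le _ _)

/-- crossings of near-`b'` pairs in two windows of a window system -/
lemma crs_win_le {P : Finset Pt} (hP : Generic P) {k : ℕ} {V : ℕ → ℕ} {L : ℕ} {Cw : ℝ}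
    (S : WSys P k V L Cw) {l : ℕ} (hl : l ≤ L) {b' : ℕ} (hb' : 1 ≤ b')
    (hbb : b' + 1 ≤ bb P.card (V l)) {I J : ℝ × ℝ} (hI : I ∈ wins (S.cuts l))
    (hJ : J ∈ wins (S.cuts l)) :
    (crs (nearE P k b' I.1 I.2) (nearE P k b' J.1 J.2) : ℝ) ≤
      882 * (b' : ℝ) ^ 2 * (bb P.card (V l) : ℝ) ^ 2 := by
  have h1 := dey_near' hP k b' k b' hb' hb' I.1 I.2 J.1 J.2
  have hA : ∀ J ∈ wins (S.cuts l), (ActN P k b' J.1 J.2).card ≤ 7 * bb P.card (V l) := by
    intro J hJ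
    refine le_trans (Finset.card_le_card ?_) (S.cen_le l hl J hJ)
    exact ends_nearE_subset.trans (cen_mono hbb le_rfl le_rfl)
  have h2 : crs (nearE P k b' I.1 I.2) (nearE P k b' J.1 J.2) ≤
      18 * b' * b' * (7 * bb P.card (V l)) * (7 * bb P.card (V l)) :=
    h1.trans (Nat.mul_le_mul (Nat.mul_le_mul_left _ (hA I hI)) (hA J hJ))
  have h3 : (crs (nearE P k b' I.1 I.2) (nearE P k b' J.1 J.2) : ℝ) ≤
      18 * b' * b' * (7 * bb P.card (V l)) * (7 * bb P.card (V l)) := by exact_mod_cast h2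
  refine h3.trans (le_of_eq ?_)
  ring

lemma bb_le_div (N V : ℕ) : (bb N V : ℝ) ≤ N / (V : ℝ) ^ 3 := by
  unfold bb
  refine Nat.cast_div_le.trans (le_of_eq ?_)
  push_cast
  rfl

lemma bb_succ_le {N V V' : ℕ} (hV : 1 ≤ V) (hVV : 2 * V ≤ V') (hN : V' ^ 3 ≤ N) :
    1 ≤ bb N V' ∧ bb N V' + 1 ≤ bb N V := by
  have hV3 : 0 < V ^ 3 := by positivity
  have hV3' : 0 < V' ^ 3 := by
    have : 0 < V' := by omega
    positivity
  have h1 : 1 ≤ bb N V' := by
    unfold bb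
    exact (Nat.one_le_div_iff hV3').2 hN
  refine ⟨h1, ?_⟩
  unfold bb at h1 ⊢
  rw [Nat.le_div_iff_mul_le hV3]
  have h2 : (2 * V) ^ 3 ≤ V' ^ 3 := Nat.pow_le_pow_left hVV 3
  have h3 : N / V' ^ 3 * V' ^ 3 ≤ N := Nat.div_mul_le_self _ _
  have h4 : (N / V' ^ 3 + 1) * V ^ 3 ≤ N / V' ^ 3 * (2 * V) ^ 3 := by
    have : (2 * V) ^ 3 = 8 * V ^ 3 := by ring
    rw [this]
    nlinarith
  exact h4.trans ((Nat.mul_le_mul_left _ h2).trans h3)

/-- 5.3 for a window system: total number of bad crossing pairs. -/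
theorem sum_badX_WSys {P : Finset Pt} (hP : Generic P) {k : ℕ} {Vs : ℕ → ℕ} {L : ℕ} {Cw : ℝ}
    (hCw : 0 ≤ Cw) (W : WSys P k Vs L Cw) {l : ℕ} (hl : l ≤ L) {V V' : ℕ} (hVl : Vs l = V)
    (hV : 1 ≤ V) (hVV : 2 * V ≤ V') (hN : V' ^ 3 ≤ P.card) {lam1 lam3 K : ℝ} (h1 : 0 ≤ lam1)
    (hK : 0 < K) {H : Finset Walk}
    (hH : H ⊆ T0 P k (bb P.card V') (lam1 * (P.card / (V' : ℝ) ^ 2))) :
    ∑ v ∈ P, ((badX P k (bb P.card V) (W.cuts l) (lam3 * V) (K * P.card / (V : ℝ) ^ 4)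
      (fib H v)).card : ℝ) ≤
      882 * lam1 * (lam3 ^ 2 / K + Cw / (V : ℝ) ^ 2) * P.card * (P.card / (V' : ℝ) ^ 2) ^ 4 := by
  obtain ⟨hb1, hb2⟩ := bb_succ_le hV hVV hN
  have hVR : (1 : ℝ) ≤ V := by exact_mod_cast hV
  have hVR' : (1 : ℝ) ≤ V' := by exact_mod_cast (by omega : 1 ≤ V')
  have hNR : (1 : ℝ) ≤ P.card := by
    have : 1 ≤ V' ^ 3 := Nat.one_le_pow _ _ (by omega)
    exact_mod_cast this.trans hN
  have hN0 : (0 : ℝ) < P.card := by linarith
  set N : ℝ := (P.card : ℝ) with hNdef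
  have hT : 0 < K * N / (V : ℝ) ^ 4 := by positivity
  have hΛ : 0 ≤ lam1 * (N / (V' : ℝ) ^ 2) := by positivity
  have hmain := sum_badX_le (P := P) (k := k) (b := bb P.card V) (b' := bb P.card V')
    (C := W.cuts l) (m := lam3 * V) (T := K * N / (V : ℝ) ^ 4)
    (X := 882 * (bb P.card V' : ℝ) ^ 2 * (bb P.card V : ℝ) ^ 2)
    (Λ := lam1 * (N / (V' : ℝ) ^ 2)) hT (by positivity) hΛ (F := fib H) ?_
    (card_start_le hΛ hH) ?_
  · refine hmain.trans ?_
    have hc : ((W.cuts l).card : ℝ) ≤ Cw * (V : ℝ) ^ 4 := by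
      have := W.count_all l hl
      rwa [hVl] at this
    have e1 : N * (lam3 * V) ^ 2 / (K * N / (V : ℝ) ^ 4) = lam3 ^ 2 / K * (V : ℝ) ^ 6 := by
      field_simp
    have hb1' := bb_le_div P.card V'
    have hb2' := bb_le_div P.card V
    have h5 : (bb P.card V' : ℝ) ^ 2 ≤ (N / (V' : ℝ) ^ 3) ^ 2 :=
      pow_le_pow_left₀ (by positivity) hb1' 2
    have h6 : (bb P.card V : ℝ) ^ 2 ≤ (N / (V : ℝ) ^ 3) ^ 2 :=
      pow_le_pow_left₀ (by positivity) hb2' 2
    have h7 : N * (lam3 * V) ^ 2 / (K * N / (V : ℝ) ^ 4) + ((W.cuts l).card : ℝ) ≤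
        lam3 ^ 2 / K * (V : ℝ) ^ 6 + Cw * (V : ℝ) ^ 4 := by
      rw [e1]; linarith
    calc (N * (lam3 * V) ^ 2 / (K * N / (V : ℝ) ^ 4) + ((W.cuts l).card : ℝ)) *
          (882 * (bb P.card V' : ℝ) ^ 2 * (bb P.card V : ℝ) ^ 2) * (lam1 * (N / (V' : ℝ) ^ 2))
        ≤ (lam3 ^ 2 / K * (V : ℝ) ^ 6 + Cw * (V : ℝ) ^ 4) *
          (882 * (N / (V' : ℝ) ^ 3) ^ 2 * (N / (V : ℝ) ^ 3) ^ 2) *
            (lam1 * (N / (V' : ℝ) ^ 2)) := by
          refine mul_le_mul_of_nonneg_right ?_ hΛ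
          refine mul_le_mul h7 ?_ (by positivity) (by positivity)
          gcongr
      _ = 882 * lam1 * (lam3 ^ 2 / K + Cw / (V : ℝ) ^ 2) * N * (N / (V' : ℝ) ^ 2) ^ 4 := by
          field_simp
  · intro v _ e he
    have hz := hH (mem_fib.1 he)
    have hlast : e ∈ lowG (nearAll P k (bb P.card V')) (lam1 * (N / (V' : ℝ) ^ 2)) :=
      (mem_T0.1 hz).2
    obtain ⟨he1, he2⟩ := mem_nearAll.1 (lowG_subset _ _ hlast)
    obtain ⟨w1, w2, w3⟩ := WSys_winOf_spec W hl he1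
    exact ⟨w1, mem_nearE.2 ⟨he1, w2, w3, he2⟩⟩
  · intro I hI J hJ
    have := crs_win_le hP W hl hb1 (by rw [hVl]; exact hb2) hI hJ
    rwa [hVl] at this



/-- the relation `N_l(K)` of the central interface. -/
lemma NK_iff {P : Finset Pt} {k : ℕ} {Vs : ℕ → ℕ} {L : ℕ} {Cw : ℝ} (W : WSys P k Vs L Cw)
    (lam3 K : ℝ) (l : ℕ) (I J : ℝ × ℝ) :
    W.NK lam3 K l I J ↔ NK P k (bb P.card (Vs l)) (W.cuts l) (lam3 * Vs l)
      (K * P.card / (Vs l : ℝ) ^ 4) I J := by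
  unfold WSys.NK NK
  have h : (W.cc lam3 l I J) = ((light P k (bb P.card (Vs l)) (W.cuts l) (lam3 * Vs l)).filter
      (fun p => p ∈ cen P k (bb P.card (Vs l)) I.1 I.2 ∧
        p ∈ cen P k (bb P.card (Vs l)) J.1 J.2)) := by
    ext p
    unfold WSys.cc WSys.T6 WSys.act WSys.A light
    simp only [Finset.mem_filter, not_lt]
    tauto
  rw [h]
  rfl

end Rob

namespace WSys

/-- a robust point of level `l`: `F = H_v` has at most `δ³D⁴/(1296 C6²)` crossing pairs whose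
windows are not in `N_l(K)`. -/
def Robust {P : Finset Pt} {k : ℕ} {Vs : ℕ → ℕ} {L : ℕ} {Cw : ℝ} (W : WSys P k Vs L Cw)
    (lam3 K : ℝ) (l : ℕ) (C6 δ D : ℝ) (F : Finset Edge) : Prop :=
  (((F ×ˢ F).filter (fun x : Edge × Edge => Cross x.1 x.2 ∧
    ¬ W.NK lam3 K l (W.J l (esl x.1)) (W.J l (esl x.2)))).card : ℝ) ≤
      δ ^ 3 * D ^ 4 / (1296 * C6 ^ 2)

lemma badX_eq {P : Finset Pt} {k : ℕ} {Vs : ℕ → ℕ} {L : ℕ} {Cw : ℝ} (W : WSys P k Vs L Cw)
    (lam3 K : ℝ) (l : ℕ) (F : Finset Edge) :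
    (F ×ˢ F).filter (fun x : Edge × Edge => Cross x.1 x.2 ∧
      ¬ W.NK lam3 K l (W.J l (esl x.1)) (W.J l (esl x.2))) =
    Rob.badX P k (bb P.card (Vs l)) (W.cuts l) (lam3 * Vs l) (K * P.card / (Vs l : ℝ) ^ 4) F := by
  unfold Rob.badX
  refine Finset.filter_congr (fun x _ => ?_)
  rw [Rob.NK_iff]
  rfl

lemma goodX_eq {P : Finset Pt} {k : ℕ} {Vs : ℕ → ℕ} {L : ℕ} {Cw : ℝ} (W : WSys P k Vs L Cw)
    (lam3 K : ℝ) (l : ℕ) (F : Finset Edge) :
    (F ×ˢ F).filter (fun x : Edge × Edge => W.NK lam3 K l (W.J l (esl x.1)) (W.J l (esl x.2))) =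
    Rob.goodX P k (bb P.card (Vs l)) (W.cuts l) (lam3 * Vs l) (K * P.card / (Vs l : ℝ) ^ 4) F := by
  unfold Rob.goodX
  refine Finset.filter_congr (fun x _ => ?_)
  rw [Rob.NK_iff]
  rfl

lemma NK.symm {P : Finset Pt} {k : ℕ} {Vs : ℕ → ℕ} {L : ℕ} {Cw : ℝ} {W : WSys P k Vs L Cw}
    {lam3 K : ℝ} {l : ℕ} {I J : ℝ × ℝ} (h : W.NK lam3 K l I J) : W.NK lam3 K l J I := by
  rw [Rob.NK_iff] at h ⊢
  exact Rob.NK.symm h

/-- 5.4 in the form consumed by B6 and 7.4 (`c₈ = 1/(1296 C6²)`). -/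
theorem Robust.out {P : Finset Pt} (hP : Generic P) {k : ℕ} {Vs : ℕ → ℕ} {L : ℕ} {Cw : ℝ}
    {W : WSys P k Vs L Cw} {lam3 K : ℝ} {l : ℕ} {F S : Finset Edge} {D C6 δ : ℝ}
    (h : W.Robust lam3 K l C6 δ D F) (hF : F ⊆ pairs P)
    (hSF : S ⊆ F) (hD : 0 < D) (hC6 : 0 < C6) (hδ : 0 < δ)
    (hA : ((ends F).card : ℝ) ≤ C6 * D) (hδD : 18 * C6 < δ * D) (hSc : δ * D ^ 2 ≤ S.card) :
    1 / (1296 * C6 ^ 2) * (S.card : ℝ) ^ 3 / D ^ 2 ≤
      (((S ×ˢ S).filter (fun x : Edge × Edge =>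
        W.NK lam3 K l (W.J l (esl x.1)) (W.J l (esl x.2)))).card : ℝ) := by
  unfold Robust at h
  rw [badX_eq] at h
  have := Rob.goodX_ge hP hF hSF hD hC6 hδ hA hδD hSc h
  rw [goodX_eq]
  refine le_trans (le_of_eq ?_) this
  field_simp

lemma T0_fib_subset {P : Finset Pt} {k b' : ℕ} {Λ : ℝ} {H : Finset Walk} (hH : H ⊆ T0 P k b' Λ)
    (v : Pt) : fib H v ⊆ pairs P := by
  intro e he
  exact nearAll_subset (lowG_subset _ _ (mem_T0.1 (hH (mem_fib.1 he))).2)


end WSys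




end Crest.Agent.R51
end
end

-- ▼ part R51/WalkRob

/-!
# Row 51, B5: `I53` (non-concentration) and `I54` (robustness), helper238
-/

set_option autoImplicit false

noncomputable section

open Classical

namespace Crest.Agent.R51

/-- **5.3** -/
theorem i53 : I53 := by
  intro Cw lam1 lam3 K hCw h1 _ hK Vp hVp
  refine ⟨Vp ^ 3, ?_⟩
  intro P hP hN k V L W l hl hV hVV H hH
  have hCw0 : 0 ≤ Cw := by linarith
  have h10 : 0 ≤ lam1 := by linarith
  have h := Rob.sum_badX_WSys hP hCw0 W hl rfl hV hVV hN h10 hK (lam3 := lam3) (H := H) hH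
  have he : ∀ v, badX W lam3 K l H v =
      Rob.badX P k (bb P.card (V l)) (W.cuts l) (lam3 * V l) (K * P.card / (V l : ℝ) ^ 4)
        (fib H v) := fun v => WSys.badX_eq W lam3 K l (fib H v)
  simp only [he]
  refine h.trans (le_of_eq ?_)
  unfold DD
  ring

/-- **5.4** -/
theorem i54 : I54 := by
  intro lam1 c3 h1 hc3
  set C6 : ℝ := lam1 + lam1 ^ 2 / c3 with hC6
  have h2 : 0 < lam1 ^ 2 / c3 := by positivity
  have hC61 : 1 ≤ C6 := by linarith
  have hC60 : 0 < C6 := by linarith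
  refine ⟨1 / (1296 * C6 ^ 2), by positivity, ?_, ?_⟩
  · rw [div_le_one (by positivity)]
    nlinarith
  intro d hd Vp hVp
  obtain ⟨N1, hN1⟩ := exists_nat_gt (18 * C6 / d * (Vp : ℝ) ^ 2)
  refine ⟨N1, ?_⟩
  intro P hP hN k H hH hm V L Cw W lam3 K l v hbad S hS hSc
  have hVR : (1 : ℝ) ≤ Vp := by exact_mod_cast hVp
  have hV2 : (0 : ℝ) < (Vp : ℝ) ^ 2 := by positivity
  have hNR : (N1 : ℝ) ≤ P.card := by exact_mod_cast hN
  have hDbig : 18 * C6 / d < DD P Vp := by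
    unfold DD
    rw [lt_div_iff₀ hV2]
    linarith
  have hD : 0 < DD P Vp := lt_of_le_of_lt (by positivity) hDbig
  have hA : ∀ v, ((ends (fib H v)).card : ℝ) ≤ C6 * DD P Vp := by
    intro v
    have h3 := card_Wpts_le (P := P) (k := k) (b := bb P.card Vp) (Λ := lam1 * DD P Vp)
      (by positivity) (c := c3 * DD P Vp) (by positivity) (H := H) hH hm v
    refine h3.trans (le_of_eq ?_)
    rw [hC6]
    field_simp
  have hrob : W.Robust lam3 K l C6 d (DD P Vp) (fib H v) := by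
    unfold WSys.Robust
    unfold badX at hbad
    refine hbad.trans (le_of_eq ?_)
    ring
  have hδD : 18 * C6 < d * DD P Vp := by
    rw [div_lt_iff₀ hd] at hDbig
    linarith
  have h5 := WSys.Robust.out hP hrob (WSys.T0_fib_subset hH v) hS hD hC60 hd (hA v) hδD hSc
  exact h5

end Crest.Agent.R51
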