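import Crest.Agent.R51.Good2
import Crest.Agent.R51.NoFinal
import Mathlib
import Crest.Agent.R51.Defs
import Crest.Agent.R51.Iface
import Crest.Agent.R51.Walk51_Mg
import Crest.Agent.R51.WalkRob_Mg
import Crest.Agent.R51.WinSysB
import Crest.Agent.R51.Quad5_Mg
import Crest.Agent.R51.BridgeB6

-- ▼ part R51/GoodHalf
section

/-!
# Row 51, section 7.5 (second half): `GoodHalf` from `BadLac` and `FewSpec`
-/

set_option autoImplicit false

noncomputable section

open Classical

namespace Crest.Agent.R51.Gd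

/-- if many `v ∈ R` are seen from `p₁` in `Prob_{c,τ}` windows then many elements of `H_{p₁}` lie
in such windows -/
lemma lac_card {P : Finset Pt} {k mu n2 n0 be Vp : ℕ} {a : Cst} {K1 d1 d8 e1 c5 : ℝ}
    {W : WSys P k (lev mu n0 be) (n0 + 1) a.Cw} {H : Finset Walk} {p : Fin 3 → Pt}
    {R : Finset Pt} (_hmu : 1 ≤ mu) (_hVp : 1 ≤ Vp) (he1 : 0 < e1) (hn2 : 1 ≤ n2)
    (hn0 : n2 ≤ n0)
    (hH : HSystem mu n2 n0 be Vp a K1 d1 d8 W H) (hF : FinalCfg mu n0 be Vp a K1 e1 c5 W H p R)
    (c : ℝ) (two : Bool) (Bd : Finset Pt) (hBd : Bd ⊆ R)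
    (hlac : ∀ v ∈ Bd, Lac W mu n2 c two (sl (p 0) v)) :
    (Bd.card : ℝ) * (e1 * ((P.card : ℝ) / (Vp : ℝ) ^ 2) ^ 2 / (lev mu n0 be n0 : ℝ)) ≤
      7 * (bb P.card (lev mu n0 be n0) : ℝ) *
        (((fib H (p 0)).filter (fun e => Lac W mu n2 c two (esl e))).card : ℝ) := by
  set q : ℝ := e1 * ((P.card : ℝ) / (Vp : ℝ) ^ 2) ^ 2 / (lev mu n0 be n0 : ℝ) with hq
  have hq0 : 0 ≤ q := by positivity
  set Im := Bd.image (fun v => W.J n0 (sl (p 0) v)) with hIm
  set Le := (fib H (p 0)).filter (fun e => Lac W mu n2 c two (esl e)) with hLe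
  have hdir : ∀ v ∈ Bd, Dir P (sl (p 0) v) := fun v hv =>
    dir_sl (hF.memP 0) (hF.sub (hBd hv)) (hF.left v (hBd hv) 0)
  -- fibres of `v ↦ J(v)`
  have h1 : Bd.card ≤ 7 * bb P.card (lev mu n0 be n0) * Im.card := by
    apply Finset.card_le_mul_card_image
    intro J hJ
    obtain ⟨v0, hv0, rfl⟩ := Finset.mem_image.1 hJ
    refine (Finset.card_le_card ?_).trans
      (W.cen_le n0 (Nat.le_succ n0) _ (J_spec W (Nat.le_succ n0) (hdir v0 hv0)).1)
    intro v hv
    rw [Finset.mem_filter] at hv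
    have h := hF.actv v (hBd hv.1) 0
    rw [hv.2] at h
    exact h
  -- elements of `H` in the windows
  have h2 : (Im.card : ℝ) * q ≤ (Le.card : ℝ) := by
    have hsub : Im.biUnion (fun J => (fib H (p 0)).filter (fun e => W.J n0 (esl e) = J)) ⊆ Le := by
      intro e he
      rw [Finset.mem_biUnion] at he
      obtain ⟨J, hJ, he⟩ := he
      obtain ⟨v, hv, rfl⟩ := Finset.mem_image.1 hJ
      rw [Finset.mem_filter] at he
      rw [hLe, Finset.mem_filter]
      refine ⟨he.1, ?_⟩
      have heH := mem_fib.1 he.1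
      have ht := mem_T0' (hH.sub heH)
      have hde : Dir P (esl e) := ⟨e, mem_pairs.2 ⟨ht.2.1, ht.2.2.1, ht.2.2.2.2.1⟩, rfl⟩
      exact Lac_congr W hn0 hn2 (Nat.le_succ n0) (hdir v hv) hde he.2.symm (hlac v hv)
    have hdisj : ∀ J ∈ Im, ∀ J' ∈ Im, J ≠ J' →
        Disjoint ((fib H (p 0)).filter (fun e => W.J n0 (esl e) = J))
          ((fib H (p 0)).filter (fun e => W.J n0 (esl e) = J')) := by
      intro J _ J' _ hne
      rw [Finset.disjoint_left]
      intro e he he'
      rw [Finset.mem_filter] at he he'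
      exact hne (he.2.symm.trans he'.2)
    have hcard := Finset.card_biUnion hdisj
    have hle := Finset.card_le_card hsub
    rw [hcard] at hle
    calc (Im.card : ℝ) * q = ∑ _J ∈ Im, q := by rw [Finset.sum_const, nsmul_eq_mul]
      _ ≤ ∑ J ∈ Im, (((fib H (p 0)).filter (fun e => W.J n0 (esl e) = J)).card : ℝ) := by
          apply Finset.sum_le_sum
          intro J hJ
          obtain ⟨v, hv, rfl⟩ := Finset.mem_image.1 hJ
          exact hF.alive v (hBd hv) 0
      _ ≤ (Le.card : ℝ) := by exact_mod_cast hle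
  calc (Bd.card : ℝ) * q ≤ ((7 * bb P.card (lev mu n0 be n0) * Im.card : ℕ) : ℝ) * q :=
        mul_le_mul_of_nonneg_right (by exact_mod_cast h1) hq0
    _ = 7 * (bb P.card (lev mu n0 be n0) : ℝ) * ((Im.card : ℝ) * q) := by push_cast; ring
    _ ≤ 7 * (bb P.card (lev mu n0 be n0) : ℝ) * (Le.card : ℝ) :=
        mul_le_mul_of_nonneg_left h2 (by positivity)

theorem goodHalf_of (hBL : BadLac) (hFS : FewSpec) : GoodHalf := by
  intro a ha e1 he1 c5 hc5
  obtain ⟨mu0, hmu0⟩ := hFS a ha c5 hc5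
  refine ⟨c5 * e1 / 100, by positivity, max mu0 1, fun mu hmu => ?_⟩
  intro n2 n0 be Vp K1 d1 P k W H p R hP hn2 hn0 hVp hH hF
  have hmu1 : 1 ≤ mu := (le_max_right _ _).trans hmu
  have hspec := hmu0 mu ((le_max_left _ _).trans hmu) n2 n0 be Vp K1 d1 _ e1 P k W H p R hP hn2
    hn0 hVp he1 hH hF
  set α := sl (p 0) (p 1) with hα
  set β := sl (p 0) (p 2) with hβ
  set S := R.filter (fun v => ¬ NonSpec W α β (sl (p 0) v)) with hS
  set R' := R.filter (fun v => NonSpec W α β (sl (p 0) v) ∧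
    2 * n2 ≤ 200 * (goodLevs W mu n2 n0 a.lam3 α β (p 0) (sl (p 0) v)).card) with hR'
  refine ⟨R', Finset.filter_subset _ _, ?_, fun v hv => (Finset.mem_filter.1 hv).2⟩
  by_contra hcon
  rw [not_le] at hcon
  set Bd := R.filter (fun v => NonSpec W α β (sl (p 0) v) ∧
    200 * (goodLevs W mu n2 n0 a.lam3 α β (p 0) (sl (p 0) v)).card < 2 * n2) with hBd
  have hcover : R ⊆ (R' ∪ S) ∪ Bd := by
    intro v hv
    rw [Finset.mem_union, Finset.mem_union, hR', hS, hBd, Finset.mem_filter, Finset.mem_filter,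
      Finset.mem_filter]
    by_cases h1 : NonSpec W α β (sl (p 0) v)
    · by_cases h2 : 2 * n2 ≤ 200 * (goodLevs W mu n2 n0 a.lam3 α β (p 0) (sl (p 0) v)).card
      · exact Or.inl (Or.inl ⟨hv, h1, h2⟩)
      · exact Or.inr ⟨hv, h1, not_le.1 h2⟩
    · exact Or.inl (Or.inr ⟨hv, h1⟩)
  have hcc : R.card ≤ R'.card + S.card + Bd.card :=
    (Finset.card_le_card hcover).trans ((Finset.card_union_le _ _).trans
      (Nat.add_le_add_right (Finset.card_union_le _ _) _))
  have hBd8 : 3 * R.card < 8 * Bd.card := by omega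
  -- the four classes
  set Q : ℝ → Bool → Finset Pt := fun c two => Bd.filter (fun v => Lac W mu n2 c two (sl (p 0) v))
    with hQ
  have hcov2 : Bd ⊆ ((Q α false ∪ Q α true) ∪ Q β false) ∪ Q β true := by
    intro v hv
    have hv' := Finset.mem_filter.1 hv
    obtain ⟨c, hc, two, hl⟩ := hBL P k mu n2 n0 be Vp a K1 d1 _ e1 c5 W H p R hP hmu1 hn2 hn0 hVp
      he1 hH hF v hv'.1 hv'.2.1 hv'.2.2
    have hm : v ∈ Q c two := Finset.mem_filter.2 ⟨hv, hl⟩
    rw [Finset.mem_union, Finset.mem_union, Finset.mem_union]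
    rcases hc with rfl | rfl
    · cases two
      · exact Or.inl (Or.inl (Or.inl hm))
      · exact Or.inl (Or.inl (Or.inr hm))
    · cases two
      · exact Or.inl (Or.inr hm)
      · exact Or.inr hm
  have hc4 : ∃ c two, Bd.card ≤ 4 * (Q c two).card := by
    by_contra hno
    push Not at hno
    have i1 := hno α false
    have i2 := hno α true
    have i3 := hno β false
    have i4 := hno β true
    have j1 := Finset.card_le_card hcov2
    have j2 := Finset.card_union_le ((Q α false ∪ Q α true) ∪ Q β false) (Q β true)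
    have j3 := Finset.card_union_le (Q α false ∪ Q α true) (Q β false)
    have j4 := Finset.card_union_le (Q α false) (Q α true)
    omega
  obtain ⟨c, two, hct⟩ := hc4
  have hQR : Q c two ⊆ R := (Finset.filter_subset _ _).trans (Finset.filter_subset _ _)
  have hlc := lac_card hmu1 hVp he1 (by omega : 1 ≤ n2) (by omega : n2 ≤ n0) hH hF c two
    (Q c two) hQR (fun v hv => (Finset.mem_filter.1 hv).2)
  have hfield := hH.lac (p 0) c two
  have hbig := hF.big
  have hmuR : (1 : ℝ) ≤ mu := by exact_mod_cast hmu1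
  have hlev1 : 1 ≤ lev mu n0 be n0 := by
    rw [lev_le le_rfl]; exact Nat.one_le_pow _ _ hmu1
  have hbb := bb_le (N := P.card) hlev1
  set V : ℝ := (lev mu n0 be n0 : ℝ) with hVdef
  have hV1 : 1 ≤ V := by rw [hVdef]; exact_mod_cast hlev1
  set N : ℝ := (P.card : ℝ) with hN
  set D2 : ℝ := (N / (Vp : ℝ) ^ 2) ^ 2 with hD2
  set X : ℝ := (((fib H (p 0)).filter (fun e => Lac W mu n2 c two (esl e))).card : ℝ) with hX
  set q : ℝ := ((Q c two).card : ℝ) with hqd
  have hQc : 3 * (R.card : ℝ) < 32 * q := by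
    have : 3 * R.card < 32 * (Q c two).card := by omega
    rw [hqd]
    exact_mod_cast this
  have hX0 : 0 ≤ X := by rw [hX]; positivity
  have hN0 : 0 ≤ N := by rw [hN]; positivity
  have hD0 : 0 ≤ D2 := by rw [hD2]; positivity
  have hVp0 : (0 : ℝ) < Vp := by exact_mod_cast hVp
  -- from `lac_card`
  have k1 : q * (e1 * D2 / V) ≤ 7 * (N / V ^ 3) * X :=
    hlc.trans (mul_le_mul_of_nonneg_right (by linarith) hX0)
  have k2 : c5 * (N / V ^ 2) * 3 < 32 * q := by linarith
  have hVpos : 0 < V := by linarith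
  -- contradiction
  have hDpos : 0 < D2 := by
    rcases hD0.lt_or_eq with h | h
    · exact h
    · exfalso
      rw [← h, mul_zero] at hfield
      linarith
  have hNpos : 0 < N := by
    rcases hN0.lt_or_eq with h | h
    · exact h
    · exfalso
      rw [hD2, ← h, zero_div] at hDpos
      norm_num at hDpos
  have k3 : 3 * (c5 * (N / V ^ 2)) * (e1 * D2 / V) ≤ 32 * (7 * (N / V ^ 3) * X) := by
    have h3 : 0 ≤ e1 * D2 / V := by positivity
    calc 3 * (c5 * (N / V ^ 2)) * (e1 * D2 / V) ≤ 32 * q * (e1 * D2 / V) :=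
          mul_le_mul_of_nonneg_right (by linarith) h3
      _ = 32 * (q * (e1 * D2 / V)) := by ring
      _ ≤ 32 * (7 * (N / V ^ 3) * X) := by linarith
  have k4 : 3 * (c5 * (N / V ^ 2)) * (e1 * D2 / V) = (N / V ^ 3) * (3 * (c5 * e1 * D2)) := by
    field_simp
  have k5 : 32 * (7 * (N / V ^ 3) * X) = (N / V ^ 3) * (224 * X) := by ring
  rw [k4, k5] at k3
  have k6 : 3 * (c5 * e1 * D2) ≤ 224 * X := le_of_mul_le_mul_left k3 (by positivity)
  have k7 : X < c5 * e1 / 100 * D2 := hfield
  have k8 : 0 < c5 * e1 * D2 := by positivity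
  have k9 : c5 * e1 / 100 * D2 = (c5 * e1 * D2) / 100 := by ring
  rw [k9] at k7
  linarith

theorem goodHalf : GoodHalf := goodHalf_of badLac fewSpec

end Crest.Agent.R51.Gd
end
end

-- ▼ part R51/NoFinalDone
section

/-! Row 51: `NoFinal` (7.5 + B8 + B9). -/

set_option autoImplicit false

namespace Crest.Agent.R51

theorem noFinal : NoFinal := noFinal_of_goodHalf Gd.goodHalf

end Crest.Agent.R51
end

-- ▼ part R51/Red1
section

set_option autoImplicit false

namespace Crest.Agent.R51.Red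

open Finset Filter Topology

/-- strictly separable k-subsets, exactly as in S0070 -/
def Sep (Q S : Finset (ℝ × ℝ)) : Prop :=
  ∃ a b c : ℝ, (a ≠ 0 ∨ b ≠ 0) ∧
    (∀ p ∈ S, a * p.1 + b * p.2 + c < 0) ∧
    (∀ p ∈ Q, p ∉ S → 0 < a * p.1 + b * p.2 + c)

open Classical in
noncomputable def ksets (Q : Finset (ℝ × ℝ)) (k : ℕ) : Finset (Finset (ℝ × ℝ)) :=
  (Q.powersetCard k).filter (fun S => Sep Q S)

def DX (P : Finset (ℝ × ℝ)) : Prop := ∀ p ∈ P, ∀ q ∈ P, p.1 = q.1 → p = q

def DS (P : Finset (ℝ × ℝ)) : Prop := ∀ p ∈ P, ∀ q ∈ P, ∀ r ∈ P, ∀ s ∈ P,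
  p.1 < q.1 → r.1 < s.1 → (q.2 - p.2) * (s.1 - r.1) = (s.2 - r.2) * (q.1 - p.1) → p = r ∧ q = s

/-- eventually nonzero quadratic -/
lemma quad_ne (A B C : ℝ) (hA : A ≠ 0) : ∀ᶠ e in 𝓝[≠] (0:ℝ), A * e ^ 2 + B * e + C ≠ 0 := by
  by_cases hC : C = 0
  · by_cases hB : B = 0
    · filter_upwards [self_mem_nhdsWithin] with e he
      have he' : e ≠ 0 := he
      simp [hC, hB, hA, he']
    · have h1 : ∀ᶠ e in 𝓝 (0:ℝ), A * e + B ≠ 0 := by
        have hc : Continuous fun e : ℝ => A * e + B := by fun_prop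
        have := hc.tendsto 0
        simp only [mul_zero, zero_add] at this
        exact this.eventually_ne hB
      filter_upwards [self_mem_nhdsWithin, h1.filter_mono nhdsWithin_le_nhds] with e he he2
      have he' : e ≠ 0 := he
      have : A * e ^ 2 + B * e + C = e * (A * e + B) := by rw [hC]; ring
      rw [this]
      exact mul_ne_zero he' he2
  · have hc : Continuous fun e : ℝ => A * e ^ 2 + B * e + C := by fun_prop
    have := hc.tendsto 0
    simp only [ne_eq, OfNat.ofNat_ne_zero, not_false_eq_true, zero_pow, mul_zero, zero_add] at this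
    exact (this.eventually_ne hC).filter_mono nhdsWithin_le_nhds

lemma sidon {a b c d : ℕ} (hab : a ≠ b) (hcd : c ≠ d)
    (h : (2:ℝ) ^ a + 2 ^ b = 2 ^ c + 2 ^ d) : (a = c ∧ b = d) ∨ (a = d ∧ b = c) := by
  have h' : (2:ℕ) ^ a + 2 ^ b = 2 ^ c + 2 ^ d := by exact_mod_cast h
  -- compare the maxima
  have key : ∀ {a b c d : ℕ}, a < b → c < d → (2:ℕ) ^ a + 2 ^ b = 2 ^ c + 2 ^ d → b = d := by
    intro a b c d hab hcd h
    have h1 : (2:ℕ) ^ a < 2 ^ b := Nat.pow_lt_pow_right (by norm_num) hab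
    have h2 : (2:ℕ) ^ c < 2 ^ d := Nat.pow_lt_pow_right (by norm_num) hcd
    have h3 : 0 < (2:ℕ) ^ a := by positivity
    have h4 : 0 < (2:ℕ) ^ c := by positivity
    rcases lt_trichotomy b d with hbd | hbd | hbd
    · have : (2:ℕ) ^ (b+1) ≤ 2 ^ d := Nat.pow_le_pow_right (by norm_num) hbd
      rw [pow_succ] at this
      omega
    · exact hbd
    · have : (2:ℕ) ^ (d+1) ≤ 2 ^ b := Nat.pow_le_pow_right (by norm_num) hbd
      rw [pow_succ] at this
      omega
  have inj : Function.Injective (fun n : ℕ => (2:ℕ) ^ n) := Nat.pow_right_injective (le_refl 2)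
  rcases lt_or_gt_of_ne hab with h1 | h1 <;> rcases lt_or_gt_of_ne hcd with h2 | h2
  · have := key h1 h2 h'
    subst this
    left; exact ⟨inj (by simpa using h'), rfl⟩
  · have := key h1 h2 (by rw [h']; ring)
    subst this
    right; exact ⟨inj (by simp only; omega), rfl⟩
  · have := key h1 h2 (by rw [← h']; ring)
    subst this
    right; exact ⟨rfl, inj (by simp only; omega)⟩
  · have := key h1 h2 (by rw [add_comm, h']; ring)
    subst this
    left; exact ⟨rfl, inj (by simpa using h')⟩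

/-- PERTURBATION. -/
theorem exists_generic (Q : Finset (ℝ × ℝ)) (k : ℕ) :
    ∃ P : Finset (ℝ × ℝ), P.card = Q.card ∧ DX P ∧ DS P ∧ (ksets Q k).card ≤ (ksets P k).card := by
  classical
  -- injective index
  obtain ⟨idx, hidx⟩ : ∃ idx : ℝ × ℝ → ℕ, ∀ p ∈ Q, ∀ q ∈ Q, idx p = idx q → p = q := by
    refine ⟨fun p => if h : p ∈ Q then (Q.equivFin ⟨p, h⟩ : ℕ) else 0, ?_⟩
    intro p hp q hq h
    simp only [hp, hq, dif_pos] at h
    have h2 := Fin.ext h
    have h3 := Q.equivFin.injective h2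
    simpa using h3
  let g : ℝ → ℝ × ℝ → ℝ × ℝ := fun e p => (p.1 + e * 2 ^ (idx p), p.2 + e * 4 ^ (idx p))
  have hx : ∀ᶠ e in 𝓝[≠] (0:ℝ), ∀ p ∈ Q, ∀ q ∈ Q, (g e p).1 = (g e q).1 → p = q := by
    rw [eventually_all_finset]
    intro p hp
    rw [eventually_all_finset]
    intro q hq
    by_cases hpq : p = q
    · exact Eventually.of_forall fun _ _ => hpq
    · have hne : idx p ≠ idx q := fun h => hpq (hidx p hp q hq h)
      have h2 : (2:ℝ) ^ idx p - 2 ^ idx q ≠ 0 := by
        intro h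
        have h3 : (2:ℝ) ^ idx p = 2 ^ idx q := by linarith
        exact hne (pow_right_injective₀ (by norm_num) (by norm_num) h3)
      -- linear function of e times e
      have h4 := quad_ne ((2:ℝ) ^ idx p - 2 ^ idx q) (p.1 - q.1) 0 h2
      filter_upwards [h4, self_mem_nhdsWithin] with e he he0 heq
      exfalso
      apply he
      have he0' : e ≠ 0 := he0
      simp only [g] at heq
      have : (p.1 - q.1) + e * (2 ^ idx p - 2 ^ idx q) = 0 := by linarith
      calc ((2:ℝ) ^ idx p - 2 ^ idx q) * e ^ 2 + (p.1 - q.1) * e + 0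
          = e * ((p.1 - q.1) + e * (2 ^ idx p - 2 ^ idx q)) := by ring
        _ = 0 := by rw [this]; ring
  have hs : ∀ᶠ e in 𝓝[≠] (0:ℝ), ∀ p ∈ Q, ∀ q ∈ Q, ∀ r ∈ Q, ∀ s ∈ Q, p ≠ q → r ≠ s →
      ((g e q).2 - (g e p).2) * ((g e s).1 - (g e r).1)
        = ((g e s).2 - (g e r).2) * ((g e q).1 - (g e p).1) → (p = r ∧ q = s) ∨ (p = s ∧ q = r) := by
    rw [eventually_all_finset]; intro p hp
    rw [eventually_all_finset]; intro q hq
    rw [eventually_all_finset]; intro r hr
    rw [eventually_all_finset]; intro s hs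
    by_cases hpq : p = q
    · exact Eventually.of_forall fun _ h => absurd hpq h
    by_cases hrs : r = s
    · exact Eventually.of_forall fun _ _ h => absurd hrs h
    by_cases hgood : (p = r ∧ q = s) ∨ (p = s ∧ q = r)
    · exact Eventually.of_forall fun _ _ _ _ => hgood
    have hpq' : idx p ≠ idx q := fun h => hpq (hidx p hp q hq h)
    have hrs' : idx r ≠ idx s := fun h => hrs (hidx r hr s hs h)
    have hinj : ∀ {a b : ℕ}, a ≠ b → (2:ℝ) ^ a - 2 ^ b ≠ 0 := by
      intro a b hab h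
      have h3 : (2:ℝ) ^ a = 2 ^ b := by linarith
      exact hab (pow_right_injective₀ (by norm_num) (by norm_num) h3)
    have hA : ((4:ℝ) ^ idx q - 4 ^ idx p) * (2 ^ idx s - 2 ^ idx r)
        - (4 ^ idx s - 4 ^ idx r) * (2 ^ idx q - 2 ^ idx p) ≠ 0 := by
      have h4 : ∀ m : ℕ, (4:ℝ) ^ m = 2 ^ m * 2 ^ m := by
        intro m; rw [← mul_pow]; norm_num
      have : ((4:ℝ) ^ idx q - 4 ^ idx p) * (2 ^ idx s - 2 ^ idx r)
          - (4 ^ idx s - 4 ^ idx r) * (2 ^ idx q - 2 ^ idx p)
          = (2 ^ idx q - 2 ^ idx p) * (2 ^ idx s - 2 ^ idx r)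
            * ((2 ^ idx p + 2 ^ idx q) - (2 ^ idx r + 2 ^ idx s)) := by
        simp only [h4]; ring
      rw [this]
      refine mul_ne_zero (mul_ne_zero (hinj (Ne.symm hpq')) (hinj (Ne.symm hrs'))) ?_
      intro h
      have h5 : (2:ℝ) ^ idx p + 2 ^ idx q = 2 ^ idx r + 2 ^ idx s := by linarith
      rcases sidon hpq' hrs' h5 with ⟨h6, h7⟩ | ⟨h6, h7⟩
      · exact hgood (Or.inl ⟨hidx p hp r hr h6, hidx q hq s hs h7⟩)
      · exact hgood (Or.inr ⟨hidx p hp s hs h6, hidx q hq r hr h7⟩)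
    filter_upwards [quad_ne _ ((q.2 - p.2) * (2 ^ idx s - 2 ^ idx r) + (4 ^ idx q - 4 ^ idx p) * (s.1 - r.1)
        - ((s.2 - r.2) * (2 ^ idx q - 2 ^ idx p) + (4 ^ idx s - 4 ^ idx r) * (q.1 - p.1)))
        ((q.2 - p.2) * (s.1 - r.1) - (s.2 - r.2) * (q.1 - p.1)) hA] with e he _ _ heq
    exfalso
    apply he
    simp only [g] at heq
    linear_combination heq
  have hsep : ∀ᶠ e in 𝓝[≠] (0:ℝ), ∀ S ∈ ksets Q k, ∃ a b c : ℝ, (a ≠ 0 ∨ b ≠ 0) ∧
      (∀ p ∈ S, a * (g e p).1 + b * (g e p).2 + c < 0) ∧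
      (∀ p ∈ Q, p ∉ S → 0 < a * (g e p).1 + b * (g e p).2 + c) := by
    rw [eventually_all_finset]
    intro S hS
    unfold ksets at hS
    obtain ⟨hS1, a, b, c, hab, h1, h2⟩ := Finset.mem_filter.mp hS
    have hc : ∀ p : ℝ × ℝ, Tendsto (fun e => a * (g e p).1 + b * (g e p).2 + c) (𝓝[≠] 0)
        (𝓝 (a * p.1 + b * p.2 + c)) := by
      intro p
      have : Continuous fun e : ℝ => a * (g e p).1 + b * (g e p).2 + c := by
        simp only [g]; fun_prop
      have h := (this.tendsto 0).mono_left (nhdsWithin_le_nhds (s := {(0:ℝ)}ᶜ))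
      simpa [g] using h
    have h1' : ∀ᶠ e in 𝓝[≠] (0:ℝ), ∀ p ∈ S, a * (g e p).1 + b * (g e p).2 + c < 0 := by
      rw [eventually_all_finset]
      intro p hp
      exact (hc p).eventually (gt_mem_nhds (h1 p hp))
    have h2' : ∀ᶠ e in 𝓝[≠] (0:ℝ), ∀ p ∈ Q, p ∉ S → 0 < a * (g e p).1 + b * (g e p).2 + c := by
      rw [eventually_all_finset]
      intro p hp
      by_cases hpS : p ∈ S
      · exact Eventually.of_forall fun _ h => absurd hpS h
      · filter_upwards [(hc p).eventually (lt_mem_nhds (h2 p hp hpS))] with e he _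
        exact he
    filter_upwards [h1', h2'] with e he1 he2
    exact ⟨a, b, c, hab, he1, he2⟩
  obtain ⟨e, hx, hs, hsep⟩ := (hx.and (hs.and hsep)).exists
  refine ⟨Q.image (g e), ?_, ?_, ?_, ?_⟩
  · apply Finset.card_image_of_injOn
    intro p hp q hq h
    exact hx p hp q hq (by rw [h])
  · intro p' hp' q' hq' h
    rw [Finset.mem_image] at hp' hq'
    obtain ⟨p, hp, rfl⟩ := hp'
    obtain ⟨q, hq, rfl⟩ := hq'
    rw [hx p hp q hq h]
  · intro p' hp' q' hq' r' hr' s' hs' hlt1 hlt2 heq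
    rw [Finset.mem_image] at hp' hq' hr' hs'
    obtain ⟨p, hp, rfl⟩ := hp'
    obtain ⟨q, hq, rfl⟩ := hq'
    obtain ⟨r, hr, rfl⟩ := hr'
    obtain ⟨s, hs2, rfl⟩ := hs'
    have hpq : p ≠ q := by rintro rfl; exact lt_irrefl _ hlt1
    have hrs : r ≠ s := by rintro rfl; exact lt_irrefl _ hlt2
    rcases hs p hp q hq r hr s hs2 hpq hrs heq with ⟨rfl, rfl⟩ | ⟨rfl, rfl⟩
    · exact ⟨rfl, rfl⟩
    · exact absurd hlt1 (not_lt.mpr hlt2.le)
  · apply Finset.card_le_card_of_injOn (fun S => S.image (g e))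
    · intro S hS
      have hS2 := hsep S hS
      rw [Finset.mem_coe] at hS ⊢
      unfold ksets at hS ⊢
      rw [Finset.mem_filter, Finset.mem_powersetCard] at hS ⊢
      obtain ⟨⟨hSQ, hSc⟩, -⟩ := hS
      refine ⟨⟨Finset.image_subset_image hSQ, ?_⟩, ?_⟩
      · rw [← hSc]
        apply Finset.card_image_of_injOn
        intro p hp q hq h
        exact hx p (hSQ hp) q (hSQ hq) (by rw [h])
      · obtain ⟨a, b, c, hab, h1, h2⟩ := hS2
        refine ⟨a, b, c, hab, ?_, ?_⟩
        · intro p' hp'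
          rw [Finset.mem_image] at hp'
          obtain ⟨p, hp, rfl⟩ := hp'
          exact h1 p hp
        · intro p' hp' hnp
          rw [Finset.mem_image] at hp'
          obtain ⟨p, hp, rfl⟩ := hp'
          apply h2 p hp
          intro hpS
          exact hnp (Finset.mem_image_of_mem _ hpS)
    · intro S hS T hT h
      rw [Finset.mem_coe] at hS hT
      unfold ksets at hS hT
      rw [Finset.mem_filter, Finset.mem_powersetCard] at hS hT
      have key : ∀ {A B : Finset (ℝ × ℝ)}, A ⊆ Q → B ⊆ Q → A.image (g e) = B.image (g e) → A ⊆ B := by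
        intro A B hA hB hAB p hp
        have h1 : g e p ∈ B.image (g e) := by
          rw [← hAB]; exact Finset.mem_image_of_mem _ hp
        rw [Finset.mem_image] at h1
        obtain ⟨q, hq, hqp⟩ := h1
        rw [← hx q (hB hq) p (hA hp) (by rw [hqp])]
        exact hq
      exact Finset.Subset.antisymm (key hS.1.1 hT.1.1 h) (key hT.1.1 hS.1.1 h.symm)
end Crest.Agent.R51.Red
end

-- ▼ part R51/Red2
section

set_option autoImplicit false

namespace Crest.Agent.R51.Red

open Finset Filter Topology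

noncomputable def hgt (t : ℝ) (p : ℝ × ℝ) : ℝ := p.2 - t * p.1

noncomputable def slp (p q : ℝ × ℝ) : ℝ := (q.2 - p.2) / (q.1 - p.1)

open Classical in
/-- points strictly below the line of slope `t` through `p` -/
noncomputable def bel (P : Finset (ℝ × ℝ)) (t : ℝ) (p : ℝ × ℝ) : Finset (ℝ × ℝ) :=
  P.filter (fun r => hgt t r < hgt t p)

open Classical in
/-- `k`-edges: `k-1` points strictly below -/
noncomputable def edges (P : Finset (ℝ × ℝ)) (k : ℕ) : Finset ((ℝ × ℝ) × (ℝ × ℝ)) :=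
  (P ×ˢ P).filter (fun e => e.1.1 < e.2.1 ∧ (bel P (slp e.1 e.2) e.1).card + 1 = k)

lemma hgt_slp {p q : ℝ × ℝ} (h : p.1 < q.1) : hgt (slp p q) p = hgt (slp p q) q := by
  unfold hgt slp
  have : q.1 - p.1 ≠ 0 := by linarith
  field_simp
  ring

lemma hgt_lt_iff {p q : ℝ × ℝ} (h : p.1 < q.1) (t : ℝ) : hgt t p < hgt t q ↔ t < slp p q := by
  unfold hgt slp
  have h1 : 0 < q.1 - p.1 := by linarith
  rw [lt_div_iff₀ h1]
  constructor <;> intro h2 <;> nlinarith

lemma hgt_le_iff {p q : ℝ × ℝ} (h : p.1 < q.1) (t : ℝ) : hgt t p ≤ hgt t q ↔ t ≤ slp p q := by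
  unfold hgt slp
  have h1 : 0 < q.1 - p.1 := by linarith
  rw [le_div_iff₀ h1]
  constructor <;> intro h2 <;> nlinarith

lemma hgt_eq_iff {p q : ℝ × ℝ} (h : p.1 < q.1) (t : ℝ) : hgt t p = hgt t q ↔ t = slp p q := by
  unfold hgt slp
  have h1 : 0 < q.1 - p.1 := by linarith
  rw [eq_div_iff h1.ne']
  constructor <;> intro h2 <;> nlinarith

def Low (P S : Finset (ℝ × ℝ)) : Prop :=
  ∃ t : ℝ, ∀ p ∈ S, ∀ q ∈ P, q ∉ S → hgt t p < hgt t q

lemma slp_inj {P : Finset (ℝ × ℝ)} (hs : DS P) {p q r s : ℝ × ℝ} (hp : p ∈ P) (hq : q ∈ P)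
    (hr : r ∈ P) (hs' : s ∈ P) (h1 : p.1 < q.1) (h2 : r.1 < s.1) (h : slp p q = slp r s) :
    p = r ∧ q = s := by
  apply hs p hp q hq r hr s hs' h1 h2
  unfold slp at h
  have h3 : q.1 - p.1 ≠ 0 := by linarith
  have h4 : s.1 - r.1 ≠ 0 := by linarith
  rw [div_eq_div_iff h3 h4] at h
  exact h

/-- on the line of slope `slp p q` through `p`, `q` there is no third point -/
lemma on_line {P : Finset (ℝ × ℝ)} (hx : DX P) (hs : DS P) {p q r : ℝ × ℝ} (hp : p ∈ P)
    (hq : q ∈ P) (hr : r ∈ P) (h1 : p.1 < q.1) (h : hgt (slp p q) r = hgt (slp p q) p) :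
    r = p ∨ r = q := by
  by_contra hne
  push Not at hne
  rcases lt_trichotomy r.1 p.1 with h2 | h2 | h2
  · have := (hgt_eq_iff h2 _).mp h
    have := slp_inj hs hp hq hr hp h1 h2 this
    exact hne.1 this.1.symm
  · exact hne.1 (hx r hr p hp h2)
  · have := (hgt_eq_iff h2 _).mp h.symm
    have := slp_inj hs hp hq hp hr h1 h2 this
    exact hne.2 this.2.symm

open Classical in
theorem low_count (P : Finset (ℝ × ℝ)) (hx : DX P) (hs : DS P) (k : ℕ) :
    ((P.powersetCard k).filter (fun S => Low P S)).card ≤ 1 + (edges P k).card := by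
  set L := (P.powersetCard k).filter (fun S => Low P S) with hL
  -- set of crossing candidates
  let A : Finset (ℝ × ℝ) → Finset ((ℝ × ℝ) × (ℝ × ℝ)) := fun S =>
    (S ×ˢ (P \ S)).filter (fun e => e.1.1 < e.2.1)
  have h0 : (L.filter (fun S => A S = ∅)).card ≤ 1 := by
    rw [Finset.card_le_one]
    have key : ∀ S ∈ L.filter (fun S => A S = ∅), ∀ T ∈ L.filter (fun S => A S = ∅), S ⊆ T := by
      intro S hS T hT
      rw [Finset.mem_filter, hL, Finset.mem_filter, Finset.mem_powersetCard] at hS hT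
      by_contra hST
      rw [Finset.not_subset] at hST
      obtain ⟨p, hpS, hpT⟩ := hST
      have hTS : ¬ T ⊆ S := by
        intro h
        have := Finset.eq_of_subset_of_card_le h (by rw [hS.1.1.2, hT.1.1.2])
        rw [this] at hpT
        exact hpT hpS
      rw [Finset.not_subset] at hTS
      obtain ⟨q, hqT, hqS⟩ := hTS
      have hpP := hS.1.1.1 hpS
      have hqP := hT.1.1.1 hqT
      have hne : p ≠ q := by rintro rfl; exact hpT hqT
      rcases lt_trichotomy p.1 q.1 with h | h | h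
      · have : (p, q) ∈ A S := by
          simp only [A, Finset.mem_filter, Finset.mem_product, Finset.mem_sdiff]
          exact ⟨⟨hpS, hqP, hqS⟩, h⟩
        rw [hS.2] at this
        simp at this
      · exact hne (hx p hpP q hqP h)
      · have : (q, p) ∈ A T := by
          simp only [A, Finset.mem_filter, Finset.mem_product, Finset.mem_sdiff]
          exact ⟨⟨hqT, hpP, hpT⟩, h⟩
        rw [hT.2] at this
        simp at this
    intro S hS T hT
    exact Finset.Subset.antisymm (key S hS T hT) (key T hT S hS)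
  have h1 : (L.filter (fun S => ¬ A S = ∅)).card ≤ (edges P k).card := by
    have hsub : L.filter (fun S => ¬ A S = ∅) ⊆
        (edges P k).image (fun e => insert e.1 (bel P (slp e.1 e.2) e.1)) := by
      intro S hS
      rw [Finset.mem_filter, hL, Finset.mem_filter, Finset.mem_powersetCard] at hS
      obtain ⟨⟨⟨hSP, hSk⟩, t, ht⟩, hA⟩ := hS
      obtain ⟨e, he, hmin⟩ := Finset.exists_min_image (A S) (fun e => slp e.1 e.2)
        (Finset.nonempty_of_ne_empty hA)
      obtain ⟨p, q⟩ := e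
      simp only at hmin
      have he' := he
      simp only [A, Finset.mem_filter, Finset.mem_product, Finset.mem_sdiff] at he'
      obtain ⟨⟨hpS, hqP, hqS⟩, hpq⟩ := he'
      have hpP := hSP hpS
      have htσ : t < slp p q := (hgt_lt_iff hpq t).mp (ht p hpS q hqP hqS)
      -- at σ
      have hσ : ∀ p' ∈ S, ∀ q' ∈ P, q' ∉ S → hgt (slp p q) p' ≤ hgt (slp p q) q' := by
        intro p' hp' q' hq' hq'S
        rcases lt_trichotomy p'.1 q'.1 with h | h | h
        · have hm : (p', q') ∈ A S := by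
            simp only [A, Finset.mem_filter, Finset.mem_product, Finset.mem_sdiff]
            exact ⟨⟨hp', hq', hq'S⟩, h⟩
          exact (hgt_le_iff h _).mpr (hmin _ hm)
        · have := hx p' (hSP hp') q' hq' h
          rw [this]
        · have h3 := ht p' hp' q' hq' hq'S
          have h4 : ¬ (t ≤ slp q' p') := fun h5 => not_lt.mpr ((hgt_le_iff h t).mpr h5) h3
          have h5 : ¬ (slp p q < slp q' p') := by
            intro h6; apply h4; linarith
          have h6 := (hgt_lt_iff h (slp p q)).not.mpr h5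
          exact not_lt.mp h6
      have hpqeq := hgt_slp hpq
      have hbel : insert p (bel P (slp p q) p) = S := by
        ext r
        rw [Finset.mem_insert, bel, Finset.mem_filter]
        constructor
        · rintro (rfl | ⟨hrP, hr⟩)
          · exact hpS
          · by_contra hrS
            exact absurd (hσ p hpS r hrP hrS) (not_le.mpr hr)
        · intro hr
          by_cases hrp : r = p
          · exact Or.inl hrp
          · right
            refine ⟨hSP hr, ?_⟩
            have h3 := hσ r hr q hqP hqS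
            rw [← hpqeq] at h3
            rcases lt_or_eq_of_le h3 with h4 | h4
            · exact h4
            · exfalso
              rcases on_line hx hs hpP hqP (hSP hr) hpq h4 with h5 | h5
              · exact hrp h5
              · rw [h5] at hr; exact hqS hr
      rw [Finset.mem_image]
      refine ⟨(p, q), ?_, hbel⟩
      simp only [edges, Finset.mem_filter, Finset.mem_product]
      refine ⟨⟨hpP, hqP⟩, hpq, ?_⟩
      rw [← hSk, ← hbel, Finset.card_insert_of_notMem]
      simp [bel]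
    exact (Finset.card_le_card hsub).trans Finset.card_image_le
  have := Finset.card_filter_add_card_filter_not (s := L) (fun S => A S = ∅)
  omega

/-- reflection -/
def rf (p : ℝ × ℝ) : ℝ × ℝ := (p.1, -p.2)

lemma rf_inj : Function.Injective rf := by
  intro p q h
  simp only [rf, Prod.mk.injEq, neg_inj] at h
  exact Prod.ext h.1 h.2


open Classical in
lemma DX_rf {P : Finset (ℝ × ℝ)} (hx : DX P) : DX (P.image rf) := by
  intro p' hp' q' hq' h
  rw [Finset.mem_image] at hp' hq'
  obtain ⟨p, hp, rfl⟩ := hp'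
  obtain ⟨q, hq, rfl⟩ := hq'
  rw [hx p hp q hq h]

open Classical in
lemma DS_rf {P : Finset (ℝ × ℝ)} (hs : DS P) : DS (P.image rf) := by
  intro p' hp' q' hq' r' hr' s' hs' hlt1 hlt2 heq
  rw [Finset.mem_image] at hp' hq' hr' hs'
  obtain ⟨p, hp, rfl⟩ := hp'
  obtain ⟨q, hq, rfl⟩ := hq'
  obtain ⟨r, hr, rfl⟩ := hr'
  obtain ⟨s, hs2, rfl⟩ := hs'
  have := hs p hp q hq r hr s hs2 hlt1 hlt2 (by simp only [rf] at heq; linarith)
  rw [this.1, this.2]; exact ⟨rfl, rfl⟩

open Classical in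
lemma sep_cases {P S : Finset (ℝ × ℝ)} (h : Sep P S) (_hSP : S ⊆ P) :
    Low P S ∨ Low (P.image rf) (S.image rf) := by
  -- case of nonzero `b`
  have main : ∀ a b c : ℝ, b ≠ 0 → (∀ p ∈ S, a * p.1 + b * p.2 + c < 0) →
      (∀ p ∈ P, p ∉ S → 0 < a * p.1 + b * p.2 + c) →
      Low P S ∨ Low (P.image rf) (S.image rf) := by
    intro a b c hb h1 h2
    rcases lt_or_gt_of_ne hb with hb | hb
    · right
      refine ⟨a / b, ?_⟩
      intro p' hp' q' hq' hq'S
      rw [Finset.mem_image] at hp' hq'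
      obtain ⟨p, hp, rfl⟩ := hp'
      obtain ⟨q, hq, rfl⟩ := hq'
      have hqS : q ∉ S := fun h => hq'S (Finset.mem_image_of_mem _ h)
      have h3 := h1 p hp
      have h4 := h2 q hq hqS
      simp only [hgt, rf]
      have h5 : a * p.1 + b * p.2 < a * q.1 + b * q.2 := by linarith
      have h6 : (a * p.1 + b * p.2) / b > (a * q.1 + b * q.2) / b :=
        (div_lt_div_right_of_neg hb).mpr h5
      have h7 : (a * p.1 + b * p.2) / b = a / b * p.1 + p.2 := by field_simp
      have h8 : (a * q.1 + b * q.2) / b = a / b * q.1 + q.2 := by field_simp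
      rw [h7, h8] at h6
      linarith
    · left
      refine ⟨-(a / b), ?_⟩
      intro p hp q hq hqS
      have h3 := h1 p hp
      have h4 := h2 q hq hqS
      simp only [hgt]
      have h5 : a * p.1 + b * p.2 < a * q.1 + b * q.2 := by linarith
      have h6 : (a * p.1 + b * p.2) / b < (a * q.1 + b * q.2) / b :=
        div_lt_div_of_pos_right h5 hb
      have h7 : (a * p.1 + b * p.2) / b = a / b * p.1 + p.2 := by field_simp
      have h8 : (a * q.1 + b * q.2) / b = a / b * q.1 + q.2 := by field_simp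
      rw [h7, h8] at h6
      linarith
  obtain ⟨a, b, c, hab, h1, h2⟩ := h
  by_cases hb : b = 0
  · subst hb
    have hc : ∀ p : ℝ × ℝ, Tendsto (fun e => a * p.1 + e * p.2 + c) (𝓝[≠] 0)
        (𝓝 (a * p.1 + 0 * p.2 + c)) := by
      intro p
      have : Continuous fun e : ℝ => a * p.1 + e * p.2 + c := by fun_prop
      exact (this.tendsto 0).mono_left nhdsWithin_le_nhds
    have h1' : ∀ᶠ e in 𝓝[≠] (0:ℝ), ∀ p ∈ S, a * p.1 + e * p.2 + c < 0 := by
      rw [eventually_all_finset]
      intro p hp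
      exact (hc p).eventually (gt_mem_nhds (h1 p hp))
    have h2' : ∀ᶠ e in 𝓝[≠] (0:ℝ), ∀ p ∈ P, p ∉ S → 0 < a * p.1 + e * p.2 + c := by
      rw [eventually_all_finset]
      intro p hp
      by_cases hpS : p ∈ S
      · exact Eventually.of_forall fun _ h => absurd hpS h
      · filter_upwards [(hc p).eventually (lt_mem_nhds (h2 p hp hpS))] with e he _
        exact he
    obtain ⟨e, ⟨he1, he2⟩, he0⟩ := ((h1'.and h2').and self_mem_nhdsWithin).exists
    exact main a e c he0 he1 he2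
  · exact main a b c hb h1 h2

open Classical in
theorem ksets_le (P : Finset (ℝ × ℝ)) (hx : DX P) (hs : DS P) (k : ℕ) :
    (ksets P k).card ≤ 2 + (edges P k).card + (edges (P.image rf) k).card := by
  have hsub : ksets P k ⊆ (P.powersetCard k).filter (fun S => Low P S) ∪
      (P.powersetCard k).filter (fun S => Low (P.image rf) (S.image rf)) := by
    intro S hS
    unfold ksets at hS
    rw [Finset.mem_filter, Finset.mem_powersetCard] at hS
    rw [Finset.mem_union, Finset.mem_filter, Finset.mem_filter, Finset.mem_powersetCard]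
    rcases sep_cases hS.2 hS.1.1 with h | h
    · exact Or.inl ⟨hS.1, h⟩
    · exact Or.inr ⟨hS.1, h⟩
  have h2 : ((P.powersetCard k).filter (fun S => Low (P.image rf) (S.image rf))).card ≤
      (((P.image rf).powersetCard k).filter (fun S => Low (P.image rf) S)).card := by
    apply Finset.card_le_card_of_injOn (fun S => S.image rf)
    · intro S hS
      rw [Finset.mem_coe, Finset.mem_filter, Finset.mem_powersetCard] at hS ⊢
      refine ⟨⟨Finset.image_subset_image hS.1.1, ?_⟩, hS.2⟩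
      rw [Finset.card_image_of_injective _ rf_inj]; exact hS.1.2
    · intro S _ T _ h
      exact Finset.image_injective rf_inj h
  have h3 := low_count P hx hs k
  have h4 := low_count (P.image rf) (DX_rf hx) (DS_rf hs) k
  have h5 := (Finset.card_le_card hsub).trans (Finset.card_union_le _ _)
  omega

/-- Bound for k-edges of generic sets. -/
def EdgeBound : Prop :=
  ∃ ε₀ : ℝ, 0 < ε₀ ∧ ∃ C₀ : ℝ, ∀ k : ℕ, 1 ≤ k → ∀ P : Finset (ℝ × ℝ), DX P → DS P →
    2 * k ≤ P.card →
    ((edges P k).card : ℝ) ≤ C₀ * (P.card : ℝ) * ((k : ℝ) + 1) ^ ((1 : ℝ) / 3 - ε₀)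

theorem S0070_of_edgeBound (H : EdgeBound) :
    ∃ ε₀ : ℝ, 0 < ε₀ ∧ ∃ C₀ : ℝ, ∀ n : ℕ, 2 ≤ n → ∀ k : ℕ, 1 ≤ k → 2 * k ≤ n →
      ∀ Q : Finset (ℝ × ℝ), Q.card = n →
        ((ksets Q k).card : ℝ) ≤ C₀ * (n : ℝ) * ((k : ℝ) + 1) ^ ((1 : ℝ) / 3 - ε₀) := by
  classical
  obtain ⟨ε, hε, C, hC⟩ := H
  -- make the exponent nonnegative
  refine ⟨min ε (1/3), lt_min hε (by norm_num), 2 * |C| + 2, ?_⟩
  intro n hn k hk hkn Q hQ
  obtain ⟨P, hPc, hx, hs, hle⟩ := exists_generic Q k
  have h1 := ksets_le P hx hs k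
  have hP1 := hC k hk P hx hs (by omega)
  have hcard : (P.image rf).card = P.card := Finset.card_image_of_injective _ rf_inj
  have hP2 := hC k hk (P.image rf) (DX_rf hx) (DS_rf hs) (by omega)
  rw [hcard] at hP2
  rw [hPc, hQ] at hP1 hP2
  have hbase : (1:ℝ) ≤ (k:ℝ) + 1 := by
    have : (0:ℝ) ≤ k := Nat.cast_nonneg k
    linarith
  have hmono : ((k : ℝ) + 1) ^ ((1 : ℝ) / 3 - ε) ≤ ((k : ℝ) + 1) ^ ((1 : ℝ) / 3 - min ε (1/3)) := by
    apply Real.rpow_le_rpow_of_exponent_le hbase
    have := min_le_left ε (1/3)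
    linarith
  have hone : (1:ℝ) ≤ ((k : ℝ) + 1) ^ ((1 : ℝ) / 3 - min ε (1/3)) := by
    apply Real.one_le_rpow hbase
    have := min_le_right ε (1/3)
    linarith
  set X := ((k : ℝ) + 1) ^ ((1 : ℝ) / 3 - min ε (1/3)) with hX
  have hn' : (2:ℝ) ≤ n := by exact_mod_cast hn
  have hb : ∀ E : ℝ, E ≤ C * (n:ℝ) * ((k : ℝ) + 1) ^ ((1 : ℝ) / 3 - ε) → E ≤ |C| * n * X := by
    intro E hE
    have hnn : 0 ≤ ((k : ℝ) + 1) ^ ((1 : ℝ) / 3 - ε) := by positivity
    calc E ≤ C * (n:ℝ) * ((k : ℝ) + 1) ^ ((1 : ℝ) / 3 - ε) := hE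
      _ ≤ |C| * n * ((k : ℝ) + 1) ^ ((1 : ℝ) / 3 - ε) := by
        have := le_abs_self C
        have h3 : C * (n:ℝ) ≤ |C| * n := mul_le_mul_of_nonneg_right this (by linarith)
        exact mul_le_mul_of_nonneg_right h3 hnn
      _ ≤ |C| * n * X := by
        apply mul_le_mul_of_nonneg_left hmono
        positivity
  have hE1 := hb _ hP1
  have hE2 := hb _ hP2
  have hcount : ((ksets Q k).card : ℝ) ≤ 2 + (edges P k).card + (edges (P.image rf) k).card := by
    exact_mod_cast hle.trans h1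
  have h4 : (2:ℝ) ≤ 2 * n * X := by nlinarith
  calc ((ksets Q k).card : ℝ) ≤ 2 + (edges P k).card + (edges (P.image rf) k).card := hcount
    _ ≤ 2 * n * X + |C| * n * X + |C| * n * X := by linarith
    _ = (2 * |C| + 2) * n * X := by ring

end Crest.Agent.R51.Red
end

-- ▼ part R51/Red3
section

set_option autoImplicit false

namespace Crest.Agent.R51.Red

open Finset

noncomputable def rank (P : Finset (ℝ × ℝ)) (t : ℝ) (p : ℝ × ℝ) : ℕ := (bel P t p).card

/-- left partners of `p` with slope in `(a,b]` -/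
noncomputable def lpart (P : Finset (ℝ × ℝ)) (p : ℝ × ℝ) (a b : ℝ) : Finset (ℝ × ℝ) := by
  classical exact P.filter (fun r => r.1 < p.1 ∧ a < slp r p ∧ slp r p ≤ b)

/-- right partners of `p` with slope in `[a,b)` -/
noncomputable def rpart (P : Finset (ℝ × ℝ)) (p : ℝ × ℝ) (a b : ℝ) : Finset (ℝ × ℝ) := by
  classical exact P.filter (fun r => p.1 < r.1 ∧ a ≤ slp p r ∧ slp p r < b)

lemma mem_lpart {P : Finset (ℝ × ℝ)} {p r : ℝ × ℝ} {a b : ℝ} :
    r ∈ lpart P p a b ↔ r ∈ P ∧ r.1 < p.1 ∧ a < slp r p ∧ slp r p ≤ b := by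
  simp [lpart]

lemma mem_rpart {P : Finset (ℝ × ℝ)} {p r : ℝ × ℝ} {a b : ℝ} :
    r ∈ rpart P p a b ↔ r ∈ P ∧ p.1 < r.1 ∧ a ≤ slp p r ∧ slp p r < b := by
  simp [rpart]

lemma mem_bel {P : Finset (ℝ × ℝ)} {p r : ℝ × ℝ} {t : ℝ} :
    r ∈ bel P t p ↔ r ∈ P ∧ hgt t r < hgt t p := by
  simp [bel]

lemma bel_sub_left {P : Finset (ℝ × ℝ)} (hx : DX P) {p : ℝ × ℝ} (hp : p ∈ P) {a c : ℝ}
    (hac : a ≤ c) : bel P a p ⊆ bel P c p ∪ lpart P p a c := by
  intro r hr
  rw [mem_bel] at hr
  rw [Finset.mem_union, mem_bel, mem_lpart]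
  rcases lt_trichotomy r.1 p.1 with h | h | h
  · have h1 := (hgt_lt_iff h a).mp hr.2
    by_cases h2 : c < slp r p
    · exact Or.inl ⟨hr.1, (hgt_lt_iff h c).mpr h2⟩
    · exact Or.inr ⟨hr.1, h, h1, not_lt.mp h2⟩
  · have := hx r hr.1 p hp h
    rw [this] at hr
    exact absurd hr.2 (lt_irrefl _)
  · left
    refine ⟨hr.1, ?_⟩
    have h1 : ¬ (a ≤ slp p r) := fun h2 => not_lt.mpr ((hgt_le_iff h a).mpr h2) hr.2
    have h2 : ¬ (c ≤ slp p r) := fun h2 => h1 (hac.trans h2)
    have h3 := (hgt_le_iff h c).not.mpr h2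
    exact not_le.mp h3

lemma bel_sub_right {P : Finset (ℝ × ℝ)} (hx : DX P) {p : ℝ × ℝ} (hp : p ∈ P) {c b : ℝ}
    (hcb : c ≤ b) : bel P b p ⊆ bel P c p ∪ rpart P p c b := by
  intro r hr
  rw [mem_bel] at hr
  rw [Finset.mem_union, mem_bel, mem_rpart]
  rcases lt_trichotomy r.1 p.1 with h | h | h
  · have h1 := (hgt_lt_iff h b).mp hr.2
    exact Or.inl ⟨hr.1, (hgt_lt_iff h c).mpr (lt_of_le_of_lt hcb h1)⟩
  · have := hx r hr.1 p hp h
    rw [this] at hr
    exact absurd hr.2 (lt_irrefl _)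
  · have h1 : ¬ (b ≤ slp p r) := fun h2 => not_lt.mpr ((hgt_le_iff h b).mpr h2) hr.2
    by_cases h2 : c ≤ slp p r
    · exact Or.inr ⟨hr.1, h, h2, not_le.mp h1⟩
    · left
      refine ⟨hr.1, ?_⟩
      have h3 := (hgt_le_iff h c).not.mpr h2
      exact not_le.mp h3

/-- FALLING: if the rank of `p` is `≥ v` at time `a` and `< v` at time `b` then at some time in
`(a,b]` the point `p` swaps with a left partner at level `v`. -/
theorem falling {P : Finset (ℝ × ℝ)} (hx : DX P) (hs : DS P) {p : ℝ × ℝ} (hp : p ∈ P) (v : ℕ)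
    (b : ℝ) : ∀ n : ℕ, ∀ a : ℝ, a ≤ b → (lpart P p a b).card ≤ n → v ≤ rank P a p →
      rank P b p < v → ∃ r ∈ lpart P p a b, rank P (slp r p) p + 1 = v := by
  classical
  intro n
  induction n with
  | zero =>
    intro a hab hc h1 h2
    exfalso
    have h3 := bel_sub_left hx hp hab
    rw [Finset.card_eq_zero.mp (Nat.le_zero.mp hc), Finset.union_empty] at h3
    have := Finset.card_le_card h3
    unfold rank at h1 h2
    omega
  | succ n ih =>
    intro a hab hc h1 h2
    by_cases hne : (lpart P p a b).Nonempty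
    · obtain ⟨r, hr, hmin⟩ := Finset.exists_min_image _ (fun r => slp r p) hne
      have hr' := mem_lpart.mp hr
      have hsub := bel_sub_left hx hp (le_of_lt hr'.2.2.1)
      have hl1 : lpart P p a (slp r p) ⊆ {r} := by
        intro x hxm
        have hx' := mem_lpart.mp hxm
        have hx2 : x ∈ lpart P p a b := mem_lpart.mpr ⟨hx'.1, hx'.2.1, hx'.2.2.1, hx'.2.2.2.trans hr'.2.2.2⟩
        have h3 := hmin x hx2
        have h4 : slp x p = slp r p := le_antisymm hx'.2.2.2 h3
        have h5 := slp_inj hs hx'.1 hp hr'.1 hp hx'.2.1 hr'.2.1 h4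
        rw [Finset.mem_singleton]; exact h5.1
      have hcard : rank P a p ≤ rank P (slp r p) p + 1 := by
        unfold rank
        calc (bel P a p).card ≤ (bel P (slp r p) p ∪ lpart P p a (slp r p)).card :=
              Finset.card_le_card hsub
          _ ≤ (bel P (slp r p) p).card + (lpart P p a (slp r p)).card := Finset.card_union_le _ _
          _ ≤ (bel P (slp r p) p).card + 1 := by
              have := Finset.card_le_card hl1
              simp at this
              omega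
      by_cases h3 : rank P (slp r p) p + 1 = v
      · exact ⟨r, hr, h3⟩
      · have h4 : v ≤ rank P (slp r p) p := by omega
        have hsub2 : lpart P p (slp r p) b ⊆ (lpart P p a b).erase r := by
          intro x hxm
          have hx' := mem_lpart.mp hxm
          rw [Finset.mem_erase, mem_lpart]
          refine ⟨?_, hx'.1, hx'.2.1, hr'.2.2.1.trans hx'.2.2.1, hx'.2.2.2⟩
          rintro rfl
          exact lt_irrefl _ hx'.2.2.1
        have hc2 : (lpart P p (slp r p) b).card ≤ n := by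
          have := Finset.card_le_card hsub2
          rw [Finset.card_erase_of_mem hr] at this
          omega
        obtain ⟨x, hxm, hxv⟩ := ih (slp r p) hr'.2.2.2 hc2 h4 h2
        exact ⟨x, Finset.mem_of_mem_erase (hsub2 hxm), hxv⟩
    · rw [Finset.not_nonempty_iff_eq_empty] at hne
      exact ih a hab (by rw [hne]; simp) h1 h2

/-- RISING. -/
theorem rising {P : Finset (ℝ × ℝ)} (hx : DX P) (hs : DS P) {p : ℝ × ℝ} (hp : p ∈ P) (v : ℕ)
    (a : ℝ) : ∀ n : ℕ, ∀ b : ℝ, a ≤ b → (rpart P p a b).card ≤ n → v ≤ rank P b p →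
      rank P a p < v → ∃ r ∈ rpart P p a b, rank P (slp p r) p + 1 = v := by
  classical
  intro n
  induction n with
  | zero =>
    intro b hab hc h1 h2
    exfalso
    have h3 := bel_sub_right hx hp hab
    rw [Finset.card_eq_zero.mp (Nat.le_zero.mp hc), Finset.union_empty] at h3
    have := Finset.card_le_card h3
    unfold rank at h1 h2
    omega
  | succ n ih =>
    intro b hab hc h1 h2
    by_cases hne : (rpart P p a b).Nonempty
    · obtain ⟨r, hr, hmax⟩ := Finset.exists_max_image _ (fun r => slp p r) hne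
      have hr' := mem_rpart.mp hr
      have hsub := bel_sub_right hx hp (le_of_lt hr'.2.2.2)
      have hl1 : rpart P p (slp p r) b ⊆ {r} := by
        intro x hxm
        have hx' := mem_rpart.mp hxm
        have hx2 : x ∈ rpart P p a b := mem_rpart.mpr ⟨hx'.1, hx'.2.1, hr'.2.2.1.trans hx'.2.2.1, hx'.2.2.2⟩
        have h3 := hmax x hx2
        have h4 : slp p x = slp p r := le_antisymm h3 hx'.2.2.1
        have h5 := slp_inj hs hp hx'.1 hp hr'.1 hx'.2.1 hr'.2.1 h4
        rw [Finset.mem_singleton]; exact h5.2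
      have hcard : rank P b p ≤ rank P (slp p r) p + 1 := by
        unfold rank
        calc (bel P b p).card ≤ (bel P (slp p r) p ∪ rpart P p (slp p r) b).card :=
              Finset.card_le_card hsub
          _ ≤ (bel P (slp p r) p).card + (rpart P p (slp p r) b).card := Finset.card_union_le _ _
          _ ≤ (bel P (slp p r) p).card + 1 := by
              have := Finset.card_le_card hl1
              simp at this
              omega
      by_cases h3 : rank P (slp p r) p + 1 = v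
      · exact ⟨r, hr, h3⟩
      · have h4 : v ≤ rank P (slp p r) p := by omega
        have hsub2 : rpart P p a (slp p r) ⊆ (rpart P p a b).erase r := by
          intro x hxm
          have hx' := mem_rpart.mp hxm
          rw [Finset.mem_erase, mem_rpart]
          refine ⟨?_, hx'.1, hx'.2.1, hx'.2.2.1, hx'.2.2.2.trans hr'.2.2.2⟩
          rintro rfl
          exact lt_irrefl _ hx'.2.2.2
        have hc2 : (rpart P p a (slp p r)).card ≤ n := by
          have := Finset.card_le_card hsub2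
          rw [Finset.card_erase_of_mem hr] at this
          omega
        obtain ⟨x, hxm, hxv⟩ := ih (slp p r) hr'.2.2.1 hc2 h4 h2
        exact ⟨x, Finset.mem_of_mem_erase (hsub2 hxm), hxv⟩
    · rw [Finset.not_nonempty_iff_eq_empty] at hne
      exact ih b hab (by rw [hne]; simp) h1 h2

/-- level of a pair -/
noncomputable def lev (P : Finset (ℝ × ℝ)) (e : (ℝ × ℝ) × (ℝ × ℝ)) : ℕ :=
  rank P (slp e.1 e.2) e.1 + 1

lemma rank_right {P : Finset (ℝ × ℝ)} {p q : ℝ × ℝ} (h : p.1 < q.1) :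
    rank P (slp p q) q = rank P (slp p q) p := by
  unfold rank bel
  rw [hgt_slp h]

lemma mem_edges {P : Finset (ℝ × ℝ)} {k : ℕ} {e : (ℝ × ℝ) × (ℝ × ℝ)} :
    e ∈ edges P k ↔ e.1 ∈ P ∧ e.2 ∈ P ∧ e.1.1 < e.2.1 ∧ lev P e = k := by
  simp only [edges, lev, rank, Finset.mem_filter, Finset.mem_product, and_assoc]

/-- pairs with level in `[k-m, k+m]` -/
noncomputable def nearE (P : Finset (ℝ × ℝ)) (k m : ℕ) : Finset ((ℝ × ℝ) × (ℝ × ℝ)) := by
  classical exact (P ×ˢ P).filter (fun e => e.1.1 < e.2.1 ∧ lev P e ≤ k + m ∧ k ≤ lev P e + m)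

lemma mem_nearE {P : Finset (ℝ × ℝ)} {k m : ℕ} {e : (ℝ × ℝ) × (ℝ × ℝ)} :
    e ∈ nearE P k m ↔ e.1 ∈ P ∧ e.2 ∈ P ∧ e.1.1 < e.2.1 ∧ lev P e ≤ k + m ∧ k ≤ lev P e + m := by
  simp only [nearE, Finset.mem_filter, Finset.mem_product, and_assoc]

lemma rank_inj {P : Finset (ℝ × ℝ)} (hx : DX P) {s : ℝ}
    (hreg : ∀ p ∈ P, ∀ q ∈ P, p.1 < q.1 → slp p q ≠ s) {p q : ℝ × ℝ} (hp : p ∈ P) (hq : q ∈ P)
    (h : rank P s p = rank P s q) : p = q := by
  by_contra hne
  have key : ∀ p ∈ P, ∀ q ∈ P, p ≠ q → hgt s p < hgt s q → rank P s p < rank P s q := by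
    intro p hp q hq _ h
    apply Finset.card_lt_card
    rw [Finset.ssubset_iff_of_subset]
    · exact ⟨p, mem_bel.mpr ⟨hp, h⟩, fun h2 => lt_irrefl _ (mem_bel.mp h2).2⟩
    · intro x hx
      rw [mem_bel] at hx ⊢
      exact ⟨hx.1, hx.2.trans h⟩
  rcases lt_trichotomy (hgt s p) (hgt s q) with h1 | h1 | h1
  · exact absurd h (key p hp q hq hne h1).ne
  · rcases lt_trichotomy p.1 q.1 with h2 | h2 | h2
    · exact hreg p hp q hq h2 ((hgt_eq_iff h2 s).mp h1).symm
    · exact hne (hx p hp q hq h2)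
    · exact hreg q hq p hp h2 ((hgt_eq_iff h2 s).mp h1.symm).symm
  · exact absurd h (key q hq p hp (Ne.symm hne) h1).ne'

end Crest.Agent.R51.Red
end

-- ▼ part R51/Red4
section

set_option autoImplicit false

namespace Crest.Agent.R51.Red

open Finset

/-- points that are `b`-central (rank within `b` of `k`) at some time in `[s,t]` -/
noncomputable def cen (P : Finset (ℝ × ℝ)) (k b : ℕ) (s t : ℝ) : Finset (ℝ × ℝ) := by
  classical exact P.filter (fun p => ∃ u : ℝ, s ≤ u ∧ u ≤ t ∧ rank P u p ≤ k + b ∧ k ≤ rank P u p + b)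

lemma mem_cen {P : Finset (ℝ × ℝ)} {k b : ℕ} {s t : ℝ} {p : ℝ × ℝ} :
    p ∈ cen P k b s t ↔ p ∈ P ∧ ∃ u : ℝ, s ≤ u ∧ u ≤ t ∧ rank P u p ≤ k + b ∧ k ≤ rank P u p + b := by
  simp [cen]

/-- near pairs with slope in `[s,t]` -/
noncomputable def nearW (P : Finset (ℝ × ℝ)) (k m : ℕ) (s t : ℝ) :
    Finset ((ℝ × ℝ) × (ℝ × ℝ)) := by
  classical exact (nearE P k m).filter (fun e => s ≤ slp e.1 e.2 ∧ slp e.1 e.2 ≤ t)

lemma mem_nearW {P : Finset (ℝ × ℝ)} {k m : ℕ} {s t : ℝ} {e : (ℝ × ℝ) × (ℝ × ℝ)} :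
    e ∈ nearW P k m s t ↔ e ∈ nearE P k m ∧ s ≤ slp e.1 e.2 ∧ slp e.1 e.2 ≤ t := by
  simp [nearW]

open Classical in
lemma cen_card {P : Finset (ℝ × ℝ)} (hx : DX P) (hs : DS P) (k b : ℕ) {s t : ℝ} (_hst : s ≤ t)
    (hreg : ∀ p ∈ P, ∀ q ∈ P, p.1 < q.1 → slp p q ≠ s) :
    (cen P k b s t).card * b ≤ (4 * b + 1) * b + 2 * (nearW P k (2 * b) s t).card := by
  set W := nearW P k (2 * b) s t with hW
  set A := cen P k b s t with hA
  set A1 := A.filter (fun p => rank P s p ≤ k + 2 * b ∧ k ≤ rank P s p + 2 * b) with hA1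
  set A2 := A.filter (fun p => ¬ (rank P s p ≤ k + 2 * b ∧ k ≤ rank P s p + 2 * b)) with hA2
  have hA1c : A1.card ≤ 4 * b + 1 := by
    have h1 : A1.card ≤ (Finset.Icc (k - 2 * b) (k + 2 * b)).card := by
      apply Finset.card_le_card_of_injOn (fun p => rank P s p)
      · intro p hp
        rw [Finset.mem_coe, hA1, Finset.mem_filter] at hp
        rw [Finset.mem_coe, Finset.mem_Icc]
        simp only
        omega
      · intro p hp q hq h
        rw [Finset.mem_coe, hA1, Finset.mem_filter, hA, mem_cen] at hp hq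
        exact rank_inj hx hreg hp.1.1 hq.1.1 h
    rw [Nat.card_Icc] at h1
    omega
  have hA2c : ∀ p ∈ A2, b ≤ (W.filter (fun e => e.1 = p)).card + (W.filter (fun e => e.2 = p)).card := by
    intro p hp
    rw [hA2, Finset.mem_filter, hA, mem_cen] at hp
    obtain ⟨⟨hpP, u, hsu, hut, hu1, hu2⟩, hnot⟩ := hp
    by_cases hcase : k + 2 * b < rank P s p
    · -- falling
      have hv : ∀ v ∈ Finset.Icc (k + b + 1) (k + 2 * b), ∃ r ∈ lpart P p s u,
          rank P (slp r p) p + 1 = v := by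
        intro v hv
        rw [Finset.mem_Icc] at hv
        exact falling hx hs hpP v u _ s hsu le_rfl (by omega) (by omega)
      choose! f hf1 hf2 using hv
      have hle : (Finset.Icc (k + b + 1) (k + 2 * b)).card ≤ (W.filter (fun e => e.2 = p)).card := by
        apply Finset.card_le_card_of_injOn (fun v => (f v, p))
        · intro v hv
          have hv' : v ∈ Finset.Icc (k + b + 1) (k + 2 * b) := hv
          have h1 := mem_lpart.mp (hf1 v hv')
          have h2 := hf2 v hv'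
          rw [Finset.mem_coe, Finset.mem_filter, hW, mem_nearW, mem_nearE]
          rw [Finset.mem_Icc] at hv'
          have h3 : lev P (f v, p) = v := by
            unfold lev
            simp only
            rw [← rank_right h1.2.1]; exact h2
          simp only [h3]
          exact ⟨⟨⟨h1.1, hpP, h1.2.1, hv'.2, by omega⟩, h1.2.2.1.le, h1.2.2.2.trans hut⟩, trivial⟩
        · intro v hv w hw h
          simp only [Prod.mk.injEq] at h
          have h1 := hf2 v hv
          have h2 := hf2 w hw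
          rw [h.1] at h1
          omega
      rw [Nat.card_Icc] at hle
      omega
    · have hcase2 : rank P s p + 2 * b < k := by
        by_contra h3
        exact hnot ⟨by omega, by omega⟩
      have hv : ∀ v ∈ Finset.Icc (k - 2 * b) (k - b), ∃ r ∈ rpart P p s u,
          rank P (slp p r) p + 1 = v := by
        intro v hv
        rw [Finset.mem_Icc] at hv
        exact rising hx hs hpP v s _ u hsu le_rfl (by omega) (by omega)
      choose! f hf1 hf2 using hv
      have hle : (Finset.Icc (k - 2 * b) (k - b)).card ≤ (W.filter (fun e => e.1 = p)).card := by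
        apply Finset.card_le_card_of_injOn (fun v => (p, f v))
        · intro v hv
          have hv' : v ∈ Finset.Icc (k - 2 * b) (k - b) := hv
          have h1 := mem_rpart.mp (hf1 v hv')
          have h2 := hf2 v hv'
          rw [Finset.mem_coe, Finset.mem_filter, hW, mem_nearW, mem_nearE]
          rw [Finset.mem_Icc] at hv'
          have h3 : lev P (p, f v) = v := by
            unfold lev
            simp only
            exact h2
          simp only [h3]
          exact ⟨⟨⟨hpP, h1.1, h1.2.1, by omega, by omega⟩, h1.2.2.1, h1.2.2.2.le.trans hut⟩, trivial⟩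
        · intro v hv w hw h
          simp only [Prod.mk.injEq] at h
          have h1 := hf2 v hv
          have h2 := hf2 w hw
          rw [h.2] at h1
          omega
      rw [Nat.card_Icc] at hle
      omega
  have hsum : A2.card * b ≤ 2 * W.card := by
    have h1 : A2.card * b ≤ ∑ p ∈ A2, ((W.filter (fun e => e.1 = p)).card
        + (W.filter (fun e => e.2 = p)).card) := by
      rw [← smul_eq_mul, ← Finset.sum_const]
      exact Finset.sum_le_sum hA2c
    rw [Finset.sum_add_distrib] at h1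
    have h2 : ∀ g : (ℝ × ℝ) × (ℝ × ℝ) → ℝ × ℝ,
        ∑ p ∈ A2, (W.filter (fun e => g e = p)).card ≤ W.card := by
      intro g
      calc ∑ p ∈ A2, (W.filter (fun e => g e = p)).card
          = ∑ p ∈ A2, ∑ e ∈ W, if g e = p then 1 else 0 := by
            apply Finset.sum_congr rfl; intro p _; rw [Finset.card_filter]
        _ = ∑ e ∈ W, ∑ p ∈ A2, if g e = p then 1 else 0 := Finset.sum_comm
        _ ≤ ∑ e ∈ W, 1 := by
            apply Finset.sum_le_sum
            intro e _
            rw [Finset.sum_ite_eq]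
            split_ifs <;> omega
        _ = W.card := by simp
    have h3 := h2 Prod.fst
    have h4 := h2 Prod.snd
    omega
  have hadd : A1.card + A2.card = A.card := Finset.card_filter_add_card_filter_not _
  calc A.card * b = A1.card * b + A2.card * b := by rw [← hadd]; ring
    _ ≤ (4 * b + 1) * b + 2 * W.card := Nat.add_le_add (Nat.mul_le_mul_right b hA1c) hsum

open Classical in
/-- WINDOW LEMMA: the `k`-edges with slope in `[s,t]` are `k'`-edges of the set of central points. -/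
theorem window_edges {P : Finset (ℝ × ℝ)} (hx : DX P) (hs : DS P) (k b : ℕ) (hb : 1 ≤ b)
    {s t : ℝ} (_hst : s ≤ t) :
    ∃ k' : ℕ, ∀ e ∈ edges P k, s ≤ slp e.1 e.2 → slp e.1 e.2 ≤ t →
      e ∈ edges (cen P k b s t) k' := by
  set A := cen P k b s t with hA
  have hAP : A ⊆ P := fun p hp => (mem_cen.mp hp).1
  let B := (P \ A).filter (fun r => rank P s r < k)
  -- rank type constant
  have hconst : ∀ r ∈ P, r ∉ A → ∀ u, s ≤ u → u ≤ t → (rank P u r < k ↔ rank P s r < k) := by
    intro r hr hrA u hsu hut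
    constructor
    · intro h
      by_contra h2
      obtain ⟨x, hx1, hx2⟩ := falling hx hs hr k u _ s hsu le_rfl (by omega) h
      have h3 := mem_lpart.mp hx1
      apply hrA
      rw [hA, mem_cen]
      exact ⟨hr, slp x r, h3.2.2.1.le, h3.2.2.2.trans hut, by omega, by omega⟩
    · intro h
      by_contra h2
      obtain ⟨x, hx1, hx2⟩ := rising hx hs hr k s _ u hsu le_rfl (by omega) h
      have h3 := mem_rpart.mp hx1
      apply hrA
      rw [hA, mem_cen]
      exact ⟨hr, slp r x, h3.2.2.1, h3.2.2.2.le.trans hut, by omega, by omega⟩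
  refine ⟨k - B.card, ?_⟩
  intro e he h1 h2
  obtain ⟨p, q⟩ := e
  rw [mem_edges] at he
  simp only at he h1 h2
  obtain ⟨hpP, hqP, hpq, hlev⟩ := he
  have hrk : rank P (slp p q) p + 1 = k := hlev
  have hrk2 : rank P (slp p q) q + 1 = k := by rw [rank_right hpq]; exact hrk
  have hpA : p ∈ A := by
    rw [hA, mem_cen]; exact ⟨hpP, slp p q, h1, h2, by omega, by omega⟩
  have hqA : q ∈ A := by
    rw [hA, mem_cen]; exact ⟨hqP, slp p q, h1, h2, by omega, by omega⟩
  rw [mem_edges]
  refine ⟨hpA, hqA, hpq, ?_⟩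
  -- splitting
  have hdis : Disjoint (bel A (slp p q) p) B := by
    rw [Finset.disjoint_left]
    intro r hr hrB
    have h3 := (mem_bel.mp hr).1
    have h4 := Finset.mem_filter.mp hrB
    exact (Finset.mem_sdiff.mp h4.1).2 h3
  have hun : bel A (slp p q) p ∪ B = bel P (slp p q) p := by
    ext r
    rw [Finset.mem_union, mem_bel, mem_bel, Finset.mem_filter, Finset.mem_sdiff]
    constructor
    · rintro (⟨hrA, hr⟩ | ⟨⟨hrP, hrA⟩, hr⟩)
      · exact ⟨hAP hrA, hr⟩
      · refine ⟨hrP, ?_⟩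
        have h3 := (hconst r hrP hrA (slp p q) h1 h2).mpr hr
        -- not central
        have h4 : ¬ (k ≤ rank P (slp p q) r + b) := by
          intro h5
          apply hrA
          rw [hA, mem_cen]
          exact ⟨hrP, slp p q, h1, h2, by omega, h5⟩
        by_contra h5
        push Not at h5
        have h6 : bel P (slp p q) p ⊆ bel P (slp p q) r := by
          intro x hx
          rw [mem_bel] at hx ⊢
          exact ⟨hx.1, lt_of_lt_of_le hx.2 h5⟩
        have h7 := Finset.card_le_card h6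
        unfold rank at h4 hrk
        omega
    · rintro ⟨hrP, hr⟩
      by_cases hrA : r ∈ A
      · exact Or.inl ⟨hrA, hr⟩
      · right
        refine ⟨⟨hrP, hrA⟩, ?_⟩
        rw [← hconst r hrP hrA (slp p q) h1 h2]
        have h6 : bel P (slp p q) r ⊆ bel P (slp p q) p := by
          intro x hx
          rw [mem_bel] at hx ⊢
          exact ⟨hx.1, hx.2.trans hr⟩
        have h7 := Finset.card_le_card h6
        unfold rank at hrk ⊢
        omega
  have hc := Finset.card_union_of_disjoint hdis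
  rw [hun] at hc
  have : rank P (slp p q) p = rank A (slp p q) p + B.card := hc
  unfold lev
  simp only
  omega

lemma DX_sub {P A : Finset (ℝ × ℝ)} (h : A ⊆ P) (hx : DX P) : DX A :=
  fun p hp q hq => hx p (h hp) q (h hq)

lemma DS_sub {P A : Finset (ℝ × ℝ)} (h : A ⊆ P) (hs : DS P) : DS A :=
  fun p hp q hq r hr s hs' => hs p (h hp) q (h hq) r (h hr) s (h hs')

open Classical in
/-- PARTITION: bound for the number of `k`-edges by (number of windows) times the bound for small
sets. -/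
theorem partition_bound {P : Finset (ℝ × ℝ)} (hx : DX P) (hs : DS P) (k b : ℕ) (hb : 1 ≤ b)
    (Φ : ℕ) (hΦ : ∀ A : Finset (ℝ × ℝ), DX A → DS A → A.card ≤ 6 * b + 1 →
      ∀ i : ℕ, (edges A i).card ≤ Φ) :
    (edges P k).card ≤ ((nearE P k (2 * b)).card / b ^ 2 + 1) * Φ := by
  set E := nearE P k (2 * b) with hE
  have hb2 : 0 < b ^ 2 := by positivity
  let ρ : (ℝ × ℝ) × (ℝ × ℝ) → ℕ := fun e => (E.filter (fun f => slp f.1 f.2 < slp e.1 e.2)).card
  let j : (ℝ × ℝ) × (ℝ × ℝ) → ℕ := fun e => ρ e / b ^ 2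
  have hsub : edges P k ⊆ E := by
    intro e he
    rw [mem_edges] at he
    rw [hE, mem_nearE]
    exact ⟨he.1, he.2.1, he.2.2.1, by omega, by omega⟩
  have hρlt : ∀ e ∈ E, ρ e < E.card := by
    intro e he
    apply Finset.card_lt_card
    rw [Finset.ssubset_iff_of_subset (Finset.filter_subset _ _)]
    exact ⟨e, he, by simp⟩
  have hρmono : ∀ e f, e ∈ E → slp e.1 e.2 < slp f.1 f.2 → ρ e < ρ f := by
    intro e f he hef
    apply Finset.card_lt_card
    rw [Finset.ssubset_iff_of_subset]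
    · exact ⟨e, by simp [he, hef], by simp⟩
    · intro g hg
      rw [Finset.mem_filter] at hg ⊢
      exact ⟨hg.1, hg.2.trans hef⟩
  have hslp : ∀ e ∈ E, ∀ f ∈ E, slp e.1 e.2 = slp f.1 f.2 → e = f := by
    intro e he f hf h
    rw [hE, mem_nearE] at he hf
    have := slp_inj hs he.1 he.2.1 hf.1 hf.2.1 he.2.2.1 hf.2.2.1 h
    exact Prod.ext this.1 this.2
  have hρinj : ∀ e ∈ E, ∀ f ∈ E, ρ e = ρ f → e = f := by
    intro e he f hf h
    rcases lt_trichotomy (slp e.1 e.2) (slp f.1 f.2) with h1 | h1 | h1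
    · exact absurd h (hρmono e f he h1).ne
    · exact hslp e he f hf h1
    · exact absurd h (hρmono f e hf h1).ne'
  -- cells
  have hcell : ∀ i : ℕ, ((edges P k).filter (fun e => j e = i)).card ≤ Φ := by
    intro i
    set W := E.filter (fun e => j e = i) with hW
    have hWc : W.card ≤ b ^ 2 := by
      have h1 : W.card ≤ (Finset.Ico (i * b ^ 2) (i * b ^ 2 + b ^ 2)).card := by
        apply Finset.card_le_card_of_injOn ρ
        · intro e he
          rw [Finset.mem_coe, hW, Finset.mem_filter] at he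
          rw [Finset.mem_coe, Finset.mem_Ico]
          have h2 : ρ e / b ^ 2 = i := he.2
          have h3 := Nat.div_add_mod (ρ e) (b ^ 2)
          have h4 := Nat.mod_lt (ρ e) hb2
          rw [h2, Nat.mul_comm] at h3
          constructor
          · calc i * b ^ 2 ≤ i * b ^ 2 + ρ e % b ^ 2 := Nat.le_add_right _ _
              _ = ρ e := h3
          · calc ρ e = i * b ^ 2 + ρ e % b ^ 2 := h3.symm
              _ < i * b ^ 2 + b ^ 2 := Nat.add_lt_add_left h4 _
        · intro e he f hf h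
          rw [Finset.mem_coe, hW, Finset.mem_filter] at he hf
          exact hρinj e he.1 f hf.1 h
      rw [Nat.card_Ico] at h1
      omega
    by_cases hne : W.Nonempty
    · obtain ⟨e1, he1, hmin⟩ := Finset.exists_min_image W (fun e => slp e.1 e.2) hne
      obtain ⟨e2, he2, hmax⟩ := Finset.exists_max_image W (fun e => slp e.1 e.2) hne
      -- regular time just before the minimal slope
      obtain ⟨s, hs1, hs2⟩ : ∃ s : ℝ, s < slp e1.1 e1.2 ∧
          ∀ f ∈ P ×ˢ P, slp f.1 f.2 < slp e1.1 e1.2 → slp f.1 f.2 < s := by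
        set T := ((P ×ˢ P).filter (fun f => slp f.1 f.2 < slp e1.1 e1.2)) with hT
        by_cases hTne : T.Nonempty
        · obtain ⟨f0, hf0, hf0max⟩ := Finset.exists_max_image T (fun e => slp e.1 e.2) hTne
          have hf0' := (Finset.mem_filter.mp hf0).2
          obtain ⟨s, hs1, hs2⟩ := exists_between hf0'
          refine ⟨s, hs2, ?_⟩
          intro f hf hlt
          exact lt_of_le_of_lt (hf0max f (Finset.mem_filter.mpr ⟨hf, hlt⟩)) hs1
        · refine ⟨slp e1.1 e1.2 - 1, by linarith, ?_⟩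
          intro f hf hlt
          exact absurd ⟨f, Finset.mem_filter.mpr ⟨hf, hlt⟩⟩ hTne
      have hreg : ∀ p ∈ P, ∀ q ∈ P, p.1 < q.1 → slp p q ≠ s := by
        intro p hp q hq _ h
        have h1 := hs2 (p, q) (Finset.mem_product.mpr ⟨hp, hq⟩) (by simp only; rw [h]; exact hs1)
        simp only at h1
        rw [h] at h1
        exact lt_irrefl _ h1
      have hst : s ≤ slp e2.1 e2.2 := hs1.le.trans (hmin e2 he2)
      -- near pairs of the window are in W
      have hnW : nearW P k (2 * b) s (slp e2.1 e2.2) ⊆ W := by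
        intro f hf
        rw [mem_nearW] at hf
        have hfE : f ∈ E := hf.1
        have hfP := mem_nearE.mp hf.1
        have h1 : slp e1.1 e1.2 ≤ slp f.1 f.2 := by
          by_contra h2
          have := hs2 f (Finset.mem_product.mpr ⟨hfP.1, hfP.2.1⟩) (not_le.mp h2)
          linarith [hf.2.1]
        rw [hW, Finset.mem_filter]
        refine ⟨hfE, ?_⟩
        have he1' := Finset.mem_filter.mp he1
        have he2' := Finset.mem_filter.mp he2
        have hle1 : ρ e1 ≤ ρ f := by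
          rcases lt_or_eq_of_le h1 with h2 | h2
          · exact (hρmono e1 f he1'.1 h2).le
          · rw [hslp e1 he1'.1 f hfE h2]
        have hle2 : ρ f ≤ ρ e2 := by
          rcases lt_or_eq_of_le hf.2.2 with h2 | h2
          · exact (hρmono f e2 hfE h2).le
          · rw [hslp f hfE e2 he2'.1 h2]
        have h3 : ρ e1 / b ^ 2 = i := he1'.2
        have h4 : ρ e2 / b ^ 2 = i := he2'.2
        have h5 : ρ e1 / b ^ 2 ≤ ρ f / b ^ 2 := Nat.div_le_div_right hle1
        have h6 : ρ f / b ^ 2 ≤ ρ e2 / b ^ 2 := Nat.div_le_div_right hle2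
        show ρ f / b ^ 2 = i
        omega
      obtain ⟨k', hk'⟩ := window_edges hx hs k b hb hst
      have hAc : (cen P k b s (slp e2.1 e2.2)).card ≤ 6 * b + 1 := by
        have h1 := cen_card hx hs k b hst hreg
        have h2 := (Finset.card_le_card hnW).trans hWc
        have h3 : (cen P k b s (slp e2.1 e2.2)).card * b ≤ (6 * b + 1) * b := by
          calc (cen P k b s (slp e2.1 e2.2)).card * b
              ≤ (4 * b + 1) * b + 2 * (nearW P k (2 * b) s (slp e2.1 e2.2)).card := h1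
            _ ≤ (4 * b + 1) * b + 2 * b ^ 2 := by omega
            _ = (6 * b + 1) * b := by ring
        exact Nat.le_of_mul_le_mul_right h3 hb
      have hAP : cen P k b s (slp e2.1 e2.2) ⊆ P := fun p hp => (mem_cen.mp hp).1
      refine le_trans (Finset.card_le_card ?_) (hΦ _ (DX_sub hAP hx) (DS_sub hAP hs) hAc k')
      intro f hf
      rw [Finset.mem_filter] at hf
      have hfW : f ∈ W := Finset.mem_filter.mpr ⟨hsub hf.1, hf.2⟩
      exact hk' f hf.1 (hs1.le.trans (hmin f hfW)) (hmax f hfW)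
    · rw [Finset.not_nonempty_iff_eq_empty] at hne
      have : (edges P k).filter (fun e => j e = i) = ∅ := by
        rw [Finset.eq_empty_iff_forall_notMem]
        intro f hf
        rw [Finset.mem_filter] at hf
        have hfW : f ∈ W := Finset.mem_filter.mpr ⟨hsub hf.1, hf.2⟩
        rw [hne] at hfW
        exact absurd hfW (Finset.notMem_empty _)
      rw [this]; simp
  have hmaps : ∀ e ∈ edges P k, j e ∈ Finset.range (E.card / b ^ 2 + 1) := by
    intro e he
    rw [Finset.mem_range]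
    have := hρlt e (hsub he)
    have h1 : ρ e / b ^ 2 ≤ E.card / b ^ 2 := Nat.div_le_div_right this.le
    show ρ e / b ^ 2 < _
    omega
  calc (edges P k).card = ∑ i ∈ Finset.range (E.card / b ^ 2 + 1),
        ((edges P k).filter (fun e => j e = i)).card := Finset.card_eq_sum_card_fiberwise hmaps
    _ ≤ ∑ _i ∈ Finset.range (E.card / b ^ 2 + 1), Φ := Finset.sum_le_sum (fun i _ => hcell i)
    _ = (E.card / b ^ 2 + 1) * Φ := by simp

end Crest.Agent.R51.Red
end

-- ▼ part R51/Red5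
section

set_option autoImplicit false

namespace Crest.Agent.R51.Red

open Finset

lemma count_fix {ι : Type} [Fintype ι] [DecidableEq ι] (M : ℕ) [NeZero M] (T : Finset ι) :
    (Finset.univ.filter (fun c : ι → Fin M => ∀ x ∈ T, c x = 0)).card * M ^ T.card
      = M ^ Fintype.card ι := by
  have h1 : (Finset.univ.filter (fun c : ι → Fin M => ∀ x ∈ T, c x = 0))
      = Fintype.piFinset (fun x => if x ∈ T then ({0} : Finset (Fin M)) else Finset.univ) := by
    ext c
    simp only [Finset.mem_filter, Finset.mem_univ, true_and, Fintype.mem_piFinset]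
    constructor
    · intro h x
      by_cases hx : x ∈ T
      · simp [hx, h x hx]
      · simp [hx]
    · intro h x hx
      have := h x
      simpa [hx] using this
  rw [h1, Fintype.card_piFinset]
  have h2 : ∀ x : ι, (if x ∈ T then ({0} : Finset (Fin M)) else Finset.univ).card
      = if x ∈ T then 1 else M := by
    intro x
    by_cases hx : x ∈ T <;> simp [hx]
  simp only [h2]
  rw [Finset.prod_ite]
  simp only [Finset.prod_const_one, one_mul, Finset.prod_const]
  rw [← pow_add]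
  congr 1
  have h3 : (Finset.univ.filter (fun x => x ∈ T)) = T := by ext; simp
  have h4 := Finset.card_filter_add_card_filter_not (s := (Finset.univ : Finset ι)) (fun x => x ∈ T)
  rw [h3, Finset.card_univ] at h4
  omega

noncomputable def col (P : Finset (ℝ × ℝ)) (M : ℕ) [NeZero M] (c : ↥P → Fin M) (p : ℝ × ℝ) :
    Fin M := by
  classical exact if h : p ∈ P then c ⟨p, h⟩ else 0

open Classical in
lemma count_col (P : Finset (ℝ × ℝ)) (M : ℕ) [NeZero M] (T : Finset (ℝ × ℝ)) (hT : T ⊆ P) :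
    (Finset.univ.filter (fun c : ↥P → Fin M => ∀ x ∈ T, col P M c x = 0)).card * M ^ T.card
      = M ^ P.card := by
  have h := count_fix M (T.subtype (· ∈ P))
  rw [Finset.card_subtype, Fintype.card_coe] at h
  have h1 : T.filter (fun x => x ∈ P) = T := by
    rw [Finset.filter_eq_self]; exact fun x hx => hT hx
  rw [h1] at h
  rw [← h]
  congr 2
  ext c
  simp only [Finset.mem_filter, Finset.mem_univ, true_and, Finset.mem_subtype]
  constructor
  · intro h2 x hx
    have h3 := h2 x.1 hx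
    unfold col at h3
    rw [dif_pos x.2] at h3
    exact h3
  · intro h2 x hx
    unfold col
    rw [dif_pos (hT hx)]
    exact h2 ⟨x, hT hx⟩ hx

/-- pairs with level at most `m` -/
noncomputable def leE (P : Finset (ℝ × ℝ)) (m : ℕ) : Finset ((ℝ × ℝ) × (ℝ × ℝ)) := by
  classical exact (P ×ˢ P).filter (fun e => e.1.1 < e.2.1 ∧ lev P e ≤ m)

lemma mem_leE {P : Finset (ℝ × ℝ)} {m : ℕ} {e : (ℝ × ℝ) × (ℝ × ℝ)} :
    e ∈ leE P m ↔ e.1 ∈ P ∧ e.2 ∈ P ∧ e.1.1 < e.2.1 ∧ lev P e ≤ m := by
  simp only [leE, Finset.mem_filter, Finset.mem_product, and_assoc]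

open Classical in
theorem leE_card {P : Finset (ℝ × ℝ)} (_hx : DX P) (hs : DS P) (m : ℕ) (hm : 1 ≤ m) :
    (leE P m).card ≤ 4 * P.card * m := by
  set M := 2 * m with hM
  have : NeZero M := ⟨by omega⟩
  set n := P.card with hn
  let good : (ℝ × ℝ) × (ℝ × ℝ) → (↥P → Fin M) → Prop := fun e c =>
    col P M c e.1 = 0 ∧ col P M c e.2 = 0 ∧ ∀ r ∈ bel P (slp e.1 e.2) e.1, col P M c r ≠ 0
  -- lower bound
  have hlow : ∀ e ∈ leE P m, M ^ n ≤ 2 * M ^ 2 * (Finset.univ.filter (fun c => good e c)).card := by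
    intro e he
    rw [mem_leE] at he
    obtain ⟨hp, hq, hpq, hl⟩ := he
    set B := bel P (slp e.1 e.2) e.1 with hB
    have hBc : B.card + 1 ≤ m := hl
    have hBP : B ⊆ P := fun r hr => (mem_bel.mp hr).1
    set N2 := (Finset.univ.filter (fun c : ↥P → Fin M => ∀ x ∈ ({e.1, e.2} : Finset (ℝ × ℝ)),
      col P M c x = 0)).card with hN2
    have hne : e.1 ≠ e.2 := by
      intro h; rw [h] at hpq; exact lt_irrefl _ hpq
    have h2 : N2 * M ^ 2 = M ^ n := by
      have := count_col P M ({e.1, e.2} : Finset (ℝ × ℝ)) (by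
        intro x hx
        rw [Finset.mem_insert, Finset.mem_singleton] at hx
        rcases hx with rfl | rfl
        · exact hp
        · exact hq)
      rw [Finset.card_pair hne] at this
      exact this
    have h3 : ∀ r ∈ B, (Finset.univ.filter (fun c : ↥P → Fin M =>
        ∀ x ∈ ({r, e.1, e.2} : Finset (ℝ × ℝ)), col P M c x = 0)).card * M ^ 3 = M ^ n := by
      intro r hr
      have hr1 : r ∉ ({e.1, e.2} : Finset (ℝ × ℝ)) := by
        have h4 := (mem_bel.mp hr).2
        rw [Finset.mem_insert, Finset.mem_singleton]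
        rintro (h5 | h5)
        · rw [h5] at h4; exact lt_irrefl _ h4
        · rw [h5, ← hgt_slp hpq] at h4; exact lt_irrefl _ h4
      have := count_col P M ({r, e.1, e.2} : Finset (ℝ × ℝ)) (by
        intro x hx
        rw [Finset.mem_insert, Finset.mem_insert, Finset.mem_singleton] at hx
        rcases hx with rfl | rfl | rfl
        · exact hBP hr
        · exact hp
        · exact hq)
      rw [Finset.card_insert_of_notMem hr1, Finset.card_pair hne] at this
      exact this
    have hsub : (Finset.univ.filter (fun c : ↥P → Fin M => ∀ x ∈ ({e.1, e.2} : Finset (ℝ × ℝ)),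
        col P M c x = 0)) ⊆ (Finset.univ.filter (fun c => good e c)) ∪
          B.biUnion (fun r => Finset.univ.filter (fun c : ↥P → Fin M =>
            ∀ x ∈ ({r, e.1, e.2} : Finset (ℝ × ℝ)), col P M c x = 0)) := by
      intro c hc
      simp only [Finset.mem_filter, Finset.mem_univ, true_and, Finset.mem_insert,
        Finset.mem_singleton, forall_eq_or_imp, forall_eq] at hc
      rw [Finset.mem_union, Finset.mem_biUnion]
      by_cases hg : ∀ r ∈ B, col P M c r ≠ 0
      · left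
        simp only [Finset.mem_filter, Finset.mem_univ, true_and, good]
        exact ⟨hc.1, hc.2, hg⟩
      · right
        push Not at hg
        obtain ⟨r, hr, hr0⟩ := hg
        refine ⟨r, hr, ?_⟩
        simp only [Finset.mem_filter, Finset.mem_univ, true_and, Finset.mem_insert,
          Finset.mem_singleton, forall_eq_or_imp, forall_eq]
        exact ⟨hr0, hc.1, hc.2⟩
    have h4 := (Finset.card_le_card hsub).trans (Finset.card_union_le _ _)
    have h5 : (B.biUnion (fun r => Finset.univ.filter (fun c : ↥P → Fin M =>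
            ∀ x ∈ ({r, e.1, e.2} : Finset (ℝ × ℝ)), col P M c x = 0))).card * M ^ 3
              ≤ B.card * M ^ n := by
      calc _ ≤ (∑ r ∈ B, (Finset.univ.filter (fun c : ↥P → Fin M =>
            ∀ x ∈ ({r, e.1, e.2} : Finset (ℝ × ℝ)), col P M c x = 0)).card) * M ^ 3 :=
            Nat.mul_le_mul_right _ Finset.card_biUnion_le
        _ = ∑ r ∈ B, M ^ n := by
            rw [Finset.sum_mul]; exact Finset.sum_congr rfl h3
        _ = B.card * M ^ n := by simp
    set Gd := (Finset.univ.filter (fun c => good e c)).card with hGd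
    have h6 : M * M ^ n ≤ Gd * M ^ 3 + B.card * M ^ n := by
      calc M * M ^ n = N2 * M ^ 3 := by rw [← h2]; ring
        _ ≤ (Gd + (B.biUnion (fun r => Finset.univ.filter (fun c : ↥P → Fin M =>
            ∀ x ∈ ({r, e.1, e.2} : Finset (ℝ × ℝ)), col P M c x = 0))).card) * M ^ 3 :=
            Nat.mul_le_mul_right _ h4
        _ ≤ Gd * M ^ 3 + B.card * M ^ n := by rw [Nat.add_mul]; omega
    have h7 : B.card * M ^ n ≤ m * M ^ n := Nat.mul_le_mul_right _ (by omega)
    have h8 : m * M ^ n ≤ Gd * M ^ 3 := by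
      have : M * M ^ n = m * M ^ n + m * M ^ n := by rw [hM]; ring
      omega
    have h9 : M * M ^ n ≤ M * (2 * M ^ 2 * Gd) := by
      calc M * M ^ n = 2 * (m * M ^ n) := by rw [hM]; ring
        _ ≤ 2 * (Gd * M ^ 3) := Nat.mul_le_mul_left _ h8
        _ = M * (2 * M ^ 2 * Gd) := by ring
    exact Nat.le_of_mul_le_mul_left h9 (by omega)
  -- upper bound
  have hup : ∀ c : ↥P → Fin M, ((leE P m).filter (fun e => good e c)).card
      ≤ (P.filter (fun p => col P M c p = 0)).card := by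
    intro c
    apply Finset.card_le_card_of_injOn (fun e => e.1)
    · intro e he
      rw [Finset.mem_coe, Finset.mem_filter, mem_leE] at he
      rw [Finset.mem_coe, Finset.mem_filter]
      exact ⟨he.1.1, he.2.1⟩
    · intro e he f hf h
      rw [Finset.mem_coe, Finset.mem_filter, mem_leE] at he hf
      obtain ⟨⟨he1, he2, he3, -⟩, hge⟩ := he
      obtain ⟨⟨hf1, hf2, hf3, -⟩, hgf⟩ := hf
      simp only at h
      -- no colour-0 point below
      have key : ∀ e f : (ℝ × ℝ) × (ℝ × ℝ), e.1 = f.1 → e.2 ∈ P → e.1.1 < e.2.1 → f.1.1 < f.2.1 →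
          good e c → good f c → slp f.1 f.2 ≤ slp e.1 e.2 := by
        intro e f hef he2 he3 hf3 hge hgf
        have h1 : e.2 ∉ bel P (slp f.1 f.2) f.1 := fun h2 => hgf.2.2 _ h2 hge.2.1
        rw [mem_bel] at h1
        push Not at h1
        have h2 := h1 he2
        rw [← hef] at h2 ⊢
        exact (hgt_le_iff he3 _).mp h2
      have h1 := key e f h he2 he3 hf3 hge hgf
      have h2 := key f e h.symm hf2 hf3 he3 hgf hge
      have h3 := slp_inj hs he1 he2 hf1 hf2 he3 hf3 (le_antisymm h2 h1)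
      exact Prod.ext h3.1 h3.2
  -- N1
  have hN1 : ∀ p ∈ P, (Finset.univ.filter (fun c : ↥P → Fin M => col P M c p = 0)).card * M = M ^ n := by
    intro p hp
    have := count_col P M {p} (by simpa using hp)
    simpa using this
  have hdc : (leE P m).card * M ^ n ≤ (2 * M * n) * M ^ n := by
    calc (leE P m).card * M ^ n = ∑ _e ∈ leE P m, M ^ n := by simp
      _ ≤ ∑ e ∈ leE P m, 2 * M ^ 2 * (Finset.univ.filter (fun c => good e c)).card :=
          Finset.sum_le_sum hlow
      _ = 2 * M ^ 2 * ∑ e ∈ leE P m, (Finset.univ.filter (fun c => good e c)).card := by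
          rw [Finset.mul_sum]
      _ = 2 * M ^ 2 * ∑ c : ↥P → Fin M, ((leE P m).filter (fun e => good e c)).card := by
          congr 1
          simp only [Finset.card_filter]
          exact Finset.sum_comm
      _ ≤ 2 * M ^ 2 * ∑ c : ↥P → Fin M, (P.filter (fun p => col P M c p = 0)).card :=
          Nat.mul_le_mul_left _ (Finset.sum_le_sum (fun c _ => hup c))
      _ = 2 * M ^ 2 * ∑ p ∈ P, (Finset.univ.filter (fun c : ↥P → Fin M => col P M c p = 0)).card := by
          congr 1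
          simp only [Finset.card_filter]
          exact Finset.sum_comm
      _ = 2 * M * ∑ p ∈ P, (Finset.univ.filter (fun c : ↥P → Fin M => col P M c p = 0)).card * M := by
          rw [← Finset.sum_mul]; ring
      _ = 2 * M * ∑ p ∈ P, M ^ n := by
          congr 1
          exact Finset.sum_congr rfl hN1
      _ = (2 * M * n) * M ^ n := by
          rw [Finset.sum_const, smul_eq_mul, ← hn]; ring
  have hpos : 0 < M ^ n := pow_pos (by omega) _
  have := Nat.le_of_mul_le_mul_right hdc hpos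
  calc (leE P m).card ≤ 2 * M * n := this
    _ = 4 * n * m := by rw [hM]; ring

end Crest.Agent.R51.Red
end

-- ▼ part R51/Red6
section

set_option autoImplicit false

namespace Crest.Agent.R51.Red

open Finset

/-- THEOREM E. -/
def ThmE : Prop :=
  ∃ ε : ℝ, 0 < ε ∧ ε ≤ 1 / 3 ∧ ∃ C : ℝ, 0 ≤ C ∧ ∀ P : Finset (ℝ × ℝ), DX P → DS P → ∀ k : ℕ,
    ((edges P k).card : ℝ) ≤ C * (P.card : ℝ) ^ ((4 : ℝ) / 3 - ε)

lemma nearE_sub_leE (P : Finset (ℝ × ℝ)) (k m : ℕ) : nearE P k m ⊆ leE P (k + m) := by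
  intro e he
  rw [mem_nearE] at he
  rw [mem_leE]
  exact ⟨he.1, he.2.1, he.2.2.1, he.2.2.2.1⟩

theorem edgeBound_of_thmE (H : ThmE) : EdgeBound := by
  obtain ⟨ε, hε, hε3, C, hC0, hC⟩ := H
  refine ⟨ε, hε, 13 * (C * 7 ^ ((4:ℝ)/3 - ε)), ?_⟩
  intro k hk P hx hs hkP
  set n := P.card with hn
  have hk' : (1:ℝ) ≤ k := by exact_mod_cast hk
  have hkn : (k:ℝ) ≤ n := by
    have : k ≤ n := by omega
    exact_mod_cast this
  have hα : 0 ≤ (4:ℝ)/3 - ε := by linarith
  set Φ := ⌊C * (7 * (k:ℝ)) ^ ((4:ℝ)/3 - ε)⌋₊ with hΦ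
  have hpb := partition_bound hx hs k k hk Φ (by
    intro A hAx hAs hAc i
    apply Nat.le_floor
    refine (hC A hAx hAs i).trans ?_
    apply mul_le_mul_of_nonneg_left _ hC0
    apply Real.rpow_le_rpow (by positivity) _ hα
    have : A.card ≤ 7 * k := by omega
    calc (A.card : ℝ) ≤ ((7 * k : ℕ) : ℝ) := by exact_mod_cast this
      _ = 7 * k := by push_cast; ring)
  have hnear : (nearE P k (2 * k)).card ≤ 12 * n * k := by
    calc (nearE P k (2 * k)).card ≤ (leE P (k + 2 * k)).card := Finset.card_le_card (nearE_sub_leE _ _ _)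
      _ ≤ 4 * P.card * (k + 2 * k) := leE_card hx hs _ (by omega)
      _ = 12 * n * k := by rw [hn]; ring
  have hwin : (((nearE P k (2 * k)).card / k ^ 2 + 1 : ℕ) : ℝ) ≤ 13 * (n / k) := by
    have h1 : (((nearE P k (2 * k)).card / k ^ 2 : ℕ) : ℝ) ≤ ((nearE P k (2 * k)).card : ℝ) / ((k ^ 2 : ℕ) : ℝ) :=
      Nat.cast_div_le
    have h2 : ((nearE P k (2 * k)).card : ℝ) ≤ 12 * n * k := by exact_mod_cast hnear
    have h3 : ((nearE P k (2 * k)).card : ℝ) / ((k ^ 2 : ℕ) : ℝ) ≤ 12 * (n / k) := by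
      rw [div_le_iff₀ (by positivity)]
      push_cast
      have : 12 * ((n:ℝ) / k) * k ^ 2 = 12 * n * k := by field_simp
      rw [this]; exact h2
    have h4 : (1:ℝ) ≤ n / k := by
      rw [le_div_iff₀ (by linarith)]; linarith
    push_cast at h1 ⊢
    push_cast at h3
    linarith
  have hX : (7 * (k:ℝ)) ^ ((4:ℝ)/3 - ε) = 7 ^ ((4:ℝ)/3 - ε) * ((k:ℝ) * (k:ℝ) ^ ((1:ℝ)/3 - ε)) := by
    rw [Real.mul_rpow (by norm_num) (by linarith)]
    congr 1
    have : (4:ℝ)/3 - ε = 1 + ((1:ℝ)/3 - ε) := by ring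
    rw [this, Real.rpow_add (by linarith), Real.rpow_one]
  have hmono : (k:ℝ) ^ ((1:ℝ)/3 - ε) ≤ ((k:ℝ) + 1) ^ ((1:ℝ)/3 - ε) :=
    Real.rpow_le_rpow (by linarith) (by linarith) (by linarith)
  have hΦle : (Φ : ℝ) ≤ C * (7 * (k:ℝ)) ^ ((4:ℝ)/3 - ε) := Nat.floor_le (by positivity)
  calc ((edges P k).card : ℝ) ≤ ((((nearE P k (2 * k)).card / k ^ 2 + 1) * Φ : ℕ) : ℝ) := by
        exact_mod_cast hpb
    _ = (((nearE P k (2 * k)).card / k ^ 2 + 1 : ℕ) : ℝ) * (Φ : ℝ) := by push_cast; ring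
    _ ≤ (13 * (n / k)) * (C * (7 * (k:ℝ)) ^ ((4:ℝ)/3 - ε)) := by
        apply mul_le_mul hwin hΦle (Nat.cast_nonneg _) (by positivity)
    _ = 13 * (C * 7 ^ ((4:ℝ)/3 - ε)) * n * (k:ℝ) ^ ((1:ℝ)/3 - ε) := by
        rw [hX]; field_simp
    _ ≤ 13 * (C * 7 ^ ((4:ℝ)/3 - ε)) * n * ((k:ℝ) + 1) ^ ((1:ℝ)/3 - ε) := by
        apply mul_le_mul_of_nonneg_left hmono
        positivity

/-- CORE: tightness at all scales is impossible.  `nearE P k (|P| / V^3)` (natural division) is the
set of pairs with `|lev - k| ≤ |P| / V^3`. -/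
def Core : Prop :=
  ∀ c₀ : ℝ, 0 < c₀ → ∀ V₁ : ℕ, ∃ Vmax N₀ : ℕ, ∀ P : Finset (ℝ × ℝ), DX P → DS P → ∀ k : ℕ,
    N₀ ≤ P.card → ∃ V : ℕ, V₁ ≤ V ∧ V ≤ Vmax ∧
      ((nearE P k (P.card / V ^ 3)).card : ℝ) < c₀ * ((P.card : ℝ) ^ 2 / (V : ℝ) ^ 2)

lemma nearE_mono {P : Finset (ℝ × ℝ)} {k m m' : ℕ} (h : m ≤ m') : nearE P k m ⊆ nearE P k m' := by
  intro e he
  rw [mem_nearE] at he ⊢
  exact ⟨he.1, he.2.1, he.2.2.1, by omega, by omega⟩

theorem thmE_of_core (H : Core) : ThmE := by
  obtain ⟨Vmax, N₀, hcore⟩ := H (1 / 448) (by norm_num) 3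
  -- choice of ε
  set X : ℝ := max ((Vmax:ℝ) ^ 3) 1 with hX
  have hX1 : 1 ≤ X := le_max_right _ _
  have hlogX : 0 ≤ Real.log X := Real.log_nonneg hX1
  set ε : ℝ := min (1/3) (Real.log 2 / (Real.log X + 1)) with hε
  have hlog2 : 0 < Real.log 2 := Real.log_pos (by norm_num)
  have hεpos : 0 < ε := lt_min (by norm_num) (by positivity)
  have hε3 : ε ≤ 1 / 3 := min_le_left _ _
  have hXε : X ^ ε ≤ 2 := by
    rw [Real.rpow_def_of_pos (by linarith)]
    have h1 : Real.log X * ε ≤ Real.log 2 := by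
      have h2 : ε ≤ Real.log 2 / (Real.log X + 1) := min_le_right _ _
      calc Real.log X * ε ≤ Real.log X * (Real.log 2 / (Real.log X + 1)) :=
            mul_le_mul_of_nonneg_left h2 hlogX
        _ = Real.log 2 * (Real.log X / (Real.log X + 1)) := by ring
        _ ≤ Real.log 2 * 1 := by
            apply mul_le_mul_of_nonneg_left _ hlog2.le
            rw [div_le_one (by linarith)]; linarith
        _ = Real.log 2 := mul_one _
    calc Real.exp (Real.log X * ε) ≤ Real.exp (Real.log 2) := Real.exp_le_exp.mpr h1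
      _ = 2 := Real.exp_log (by norm_num)
  set α : ℝ := (4:ℝ)/3 - ε with hα
  have hα0 : 0 < α := by rw [hα]; linarith
  set N1 : ℕ := N₀ + 4 * Vmax ^ 3 + 2 with hN1
  set K : ℝ := (N1:ℝ) ^ 2 with hK
  have hK0 : 0 ≤ K := by positivity
  refine ⟨ε, hεpos, hε3, K, hK0, ?_⟩
  -- strong induction on the cardinality
  have main : ∀ N : ℕ, ∀ P : Finset (ℝ × ℝ), P.card = N → DX P → DS P → ∀ k : ℕ,
      ((edges P k).card : ℝ) ≤ K * (N : ℝ) ^ α := by
    intro N
    induction N using Nat.strong_induction_on with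
    | _ N ih =>
    intro P hPN hx hs k
    by_cases hN : N < N1
    · -- trivial bound
      have h1 : (edges P k).card ≤ N * N := by
        have : edges P k ⊆ P ×ˢ P := by
          intro e he
          rw [mem_edges] at he
          exact Finset.mem_product.mpr ⟨he.1, he.2.1⟩
        have := Finset.card_le_card this
        rw [Finset.card_product, hPN] at this
        exact this
      rcases Nat.eq_zero_or_pos N with h0 | h0
      · subst h0
        have h2 : (edges P k).card = 0 := by omega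
        rw [h2]
        simp only [Nat.cast_zero]
        positivity
      · have h2 : (1:ℝ) ≤ (N:ℝ) ^ α := by
          apply Real.one_le_rpow _ hα0.le
          exact_mod_cast h0
        have h3 : ((edges P k).card : ℝ) ≤ (N:ℝ) * N := by exact_mod_cast h1
        have h4 : (N:ℝ) ≤ N1 := by exact_mod_cast hN.le
        calc ((edges P k).card : ℝ) ≤ (N:ℝ) * N := h3
          _ ≤ N1 * N1 := mul_le_mul h4 h4 (Nat.cast_nonneg _) (Nat.cast_nonneg _)
          _ = K * 1 := by rw [hK]; ring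
          _ ≤ K * (N:ℝ) ^ α := mul_le_mul_of_nonneg_left h2 hK0
    · push Not at hN
      obtain ⟨V, hV1, hV2, hV3⟩ := hcore P hx hs k (by omega)
      rw [hPN] at hV3
      have hVpos : 0 < V := by omega
      have hVr : (3:ℝ) ≤ V := by exact_mod_cast hV1
      have hVr0 : (0:ℝ) < V := by linarith
      have hV3pow : 0 < V ^ 3 := pow_pos hVpos 3
      have hVmax : V ^ 3 ≤ Vmax ^ 3 := Nat.pow_le_pow_left hV2 3
      have hNV : 4 * V ^ 3 ≤ N := by omega
      set b' : ℕ := N / V ^ 3 with hb'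
      set b : ℕ := b' / 2 with hb
      have hb4 : 4 ≤ b' := by
        rw [hb', Nat.le_div_iff_mul_le hV3pow]; exact hNV
      have hb1 : 1 ≤ b := by omega
      have h2b : 2 * b ≤ b' := by omega
      have hNr : (0:ℝ) < N := by
        have : 0 < N := by omega
        exact_mod_cast this
      -- real bounds of b
      have hb'r : (N:ℝ) / V ^ 3 < b' + 1 := by
        rw [div_lt_iff₀ (by positivity)]
        have := Nat.lt_div_mul_add (a := N) hV3pow
        have h5 : N < (b' + 1) * V ^ 3 := by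
          rw [Nat.add_mul, Nat.one_mul]; exact this
        exact_mod_cast h5
      have hb'r2 : (b':ℝ) ≤ (N:ℝ) / V ^ 3 := by
        rw [le_div_iff₀ (by positivity)]
        have := Nat.div_mul_le_self N (V ^ 3)
        exact_mod_cast this
      have hq4 : (4:ℝ) ≤ (N:ℝ) / V ^ 3 := by
        have : (4:ℝ) ≤ b' := by exact_mod_cast hb4
        linarith
      have hbr : (N:ℝ) / V ^ 3 / 4 ≤ b := by
        have h5 : (b':ℝ) ≤ 2 * b + 1 := by
          have : b' ≤ 2 * b + 1 := by omega
          exact_mod_cast this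
        linarith
      have hbr2 : (b:ℝ) ≤ (N:ℝ) / V ^ 3 / 2 := by
        have h5 : 2 * (b:ℝ) ≤ b' := by exact_mod_cast h2b
        linarith
      set Y : ℝ := 4 * ((N:ℝ) / V ^ 3) with hY
      have hY0 : 0 ≤ Y := by positivity
      have hsize : ∀ m : ℕ, m ≤ 6 * b + 1 → (m:ℝ) ≤ Y := by
        intro m hm
        have h5 : (m:ℝ) ≤ 6 * b + 1 := by exact_mod_cast hm
        have h6 : (1:ℝ) ≤ b := by exact_mod_cast hb1
        rw [hY]
        linarith
      have hYN : Y < N := by
        rw [hY, ← mul_div_assoc, div_lt_iff₀ (by positivity)]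
        have h27 : (27:ℝ) ≤ (V:ℝ) ^ 3 := by
          calc (27:ℝ) = 3 ^ 3 := by norm_num
            _ ≤ (V:ℝ) ^ 3 := pow_le_pow_left₀ (by norm_num) hVr 3
        nlinarith
      set Φ : ℕ := ⌊K * Y ^ α⌋₊ with hΦ
      have hpb := partition_bound hx hs k b hb1 Φ (by
        intro A hAx hAs hAc i
        have hAY := hsize A.card hAc
        have hAN : A.card < N := by
          have : (A.card:ℝ) < N := lt_of_le_of_lt hAY hYN
          exact_mod_cast this
        apply Nat.le_floor
        refine (ih A.card hAN A rfl hAx hAs i).trans ?_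
        apply mul_le_mul_of_nonneg_left _ hK0
        exact Real.rpow_le_rpow (Nat.cast_nonneg _) hAY hα0.le)
      have hΦle : (Φ:ℝ) ≤ K * Y ^ α := Nat.floor_le (by positivity)
      have hE : ((nearE P k (2 * b)).card : ℝ) < 1/448 * ((N:ℝ) ^ 2 / (V:ℝ) ^ 2) := by
        refine lt_of_le_of_lt ?_ hV3
        exact_mod_cast Finset.card_le_card (nearE_mono h2b)
      have hwin : (((nearE P k (2 * b)).card / b ^ 2 + 1 : ℕ) : ℝ) ≤ (V:ℝ) ^ 4 / 28 + 1 := by
        have h1 : (((nearE P k (2 * b)).card / b ^ 2 : ℕ) : ℝ)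
            ≤ ((nearE P k (2 * b)).card : ℝ) / ((b ^ 2 : ℕ) : ℝ) := Nat.cast_div_le
        have h2 : ((nearE P k (2 * b)).card : ℝ) / ((b ^ 2 : ℕ) : ℝ) ≤ (V:ℝ) ^ 4 / 28 := by
          have hbpos : (0:ℝ) < b := by exact_mod_cast hb1
          rw [div_le_iff₀ (by positivity)]
          push_cast
          have h6 : ((N:ℝ) / V ^ 3 / 4) ^ 2 ≤ (b:ℝ) ^ 2 := pow_le_pow_left₀ (by positivity) hbr 2
          calc ((nearE P k (2 * b)).card : ℝ) ≤ 1/448 * ((N:ℝ) ^ 2 / (V:ℝ) ^ 2) := hE.le
            _ = (V:ℝ) ^ 4 / 28 * ((N:ℝ) / V ^ 3 / 4) ^ 2 := by field_simp; norm_num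
            _ ≤ (V:ℝ) ^ 4 / 28 * (b:ℝ) ^ 2 := by
                apply mul_le_mul_of_nonneg_left h6; positivity
        push_cast at h1 ⊢
        push_cast at h2
        linarith
      -- the factor
      have hYα : Y ^ α ≤ (N:ℝ) ^ α * (14 / (V:ℝ) ^ 4) := by
        have h1 : Y = N * (4 / (V:ℝ) ^ 3) := by rw [hY]; ring
        rw [h1, Real.mul_rpow hNr.le (by positivity)]
        apply mul_le_mul_of_nonneg_left _ (by positivity)
        -- (4 / V^3)^α = (4/V^3)^(4/3) * (V^3/4)^ε
        have h2 : (4 / (V:ℝ) ^ 3) ^ α = (4 / (V:ℝ) ^ 3) ^ ((4:ℝ)/3) / (4 / (V:ℝ) ^ 3) ^ ε := by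
          rw [hα, Real.rpow_sub (by positivity)]
        have h3 : (4 / (V:ℝ) ^ 3) ^ ((4:ℝ)/3) ≤ 7 / (V:ℝ) ^ 4 := by
          rw [Real.div_rpow (by norm_num) (by positivity)]
          have h4 : ((V:ℝ) ^ 3) ^ ((4:ℝ)/3) = (V:ℝ) ^ 4 := by
            rw [← Real.rpow_natCast, ← Real.rpow_mul hVr0.le, ← Real.rpow_natCast]
            norm_num
          rw [h4]
          apply div_le_div_of_nonneg_right _ (by positivity)
          -- 4^(4/3) ≤ 7
          have h5 : (4:ℝ) ^ ((4:ℝ)/3) = (256:ℝ) ^ ((1:ℝ)/3) := by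
            have : (256:ℝ) = (4:ℝ) ^ (4:ℝ) := by norm_num
            rw [this, ← Real.rpow_mul (by norm_num)]
            norm_num
          rw [h5]
          have h6 : (256:ℝ) ^ ((1:ℝ)/3) ≤ (343:ℝ) ^ ((1:ℝ)/3) :=
            Real.rpow_le_rpow (by norm_num) (by norm_num) (by norm_num)
          have h7 : (343:ℝ) ^ ((1:ℝ)/3) = 7 := by
            have : (343:ℝ) = (7:ℝ) ^ (3:ℝ) := by norm_num
            rw [this, ← Real.rpow_mul (by norm_num)]
            norm_num
          linarith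
        have h4 : 1 / 2 ≤ (4 / (V:ℝ) ^ 3) ^ ε := by
          have h5 : 1 / X ≤ 4 / (V:ℝ) ^ 3 := by
            rw [div_le_div_iff₀ (by linarith) (by positivity)]
            have h6 : (V:ℝ) ^ 3 ≤ X := by
              refine le_trans ?_ (le_max_left _ _)
              exact_mod_cast hVmax
            linarith
          calc (1:ℝ)/2 ≤ 1 / X ^ ε := one_div_le_one_div_of_le (by positivity) hXε
            _ = (1 / X) ^ ε := by rw [Real.div_rpow (by norm_num) (by linarith), Real.one_rpow]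
            _ ≤ (4 / (V:ℝ) ^ 3) ^ ε := Real.rpow_le_rpow (by positivity) h5 hεpos.le
        rw [h2, div_le_iff₀ (by positivity)]
        calc (4 / (V:ℝ) ^ 3) ^ ((4:ℝ)/3) ≤ 7 / (V:ℝ) ^ 4 := h3
          _ = 14 / (V:ℝ) ^ 4 * (1 / 2) := by ring
          _ ≤ 14 / (V:ℝ) ^ 4 * (4 / (V:ℝ) ^ 3) ^ ε := by
              apply mul_le_mul_of_nonneg_left h4; positivity
      have hfac : ((V:ℝ) ^ 4 / 28 + 1) * (14 / (V:ℝ) ^ 4) ≤ 1 := by
        have h81 : (81:ℝ) ≤ (V:ℝ) ^ 4 := by
          calc (81:ℝ) = 3 ^ 4 := by norm_num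
            _ ≤ (V:ℝ) ^ 4 := pow_le_pow_left₀ (by norm_num) hVr 4
        have h1 : ((V:ℝ) ^ 4 / 28 + 1) * (14 / (V:ℝ) ^ 4) = 1 / 2 + 14 / (V:ℝ) ^ 4 := by
          field_simp
          ring
        rw [h1]
        have h2 : 14 / (V:ℝ) ^ 4 ≤ 1 / 2 := by
          rw [div_le_div_iff₀ (by positivity) (by norm_num)]
          linarith
        linarith
      calc ((edges P k).card : ℝ)
          ≤ ((((nearE P k (2 * b)).card / b ^ 2 + 1) * Φ : ℕ) : ℝ) := by exact_mod_cast hpb
        _ = (((nearE P k (2 * b)).card / b ^ 2 + 1 : ℕ) : ℝ) * (Φ : ℝ) := by push_cast; ring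
        _ ≤ ((V:ℝ) ^ 4 / 28 + 1) * (K * Y ^ α) :=
            mul_le_mul hwin hΦle (Nat.cast_nonneg _) (by positivity)
        _ ≤ ((V:ℝ) ^ 4 / 28 + 1) * (K * ((N:ℝ) ^ α * (14 / (V:ℝ) ^ 4))) := by
            apply mul_le_mul_of_nonneg_left _ (by positivity)
            exact mul_le_mul_of_nonneg_left hYα hK0
        _ = (K * (N:ℝ) ^ α) * (((V:ℝ) ^ 4 / 28 + 1) * (14 / (V:ℝ) ^ 4)) := by ring
        _ ≤ (K * (N:ℝ) ^ α) * 1 := by
            apply mul_le_mul_of_nonneg_left hfac; positivity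
        _ = K * (N:ℝ) ^ α := mul_one _
  intro P hx hs k
  exact main P.card P rfl hx hs k

end Crest.Agent.R51.Red
end

-- ▼ part R51/Red7
section

/-!
# Row 51, section B10: `Core → S0070`

`Core` in the common language of `R51/Defs.lean`; `S0070_of_core` is the frozen statement.
-/

set_option autoImplicit false

namespace Crest.Agent.R51

open Finset

/-- CORE THEOREM of the blueprint: tightness at all scales `V ∈ [V₁, Vmax]` is impossible.
`nearAll P k (|P| / V^3)` (natural division) is the set of pairs with `|lv - k| ≤ |P| / V^3`. -/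
def Core : Prop :=
  ∀ c₀ : ℝ, 0 < c₀ → ∀ V₁ : ℕ, ∃ Vmax N₀ : ℕ, ∀ P : Finset Pt, Generic P → ∀ k : ℕ,
    N₀ ≤ P.card → ∃ V : ℕ, V₁ ≤ V ∧ V ≤ Vmax ∧
      ((nearAll P k (P.card / V ^ 3)).card : ℝ) < c₀ * ((P.card : ℝ) ^ 2 / (V : ℝ) ^ 2)

lemma generic_of_DX_DS {P : Finset Pt} (hx : Red.DX P) (hs : Red.DS P) : Generic P where
  x_inj := hx
  sl_inj := fun _ hp _ hq _ hr _ hu h1 h2 h => Red.slp_inj hs hp hq hr hu h1 h2 h

lemma nearAll_eq (P : Finset Pt) (k m : ℕ) : nearAll P k m = Red.nearE P k m := by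
  ext e
  rw [mem_nearAll, mem_pairs, Red.mem_nearE]
  have h : lv P e = Red.lev P e := by
    unfold lv Red.lev Red.rank Red.bel rk esl
    rw [Nat.add_comm]
    rfl
  unfold Near
  rw [h]
  simp only [and_assoc]

theorem red_core_of_core (H : Core) : Red.Core := by
  intro c₀ hc V₁
  obtain ⟨Vmax, N₀, h⟩ := H c₀ hc V₁
  refine ⟨Vmax, N₀, ?_⟩
  intro P hx hs k hN
  obtain ⟨V, h1, h2, h3⟩ := h P (generic_of_DX_DS hx hs) k hN
  rw [nearAll_eq] at h3
  exact ⟨V, h1, h2, h3⟩

/-- **S0070 from the core theorem** (section B10 complete). -/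
theorem S0070_of_core (H : Core) :
    ∃ ε₀ : ℝ, 0 < ε₀ ∧ ∃ C₀ : ℝ, ∀ n : ℕ, 2 ≤ n → ∀ k : ℕ, 1 ≤ k → 2 * k ≤ n →
      ∀ Q : Finset (ℝ × ℝ), Q.card = n →
        ((Red.ksets Q k).card : ℝ) ≤ C₀ * (n : ℝ) * ((k : ℝ) + 1) ^ ((1 : ℝ) / 3 - ε₀) :=
  Red.S0070_of_edgeBound (Red.edgeBound_of_thmE (Red.thmE_of_core (red_core_of_core H)))

end Crest.Agent.R51
end

-- ▼ part R51/Red8
section

/-! # Row 51: `CoreProp → S0070` (interface form) -/

set_option autoImplicit false

noncomputable section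

open Classical

namespace Crest.Agent.R51

theorem core_of_coreProp (H : CoreProp) : Core := by
  intro c₀ hc V₁
  obtain ⟨Vmax, N₀, h⟩ := H c₀ hc (max V₁ 1) (le_max_right _ _)
  refine ⟨Vmax, N₀, ?_⟩
  intro P hP k hN
  obtain ⟨V, h1, h2, h3⟩ := h P hP k hN
  refine ⟨V, (le_max_left _ _).trans h1, h2, ?_⟩
  unfold Tight at h3
  rw [not_le, nearR_eq (by positivity)] at h3
  have hfl : ⌊(P.card : ℝ) / (V : ℝ) ^ 3⌋₊ = P.card / V ^ 3 := by
    have := Nat.floor_div_eq_div (K := ℝ) P.card (V ^ 3)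
    rw [← this]
    push_cast
    rfl
  rw [hfl] at h3
  calc ((nearAll P k (P.card / V ^ 3)).card : ℝ)
      < c₀ * (P.card : ℝ) ^ 2 / (V : ℝ) ^ 2 := h3
    _ = c₀ * ((P.card : ℝ) ^ 2 / (V : ℝ) ^ 2) := by ring

/-- **S0070 (verbatim) from the core theorem in interface form.** -/
theorem S0070_of_coreProp (H : CoreProp) :
    ∃ ε₀ : ℝ, 0 < ε₀ ∧ ∃ C₀ : ℝ, ∀ n : ℕ, 2 ≤ n → ∀ k : ℕ, 1 ≤ k → 2 * k ≤ n →
      ∀ Q : Finset (ℝ × ℝ), Q.card = n →
        (∀ p ∈ Q, ∀ q ∈ Q, ∀ r ∈ Q, p ≠ q → p ≠ r → q ≠ r →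
          (q.1 - p.1) * (r.2 - p.2) - (q.2 - p.2) * (r.1 - p.1) ≠ 0) →
        (((Q.powersetCard k).filter (fun S => ∃ a b c : ℝ, (a ≠ 0 ∨ b ≠ 0) ∧
            (∀ p ∈ S, a * p.1 + b * p.2 + c < 0) ∧
            (∀ p ∈ Q, p ∉ S → 0 < a * p.1 + b * p.2 + c))).card : ℝ)
          ≤ C₀ * (n : ℝ) * ((k : ℝ) + 1) ^ ((1 : ℝ) / 3 - ε₀) := by
  obtain ⟨ε₀, hε, C₀, h⟩ := S0070_of_core (core_of_coreProp H)
  exact ⟨ε₀, hε, C₀, fun n hn k hk hkn Q hQ _ => h n hn k hk hkn Q hQ⟩

end Crest.Agent.R51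
end
end

-- ▼ part R51/Main

/-!
# Row 51: the core theorem (final assembly: helper169)

`HExists` (sections B3, B4, B5, 7.1-7.4), `FinalExists` (section B6) and `NoFinal` (sections 7.5,
B8, B9) give `CoreProp`; section B10 (`S0070_of_coreProp`) gives the statement.
-/

set_option autoImplicit false

namespace Crest.Agent.R51

/-- **the core theorem**: no configuration is tight at all scales -/
theorem coreProp : CoreProp :=
  core_of
    (hExists_of (Cw := 2433) (by norm_num) iw1_of i51 i2 i3 i4 i5 i6 i7 i8 i53 i54 i74)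
    (finalExists_of_B6 Quad.b6) noFinal

end Crest.Agent.R51
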