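import Crest.Agent.R51.Ceva
import Crest.Agent.R51.AddBase
import Crest.Agent.R51.HSys
import Crest.Agent.R51.GoodDefs

-- ▼ part R51/CevaMono
section

/-!
# Row 51, section B8: monotonicity of the log-ratio coordinate

`lr s a b = log |s - a| - log |s - b|` is strictly monotone in `s` on every component of
`ℝ \ {a, b}`; the direction is governed by the sign of `(s - a) (s - b) (a - b)`.
-/

set_option autoImplicit false

noncomputable section

open Classical

namespace Crest.Agent.R51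

/-- `s` and `s'` lie on the same side of `a`. -/
def SameSide (a s s' : ℝ) : Prop := 0 < (s - a) * (s' - a)

lemma SameSide.symm {a s s' : ℝ} (h : SameSide a s s') : SameSide a s' s := by
  unfold SameSide at *; rw [mul_comm]; exact h

lemma SameSide.ne_left {a s s' : ℝ} (h : SameSide a s s') : s - a ≠ 0 := by
  unfold SameSide at h; intro h0; simp [h0] at h

lemma SameSide.ne_right {a s s' : ℝ} (h : SameSide a s s') : s' - a ≠ 0 := h.symm.ne_left

lemma SameSide.trans {a s s' s'' : ℝ} (h : SameSide a s s') (h' : SameSide a s' s'') :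
    SameSide a s s'' := by
  have h0 := h.ne_right
  unfold SameSide at *
  have h1 : 0 < (s' - a) ^ 2 := by positivity
  have h2 : 0 < (s - a) * (s' - a) * ((s' - a) * (s'' - a)) := mul_pos h h'
  have h3 : (s - a) * (s' - a) * ((s' - a) * (s'' - a)) = (s' - a) ^ 2 * ((s - a) * (s'' - a)) := by
    ring
  rw [h3] at h2
  exact (pos_iff_pos_of_mul_pos h2).1 h1


lemma log_abs_lt_iff {x y z w : ℝ} (hx : x ≠ 0) (hy : y ≠ 0) (hz : z ≠ 0) (hw : w ≠ 0) :
    Real.log |x| - Real.log |y| < Real.log |z| - Real.log |w| ↔ |x| * |w| < |z| * |y| := by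
  have hx' : 0 < |x| := abs_pos.2 hx
  have hy' : 0 < |y| := abs_pos.2 hy
  have hz' : 0 < |z| := abs_pos.2 hz
  have hw' : 0 < |w| := abs_pos.2 hw
  rw [← Real.log_lt_log_iff (mul_pos hx' hw') (mul_pos hz' hy'),
    Real.log_mul hx'.ne' hw'.ne', Real.log_mul hz'.ne' hy'.ne']
  constructor <;> intro h <;> linarith

lemma mul_pos_iff_neg {c x : ℝ} (hc : c < 0) : 0 < c * x ↔ x < 0 := by
  constructor
  · intro h
    by_contra hx
    have := mul_nonpos_of_nonpos_of_nonneg hc.le (not_lt.1 hx)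
    linarith
  · exact fun h => mul_pos_of_neg_of_neg hc h

/-- strict monotonicity of `lr` on components -/
theorem lr_lt_iff {a b s s' : ℝ} (ha : SameSide a s s') (hb : SameSide b s s') :
    lr s a b < lr s' a b ↔ 0 < (s - a) * (s - b) * (a - b) * (s' - s) := by
  unfold lr
  rw [log_abs_lt_iff ha.ne_left hb.ne_left ha.ne_right hb.ne_right]
  have hid : (s - a) * (s' - b) - (s' - a) * (s - b) = (s' - s) * (b - a) := by ring
  have hA := ha
  have hB := hb
  unfold SameSide at hA hB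
  rw [← abs_mul, ← abs_mul]
  -- signs
  have e1 : |(s - a) * (s' - b)| = |(s - a) * (s' - b)| := rfl
  rcases lt_or_gt_of_ne ha.ne_left with h1 | h1 <;> rcases lt_or_gt_of_ne hb.ne_left with h2 | h2
  · have h3 : s' - a < 0 := by nlinarith
    have h4 : s' - b < 0 := by nlinarith
    rw [abs_of_pos (mul_pos_of_neg_of_neg h1 h4), abs_of_pos (mul_pos_of_neg_of_neg h3 h2)]
    have h5 : 0 < (s - a) * (s - b) := mul_pos_of_neg_of_neg h1 h2
    rw [mul_assoc ((s - a) * (s - b)), mul_pos_iff_of_pos_left h5]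
    constructor <;> intro h <;> nlinarith
  · have h3 : s' - a < 0 := by nlinarith
    have h4 : 0 < s' - b := by nlinarith
    rw [abs_of_neg (mul_neg_of_neg_of_pos h1 h4), abs_of_neg (mul_neg_of_neg_of_pos h3 h2)]
    have h5 : (s - a) * (s - b) < 0 := mul_neg_of_neg_of_pos h1 h2
    rw [mul_assoc ((s - a) * (s - b)), mul_pos_iff_neg h5]
    constructor <;> intro h <;> nlinarith
  · have h3 : 0 < s' - a := by nlinarith
    have h4 : s' - b < 0 := by nlinarith
    rw [abs_of_neg (mul_neg_of_pos_of_neg h1 h4), abs_of_neg (mul_neg_of_pos_of_neg h3 h2)]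
    have h5 : (s - a) * (s - b) < 0 := mul_neg_of_pos_of_neg h1 h2
    rw [mul_assoc ((s - a) * (s - b)), mul_pos_iff_neg h5]
    constructor <;> intro h <;> nlinarith
  · have h3 : 0 < s' - a := by nlinarith
    have h4 : 0 < s' - b := by nlinarith
    rw [abs_of_pos (mul_pos h1 h4), abs_of_pos (mul_pos h3 h2)]
    have h5 : 0 < (s - a) * (s - b) := mul_pos h1 h2
    rw [mul_assoc ((s - a) * (s - b)), mul_pos_iff_of_pos_left h5]
    constructor <;> intro h <;> nlinarith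

end Crest.Agent.R51
end
end

-- ▼ part R51/CevaLab
section

/-!
# Row 51, section B8: window labels and the coordinate `lr`

Abstract part: `f` strictly monotone or strictly antitone on an order-connected set `I`
(`f = lr · a b`, `I` = a component of `ℝ \ {a, b}`).
-/

set_option autoImplicit false

noncomputable section

open Classical

namespace Crest.Agent.R51

/-- component of `ℝ \ {a, b}` containing `θ₀` -/
def Cmp (a b θ₀ : ℝ) : Set ℝ := {θ | SameSide a θ₀ θ ∧ SameSide b θ₀ θ}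


/-- `lr · a b` is strictly monotone or strictly antitone on the component. -/
lemma lr_mono_or_anti {a b : ℝ} (hab : a ≠ b) (θ₀ : ℝ) :
    StrictMonoOn (fun s => lr s a b) (Cmp a b θ₀) ∨
      StrictAntiOn (fun s => lr s a b) (Cmp a b θ₀) := by
  by_cases hne : (Cmp a b θ₀).Nonempty
  swap
  · left
    intro x hx
    exact (hne ⟨x, hx⟩).elim
  obtain ⟨z, hza, hzb⟩ := hne
  have h0a : θ₀ - a ≠ 0 := hza.ne_left
  have h0b : θ₀ - b ≠ 0 := hzb.ne_left
  have hab' : a - b ≠ 0 := sub_ne_zero.2 hab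
  have key : ∀ x, SameSide a θ₀ x → SameSide b θ₀ x →
      0 < ((x - a) * (x - b) * (a - b)) * ((θ₀ - a) * (θ₀ - b) * (a - b)) := by
    intro x h1 h2
    unfold SameSide at h1 h2
    have h3 : 0 < (a - b) ^ 2 := by positivity
    have h4 := mul_pos (mul_pos h1 h2) h3
    nlinarith [h4]
  have hc0 : (θ₀ - a) * (θ₀ - b) * (a - b) ≠ 0 := mul_ne_zero (mul_ne_zero h0a h0b) hab'
  rcases lt_or_gt_of_ne hc0 with hc | hc
  · right
    intro x hx y hy hxy
    have hxc : (x - a) * (x - b) * (a - b) < 0 := by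
      have := key x hx.1 hx.2
      by_contra hcon
      have := mul_nonpos_of_nonneg_of_nonpos (not_lt.1 hcon) hc.le
      linarith
    have hyc : (y - a) * (y - b) * (a - b) < 0 := by
      have := key y hy.1 hy.2
      by_contra hcon
      have := mul_nonpos_of_nonneg_of_nonpos (not_lt.1 hcon) hc.le
      linarith
    show lr y a b < lr x a b
    rw [lr_lt_iff (hy.1.symm.trans hx.1) (hy.2.symm.trans hx.2)]
    exact mul_pos_of_neg_of_neg hyc (by linarith)
  · left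
    intro x hx y hy hxy
    have hxc : 0 < (x - a) * (x - b) * (a - b) := by
      have := key x hx.1 hx.2
      exact (pos_iff_pos_of_mul_pos this).2 hc
    show lr x a b < lr y a b
    rw [lr_lt_iff (hx.1.symm.trans hy.1) (hx.2.symm.trans hy.2)]
    exact mul_pos hxc (by linarith)

/-- label of `θ` in the partition given by the cuts `S` -/
def lab (S : Finset ℝ) (θ : ℝ) : ℕ := (S.filter (fun c => c ≤ θ)).card

lemma lab_mono (S : Finset ℝ) : Monotone (lab S) := by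
  intro x y hxy
  apply Finset.card_le_card
  intro c hc
  simp only [Finset.mem_filter] at hc ⊢
  exact ⟨hc.1, hc.2.trans hxy⟩

/-- equal labels iff no cut in between -/
lemma lab_eq_of_no_cut {S : Finset ℝ} {x y : ℝ} (hxy : x ≤ y) (h : ∀ c ∈ S, ¬ (x < c ∧ c ≤ y)) :
    lab S x = lab S y := by
  unfold lab
  congr 1
  ext c
  simp only [Finset.mem_filter]
  refine and_congr_right fun hc => ⟨fun h' => h'.trans hxy, fun h' => ?_⟩
  by_contra hcon
  exact h c hc ⟨not_le.1 hcon, h'⟩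

lemma no_cut_of_lab_eq {S : Finset ℝ} {x y : ℝ} (h : lab S x = lab S y) :
    ∀ c ∈ S, ¬ (x < c ∧ c ≤ y) := by
  rintro c hc ⟨h1, h2⟩
  have hsub : S.filter (fun c => c ≤ x) ⊂ S.filter (fun c => c ≤ y) := by
    refine Finset.ssubset_iff_subset_ne.2 ⟨?_, ?_⟩
    · intro d hd
      simp only [Finset.mem_filter] at hd ⊢
      exact ⟨hd.1, hd.2.trans (h1.le.trans h2)⟩
    · intro heq
      have : c ∈ S.filter (fun c => c ≤ x) := by
        rw [heq, Finset.mem_filter]; exact ⟨hc, h2⟩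
      rw [Finset.mem_filter] at this
      linarith [this.2]
  have := Finset.card_lt_card hsub
  unfold lab at h
  omega


section abstract

variable {f : ℝ → ℝ} {I : Set ℝ}

/-- order-convexity of the window labels -/
theorem ordConv_lab {R : Type*} (hf : StrictMonoOn f I ∨ StrictAntiOn f I) (S : Finset ℝ)
    (θ : R → ℝ) (hθ : ∀ v, θ v ∈ I) :
    Add.OrdConv (fun v => f (θ v)) (fun v => lab S (θ v)) := by
  intro u v x huv h1 h2
  simp only at huv h1 h2 ⊢
  have hm := lab_mono S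
  rcases hf with hf | hf
  · have h1' := (hf.le_iff_le (hθ u) (hθ x)).1 h1
    have h2' := (hf.le_iff_le (hθ x) (hθ v)).1 h2
    exact le_antisymm ((hm h2').trans huv.ge) (hm h1')
  · have h1' := (hf.le_iff_ge (hθ u) (hθ x)).1 h1
    have h2' := (hf.le_iff_ge (hθ x) (hθ v)).1 h2
    exact le_antisymm (hm h1') (huv.le.trans (hm h2'))

/-- (A5)(a): oscillation of `f` on a window -/
theorem abs_sub_le_window (hf : StrictMonoOn f I ∨ StrictAntiOn f I) {s t x y : ℝ}
    (hs : s ∈ I) (ht : t ∈ I) (hx : x ∈ I) (hy : y ∈ I) (h1 : s ≤ x) (h2 : x ≤ t) (h3 : s ≤ y)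
    (h4 : y ≤ t) : |f x - f y| ≤ |f t - f s| := by
  rcases hf with hf | hf
  · have a1 := hf.monotoneOn hs hx h1
    have a2 := hf.monotoneOn hx ht h2
    have a3 := hf.monotoneOn hs hy h3
    have a4 := hf.monotoneOn hy ht h4
    rw [abs_of_nonneg (show 0 ≤ f t - f s by linarith), abs_le]
    constructor <;> linarith
  · have a1 := hf.antitoneOn hs hx h1
    have a2 := hf.antitoneOn hx ht h2
    have a3 := hf.antitoneOn hs hy h3
    have a4 := hf.antitoneOn hy ht h4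
    rw [abs_of_nonpos (show f t - f s ≤ 0 by linarith), abs_le]
    constructor <;> linarith

/-- (A5)(b): if a side block `[t, t']` (or `[s', s]`) of the window `[s, t]` inside the parent
`[p₀, p₁]` has `f`-length at least `Lam` times that of the window, then points of `I` whose
`f`-value is within `Lam * ρ` on the corresponding side lie in the parent. -/
theorem side_block (hf : StrictMonoOn f I ∨ StrictAntiOn f I) {p₀ p₁ s t Lam : ℝ}
    (hp : Set.Icc p₀ p₁ ⊆ I) (hs0 : p₀ ≤ s) (hst : s < t) (ht1 : t ≤ p₁)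
    (hblock : (∃ t', t ≤ t' ∧ t' ≤ p₁ ∧ Lam * |f t - f s| ≤ |f t' - f t|) ∨
      (∃ s', p₀ ≤ s' ∧ s' ≤ s ∧ Lam * |f t - f s| ≤ |f s - f s'|)) {x : ℝ} (hx1 : s < x)
    (hx2 : x < t) :
    ∃ sg : ℝ, (sg = 1 ∨ sg = -1) ∧ ∀ y ∈ I, 0 ≤ sg * (f y - f x) →
      sg * (f y - f x) ≤ Lam * |f t - f s| → p₀ < y ∧ y < p₁ := by
  have hsI : s ∈ I := hp ⟨hs0, hst.le.trans ht1⟩
  have htI : t ∈ I := hp ⟨hs0.trans hst.le, ht1⟩
  have hxI : x ∈ I := hp ⟨hs0.trans hx1.le, hx2.le.trans ht1⟩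
  rcases hblock with ⟨t', h1, h2, h3⟩ | ⟨s', h1, h2, h3⟩
  · have ht'I : t' ∈ I := hp ⟨hs0.trans (hst.le.trans h1), h2⟩
    rcases hf with hf | hf
    · refine ⟨1, Or.inl rfl, fun y hy h4 h5 => ?_⟩
      rw [one_mul] at h4 h5
      have h6 : x ≤ y := (hf.le_iff_le hxI hy).1 (by linarith)
      have h7 : f x < f t := hf hxI htI hx2
      have h8 : f t ≤ f t' := hf.monotoneOn htI ht'I h1
      rw [abs_of_nonneg (show 0 ≤ f t' - f t by linarith)] at h3
      have h9 : f y < f t' := by linarith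
      have h10 : y < t' := (hf.lt_iff_lt hy ht'I).1 h9
      exact ⟨by linarith, by linarith⟩
    · refine ⟨-1, Or.inr rfl, fun y hy h4 h5 => ?_⟩
      have h6 : x ≤ y := (hf.le_iff_ge hy hxI).1 (by linarith)
      have h7 : f t < f x := hf hxI htI hx2
      have h8 : f t' ≤ f t := hf.antitoneOn htI ht'I h1
      rw [abs_of_nonpos (show f t' - f t ≤ 0 by linarith)] at h3
      have h9 : f t' < f y := by linarith
      have h10 : y < t' := (hf.lt_iff_gt ht'I hy).1 h9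
      exact ⟨by linarith, by linarith⟩
  · have hs'I : s' ∈ I := hp ⟨h1, h2.trans (hst.le.trans ht1)⟩
    rcases hf with hf | hf
    · refine ⟨-1, Or.inr rfl, fun y hy h4 h5 => ?_⟩
      have h6 : y ≤ x := (hf.le_iff_le hy hxI).1 (by linarith)
      have h7 : f s < f x := hf hsI hxI hx1
      have h8 : f s' ≤ f s := hf.monotoneOn hs'I hsI h2
      rw [abs_of_nonneg (show 0 ≤ f s - f s' by linarith)] at h3
      have h9 : f s' < f y := by linarith
      have h10 : s' < y := (hf.lt_iff_lt hs'I hy).1 h9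
      exact ⟨by linarith, by linarith⟩
    · refine ⟨1, Or.inl rfl, fun y hy h4 h5 => ?_⟩
      rw [one_mul] at h4 h5
      have h6 : y ≤ x := (hf.le_iff_ge hxI hy).1 (by linarith)
      have h7 : f x < f s := hf hsI hxI hx1
      have h8 : f s ≤ f s' := hf.antitoneOn hs'I hsI h2
      rw [abs_of_nonpos (show f s - f s' ≤ 0 by linarith)] at h3
      have h9 : f y < f s' := by linarith
      have h10 : s' < y := (hf.lt_iff_gt hy hs'I).1 h9
      exact ⟨by linarith, by linarith⟩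

end abstract

end Crest.Agent.R51
end
end

-- ▼ part R51/CevaMain
section

/-!
# Row 51, section B8: from the final configuration to the additive theorem ADD

`ADDProp` is the statement of the additive theorem (helper635, B9).  `CevaCfg` collects what B8 needs
from B5, B6, B7: the three points `p 0, p 1, p 2`, the set `R` of points `v` to the right of them, the
bounds for the window labels `lab (cuts l) (sl (p i) v)` and the good levels `G v` of 7.5.
`ceva_main : ADDProp → no CevaCfg`.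
-/

set_option autoImplicit false

noncomputable section

open Classical Finset

namespace Crest.Agent.R51

/-- the statement of ADD (B9) -/
def ADDProp : Prop :=
  ∀ (C η : ℝ), 1 ≤ C → 0 < η → ∃ mu0 : ℕ, ∀ mu : ℕ, mu0 ≤ mu → ∃ N1 N0 : ℕ, ∀ n1 n0 : ℕ,
    N1 ≤ n1 → N0 ≤ n0 → 4 * n1 ≤ n0 → ∀ (R : Type) [Fintype R] (α : Fin 3 → R → ℝ)
    (w : Fin 3 → R → ℕ) (wl : ℕ → R → ℕ) (G : R → Finset ℕ),
    Add.Setting C (((mu : ℝ) ^ 10) ^ n0) α w →
    (∀ v, G v ⊆ Finset.Icc 1 n1 ∧ η * n1 ≤ #(G v)) →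
    (∀ v, ∀ j ∈ G v, ∃ ρ : ℝ, 0 < ρ ∧ ∃ s : ℝ, (s = 1 ∨ s = -1) ∧
      (∀ u, wl j u = wl j v → |α 0 u - α 0 v| ≤ ρ) ∧
      (∀ u, 0 ≤ s * (α 0 u - α 0 v) → s * (α 0 u - α 0 v) ≤ (mu : ℝ) ^ 11 * ρ →
        wl (j - 1) u = wl (j - 1) v) ∧
      (#(Add.fib (wl (j - 1)) (wl (j - 1) v)) : ℝ) * ((mu : ℝ) ^ 10) ^ (j - 1) ≤
        C * Fintype.card R ∧
      (#(univ.image (wl j)) : ℝ) ≤ C * ((mu : ℝ) ^ 10) ^ j) → False

/-- the windows of the finite set of cuts `S` have a side block: `(s,t)` is the window of `θ` for the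
cuts `S`, `(p₀,p₁)` the window of `θ` for the coarser cuts `S'`, the closure of the latter contains
neither `a` nor `b`, and to one side of `(s,t)` inside `(p₀,p₁)` there is a block whose `lr · a b`-length
is at least `Lam` times that of `(s,t)`. -/
def SideBlock (S S' : Finset ℝ) (a b Lam θ : ℝ) : Prop :=
  ∃ p₀ p₁ s t : ℝ, p₀ ≤ s ∧ s < θ ∧ θ < t ∧ t ≤ p₁ ∧ s ∈ S ∧ t ∈ S ∧
    (∀ c ∈ S', ¬ (p₀ < c ∧ c < p₁)) ∧ a ∉ Set.Icc p₀ p₁ ∧ b ∉ Set.Icc p₀ p₁ ∧
    ((∃ t', t ≤ t' ∧ t' ≤ p₁ ∧ Lam * |lr t a b - lr s a b| ≤ |lr t' a b - lr t a b|) ∨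
      (∃ s', p₀ ≤ s' ∧ s' ≤ s ∧ Lam * |lr t a b - lr s a b| ≤ |lr s a b - lr s' a b|))

/-- what B8 needs -/
structure CevaCfg (C c η : ℝ) (mu n1 n0 : ℕ) (D : ℝ) (p : Fin 3 → Pt) (R : Finset Pt)
    (cuts : ℕ → Finset ℝ) (G : Pt → Finset ℕ) : Prop where
  D_pos : 0 < D
  card : c * D ≤ (#R : ℝ)
  xne : ∀ i j, i ≠ j → (p i).1 ≠ (p j).1
  xv : ∀ v ∈ R, ∀ i, (p i).1 ≠ v.1
  ab : ∀ i, sl (p i) (p (i + 1)) ≠ sl (p i) (p (i + 2))
  sv : ∀ v ∈ R, ∀ i j, i ≠ j → sl (p i) v ≠ sl (p i) (p j)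
  A1 : ∀ i, (#(R.image (fun v => lab (cuts n0) (sl (p i) v))) : ℝ) ≤ C * ((mu : ℝ) ^ 10) ^ n0
  A2 : ∀ i a, (#(R.filter (fun v => lab (cuts n0) (sl (p i) v) = a)) : ℝ) * ((mu : ℝ) ^ 10) ^ n0 ≤
    C * D
  A3 : ∀ i j, i ≠ j → ∀ a b, (#(R.filter (fun v => lab (cuts n0) (sl (p i) v) = a ∧
    lab (cuts n0) (sl (p j) v) = b)) : ℝ) * (((mu : ℝ) ^ 10) ^ n0) ^ 2 ≤ C * D
  G_sub : ∀ v ∈ R, G v ⊆ Finset.Icc 1 n1 ∧ η * n1 ≤ (#(G v) : ℝ)
  block : ∀ v ∈ R, ∀ j ∈ G v, SideBlock (cuts j) (cuts (j - 1)) (sl (p 0) (p 1)) (sl (p 0) (p 2))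
    ((mu : ℝ) ^ 11) (sl (p 0) v)
  fibre : ∀ v ∈ R, ∀ j ∈ G v, (#(R.filter (fun u => lab (cuts (j - 1)) (sl (p 0) u) =
    lab (cuts (j - 1)) (sl (p 0) v))) : ℝ) * ((mu : ℝ) ^ 10) ^ (j - 1) ≤ C * D
  labels : ∀ v ∈ R, ∀ j ∈ G v, (#(R.image (fun u => lab (cuts j) (sl (p 0) u))) : ℝ) ≤
    C * ((mu : ℝ) ^ 10) ^ j

/-- side of `θ` with respect to `a` and `b` -/
def side (a b θ : ℝ) : Bool × Bool := (decide (a < θ), decide (b < θ))

lemma sameSide_of_decide {a x y : ℝ} (hx : x ≠ a) (hy : y ≠ a)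
    (h : decide (a < x) = decide (a < y)) : SameSide a x y := by
  unfold SameSide
  rw [decide_eq_decide] at h
  rcases lt_or_gt_of_ne hx with h1 | h1
  · have h2 : ¬ a < y := fun h3 => absurd (h.2 h3) (not_lt.2 h1.le)
    have h3 : y < a := lt_of_le_of_ne (not_lt.1 h2) hy
    exact mul_pos_of_neg_of_neg (by linarith) (by linarith)
  · have h3 : a < y := h.1 h1
    exact mul_pos (by linarith) (by linarith)

lemma sameSide_of_notMem {a p₀ p₁ x y : ℝ} (ha : a ∉ Set.Icc p₀ p₁) (hx : x ∈ Set.Icc p₀ p₁)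
    (hy : y ∈ Set.Icc p₀ p₁) : SameSide a x y := by
  unfold SameSide
  rw [Set.mem_Icc, not_and_or, not_le, not_le] at ha
  rcases ha with ha | ha
  · exact mul_pos (by linarith [hx.1]) (by linarith [hy.1])
  · exact mul_pos_of_neg_of_neg (by linarith [hx.2]) (by linarith [hy.2])

/-- the coordinate `α_i` -/
def alp (p : Fin 3 → Pt) (i : Fin 3) (v : Pt) : ℝ :=
  lr (sl (p i) v) (sl (p i) (p (i + 1))) (sl (p i) (p (i + 2)))

theorem alp_sum {p : Fin 3 → Pt} {v : Pt} (xne : ∀ i j, i ≠ j → (p i).1 ≠ (p j).1)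
    (xv : ∀ i, (p i).1 ≠ v.1) (sv : ∀ i j, i ≠ j → sl (p i) v ≠ sl (p i) (p j)) :
    alp p 0 v + alp p 1 v + alp p 2 v = 0 := by
  have h := ceva_log (a := p 0) (b := p 1) (c := p 2) (r := v)
    (xne 0 1 (by decide)) (xne 0 2 (by decide)) (xne 1 2 (by decide)) (xv 0) (xv 1) (xv 2)
    (sv 0 1 (by decide)) (sv 0 2 (by decide)) (sv 1 2 (by decide)) (sv 1 0 (by decide))
    (sv 2 0 (by decide)) (sv 2 1 (by decide))
  exact h

/-- the pigeonhole class -/
theorem exists_class (p : Fin 3 → Pt) (R : Finset Pt) : ∃ R' ⊆ R, (#R : ℝ) ≤ 64 * #R' ∧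
    ∀ u ∈ R', ∀ v ∈ R', ∀ i, side (sl (p i) (p (i + 1))) (sl (p i) (p (i + 2))) (sl (p i) u) =
      side (sl (p i) (p (i + 1))) (sl (p i) (p (i + 2))) (sl (p i) v) := by
  let f : Pt → (Fin 3 → Bool × Bool) := fun v i =>
    side (sl (p i) (p (i + 1))) (sl (p i) (p (i + 2))) (sl (p i) v)
  have hcard : Fintype.card (Fin 3 → Bool × Bool) = 64 := by
    simp
  obtain ⟨y, -, hy⟩ := Finset.exists_le_card_fiber_of_nsmul_le_card_of_maps_to
    (s := R) (t := (Finset.univ : Finset (Fin 3 → Bool × Bool))) (f := f)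
    (b := (#R : ℝ) / 64) (fun a _ => Finset.mem_univ _) ⟨fun _ => (true, true), Finset.mem_univ _⟩
    (by
      rw [Finset.card_univ, hcard, nsmul_eq_mul]
      push_cast
      linarith)
  refine ⟨R.filter (fun x => f x = y), Finset.filter_subset _ _, ?_, ?_⟩
  · linarith
  · intro u hu v hv i
    rw [Finset.mem_filter] at hu hv
    have := congrFun (hu.2.trans hv.2.symm) i
    exact this

lemma card_image_subtype_le {R' R : Finset Pt} (hsub : R' ⊆ R) (f : Pt → ℕ) :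
    #((univ : Finset {x // x ∈ R'}).image (fun v => f v.1)) ≤ #(R.image f) := by
  apply Finset.card_le_card
  intro a ha
  obtain ⟨v, -, rfl⟩ := Finset.mem_image.1 ha
  exact Finset.mem_image_of_mem _ (hsub v.2)

lemma card_filter_subtype_le {R' R : Finset Pt} (hsub : R' ⊆ R) (q : Pt → Prop)
    [i1 : DecidablePred q] (F : Finset {x // x ∈ R'}) (hF : ∀ v ∈ F, q v.1) :
    #F ≤ #(R.filter q) := by
  apply Finset.card_le_card_of_injOn Subtype.val
  · intro v hv
    rw [Finset.mem_coe] at hv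
    rw [Finset.mem_coe, Finset.mem_filter]
    exact ⟨hsub v.2, hF v hv⟩
  · exact Subtype.val_injective.injOn

lemma mem_fib_inter {R : Type*} [Fintype R] {w w' : R → ℕ} {a b : ℕ} {v : R}
    (h : v ∈ Add.fib w a ∩ Add.fib w' b) : w v = a ∧ w' v = b := by
  rw [Finset.mem_inter, Add.mem_fib, Add.mem_fib] at h
  exact h

/-- **B8**: a configuration contradicts ADD. -/
theorem ceva_main (hADD : ADDProp) (C c η : ℝ) (hc : 0 < c) (hη : 0 < η) :
    ∃ mu0 : ℕ, ∀ mu : ℕ, mu0 ≤ mu → ∃ N1 N0 : ℕ, ∀ n1 n0 : ℕ, N1 ≤ n1 → N0 ≤ n0 → 4 * n1 ≤ n0 →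
      ∀ (D : ℝ) (p : Fin 3 → Pt) (R : Finset Pt) (cuts : ℕ → Finset ℝ) (G : Pt → Finset ℕ),
        CevaCfg C c η mu n1 n0 D p R cuts G → False := by
  set C' : ℝ := max (max 1 C) (64 * C / c) with hC'
  have hC'1 : 1 ≤ C' := (le_max_left _ _).trans (le_max_left _ _)
  have hC'2 : C ≤ C' := (le_max_right _ _).trans (le_max_left _ _)
  have hC'3 : 64 * C / c ≤ C' := le_max_right _ _
  obtain ⟨mu0, hmu0⟩ := hADD C' η hC'1 hη
  refine ⟨max mu0 2, fun mu hmu => ?_⟩
  obtain ⟨N1, N0, hN⟩ := hmu0 mu ((le_max_left _ _).trans hmu)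
  have hmu2 : (2 : ℝ) ≤ mu := by exact_mod_cast (le_max_right _ _).trans hmu
  refine ⟨N1, N0, fun n1 n0 hn1 hn0 h4 D p R cuts G h => ?_⟩
  obtain ⟨R', hsub, hcard, hside⟩ := exists_class p R
  have hRpos : (0 : ℝ) < #R := lt_of_lt_of_le (mul_pos hc h.D_pos) h.card
  have hR'pos : (0 : ℝ) < #R' := by linarith
  have hR'ne : R'.Nonempty := by
    rw [← Finset.card_pos]; exact_mod_cast hR'pos
  obtain ⟨v0, hv0⟩ := hR'ne
  -- constants
  have hconst : C * D ≤ C' * #R' := by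
    have h1 : 64 * C ≤ C' * c := by
      rw [div_le_iff₀ hc] at hC'3; exact hC'3
    have h2 : c * D ≤ 64 * #R' := h.card.trans hcard
    have h3 : 0 ≤ C' := by linarith
    have h4 : 64 * (C * D) ≤ C' * (c * D) := by nlinarith [h.D_pos]
    have h5 : C' * (c * D) ≤ C' * (64 * #R') := mul_le_mul_of_nonneg_left h2 h3
    linarith
  -- same side
  have hss : ∀ u ∈ R', ∀ v ∈ R', ∀ i, SameSide (sl (p i) (p (i + 1))) (sl (p i) u) (sl (p i) v) ∧
      SameSide (sl (p i) (p (i + 2))) (sl (p i) u) (sl (p i) v) := by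
    intro u hu v hv i
    have h1 := hside u hu v hv i
    unfold side at h1
    rw [Prod.mk.injEq] at h1
    have i1 : i ≠ i + 1 := by fin_cases i <;> decide
    have i2 : i ≠ i + 2 := by fin_cases i <;> decide
    exact ⟨sameSide_of_decide (h.sv u (hsub hu) i _ i1) (h.sv v (hsub hv) i _ i1) h1.1,
      sameSide_of_decide (h.sv u (hsub hu) i _ i2) (h.sv v (hsub hv) i _ i2) h1.2⟩
  have hmem : ∀ i, ∀ u : {x // x ∈ R'}, sl (p i) u.1 ∈
      Cmp (sl (p i) (p (i + 1))) (sl (p i) (p (i + 2))) (sl (p i) v0) :=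
    fun i u => hss v0 hv0 u.1 u.2 i
  have hmono := fun i => lr_mono_or_anti (h.ab i) (sl (p i) v0)
  -- data for ADD
  let α : Fin 3 → {x // x ∈ R'} → ℝ := fun i v => alp p i v.1
  let w : Fin 3 → {x // x ∈ R'} → ℕ := fun i v => lab (cuts n0) (sl (p i) v.1)
  let wl : ℕ → {x // x ∈ R'} → ℕ := fun j v => lab (cuts j) (sl (p 0) v.1)
  let G' : {x // x ∈ R'} → Finset ℕ := fun v => G v.1
  have hcardR' : (Fintype.card {x // x ∈ R'} : ℝ) = #R' := by
    rw [Fintype.card_coe]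
  refine hN n1 n0 hn1 hn0 h4 {x // x ∈ R'} α w wl G' ?_ ?_ ?_
  · refine ⟨⟨⟨v0, hv0⟩⟩, hC'1, ?_, ?_, ?_, ?_, ?_, ?_⟩
    · exact one_le_pow₀ (one_le_pow₀ (by linarith))
    · intro v
      exact alp_sum h.xne (h.xv v.1 (hsub v.2)) (h.sv v.1 (hsub v.2))
    · intro i
      exact ordConv_lab (S := cuts n0) (hmono i) (θ := fun v : {x // x ∈ R'} => sl (p i) v.1)
        (fun v => hmem i v)
    · intro i
      have h1 := card_image_subtype_le hsub (fun v => lab (cuts n0) (sl (p i) v))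
      have h2 := h.A1 i
      have h3 : (0 : ℝ) < ((mu : ℝ) ^ 10) ^ n0 := by positivity
      calc (#(univ.image (w i)) : ℝ) ≤ #(R.image (fun v => lab (cuts n0) (sl (p i) v))) := by
            exact_mod_cast h1
        _ ≤ C * ((mu : ℝ) ^ 10) ^ n0 := h2
        _ ≤ C' * ((mu : ℝ) ^ 10) ^ n0 := mul_le_mul_of_nonneg_right hC'2 h3.le
    · intro i a
      have h1 := card_filter_subtype_le hsub (fun v => lab (cuts n0) (sl (p i) v) = a)
        (Add.fib (w i) a) (fun v hv => (Add.mem_fib (w := w i)).1 hv)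
      have h3 : (0 : ℝ) < ((mu : ℝ) ^ 10) ^ n0 := by positivity
      rw [hcardR']
      calc (#(Add.fib (w i) a) : ℝ) * ((mu : ℝ) ^ 10) ^ n0 ≤
            #(R.filter (fun v => lab (cuts n0) (sl (p i) v) = a)) * ((mu : ℝ) ^ 10) ^ n0 := by
            apply mul_le_mul_of_nonneg_right _ h3.le
            exact_mod_cast h1
        _ ≤ C * D := h.A2 i a
        _ ≤ C' * #R' := hconst
    · intro i j hij a b
      have h3 : (0 : ℝ) < (((mu : ℝ) ^ 10) ^ n0) ^ 2 := by positivity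
      rw [hcardR']
      refine le_trans (mul_le_mul_of_nonneg_right (Nat.cast_le.2 (card_filter_subtype_le hsub
        (fun v => lab (cuts n0) (sl (p i) v) = a ∧ lab (cuts n0) (sl (p j) v) = b) _
        (fun v hv => mem_fib_inter (w := w i) (w' := w j) hv))) h3.le)
        ((h.A3 i j hij a b).trans hconst)
  · intro v
    exact h.G_sub v.1 (hsub v.2)
  · intro v j hj
    obtain ⟨p₀, p₁, s, t, b1, b2, b3, b4, b5, b6, b7, b8, b9, b10⟩ := h.block v.1 (hsub v.2) j hj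
    set a : ℝ := sl (p 0) (p 1) with ha
    set b : ℝ := sl (p 0) (p 2) with hb
    have hI : Set.Icc p₀ p₁ ⊆ Cmp a b (sl (p 0) v0) := by
      intro x hx
      have hv' : sl (p 0) v.1 ∈ Set.Icc p₀ p₁ := ⟨by linarith, by linarith⟩
      obtain ⟨c1, c2⟩ := hmem 0 v
      exact ⟨c1.trans (sameSide_of_notMem b8 hv' hx), c2.trans (sameSide_of_notMem b9 hv' hx)⟩
    have hmono0 : StrictMonoOn (fun s => lr s a b) (Cmp a b (sl (p 0) v0)) ∨
      StrictAntiOn (fun s => lr s a b) (Cmp a b (sl (p 0) v0)) := hmono 0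
    have hsI : s ∈ Cmp a b (sl (p 0) v0) := hI ⟨b1, by linarith⟩
    have htI : t ∈ Cmp a b (sl (p 0) v0) := hI ⟨by linarith, b4⟩
    have hρ : 0 < |lr t a b - lr s a b| := by
      apply abs_pos.2
      rcases hmono0 with hm | hm
      · have := hm hsI htI (by linarith)
        simp only at this
        linarith
      · have := hm hsI htI (by linarith)
        simp only at this
        linarith
    obtain ⟨sg, hsg, hsg'⟩ := side_block (f := fun s => lr s a b) hmono0 hI b1 (by linarith) b4 b10 b2 b3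
    refine ⟨|lr t a b - lr s a b|, hρ, sg, hsg, ?_, ?_, ?_, ?_⟩
    · intro u hu
      have hu' : lab (cuts j) (sl (p 0) u.1) = lab (cuts j) (sl (p 0) v.1) := hu
      have n1 := no_cut_of_lab_eq hu' t b6
      have n2 := no_cut_of_lab_eq hu'.symm s b5
      have n3 := no_cut_of_lab_eq hu'.symm t b6
      have n4 := no_cut_of_lab_eq hu' s b5
      have m1 : s ≤ sl (p 0) u.1 := by
        by_contra hcon
        rw [not_le] at hcon
        exact n4 ⟨hcon, b2.le⟩
      have m2 : sl (p 0) u.1 ≤ t := by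
        by_contra hcon
        rw [not_le] at hcon
        exact n3 ⟨b3, hcon.le⟩
      exact abs_sub_le_window (f := fun s => lr s a b) hmono0 hsI htI (hmem 0 u) (hmem 0 v)
        m1 m2 b2.le b3.le
    · intro u hu1 hu2
      obtain ⟨q1, q2⟩ := hsg' (sl (p 0) u.1) (hmem 0 u) hu1 hu2
      have hvp : p₀ < sl (p 0) v.1 ∧ sl (p 0) v.1 < p₁ := ⟨by linarith, by linarith⟩
      show lab (cuts (j - 1)) (sl (p 0) u.1) = lab (cuts (j - 1)) (sl (p 0) v.1)
      rcases le_total (sl (p 0) u.1) (sl (p 0) v.1) with hle | hle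
      · exact lab_eq_of_no_cut hle (fun c hc hcc => b7 c hc ⟨by linarith, by linarith⟩)
      · exact (lab_eq_of_no_cut hle (fun c hc hcc => b7 c hc ⟨by linarith, by linarith⟩)).symm
    · have h1 := card_filter_subtype_le hsub (fun u => lab (cuts (j - 1)) (sl (p 0) u) =
        lab (cuts (j - 1)) (sl (p 0) v.1)) (Add.fib (wl (j - 1)) (wl (j - 1) v))
        (fun u hu => (Add.mem_fib (w := wl (j - 1))).1 hu)
      have h3 : (0 : ℝ) < ((mu : ℝ) ^ 10) ^ (j - 1) := by positivity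
      rw [hcardR']
      calc (#(Add.fib (wl (j - 1)) (wl (j - 1) v)) : ℝ) * ((mu : ℝ) ^ 10) ^ (j - 1) ≤
            #(R.filter (fun u => lab (cuts (j - 1)) (sl (p 0) u) =
              lab (cuts (j - 1)) (sl (p 0) v.1))) * ((mu : ℝ) ^ 10) ^ (j - 1) := by
            apply mul_le_mul_of_nonneg_right _ h3.le
            exact_mod_cast h1
        _ ≤ C * D := h.fibre v.1 (hsub v.2) j hj
        _ ≤ C' * #R' := hconst
    · have h1 := card_image_subtype_le hsub (fun u => lab (cuts j) (sl (p 0) u))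
      have h2 := h.labels v.1 (hsub v.2) j hj
      have h3 : (0 : ℝ) < ((mu : ℝ) ^ 10) ^ j := by positivity
      calc (#(univ.image (wl j)) : ℝ) ≤ #(R.image (fun u => lab (cuts j) (sl (p 0) u))) := by
            exact_mod_cast h1
        _ ≤ C * ((mu : ℝ) ^ 10) ^ j := h2
        _ ≤ C' * ((mu : ℝ) ^ 10) ^ j := mul_le_mul_of_nonneg_right hC'2 h3.le

end Crest.Agent.R51
end
end

-- ▼ part R51/NoFinalWin
section

/-!
# Row 51, section B8: windows of directions; consequences of the final configuration (helper417)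
-/

set_option autoImplicit false

noncomputable section

open Classical Finset

namespace Crest.Agent.R51.NF

/-! ### generic facts on slopes -/

lemma sl_ne_of_ne {P : Finset Pt} (hG : Generic P) {p q r : Pt} (hp : p ∈ P) (hq : q ∈ P)
    (hr : r ∈ P) (hpq : p ≠ q) (hpr : p ≠ r) (hqr : q ≠ r) : sl p q ≠ sl p r := by
  intro h
  have h1 : mk p q ∈ pairs P := mk_mem_pairs_iff.2 ⟨hp, hq, hG.x_ne hp hq hpq⟩
  have h2 : mk p r ∈ pairs P := mk_mem_pairs_iff.2 ⟨hp, hr, hG.x_ne hp hr hpr⟩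
  have h3 : esl (mk p q) = esl (mk p r) := by rw [esl_mk, esl_mk, h]
  have h4 := hG.esl_inj h1 h2 h3
  unfold mk at h4
  split_ifs at h4 with a1 a2 a2
  · exact hqr (congrArg Prod.snd h4)
  · exact hpr (congrArg Prod.fst h4 |>.trans rfl)
  · exact hpq (congrArg Prod.fst h4).symm
  · exact hqr (congrArg Prod.fst h4)

/-! ### windows of a direction -/

section win

variable {P : Finset Pt} {k : ℕ} {V : ℕ → ℕ} {L : ℕ} {Cw : ℝ} (W : WSys P k V L Cw)

/-- admissible directions: between `lo` and `hi`, not a cut -/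
def Adm (θ : ℝ) : Prop := W.lo < θ ∧ θ < W.hi ∧ ∀ l ≤ L, θ ∉ W.cuts l

lemma adm_of_pair {e : Edge} (he : e ∈ pairs P) : Adm W (esl e) :=
  ⟨W.lo_lt_slope e he, W.slope_lt_hi e he, fun l hl h => W.nons l hl _ h e he rfl⟩

variable {W}

lemma J_spec {l : ℕ} (hl : l ≤ L) {θ : ℝ} (h : Adm W θ) :
    W.J l θ ∈ wins (W.cuts l) ∧ (W.J l θ).1 < θ ∧ θ < (W.J l θ).2 :=
  winOf_spec (exists_win (W.sub 0 l (Nat.zero_le l) hl W.lo_mem)
    (W.sub 0 l (Nat.zero_le l) hl W.hi_mem) h.1 h.2.1 (h.2.2 l hl))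

lemma J_nest {l l' : ℕ} (hll : l ≤ l') (hl : l' ≤ L) {θ : ℝ} (h : Adm W θ) :
    (W.J l θ).1 ≤ (W.J l' θ).1 ∧ (W.J l' θ).2 ≤ (W.J l θ).2 := by
  obtain ⟨a1, a2, a3⟩ := J_spec (hll.trans hl) h
  obtain ⟨b1, b2, b3⟩ := J_spec hl h
  rw [mem_wins] at a1 b1
  constructor
  · by_contra hcon
    rw [not_le] at hcon
    exact b1.2.2.2 _ (W.sub l l' hll hl a1.1) ⟨hcon, a2.trans b3⟩
  · by_contra hcon
    rw [not_le] at hcon
    exact b1.2.2.2 _ (W.sub l l' hll hl a1.2.1) ⟨b2.trans a3, hcon⟩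

lemma J_eq_of_fine {l l' : ℕ} (hll : l ≤ l') (hl : l' ≤ L) {θ θ' : ℝ} (h : Adm W θ)
    (h' : Adm W θ') (hJ : W.J l' θ = W.J l' θ') : W.J l θ = W.J l θ' := by
  obtain ⟨a1, a2, a3⟩ := J_spec (hll.trans hl) h
  obtain ⟨b1, b2, b3⟩ := J_spec (hll.trans hl) h'
  obtain ⟨c1, c2⟩ := J_nest hll hl h
  obtain ⟨d1, d2, d3⟩ := J_spec hl h'
  rw [← hJ] at d2 d3
  exact win_unique a1 b1 (c1.trans_lt d2) (d3.trans_le c2) b2 b3

lemma lab_eq_iff {l : ℕ} (hl : l ≤ L) {θ θ' : ℝ} (h : Adm W θ) (h' : Adm W θ') :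
    lab (W.cuts l) θ = lab (W.cuts l) θ' ↔ W.J l θ = W.J l θ' :=
  widx_eq_iff_winOf (W.sub 0 l (Nat.zero_le l) hl W.lo_mem)
    (W.sub 0 l (Nat.zero_le l) hl W.hi_mem) h.1 h.2.1 h'.1 h'.2.1 (h.2.2 l hl) (h'.2.2 l hl)

/-- the label of a direction is the label of the left end of its window -/
lemma lab_left {l : ℕ} (hl : l ≤ L) {θ : ℝ} (h : Adm W θ) :
    lab (W.cuts l) θ = lab (W.cuts l) (W.J l θ).1 := by
  obtain ⟨a1, a2, a3⟩ := J_spec hl h
  rw [mem_wins] at a1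
  symm
  apply lab_eq_of_no_cut a2.le
  rintro c hc ⟨h1, h2⟩
  exact a1.2.2.2 c hc ⟨h1, h2.trans_lt a3⟩

lemma card_lab_le {l : ℕ} (hl : l ≤ L) (R : Finset Pt) (f : Pt → ℝ) (q : Pt)
    (hf : ∀ v ∈ R, Adm W (f v)) (hq : ∀ v ∈ R, q ∈ W.A l (W.J l (f v))) :
    #(R.image (fun v => lab (W.cuts l) (f v))) ≤ #(W.act l q) := by
  have hsub : R.image (fun v => lab (W.cuts l) (f v)) ⊆
      (W.act l q).image (fun J => lab (W.cuts l) J.1) := by
    intro x hx
    obtain ⟨v, hv, rfl⟩ := Finset.mem_image.1 hx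
    refine Finset.mem_image.2 ⟨W.J l (f v), ?_, (lab_left hl (hf v hv)).symm⟩
    unfold WSys.act
    rw [Finset.mem_filter]
    exact ⟨(J_spec hl (hf v hv)).1, hq v hv⟩
  exact (Finset.card_le_card hsub).trans Finset.card_image_le

end win

/-! ### level widths -/

lemma bb_anti {N V V' : ℕ} (hV : 1 ≤ V) (h : V ≤ V') : bb N V' ≤ bb N V := by
  unfold bb
  exact Nat.div_le_div_left (Nat.pow_le_pow_left h 3) (by positivity)

lemma bb_le (N V : ℕ) : (bb N V : ℝ) ≤ N / (V : ℝ) ^ 3 := by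
  unfold bb
  have := @Nat.cast_div_le ℝ _ _ _ N (V ^ 3)
  push_cast at this
  exact this

lemma lev_of_le {mu n0 be l : ℕ} (h : l ≤ n0) : lev mu n0 be l = mu ^ (10 * l) := if_pos h

lemma lev_succ {mu n0 be : ℕ} : lev mu n0 be (n0 + 1) = be * mu ^ (10 * n0) := by
  unfold lev
  rw [if_neg (by omega)]

lemma lev_cast {mu n0 be l : ℕ} (h : l ≤ n0) :
    (lev mu n0 be l : ℝ) = ((mu : ℝ) ^ 10) ^ l := by
  rw [lev_of_le h, ← pow_mul]
  push_cast
  rfl

lemma lev_pos {mu n0 be l : ℕ} (hmu : 1 ≤ mu) (h : l ≤ n0) : 1 ≤ lev mu n0 be l := by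
  rw [lev_of_le h]
  exact Nat.one_le_pow _ _ hmu

lemma lev_mono {mu n0 be l l' : ℕ} (hmu : 1 ≤ mu) (hll : l ≤ l') (h : l' ≤ n0) :
    lev mu n0 be l ≤ lev mu n0 be l' := by
  rw [lev_of_le h, lev_of_le (hll.trans h)]
  exact Nat.pow_le_pow_right hmu (by omega)

lemma lev_le_succ {mu n0 be : ℕ} (hbe : 1 ≤ be) :
    lev mu n0 be n0 ≤ lev mu n0 be (n0 + 1) := by
  rw [lev_succ, lev_of_le le_rfl]
  exact Nat.le_mul_of_pos_left _ hbe

/-! ### consequences of `HSystem` and `FinalCfg` -/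

section cfg

variable {P : Finset Pt} {k mu n2 n0 be Vp : ℕ} {a : Cst} {K1 d1 d8 e1 c5 : ℝ}
  {W : WSys P k (lev mu n0 be) (n0 + 1) a.Cw} {H : Finset Walk} {p : Fin 3 → Pt} {R : Finset Pt}

lemma adm_v (hf : FinalCfg mu n0 be Vp a K1 e1 c5 W H p R) {v : Pt} (hv : v ∈ R) (i : Fin 3) :
    Adm W (sl (p i) v) := by
  have he : ((p i, v) : Edge) ∈ pairs P := mem_pairs.2 ⟨hf.memP i, hf.sub hv, hf.left v hv i⟩
  exact adm_of_pair W he

/-- an element of `H` from `p i` in the finest window of `slope (p_i v)` -/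
lemma exists_walk (hP : 1 ≤ P.card) (hVp : 1 ≤ Vp) (hmu : 1 ≤ mu) (he1 : 0 < e1)
    (hs : HSystem mu n2 n0 be Vp a K1 d1 d8 W H)
    (hf : FinalCfg mu n0 be Vp a K1 e1 c5 W H p R) {v : Pt} (hv : v ∈ R) (i : Fin 3) :
    ∃ z ∈ H, z.1 = p i ∧ Adm W (esl (lastE z)) ∧
      W.J n0 (esl (lastE z)) = W.J n0 (sl (p i) v) := by
  have h1 := hf.alive v hv i
  have h2 : (0 : ℝ) < (lev mu n0 be n0 : ℝ) := by
    exact_mod_cast lev_pos (be := be) hmu (le_refl n0)
  have h3 : (0 : ℝ) < (P.card : ℝ) := by exact_mod_cast hP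
  have h4 : (0 : ℝ) < (Vp : ℝ) := by exact_mod_cast hVp
  have h5 : 0 < e1 * ((P.card : ℝ) / (Vp : ℝ) ^ 2) ^ 2 / (lev mu n0 be n0 : ℝ) := by positivity
  have h6 : (0 : ℝ) < (((fib H (p i)).filter
      (fun e => W.J n0 (esl e) = W.J n0 (sl (p i) v))).card : ℝ) := lt_of_lt_of_le h5 h1
  have h7 : 0 < ((fib H (p i)).filter
      (fun e => W.J n0 (esl e) = W.J n0 (sl (p i) v))).card := by exact_mod_cast h6
  obtain ⟨e, he⟩ := Finset.card_pos.1 h7
  rw [Finset.mem_filter, mem_fib] at he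
  refine ⟨(p i, e.1, e.2), he.1, rfl, ?_, ?_⟩
  · have h8 := mem_T0' (hs.sub he.1)
    exact adm_of_pair W (e := lastE (p i, e.1, e.2))
      (mem_pairs.2 ⟨h8.2.1, h8.2.2.1, h8.2.2.2.2.1⟩)
  · exact he.2

lemma central_of_mem (hmu : 1 ≤ mu) (hbe : 1 ≤ be) (ha : a.Good)
    (hs : HSystem mu n2 n0 be Vp a K1 d1 d8 W H) {z : Walk} (hz : z ∈ H) {l : ℕ} (hl : l ≤ n0) :
    Central P k (bb P.card (lev mu n0 be l)) (esl (lastE z)) z.1 := by
  refine (hs.t2 z hz).mono ?_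
  have h1 : bb P.card (lev mu n0 be (n0 + 1)) ≤ bb P.card (lev mu n0 be l) :=
    bb_anti (lev_pos hmu hl) ((lev_mono hmu hl le_rfl).trans (lev_le_succ hbe))
  refine le_trans ?_ h1
  apply Nat.floor_le_of_le
  have h2 : (0 : ℝ) ≤ (bb P.card (lev mu n0 be (n0 + 1)) : ℝ) := by positivity
  have := ha.kap_le
  nlinarith

/-- `p i` is active at every level `l ≤ n0` in the window of `slope (p_i v)` -/
lemma act_p (hP : 1 ≤ P.card) (hVp : 1 ≤ Vp) (hmu : 1 ≤ mu) (hbe : 1 ≤ be) (he1 : 0 < e1)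
    (ha : a.Good) (hs : HSystem mu n2 n0 be Vp a K1 d1 d8 W H)
    (hf : FinalCfg mu n0 be Vp a K1 e1 c5 W H p R) {v : Pt} (hv : v ∈ R) (i : Fin 3) {l : ℕ}
    (hl : l ≤ n0) : p i ∈ W.A l (W.J l (sl (p i) v)) := by
  obtain ⟨z, hz, h1, h2, h3⟩ := exists_walk hP hVp hmu he1 hs hf hv i
  have h4 := central_of_mem hmu hbe ha hs hz hl
  rw [h1] at h4
  have h5 : W.J l (esl (lastE z)) = W.J l (sl (p i) v) :=
    J_eq_of_fine hl (by omega) h2 (adm_v hf hv i) h3
  obtain ⟨b1, b2, b3⟩ := J_spec (l := l) (by omega) h2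
  rw [h5] at b2 b3
  exact mem_cen.2 ⟨hf.memP i, esl (lastE z), b2, b3, h4⟩

lemma not_T6_p (hP : 1 ≤ P.card) (hVp : 1 ≤ Vp) (hmu : 1 ≤ mu) (he1 : 0 < e1)
    (hs : HSystem mu n2 n0 be Vp a K1 d1 d8 W H)
    (hf : FinalCfg mu n0 be Vp a K1 e1 c5 W H p R) {v : Pt} (hv : v ∈ R) (i : Fin 3) :
    ¬ W.T6 a.lam3 n0 (p i) := by
  obtain ⟨z, hz, h1, -, -⟩ := exists_walk hP hVp hmu he1 hs hf hv i
  have := hs.t6 z hz
  rwa [h1] at this

/-- number of labels -/
lemma labels_le (hP : 1 ≤ P.card) (hVp : 1 ≤ Vp) (hmu : 1 ≤ mu) (hbe : 1 ≤ be) (he1 : 0 < e1)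
    (ha : a.Good) (hs : HSystem mu n2 n0 be Vp a K1 d1 d8 W H)
    (hf : FinalCfg mu n0 be Vp a K1 e1 c5 W H p R) (i : Fin 3) {l : ℕ} (hl : l ≤ n0)
    (h6 : ¬ W.T6 a.lam3 l (p i)) {R' : Finset Pt} (hR' : R' ⊆ R) :
    (#(R'.image (fun v => lab (W.cuts l) (sl (p i) v))) : ℝ) ≤ a.lam3 * lev mu n0 be l := by
  have h1 := card_lab_le (W := W) (l := l) (by omega) R' (fun v => sl (p i) v) (p i)
    (fun v hv => adm_v hf (hR' hv) i)
    (fun v hv => act_p hP hVp hmu hbe he1 ha hs hf (hR' hv) i hl)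
  unfold WSys.T6 at h6
  rw [not_lt] at h6
  refine le_trans ?_ h6
  exact_mod_cast h1

/-- fibres at the finest level -/
lemma fibre_le (hf : FinalCfg mu n0 be Vp a K1 e1 c5 W H p R) (hmu : 1 ≤ mu) (i : Fin 3) (x : ℕ)
    {R' : Finset Pt} (hR' : R' ⊆ R) :
    (#(R'.filter (fun v => lab (W.cuts n0) (sl (p i) v) = x)) : ℝ) * lev mu n0 be n0 ≤
      7 * (P.card / (lev mu n0 be n0 : ℝ) ^ 2) := by
  have hV : (0 : ℝ) < (lev mu n0 be n0 : ℝ) := by
    exact_mod_cast lev_pos (be := be) hmu (le_refl n0)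
  have key : #(R'.filter (fun v => lab (W.cuts n0) (sl (p i) v) = x)) ≤
      7 * bb P.card (lev mu n0 be n0) := by
    rcases (R'.filter (fun v => lab (W.cuts n0) (sl (p i) v) = x)).eq_empty_or_nonempty with h | h
    · rw [h]; simp
    · obtain ⟨v0, hv0⟩ := h
      rw [Finset.mem_filter] at hv0
      have hJ := (J_spec (W := W) (l := n0) (by omega) (adm_v hf (hR' hv0.1) i)).1
      refine le_trans (Finset.card_le_card ?_) (W.cen_le n0 (by omega) _ hJ)
      intro v hv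
      rw [Finset.mem_filter] at hv
      have h1 := (lab_eq_iff (W := W) (l := n0) (by omega) (adm_v hf (hR' hv.1) i)
        (adm_v hf (hR' hv0.1) i)).1 (hv.2.trans hv0.2.symm)
      have h2 := hf.actv v (hR' hv.1) i
      rw [h1] at h2
      exact h2
  have h1 : (#(R'.filter (fun v => lab (W.cuts n0) (sl (p i) v) = x)) : ℝ) ≤
      7 * (P.card / (lev mu n0 be n0 : ℝ) ^ 3) := by
    have h2 := bb_le P.card (lev mu n0 be n0)
    have h3 : (#(R'.filter (fun v => lab (W.cuts n0) (sl (p i) v) = x)) : ℝ) ≤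
        7 * (bb P.card (lev mu n0 be n0) : ℝ) := by exact_mod_cast key
    linarith
  calc (#(R'.filter (fun v => lab (W.cuts n0) (sl (p i) v) = x)) : ℝ) * lev mu n0 be n0
      ≤ 7 * (P.card / (lev mu n0 be n0 : ℝ) ^ 3) * lev mu n0 be n0 :=
        mul_le_mul_of_nonneg_right h1 hV.le
    _ = 7 * (P.card / (lev mu n0 be n0 : ℝ) ^ 2) := by field_simp

/-- fibres of pairs of labels -/
lemma fibre2_le (hf : FinalCfg mu n0 be Vp a K1 e1 c5 W H p R) (hmu : 1 ≤ mu) (hK : 0 < K1)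
    {i j : Fin 3} (hij : i ≠ j) (x y : ℕ) {R' : Finset Pt} (hR' : R' ⊆ R) :
    (#(R'.filter (fun v => lab (W.cuts n0) (sl (p i) v) = x ∧
      lab (W.cuts n0) (sl (p j) v) = y)) : ℝ) * (lev mu n0 be n0 : ℝ) ^ 2 ≤
      K1 * (P.card / (lev mu n0 be n0 : ℝ) ^ 2) := by
  have hV : (0 : ℝ) < (lev mu n0 be n0 : ℝ) := by
    exact_mod_cast lev_pos (be := be) hmu (le_refl n0)
  have key : (#(R'.filter (fun v => lab (W.cuts n0) (sl (p i) v) = x ∧
      lab (W.cuts n0) (sl (p j) v) = y)) : ℝ) ≤ K1 * P.card / (lev mu n0 be n0 : ℝ) ^ 4 := by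
    rcases (R'.filter (fun v => lab (W.cuts n0) (sl (p i) v) = x ∧
      lab (W.cuts n0) (sl (p j) v) = y)).eq_empty_or_nonempty with h | h
    · rw [h]
      simp only [Finset.card_empty, Nat.cast_zero]
      positivity
    · obtain ⟨v0, hv0⟩ := h
      rw [Finset.mem_filter] at hv0
      refine le_trans ?_ (hf.nk v0 (hR' hv0.1) i j hij).2
      rw [Nat.cast_le]
      apply Finset.card_le_card
      intro v hv
      rw [Finset.mem_filter] at hv
      have h1 := (lab_eq_iff (W := W) (l := n0) (by omega) (adm_v hf (hR' hv.1) i)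
        (adm_v hf (hR' hv0.1) i)).1 (hv.2.1.trans hv0.2.1.symm)
      have h2 := (lab_eq_iff (W := W) (l := n0) (by omega) (adm_v hf (hR' hv.1) j)
        (adm_v hf (hR' hv0.1) j)).1 (hv.2.2.trans hv0.2.2.symm)
      have h3 := hf.actv v (hR' hv.1) i
      have h4 := hf.actv v (hR' hv.1) j
      rw [h1] at h3
      rw [h2] at h4
      unfold WSys.cc
      rw [Finset.mem_filter]
      exact ⟨hf.sub (hR' hv.1), h3, h4, hf.t6 v (hR' hv.1)⟩
  calc (#(R'.filter (fun v => lab (W.cuts n0) (sl (p i) v) = x ∧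
        lab (W.cuts n0) (sl (p j) v) = y)) : ℝ) * (lev mu n0 be n0 : ℝ) ^ 2
      ≤ K1 * P.card / (lev mu n0 be n0 : ℝ) ^ 4 * (lev mu n0 be n0 : ℝ) ^ 2 :=
        mul_le_mul_of_nonneg_right key (by positivity)
    _ = K1 * (P.card / (lev mu n0 be n0 : ℝ) ^ 2) := by field_simp

/-- fibres at a coarser level `l` without `(t7)_l` -/
lemma fibre_coarse_le (hP : 1 ≤ P.card) (hVp : 1 ≤ Vp) (hmu : 1 ≤ mu) (hbe : 1 ≤ be)
    (he1 : 0 < e1) (ha : a.Good) (hs : HSystem mu n2 n0 be Vp a K1 d1 d8 W H)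
    (hf : FinalCfg mu n0 be Vp a K1 e1 c5 W H p R) (i : Fin 3) {l : ℕ} (hl : l ≤ n0) {v0 : Pt}
    (hv0 : v0 ∈ R) (h7 : ¬ W.T7 a.lam3 n0 l (p i) (sl (p i) v0)) {R' : Finset Pt} (hR' : R' ⊆ R) :
    (#(R'.filter (fun u => lab (W.cuts l) (sl (p i) u) = lab (W.cuts l) (sl (p i) v0))) : ℝ) *
      lev mu n0 be l ≤ 7 * a.lam3 * (P.card / (lev mu n0 be n0 : ℝ) ^ 2) := by
  have hV : (0 : ℝ) < (lev mu n0 be n0 : ℝ) := by
    exact_mod_cast lev_pos (be := be) hmu (le_refl n0)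
  have hVl : (0 : ℝ) < (lev mu n0 be l : ℝ) := by
    exact_mod_cast lev_pos (be := be) hmu hl
  have hlam : 0 < a.lam3 := by linarith [ha.lam3]
  set I := W.J l (sl (p i) v0) with hI
  have hsub : R'.filter (fun u => lab (W.cuts l) (sl (p i) u) = lab (W.cuts l) (sl (p i) v0)) ⊆
      (W.actIn n0 I (p i)).biUnion (fun K => W.A n0 K) := by
    intro u hu
    rw [Finset.mem_filter] at hu
    have hau := adm_v hf (hR' hu.1) i
    have h1 := (lab_eq_iff (W := W) (l := l) (by omega) hau (adm_v hf hv0 i)).1 hu.2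
    rw [Finset.mem_biUnion]
    refine ⟨W.J n0 (sl (p i) u), ?_, hf.actv u (hR' hu.1) i⟩
    unfold WSys.actIn WSys.act
    rw [Finset.mem_filter, Finset.mem_filter]
    refine ⟨⟨(J_spec (W := W) (l := n0) (by omega) hau).1,
      act_p hP hVp hmu hbe he1 ha hs hf (hR' hu.1) i le_rfl⟩, ?_⟩
    have h2 := J_nest (W := W) hl (by omega) hau
    rw [h1] at h2
    exact h2
  have h1 : #(R'.filter (fun u => lab (W.cuts l) (sl (p i) u) = lab (W.cuts l) (sl (p i) v0))) ≤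
      #(W.actIn n0 I (p i)) * (7 * bb P.card (lev mu n0 be n0)) := by
    refine (Finset.card_le_card hsub).trans (Finset.card_biUnion_le_card_mul _ _ _ ?_)
    intro K hK
    unfold WSys.actIn WSys.act at hK
    rw [Finset.mem_filter, Finset.mem_filter] at hK
    exact W.cen_le n0 (by omega) K hK.1.1
  unfold WSys.T7 at h7
  rw [not_lt] at h7
  have h2 : (#(R'.filter (fun u => lab (W.cuts l) (sl (p i) u) =
      lab (W.cuts l) (sl (p i) v0))) : ℝ) ≤
      (a.lam3 * ((lev mu n0 be n0 : ℝ) / (lev mu n0 be l : ℝ))) *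
        (7 * (P.card / (lev mu n0 be n0 : ℝ) ^ 3)) := by
    have h3 : (#(R'.filter (fun u => lab (W.cuts l) (sl (p i) u) =
      lab (W.cuts l) (sl (p i) v0))) : ℝ) ≤
        (#(W.actIn n0 I (p i)) : ℝ) * (7 * (bb P.card (lev mu n0 be n0) : ℝ)) := by
      exact_mod_cast h1
    refine h3.trans ?_
    have h4 := bb_le P.card (lev mu n0 be n0)
    apply mul_le_mul h7 (by linarith) (by positivity) (by positivity)
  calc (#(R'.filter (fun u => lab (W.cuts l) (sl (p i) u) =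
        lab (W.cuts l) (sl (p i) v0))) : ℝ) * lev mu n0 be l
      ≤ (a.lam3 * ((lev mu n0 be n0 : ℝ) / (lev mu n0 be l : ℝ))) *
        (7 * (P.card / (lev mu n0 be n0 : ℝ) ^ 3)) * lev mu n0 be l :=
        mul_le_mul_of_nonneg_right h2 hVl.le
    _ = 7 * a.lam3 * (P.card / (lev mu n0 be n0 : ℝ) ^ 2) := by field_simp

/-- a good level gives a side block -/
lemma sideBlock_of_good (hf : FinalCfg mu n0 be Vp a K1 e1 c5 W H p R) {v : Pt} (hv : v ∈ R)
    {x y : ℝ} (hns : NonSpec W x y (sl (p 0) v)) {j : ℕ} (hj : 2 ≤ j) (hj' : j ≤ n0)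
    (hg : GoodLev W mu n0 a.lam3 x y (p 0) (sl (p 0) v) j) :
    SideBlock (W.cuts j) (W.cuts (j - 1)) x y ((mu : ℝ) ^ 11) (sl (p 0) v) := by
  have hadm := adm_v hf hv 0
  obtain ⟨l, r, hb⟩ := hg.blocks
  have hnd := hg.ndom
  have hnd' : ¬ (wtab x y l (W.J j (sl (p 0) v)).1 <
      (mu : ℝ) ^ 11 * wtab x y (W.J j (sl (p 0) v)).1 (W.J j (sl (p 0) v)).2 ∧
      wtab x y (W.J j (sl (p 0) v)).2 r <
        (mu : ℝ) ^ 11 * wtab x y (W.J j (sl (p 0) v)).1 (W.J j (sl (p 0) v)).2) :=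
    fun h => hnd ⟨l, r, hb, h.1, h.2⟩
  obtain ⟨b1, b2, b3, b4, b5, b6, -, -⟩ := hb
  obtain ⟨j1, j2, j3⟩ := J_spec (W := W) (l := j) (by omega) hadm
  obtain ⟨i1, i2, i3⟩ := J_spec (W := W) (l := j - 1) (by omega) hadm
  obtain ⟨m1, m2⟩ := J_nest (W := W) (l := j - 1) (l' := j) (by omega) (by omega) hadm
  obtain ⟨q1, q2⟩ := J_nest (W := W) (l := 1) (l' := j - 1) (by omega) (by omega) hadm
  rw [mem_wins] at j1 i1
  refine ⟨(W.J (j - 1) (sl (p 0) v)).1, (W.J (j - 1) (sl (p 0) v)).2,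
    (W.J j (sl (p 0) v)).1, (W.J j (sl (p 0) v)).2, m1, j2, j3, m2, j1.1, j1.2.1,
    i1.2.2.2, ?_, ?_, ?_⟩
  · rintro ⟨h1, h2⟩
    exact hns x (by simp [spec]) ⟨q1.trans h1, h2.trans q2⟩
  · rintro ⟨h1, h2⟩
    exact hns y (by simp [spec]) ⟨q1.trans h1, h2.trans q2⟩
  · rw [not_and_or, not_lt, not_lt] at hnd'
    unfold wtab at hnd'
    rcases hnd' with h | h
    · right
      exact ⟨l, b5, b3.le, h⟩
    · left
      exact ⟨r, b4.le, b6, h⟩

end cfg

end Crest.Agent.R51.NF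
end
end

-- ▼ part R51/NoFinalOf

/-!
# Row 51, section B8: `NoFinal` from 7.5 (`GoodHalf`) and the additive theorem (`ADDProp`)
(helper417)
-/

set_option autoImplicit false

noncomputable section

open Classical Finset

namespace Crest.Agent.R51

/-- **the contradiction** : 7.5 + ADD exclude the final configuration -/
theorem noFinal_of (hG : GoodHalf) (hADD : ADDProp) : NoFinal := by
  intro a ha K1 hK1 be hbe e1 he1 c5 hc5
  obtain ⟨d8, hd8, mu1, h1⟩ := hG a ha e1 he1 c5 hc5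
  have hlam : 1 ≤ a.lam3 := ha.lam3
  obtain ⟨mu2, h2⟩ := ceva_main hADD (7 * a.lam3 + K1 + 7) (c5 / 2) (1 / 200) (by linarith)
    (by norm_num)
  refine ⟨d8, hd8, max 2 (max mu1 mu2), fun mu hmu => ?_⟩
  have hmu1 : mu1 ≤ mu := by omega
  have hmu2 : mu2 ≤ mu := by omega
  have hmu0 : 1 ≤ mu := by omega
  obtain ⟨N1, N0, h3⟩ := h2 mu hmu2
  refine ⟨max 200 N1, fun n2 hn2 => ⟨max N0 (8 * n2), fun n0 hn0 => ⟨1, fun Vp hVp =>
    ⟨1, fun P hP hPc k W H d1 p R hs hf => ?_⟩⟩⟩⟩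
  obtain ⟨R', hR', hcard, hR'2⟩ := h1 mu hmu1 n2 n0 be Vp K1 d1 P k W H p R hP (by omega)
    (by omega) hVp hs hf
  have hV : (0 : ℝ) < (lev mu n0 be n0 : ℝ) := by
    exact_mod_cast NF.lev_pos (be := be) hmu0 (le_refl n0)
  have hPpos : (0 : ℝ) < (P.card : ℝ) := by exact_mod_cast hPc
  have hVeq : (lev mu n0 be n0 : ℝ) = ((mu : ℝ) ^ 10) ^ n0 := NF.lev_cast le_rfl
  have hDpos : 0 < (P.card : ℝ) / (lev mu n0 be n0 : ℝ) ^ 2 := by positivity
  set D : ℝ := (P.card : ℝ) / (lev mu n0 be n0 : ℝ) ^ 2 with hD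
  refine h3 (2 * n2) n0 (by omega) (by omega) (by omega) D p R' W.cuts
    (fun v => goodLevs W mu n2 n0 a.lam3 (sl (p 0) (p 1)) (sl (p 0) (p 2)) (p 0)
        (sl (p 0) v)) ?_
  have hC7 : (7 : ℝ) ≤ 7 * a.lam3 + K1 + 7 := by linarith
  have hCK : K1 ≤ 7 * a.lam3 + K1 + 7 := by linarith
  have hCl : 7 * a.lam3 ≤ 7 * a.lam3 + K1 + 7 := by linarith
  have hCl' : a.lam3 ≤ 7 * a.lam3 + K1 + 7 := by linarith
  have hpne : ∀ i j : Fin 3, i ≠ j → p i ≠ p j := fun i j hij h => hij (hf.inj h)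
  refine
    { D_pos := hDpos
      card := ?_
      xne := fun i j hij => hP.x_ne (hf.memP i) (hf.memP j) (hpne i j hij)
      xv := fun v hv i => (hf.left v (hR' hv) i).ne
      ab := ?_
      sv := ?_
      A1 := ?_
      A2 := ?_
      A3 := ?_
      G_sub := ?_
      block := ?_
      fibre := ?_
      labels := ?_ }
  · have e1 : (R.card : ℝ) ≤ 2 * (R'.card : ℝ) := by exact_mod_cast hcard
    have e2 := hf.big
    rw [← hD] at e2
    linarith
  · intro i
    have i1 : i ≠ i + 1 := by fin_cases i <;> decide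
    have i2 : i ≠ i + 2 := by fin_cases i <;> decide
    have i3 : i + 1 ≠ i + 2 := by fin_cases i <;> decide
    exact NF.sl_ne_of_ne hP (hf.memP _) (hf.memP _) (hf.memP _) (hpne _ _ i1) (hpne _ _ i2)
      (hpne _ _ i3)
  · intro v hv i j hij
    have hvi : p i ≠ v := fun h => by
      have := hf.left v (hR' hv) i
      rw [h] at this
      exact lt_irrefl _ this
    have hvj : v ≠ p j := fun h => by
      have := hf.left v (hR' hv) j
      rw [← h] at this
      exact lt_irrefl _ this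
    exact NF.sl_ne_of_ne hP (hf.memP _) (hf.sub (hR' hv)) (hf.memP _) hvi (hpne _ _ hij) hvj
  · intro i
    rcases R'.eq_empty_or_nonempty with h0 | ⟨v, hv⟩
    · rw [h0]
      simp only [Finset.image_empty, Finset.card_empty, Nat.cast_zero]
      positivity
    · have := NF.labels_le hPc hVp hmu0 (by omega) he1 ha hs hf i (le_refl n0)
        (NF.not_T6_p hPc hVp hmu0 he1 hs hf (hR' hv) i) hR'
      rw [hVeq] at this
      refine this.trans (mul_le_mul_of_nonneg_right hCl' (by positivity))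
  · intro i x
    have := NF.fibre_le hf hmu0 i x hR'
    rw [← hD] at this
    rw [← hVeq]
    exact this.trans (mul_le_mul_of_nonneg_right hC7 hDpos.le)
  · intro i j hij x y
    have := NF.fibre2_le hf hmu0 hK1 hij x y hR'
    rw [← hD] at this
    rw [← hVeq]
    exact this.trans (mul_le_mul_of_nonneg_right hCK hDpos.le)
  · intro v hv
    constructor
    · intro j hj
      unfold goodLevs at hj
      rw [Finset.mem_filter, Finset.mem_Ioc] at hj
      rw [Finset.mem_Icc]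
      omega
    · have := (hR'2 v hv).2
      have h5 : ((2 * n2 : ℕ) : ℝ) ≤ 200 * ((goodLevs W mu n2 n0 a.lam3 (sl (p 0) (p 1))
        (sl (p 0) (p 2)) (p 0) (sl (p 0) v)).card : ℝ) := by exact_mod_cast this
      linarith
  · intro v hv j hj
    unfold goodLevs at hj
    rw [Finset.mem_filter, Finset.mem_Ioc] at hj
    exact NF.sideBlock_of_good hf (hR' hv) (hR'2 v hv).1 (by omega) (by omega) hj.2
  · intro v hv j hj
    unfold goodLevs at hj
    rw [Finset.mem_filter, Finset.mem_Ioc] at hj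
    have := NF.fibre_coarse_le hPc hVp hmu0 (by omega) he1 ha hs hf 0 (l := j - 1) (by omega)
      (hR' hv) hj.2.nt7 hR'
    rw [← hD, NF.lev_cast (by omega)] at this
    exact this.trans (mul_le_mul_of_nonneg_right hCl hDpos.le)
  · intro v hv j hj
    unfold goodLevs at hj
    rw [Finset.mem_filter, Finset.mem_Ioc] at hj
    have := NF.labels_le hPc hVp hmu0 (by omega) he1 ha hs hf 0 (l := j) (by omega) hj.2.nt6 hR'
    rw [NF.lev_cast (by omega)] at this
    refine this.trans (mul_le_mul_of_nonneg_right hCl' (by positivity))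

end Crest.Agent.R51
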